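import Crest.Agent.R176.BridgeB

/-!
Row 176: from the rewriting system to the graded algebra.
-/

set_option autoImplicit false
set_option linter.unusedSectionVars false

namespace Crest.Agent.R176

namespace WordAlg

variable {A : Type} [Ring A] [Algebra (ZMod 2) A] {𝒜 : ℕ → Submodule (ZMod 2) A}
  [GradedAlgebra 𝒜] {X : Type} {S : Rew X} {g : X → A} (h : WordAlg 𝒜 X S g)
include h

theorem word_mem' (w : List X) : (w.map g).prod ∈ 𝒜 w.length := by
  induction w with
  | nil => exact SetLike.GradedOne.one_mem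
  | cons x w ih =>
    rw [List.map_cons, List.prod_cons, List.length_cons, add_comm]
    exact SetLike.GradedMul.mul_mem (h.deg x) ih

theorem ind_deg {p : A → Prop} (h0 : p 0) (hadd : ∀ a b, p a → p b → p (a + b)) {d : ℕ}
    (hw : ∀ w : List X, w.length = d → p (w.map g).prod) {a : A} (ha : a ∈ 𝒜 d) : p a := by
  have := h.span d a ha
  clear ha
  induction this using AddSubgroup.closure_induction with
  | mem x hx =>
    obtain ⟨w, h1, rfl⟩ := hx
    exact hw w h1
  | zero => exact h0
  | add x y _ _ hx hy => exact hadd x y hx hy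
  | neg x _ hx => rwa [neg_eq_of_add_eq_zero_right (BrA.add_self x)]

theorem ind_deep {p : A → Prop} (h0 : p 0) (hadd : ∀ a b, p a → p b → p (a + b)) {ℓ : ℕ}
    (hw : ∀ w : List X, ℓ ≤ w.length → p (w.map g).prod) {a : A} (ha : a ∈ deep 𝒜 ℓ) : p a := by
  classical
  rw [← DirectSum.sum_support_decompose 𝒜 a]
  refine Finset.sum_induction _ p hadd h0 fun d _ => ?_
  rcases lt_or_ge d ℓ with hd | hd
  · have := ha d hd
    rw [GradedRing.proj_apply] at this
    rwa [this]
  · exact h.ind_deg h0 hadd (fun w e => hw w (e ▸ hd)) (DirectSum.decompose 𝒜 a d).2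

theorem ne_zero_iff (w : List X) : (w.map g).prod ≠ 0 ↔ S.NZ w := by
  refine ⟨fun hw => ?_, fun ⟨f, hf, hw⟩ e => ?_⟩
  · obtain ⟨φ, hφ⟩ := not_forall.1 (mt (Module.forall_dual_apply_eq_zero_iff (ZMod 2) _).1 hw)
    exact ⟨fun u => φ (u.map g).prod, ⟨fun l a b r hs => congrArg φ (h.adm.step l a b r hs),
      fun l a r hz => (congrArg φ (h.adm.zero l a r hz)).trans (map_zero _)⟩, hφ⟩
  · obtain ⟨L, hL⟩ := h.lin (ZMod 2) f (fun _ => BrA.add_self _) hf
    exact hw (by rw [← hL, e, map_zero])

theorem infinite (hi : S.Inf) : Infinite A := by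
  choose w hw hn using hi
  refine Infinite.of_injective (fun d => ((w d).map g).prod) fun d d' e => ?_
  have h1 := h.word_mem' (w d)
  have h2 := h.word_mem' (w d')
  rw [hw] at h1 h2
  beta_reduce at e
  exact DirectSum.degree_eq_of_mem_mem 𝒜 h1 (e ▸ h2) ((h.ne_zero_iff _).2 (hn d))

theorem nil [Fintype X] (hn : S.Nil) {n : ℕ} (M : Matrix (Fin n) (Fin n) A)
    (hM : ∀ i j, M i j ∈ deep 𝒜 1) : IsNilpotent M := by
  refine BrB.nil_of_words hn h.adm M fun i j => h.ind_deep (p := fun a => a ∈ _) (zero_mem _)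
    (fun _ _ => add_mem) (fun w hw => Submodule.subset_span ?_) (hM i j)
  obtain ⟨x, u, rfl⟩ := List.exists_cons_of_length_pos hw
  exact ⟨(x, u), rfl⟩

theorem exists_aug [Fintype X] (hi : S.Inf) (hn : S.Nil) : ∃ E : Aug A, E.Graded 𝒜 ∧ E.Nil := by
  have := h.infinite hi
  have inj : Function.Injective (algebraMap (ZMod 2) A) := (algebraMap (ZMod 2) A).injective
  have h1 : ∀ a, ∃ c, algebraMap (ZMod 2) A c = GradedRing.projZeroRingHom 𝒜 a := fun a =>
    Submodule.mem_one.1 (h.zero ▸ (DirectSum.decompose 𝒜 a 0).2)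
  choose c hc using h1
  let ε : A →+* ZMod 2 :=
    { toFun := c
      map_one' := inj (by rw [hc, map_one, map_one])
      map_mul' := fun a b => inj (by rw [map_mul, hc, hc, hc, map_mul])
      map_zero' := inj (by rw [hc, map_zero, map_zero])
      map_add' := fun a b => inj (by rw [map_add, hc, hc, hc, map_add]) }
  have hg : ∀ a, ε a = 0 ↔ a ∈ deep 𝒜 1 := fun a => by
    rw [← map_eq_zero_iff _ inj, mem_deep]
    simp only [Nat.lt_one_iff, forall_eq]
    exact (hc a).congr_left
  refine ⟨⟨ε, fun a ha => ?_⟩, hg, fun n M hM => h.nil hn M fun i j => (hg _).1 (hM i j)⟩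
  obtain ⟨k, hk⟩ := h.nil hn (Matrix.scalar (Fin 1) (a - 1)) fun i j => by
    rw [Subsingleton.elim i j, Matrix.scalar_apply, Matrix.diagonal_apply_eq, ← hg, map_sub, ha,
      map_one, sub_self]
  rw [← map_pow, ← map_zero (Matrix.scalar (Fin 1)), Matrix.scalar_inj] at hk
  simpa using IsNilpotent.isUnit_add_one ⟨k, hk⟩

theorem exists_phase {q : ℕ} [NeZero q] (hp : S.Ph q) : ∃ ℓ, Nonempty (Phase 𝒜 q ℓ) := by
  classical
  obtain ⟨ℓ, α, h1, h2, h3⟩ := hp
  have hr : ∀ u w : List X, ℓ ≤ w.length → ((w ++ u).map g).prod ≠ 0 → α (w ++ u) = α w := by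
    intro u
    induction u with
    | nil => intro w _ _; rw [List.append_nil]
    | cons x u ih =>
      intro w hw hne
      rw [List.append_cons] at hne ⊢
      rw [ih _ (by simp; omega) hne, h3 x w hw ((h.ne_zero_iff _).1 fun e => hne ?_)]
      rw [List.map_append, List.prod_append, e, zero_mul]
  have hl : ∀ u w : List X, ℓ ≤ w.length → ((u ++ w).map g).prod ≠ 0 →
      α w = α (u ++ w) + u.length := by
    intro u w hw
    induction u with
    | nil => intro _; simp
    | cons x u ih =>
      intro hne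
      rw [ih fun e => hne (by rw [List.cons_append, List.map_cons, List.prod_cons, e, mul_zero]),
        h2 x (u ++ w) (by simp; omega) ((h.ne_zero_iff _).1 hne), List.cons_append, List.length_cons]
      push_cast
      ring
  choose e he using fun c : ZMod q => h.lin A
    (fun w => if ℓ ≤ w.length ∧ α w = c then (w.map g).prod else 0) (fun _ => BrA.add_self _)
    ⟨fun l a b r hs => by
      have e1 := h.adm.step l a b r hs
      have e2 : (l ++ a ++ r).length = (l ++ b ++ r).length := by simp [(h.short.step a b hs).1]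
      beta_reduce at e1 ⊢
      rw [← e1, ← e2]
      by_cases hz : ((l ++ a ++ r).map g).prod = 0
      · simp only [hz, ite_self]
      · exact if_congr (and_congr_right fun hl => by
          rw [h1 l a b r hs hl ((h.ne_zero_iff _).1 hz)]) rfl rfl,
    fun l a r hz => by
      have e1 := h.adm.zero l a r hz
      beta_reduce at e1 ⊢
      rw [e1, ite_self]⟩
  have he' : ∀ c (w : List X), ℓ ≤ w.length →
      e c (w.map g).prod = if α w = c then (w.map g).prod else 0 := fun c w hw => by
    simp only [he, hw, true_and]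
  refine ⟨ℓ, ⟨e, fun a ha => ?_, fun a ha c c' => ?_, fun c d a ha => ?_, fun a ha b c => ?_,
    fun a ha d b hb c => ?_⟩⟩
  · refine h.ind_deep (p := fun a => ∑ c, e c a = a) (by simp) (fun a b ha hb => ?_)
      (fun w hw => by simp [he' _ w hw]) ha
    simp only [map_add, Finset.sum_add_distrib, ha, hb]
  · refine h.ind_deep (p := fun a => e c (e c' a) = if c = c' then e c a else 0) (by simp)
      (fun a b ha hb => ?_) (fun w hw => ?_) ha
    · simp only [map_add, ha, hb]
      split_ifs <;> simp
    · rw [he' c' w hw]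
      split_ifs with a1 a2 a2
      · rfl
      · rw [he' c w hw, if_neg fun a3 => a2 (a3.symm.trans a1)]
      · rw [he' c w hw, if_neg (a2 ▸ a1), map_zero]
      · exact map_zero _
  · refine h.ind_deg (p := fun a => e c a ∈ 𝒜 d) (by simp) (fun a b ha hb => ?_)
      (fun w hw => ?_) ha
    · rw [map_add]; exact add_mem ha hb
    · rw [he]
      split_ifs
      · exact hw ▸ h.word_mem' w
      · exact zero_mem _
  · refine h.ind_deep (p := fun a => e c (a * b) = e c a * b) (by simp) (fun a a' ha hb => ?_)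
      (fun w hw => ?_) ha
    · simp only [map_add, add_mul, ha, hb]
    refine h.ind_deep (ℓ := 0) (p := fun b => e c (_ * b) = e c _ * b) (by simp)
      (fun a a' ha hb => ?_) (fun u _ => ?_) fun d hd => absurd hd (Nat.not_lt_zero _)
    · simp only [map_add, mul_add, ha, hb]
    rw [he' c w hw, ite_mul, zero_mul, ← List.prod_append, ← List.map_append,
      he' c _ (by simp; omega)]
    by_cases hz : ((w ++ u).map g).prod = 0
    · simp only [hz, ite_self]
    · rw [hr u w hw hz]
  · refine h.ind_deep (p := fun a => e c (b * a) = b * e (c + d) a) (by simp)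
      (fun a a' ha hb => ?_) (fun w hw => ?_) ha
    · simp only [map_add, mul_add, ha, hb]
    refine h.ind_deg (p := fun b => e c (b * _) = b * e (c + d) _) (by simp)
      (fun a a' ha hb => ?_) (fun u hu => ?_) hb
    · simp only [map_add, add_mul, ha, hb]
    rw [he' _ w hw, mul_ite, mul_zero, ← List.prod_append, ← List.map_append,
      he' c _ (by simp; omega)]
    by_cases hz : ((u ++ w).map g).prod = 0
    · simp only [hz, ite_self]
    · simp only [hl u w hw hz, hu, add_left_inj]

end WordAlg

theorem bridgeStmt : BridgeStmt := by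
  rintro ⟨X, i0, S, hs, hi, hn, hp⟩
  obtain ⟨A, i1, i2, 𝒜, i3, g, h, hf⟩ := BrA.exists_alg hs
  obtain ⟨E, hg, hE⟩ := h.exists_aug hi hn
  refine ⟨⟨A, i1, i2, 𝒜, i3, X, i0, S, g, E, h, h.infinite hi, hg, hE, fun s =>
    ⟨h.exists_phase (hp s).1, h.exists_phase (hp s).2⟩⟩,
    A, i1, i2, 𝒜, i3, h.infinite hi, h.zero, hf, fun l M hM => h.nil hn M fun i j d hd => ?_⟩
  rw [Nat.lt_one_iff.1 hd]
  exact hM i j

end Crest.Agent.R176
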