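import Crest.Agent.R176.GDefs

/-!
Row 176: the algebra presented by a short rewriting system.
-/

set_option autoImplicit false

namespace Crest.Agent.R176

namespace BrA

theorem zmod2 (r : ZMod 2) : r = 0 ∨ r = 1 := by revert r; decide

theorem mem_closure {A : Type} [AddCommGroup A] [Module (ZMod 2) A] {s : Set A} {a : A}
    (h : a ∈ Submodule.span (ZMod 2) s) : a ∈ AddSubgroup.closure s := by
  induction h using Submodule.span_induction with
  | mem x hx => exact AddSubgroup.subset_closure hx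
  | zero => exact zero_mem _
  | add x y _ _ hx hy => exact add_mem hx hy
  | smul r x _ hx =>
    rcases zmod2 r with rfl | rfl
    · rw [zero_smul]; exact zero_mem _
    · rwa [one_smul]

theorem add_self {A : Type} [AddCommGroup A] [Module (ZMod 2) A] (a : A) : a + a = 0 := by
  rw [← two_smul (ZMod 2), show (2 : ZMod 2) = 0 from rfl, zero_smul]

variable {X : Type} (S : Rew X) {m : ℕ} (e : X ≃ Fin m)

/-- A word in the free algebra. -/
def wd (w : List X) : FreeAlgebra (ZMod 2) (Fin m) :=
  (w.map fun x => FreeAlgebra.ι (ZMod 2) (e x)).prod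

/-- The relations. -/
def relS : Set (FreeAlgebra (ZMod 2) (Fin m) × FreeAlgebra (ZMod 2) (Fin m)) :=
  {p | (∃ a b, S.step a b ∧ p = (wd e a, wd e b)) ∨ ∃ a, S.zero a ∧ p = (wd e a, 0)}

theorem finite_relS [Finite X] (h : S.Short) : (relS S e).Finite := by
  have h2 := List.finite_length_le X 2
  refine (((h2.prod h2).image fun p => (wd e p.1, wd e p.2)).union
    (h2.image fun a => (wd e a, 0))).subset ?_
  rintro p (⟨a, b, hs, rfl⟩ | ⟨a, hz, rfl⟩)
  · have := h.step a b hs
    exact Or.inl ⟨(a, b), ⟨this.2.2, this.1.ge.trans this.2.2⟩, rfl⟩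
  · exact Or.inr ⟨a, (h.zero a hz).2, rfl⟩

variable (r : FreeAlgebra (ZMod 2) (Fin m) → FreeAlgebra (ZMod 2) (Fin m) → Prop)

/-- The generators of the quotient. -/
def gen (x : X) : RingQuot r := RingQuot.mkAlgHom (ZMod 2) r (FreeAlgebra.ι (ZMod 2) (e x))

theorem word_eq (w : List X) : (w.map (gen e r)).prod = RingQuot.mkAlgHom (ZMod 2) r (wd e w) := by
  rw [wd, map_list_prod, List.map_map]
  rfl

/-- The admissible functions. -/
def admM (Z : Type) [AddCommGroup Z] [Module (ZMod 2) Z] : Submodule (ZMod 2) (List X → Z) where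
  carrier := {f | S.Adm f}
  add_mem' hf hg := ⟨fun l a b r h => by
      simp only [Pi.add_apply, Rew.Adm.step hf l a b r h, Rew.Adm.step hg l a b r h],
    fun l a r h => by simp only [Pi.add_apply, hf.zero l a r h, hg.zero l a r h, add_zero]⟩
  zero_mem' := ⟨fun _ _ _ _ _ => rfl, fun _ _ _ _ => rfl⟩
  smul_mem' c _ hf := ⟨fun l a b r h => by simp only [Pi.smul_apply, Rew.Adm.step hf l a b r h],
    fun l a r h => by simp only [Pi.smul_apply, hf.zero l a r h, smul_zero]⟩

/-- The shift. -/
def shift (Z : Type) [AddCommGroup Z] [Module (ZMod 2) Z] (x : X) :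
    Module.End (ZMod 2) (admM S Z) where
  toFun f := ⟨fun u => f.1 (u ++ [x]),
    ⟨fun l a b r h => by simpa only [List.append_assoc] using Rew.Adm.step f.2 l a b (r ++ [x]) h,
      fun l a r h => by simpa only [List.append_assoc] using f.2.zero l a (r ++ [x]) h⟩⟩
  map_add' _ _ := rfl
  map_smul' _ _ := rfl

theorem lift_wd (Z : Type) [AddCommGroup Z] [Module (ZMod 2) Z] (w : List X) (f : admM S Z)
    (u : List X) : (FreeAlgebra.lift (ZMod 2) (fun j => shift S Z (e.symm j)) (wd e w) f).1 u =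
      f.1 (u ++ w) := by
  induction w generalizing u with
  | nil => simp [wd]
  | cons x w ih =>
    rw [wd, List.map_cons, List.prod_cons, map_mul, FreeAlgebra.lift_ι_apply, Equiv.symm_apply_apply,
      Module.End.mul_apply]
    exact (ih (u ++ [x])).trans (by rw [List.append_assoc, List.singleton_append])

variable {S e r} (hr : ∀ x y, r x y ↔ (x, y) ∈ relS S e)
include hr

theorem lin_mod (Z : Type) [AddCommGroup Z] [Module (ZMod 2) Z] (f : List X → Z) (hf : S.Adm f) :
    ∃ L : RingQuot r →+ Z, ∀ w, L (w.map (gen e r)).prod = f w := by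
  let ρ : RingQuot r →ₐ[ZMod 2] Module.End (ZMod 2) (admM S Z) := RingQuot.liftAlgHom (ZMod 2)
    ⟨FreeAlgebra.lift (ZMod 2) fun j => shift S Z (e.symm j), fun x y h => by
      rcases (hr x y).1 h with ⟨a, b, hs, h⟩ | ⟨a, hz, h⟩ <;> obtain ⟨rfl, rfl⟩ := Prod.mk.inj h
      · ext f u
        simpa only [lift_wd, List.append_nil] using Rew.Adm.step f.2 u a b [] hs
      · ext f u
        rw [lift_wd, map_zero]
        exact (congrArg f.1 (List.append_nil _).symm).trans (f.2.zero u a [] hz)⟩
  refine ⟨AddMonoidHom.mk' (fun a => (ρ a ⟨f, hf⟩).1 []) fun a b => by rw [map_add]; rfl,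
    fun w => ?_⟩
  rw [word_eq, AddMonoidHom.mk'_apply, RingQuot.liftAlgHom_mkAlgHom_apply]
  exact lift_wd S e Z w _ []

theorem lin (Z : Type) [AddCommGroup Z] (f : List X → Z) (h2 : ∀ w, f w + f w = 0)
    (hf : S.Adm f) : ∃ L : RingQuot r →+ Z, ∀ w, L (w.map (gen e r)).prod = f w := by
  let Z' : AddSubgroup Z := (nsmulAddMonoidHom 2).ker
  let _ : Module (ZMod 2) Z' := AddCommGroup.zmodModule fun z => Subtype.ext z.2
  obtain ⟨L, hL⟩ := lin_mod hr Z' (fun w => ⟨f w, (two_nsmul _).trans (h2 w)⟩)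
    ⟨fun l a b r h => Subtype.ext (hf.step l a b r h), fun l a r h => Subtype.ext (hf.zero l a r h)⟩
  exact ⟨Z'.subtype.comp L, fun w => congrArg Subtype.val (hL w)⟩

theorem adm : S.Adm fun w => (w.map (gen e r)).prod := by
  refine ⟨fun l a b t h => ?_, fun l a t h => ?_⟩
  · simp only [List.map_append, List.prod_append, word_eq e r a, word_eq e r b]
    rw [RingQuot.mkAlgHom_rel _ ((hr _ _).2 (Or.inl ⟨a, b, h, rfl⟩))]
  · simp only [List.map_append, List.prod_append, word_eq e r a]
    rw [RingQuot.mkAlgHom_rel _ ((hr _ _).2 (Or.inr ⟨a, h, rfl⟩)), map_zero, mul_zero, zero_mul]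

omit hr

theorem mul_mem_all {A : Type} [Ring A] (g : X → A) {a b : A}
    (ha : a ∈ AddSubgroup.closure (Set.range fun w : List X => (w.map g).prod))
    (hb : b ∈ AddSubgroup.closure (Set.range fun w : List X => (w.map g).prod)) :
    a * b ∈ AddSubgroup.closure (Set.range fun w : List X => (w.map g).prod) := by
  induction ha, hb using AddSubgroup.closure_induction₂ with
  | mem x y hx hy =>
    obtain ⟨v, rfl⟩ := hx
    obtain ⟨w, rfl⟩ := hy
    exact AddSubgroup.subset_closure ⟨v ++ w, by simp⟩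
  | zero_left => rw [zero_mul]; exact zero_mem _
  | zero_right => rw [mul_zero]; exact zero_mem _
  | add_left _ _ _ _ _ _ h1 h2 => rw [add_mul]; exact add_mem h1 h2
  | add_right _ _ _ _ _ _ h1 h2 => rw [mul_add]; exact add_mem h1 h2
  | neg_left _ _ _ _ h => rw [neg_mul]; exact neg_mem h
  | neg_right _ _ _ _ h => rw [mul_neg]; exact neg_mem h

variable (e r) in
theorem mem_all (a : RingQuot r) :
    a ∈ AddSubgroup.closure (Set.range fun w : List X => (w.map (gen e r)).prod) := by
  obtain ⟨x, rfl⟩ := RingQuot.mkAlgHom_surjective (ZMod 2) r a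
  induction x using FreeAlgebra.induction with
  | grade0 c =>
    rcases zmod2 c with rfl | rfl
    · rw [map_zero, map_zero]; exact zero_mem _
    · rw [map_one, map_one]; exact AddSubgroup.subset_closure ⟨[], rfl⟩
  | grade1 j => exact AddSubgroup.subset_closure ⟨[e.symm j], by simp [gen]⟩
  | mul a b ha hb => rw [map_mul]; exact mul_mem_all _ ha hb
  | add a b ha hb => rw [map_add]; exact add_mem ha hb

section abstract

variable {A : Type} [Ring A] [Algebra (ZMod 2) A] (g : X → A)

/-- The grading. -/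
def gr (d : ℕ) : Submodule (ZMod 2) A :=
  Submodule.span _ {b | ∃ w : List X, w.length = d ∧ b = (w.map g).prod}

theorem word_mem (w : List X) : (w.map g).prod ∈ gr g w.length :=
  Submodule.subset_span ⟨w, rfl, rfl⟩

instance : SetLike.GradedMonoid (gr g) where
  one_mem := word_mem g []
  mul_mem i j a b ha hb := by
    have := Submodule.mul_mem_mul ha hb
    rw [gr, gr, Submodule.span_mul_span] at this
    refine Submodule.span_mono ?_ this
    rintro _ ⟨_, ⟨v, rfl, rfl⟩, _, ⟨w, rfl, rfl⟩, rfl⟩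
    exact ⟨v ++ w, List.length_append, by simp⟩

variable {g}

theorem of_congr {i j : ℕ} (h : i = j) {a b : A} (hab : a = b) (ha : a ∈ gr g i)
    (hb : b ∈ gr g j) : DirectSum.of (fun d => gr g d) i ⟨a, ha⟩ =
      DirectSum.of (fun d => gr g d) j ⟨b, hb⟩ := by
  subst h hab; rfl

theorem exists_wordAlg (h : S.Short) (hadm : S.Adm fun w => (w.map g).prod)
    (hlin : ∀ (Z : Type) [AddCommGroup Z] (f : List X → Z), (∀ w, f w + f w = 0) → S.Adm f →
      ∃ L : A →+ Z, ∀ w, L (w.map g).prod = f w)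
    (hall : ∀ a, a ∈ AddSubgroup.closure (Set.range fun w : List X => (w.map g).prod)) :
    ∃ (𝒜 : ℕ → Submodule (ZMod 2) A) (_ : GradedAlgebra 𝒜), WordAlg 𝒜 X S g := by
  obtain ⟨L, hL⟩ := hlin (DirectSum ℕ fun d => gr g d)
    (fun w => DirectSum.of (fun d => gr g d) w.length ⟨_, word_mem g w⟩)
    (fun _ => add_self _)
    ⟨fun l a b t hs => of_congr (by simp [(h.step a b hs).1]) (hadm.step l a b t hs) _ _,
      fun l a t hz => (of_congr rfl (hadm.zero l a t hz) _ (zero_mem _)).trans (map_zero _)⟩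
  refine ⟨gr g, { (inferInstance : SetLike.GradedMonoid (gr g)),
    DirectSum.Decomposition.ofAddHom (gr g) L ?_ ?_ with }, h, ?_,
    fun x => by simpa using word_mem g [x], hadm, fun _ _ ha => mem_closure ha, hlin⟩
  · refine AddMonoidHom.ext fun a => AddMonoidHom.eqOn_closure ?_ (hall a)
    rintro _ ⟨w, rfl⟩
    simp [hL]
  · refine DirectSum.addHom_ext fun d a => ?_
    obtain ⟨a, ha⟩ := a
    simp only [AddMonoidHom.comp_apply, DirectSum.coeAddMonoidHom_of, AddMonoidHom.id_apply]
    induction ha using Submodule.span_induction with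
    | mem x hx =>
      obtain ⟨w, rfl, rfl⟩ := hx
      exact hL w
    | zero => exact (map_zero _).trans (map_zero _).symm
    | add x y hx hy h1 h2 => rw [map_add, h1, h2, ← map_add]; rfl
    | smul c x hx h1 =>
      rcases zmod2 c with rfl | rfl
      · exact (congrArg L (zero_smul _ x)).trans ((map_zero _).trans
          ((of_congr rfl (zero_smul _ x) _ (zero_mem _)).trans (map_zero _)).symm)
      · exact (congrArg L (one_smul _ x)).trans (h1.trans (of_congr rfl (one_smul _ x).symm _ _))
  · rw [Submodule.one_eq_span, gr]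
    congr 1
    ext b
    simp

end abstract

/-- The finitely presented algebra of a short rewriting system. -/
theorem exists_alg [Fintype X] (h : S.Short) :
    ∃ (A : Type) (_ : Ring A) (_ : Algebra (ZMod 2) A) (𝒜 : ℕ → Submodule (ZMod 2) A)
      (_ : GradedAlgebra 𝒜) (g : X → A), WordAlg 𝒜 X S g ∧
      ∃ (m : ℕ) (rel : Finset (FreeAlgebra (ZMod 2) (Fin m) × FreeAlgebra (ZMod 2) (Fin m))),
        Nonempty (A ≃ₐ[ZMod 2] RingQuot fun x y : FreeAlgebra (ZMod 2) (Fin m) => (x, y) ∈ rel) := by
  let e := Fintype.equivFin X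
  let rel := (finite_relS S e h).toFinset
  have hr : ∀ x y, (x, y) ∈ rel ↔ (x, y) ∈ relS S e := fun _ _ => Set.Finite.mem_toFinset _
  obtain ⟨𝒜, i, hw⟩ := exists_wordAlg (A := RingQuot fun x y => (x, y) ∈ rel) h (adm hr) (lin hr)
    (mem_all e _)
  exact ⟨_, _, _, 𝒜, i, _, hw, _, rel, ⟨AlgEquiv.refl⟩⟩

end BrA

end Crest.Agent.R176
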