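import Crest.Agent.R176.BridgeA

/-!
Row 176: nilpotency of matrices over the augmentation ideal (automaton linearisation).
-/

set_option autoImplicit false

namespace Crest.Agent.R176

namespace BrB

open Polynomial Finset

variable {X : Type} [Fintype X]

theorem wsum_succ {M : Type} [AddCommMonoid M] (d : ℕ) (F : List X → M) :
    Rew.wsum (d + 1) F = ∑ x, Rew.wsum d fun w => F (x :: w) := by
  rw [Rew.wsum, ← (Fin.consEquiv fun _ : Fin (d + 1) => X).sum_comp, Fintype.sum_prod_type]
  simp [Rew.wsum, Fin.consEquiv, List.ofFn_succ]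

theorem pow_eq_wsum {B : Type} [Semiring B] (t : X → B) (d : ℕ) :
    (∑ x, t x) ^ d = Rew.wsum d fun w => (w.map t).prod := by
  induction d with
  | zero => simp [Rew.wsum]
  | succ d ih =>
    rw [pow_succ', ih, wsum_succ, sum_mul]
    simp only [Rew.wsum, mul_sum, List.map_cons, List.prod_cons]

theorem nil_fintype {S : Rew X} (h : S.Nil) {σ : Type} [Fintype σ] [DecidableEq σ]
    (ψ : X → Matrix σ σ (ZMod 2)[X]) : ∃ d, ∀ f : List X → ZMod 2, S.Adm f →
      Rew.wsum d (fun w => f w • (w.map ψ).prod) = 0 := by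
  let R := Matrix.reindexAlgEquiv (ZMod 2) (ZMod 2)[X] (Fintype.equivFin σ)
  obtain ⟨d, hd⟩ := h _ fun x => R (ψ x)
  refine ⟨d, fun f hf => R.injective ?_⟩
  rw [map_zero, ← hd f hf]
  simp only [Rew.wsum, map_sum, map_smul, map_list_prod, List.map_map, Function.comp_def]

variable {A : Type} [Ring A] [Algebra (ZMod 2) A]

omit [Fintype X] in
theorem prod_eq {B : Type} [Monoid B] (s t : X → B) (h : ∀ x y, Commute (s x) (t y)) (w : List X) :
    (w.map fun x => s x * t x).prod = (w.map s).prod * (w.map t).prod := by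
  induction w with
  | nil => simp
  | cons x w ih =>
    have : Commute (t x) (w.map s).prod := Commute.list_prod_right _ _ fun y hy => by
      obtain ⟨z, -, rfl⟩ := List.mem_map.1 hy
      exact (h z x).symm
    simp only [List.map_cons, List.prod_cons, ih, mul_assoc]
    rw [← mul_assoc (t x), this.eq, mul_assoc]

/-- The transfer matrix is nilpotent. -/
theorem transfer_nil {S : Rew X} (h : S.Nil) {g : X → A} (hg : S.Adm fun w => (w.map g).prod)
    {σ : Type} [Fintype σ] [DecidableEq σ] (ψ : X → Matrix σ σ (ZMod 2)[X]) :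
    IsNilpotent (∑ x, Matrix.of fun p q => (ψ x p q).map (algebraMap (ZMod 2) A) * C (g x)) := by
  obtain ⟨d, hd⟩ := nil_fintype h ψ
  let Θ : Matrix σ σ (ZMod 2)[X] →+* Matrix σ σ A[X] :=
    (mapRingHom (algebraMap (ZMod 2) A)).mapMatrix
  let Γ : A →+* Matrix σ σ A[X] := (Matrix.scalar σ).comp C
  have e : ∀ N a p q, (Θ N * Γ a) p q = (N p q).map (algebraMap (ZMod 2) A) * C a :=
    fun N a p q => by simp [Θ, Γ]
  have hc : ∀ N a, Commute (Θ N) (Γ a) := fun N a => by
    ext p q k
    simp [Θ, Γ, Algebra.commutes]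
  have e2 : (∑ x, Matrix.of fun p q => (ψ x p q).map (algebraMap (ZMod 2) A) * C (g x)) =
      ∑ x, Θ (ψ x) * Γ (g x) := sum_congr rfl fun x _ => by ext p q : 2; rw [e]; rfl
  refine ⟨d, ?_⟩
  rw [e2, pow_eq_wsum]
  ext p q k
  refine (Module.forall_dual_apply_eq_zero_iff (ZMod 2) _).1 fun φ => ?_
  have h1 := congrArg (fun N => (N p q).coeff k) (hd (fun w => φ (w.map g).prod)
    ⟨fun l a b r hs => congrArg φ (hg.step l a b r hs),
      fun l a r hz => (congrArg φ (hg.zero l a r hz)).trans (map_zero _)⟩)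
  simp only [Rew.wsum, Matrix.sum_apply, finsetSum_coeff, Matrix.smul_apply, coeff_smul,
    Matrix.zero_apply, coeff_zero, smul_eq_mul] at h1
  simp only [Rew.wsum, Matrix.sum_apply, finsetSum_coeff, map_sum]
  refine Eq.trans (sum_congr rfl fun w _ => ?_) h1
  rw [prod_eq (fun x => Θ (ψ x)) (fun x => Γ (g x)) fun _ _ => hc _ _,
    show (fun x => Θ (ψ x)) = Θ ∘ ψ from rfl, show (fun x => Γ (g x)) = Γ ∘ g from rfl,
    ← List.map_map, ← List.map_map, ← map_list_prod, ← map_list_prod, e, coeff_mul_C, coeff_map,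
    ← Algebra.smul_def, map_smul, smul_eq_mul, mul_comm]

omit [Algebra (ZMod 2) A] in
/-- If `1 - s M` has a polynomial left inverse then `M` is nilpotent. -/
theorem nil_of_inv {n : ℕ} (M : Matrix (Fin n) (Fin n) A) (N : Matrix (Fin n) (Fin n) A[X])
    (h : ∀ i l, N i l - ∑ j, N i j * (C (M j l) * Polynomial.X) = if i = l then 1 else 0) :
    IsNilpotent M := by
  have key : ∀ k i l, (M ^ k) i l = (N i l).coeff k := fun k => by
    induction k with
    | zero =>
      intro i l
      have := congrArg (fun p => p.coeff 0) (h i l)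
      simp only [coeff_sub, finsetSum_coeff, ← mul_assoc, coeff_mul_X_zero, sum_const_zero,
        sub_zero] at this
      rw [this, pow_zero, Matrix.one_apply]
      split_ifs <;> simp
    | succ k ih =>
      intro i l
      have := congrArg (fun p => p.coeff (k + 1)) (h i l)
      simp only [coeff_sub, finsetSum_coeff, ← mul_assoc, coeff_mul_X, coeff_mul_C] at this
      rw [pow_succ, Matrix.mul_apply]
      simp only [ih]
      refine (sub_eq_zero.1 (this.trans ?_)).symm
      split_ifs <;> simp [coeff_one]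
  refine ⟨(univ.sup fun p : Fin n × Fin n => (N p.1 p.2).natDegree) + 1, ?_⟩
  ext i l
  rw [key]
  exact coeff_eq_zero_of_natDegree_lt (Nat.lt_succ_of_le
    (le_sup (f := fun p : Fin n × Fin n => (N p.1 p.2).natDegree) (mem_univ (i, l))))

theorem nil_of_words {S : Rew X} (h : S.Nil) {g : X → A} (hg : S.Adm fun w => (w.map g).prod)
    {n : ℕ} (M : Matrix (Fin n) (Fin n) A) (hM : ∀ i j, M i j ∈ Submodule.span (ZMod 2)
      (Set.range fun p : X × List X => ((p.1 :: p.2).map g).prod)) : IsNilpotent M := by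
  classical
  choose c hc using fun i j => Finsupp.mem_span_range_iff_exists_finsupp.1 (hM i j)
  let D := univ.sup fun p : Fin n × Fin n => (c p.1 p.2).support.sup fun t => t.2.length
  let U := (List.finite_length_le X D).toFinset
  have hU : ∀ u, u ∈ U ↔ u.length ≤ D := fun _ => Set.Finite.mem_toFinset _
  let o : U := ⟨[], (hU _).2 (Nat.zero_le _)⟩
  have hM' : ∀ i l, M i l = ∑ x, ∑ v : U, c i l (x, v) • ((x :: v.1).map g).prod := fun i l => by
    rw [← hc, Finsupp.sum_of_support_subset _ (s := univ ×ˢ U) (fun t ht => ?_) _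
      fun _ _ => by rw [zero_smul], sum_product]
    · exact sum_congr rfl fun x _ => (sum_coe_sort U fun v =>
        c i l (x, v) • ((x :: v).map g).prod).symm
    · refine mem_product.2 ⟨mem_univ _, (hU _).2 ?_⟩
      exact (le_sup (f := fun t : X × List X => t.2.length) ht).trans (le_sup (f :=
        fun p : Fin n × Fin n => (c p.1 p.2).support.sup fun t => t.2.length) (mem_univ (i, l)))
  obtain ⟨d, hd⟩ := transfer_nil h hg (σ := Fin n × U) fun x => Matrix.of fun p q =>
    if p.2 = o then C (c p.1 q.1 (x, q.2)) * Polynomial.X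
    else if p.1 = q.1 ∧ p.2.1 = x :: q.2.1 then 1 else 0
  set T : Matrix (Fin n × U) (Fin n × U) A[X] := ∑ x : X, Matrix.of _ with hT
  let P : Matrix (Fin n × U) (Fin n) A[X] :=
    Matrix.of fun p l => if p.1 = l then C (p.2.1.map g).prod else 0
  have h1 : ∀ p l, (T * P) p l = ∑ x, ∑ v : U, Polynomial.map (algebraMap (ZMod 2) A)
      (if p.2 = o then C (c p.1 l (x, v)) * Polynomial.X
        else if p.1 = l ∧ p.2.1 = x :: v.1 then 1 else 0) * C ((x :: v.1).map g).prod := by
    intro p l
    rw [Matrix.mul_apply, Fintype.sum_prod_type, sum_eq_single l (fun j _ hj => by simp [P, hj])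
      (by simp), sum_comm]
    refine sum_congr rfl fun v _ => ?_
    simp only [hT, P, Matrix.sum_apply, Matrix.of_apply, if_true, sum_mul, mul_assoc, ← C_mul,
      List.map_cons, List.prod_cons]
  have h2 : ∀ j l, (T * P) (j, o) l = C (M j l) * Polynomial.X := fun j l => by
    rw [h1, hM', map_sum, sum_mul]
    refine sum_congr rfl fun x _ => ?_
    rw [map_sum, sum_mul]
    refine sum_congr rfl fun v _ => ?_
    rw [if_pos rfl, Polynomial.map_mul, map_C, map_X, mul_assoc, X_mul_C, ← mul_assoc, ← C_mul,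
      Algebra.smul_def]
  have h3 : ∀ j v l, v ≠ o → (T * P) (j, v) l = P (j, v) l := fun j v l hv => by
    obtain ⟨y, u, hu⟩ := List.exists_cons_of_ne_nil (fun e => hv (Subtype.ext e) : v.1 ≠ [])
    have hu' : u ∈ U := (hU _).2 (by have := (hU _).1 v.2; rw [hu, List.length_cons] at this; omega)
    rw [h1, sum_eq_single y (fun x _ hx => by simp [hv, hu, hx.symm]) (by simp),
      sum_eq_single ⟨u, hu'⟩ (fun w _ hw => by
        have : u ≠ w.1 := fun e => hw (Subtype.ext e.symm)
        simp [hv, hu, this]) (by simp)]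
    by_cases hj : j = l <;> simp [P, hv, hu, hj]
  have h4 : (∑ i ∈ range d, T ^ i) * (P - T * P) = P := by
    rw [← Matrix.one_mul P, ← Matrix.mul_assoc, Matrix.mul_one, ← Matrix.sub_mul,
      ← Matrix.mul_assoc, geom_sum_mul_neg, hd, sub_zero]
  refine nil_of_inv M (Matrix.of fun i j => (∑ i ∈ range d, T ^ i) (i, o) (j, o)) fun i l => ?_
  have h5 := congrFun (congrFun h4 (i, o)) l
  rw [Matrix.mul_apply, Fintype.sum_prod_type] at h5
  have h6 : ∀ j, ∑ v : U, (∑ i ∈ range d, T ^ i) (i, o) (j, v) * (P - T * P) (j, v) l =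
      (∑ i ∈ range d, T ^ i) (i, o) (j, o) * ((if j = l then 1 else 0) -
        C (M j l) * Polynomial.X) := fun j => by
    rw [sum_eq_single o (fun v _ hv => by rw [Matrix.sub_apply, h3 j v l hv, sub_self, mul_zero])
      (by simp), Matrix.sub_apply, h2]
    simp [P, o]
  simp only [h6, mul_sub, sum_sub_distrib, mul_ite, mul_one, mul_zero, sum_ite_eq', mem_univ,
    if_true] at h5
  refine h5.trans ?_
  simp [P, o]

end BrB

end Crest.Agent.R176
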