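import Crest.Agent.R185.FPres

/-!
Row 176: subgroups of finite index in finitely presented groups are finitely presented.
-/

set_option autoImplicit false

namespace Crest.Agent.R176

theorem fp_of_free_fg {K : Type} [Group K] [IsFreeGroup K] [h : Group.FG K] :
    Group.IsFinitelyPresented K := by
  obtain ⟨S, hS, hSf⟩ := Group.fg_iff.1 h
  have : Finite S := hSf
  have hπ : Function.Surjective (FreeGroup.lift (fun s : S => (s : K))) := by
    rw [← MonoidHom.range_eq_top, FreeGroup.range_lift_eq_closure, Subtype.range_coe, hS]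
  choose b hb using fun x : IsFreeGroup.Generators K => hπ (IsFreeGroup.of x)
  refine R185.fp_of_retract inferInstance (FreeGroup.lift (fun s : S => (s : K)))
    (IsFreeGroup.lift b) fun g => ?_
  have : (FreeGroup.lift (fun s : S => (s : K))).comp (IsFreeGroup.lift b) = MonoidHom.id K :=
    IsFreeGroup.ext_hom fun a => by simp [hb]
  exact DFunLike.congr_fun this g

theorem fng_subgroupOf {F : Type} [Group F] (K : Subgroup F) [K.FiniteIndex] {N : Subgroup F}
    (hN : N.IsFinitelyNormallyGenerated) (hle : N ≤ K) :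
    (N.subgroupOf K).IsFinitelyNormallyGenerated := by
  obtain ⟨S, hS, rfl⟩ := hN
  have hmem : ∀ (g : F) (s : S), g⁻¹ * s * g ∈ K := fun g s =>
    hle (Subgroup.normalClosure_normal.conj_mem' _ (Subgroup.subset_normalClosure s.2) g)
  have : Finite S := hS
  refine ⟨Set.range fun p : (F ⧸ K) × S => ⟨p.1.out⁻¹ * p.2 * p.1.out, hmem _ _⟩,
    Set.finite_range _, le_antisymm ?_ ?_⟩
  · refine Subgroup.normalClosure_le_normal ?_
    rintro _ ⟨p, rfl⟩
    exact Subgroup.normalClosure_normal.conj_mem' _ (Subgroup.subset_normalClosure p.2.2) _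
  · intro x hx
    obtain ⟨M, hM⟩ : ∃ M : Subgroup K, M = Subgroup.normalClosure
      (Set.range fun p : (F ⧸ K) × S => (⟨p.1.out⁻¹ * p.2 * p.1.out, hmem _ _⟩ : K)) := ⟨_, rfl⟩
    rw [← hM]
    have hn : M.Normal := hM ▸ inferInstance
    have : Subgroup.normalClosure S ≤ M.map K.subtype := by
      refine (Subgroup.closure_le _).2 fun y hy => ?_
      obtain ⟨s, hs, hc⟩ := Group.mem_conjugatesOfSet_iff.1 hy
      obtain ⟨g, rfl⟩ := isConj_iff.1 hc
      obtain ⟨k, hk⟩ := QuotientGroup.mk_out_eq_mul K g⁻¹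
      refine ⟨k * ⟨((g⁻¹ : F) : F ⧸ K).out⁻¹ * s * ((g⁻¹ : F) : F ⧸ K).out, hmem _ ⟨s, hs⟩⟩ * k⁻¹,
        hn.conj_mem _ (hM ▸ Subgroup.subset_normalClosure ⟨((g⁻¹ : F), ⟨s, hs⟩), rfl⟩) k, ?_⟩
      simp [hk, mul_assoc]
    obtain ⟨y, hy, e⟩ := this hx
    rwa [← Subtype.ext e]

/-- A subgroup of finite index of a finitely presented group is finitely presented. -/
theorem fp_finiteIndex {G : Type} [Group G] (H : Subgroup G) [H.FiniteIndex]
    (h : Group.IsFinitelyPresented G) : Group.IsFinitelyPresented H := by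
  obtain ⟨n, φ, hφ, hk⟩ := h.out
  have : (H.comap φ).FiniteIndex := ⟨by
    rw [Subgroup.index_comap_of_surjective _ hφ]; exact Subgroup.FiniteIndex.index_ne_zero⟩
  have : Group.IsFinitelyPresented (H.comap φ) := fp_of_free_fg
  refine Group.IsFinitelyPresented.of_surjective (φ.subgroupComap H)
    (φ.subgroupComap_surjective_of_surjective H hφ) ?_
  have e : (φ.subgroupComap H).ker = φ.ker.subgroupOf (H.comap φ) := by
    ext x
    simp [MonoidHom.mem_ker, Subgroup.mem_subgroupOf, Subtype.ext_iff]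
  rw [e]
  exact fng_subgroupOf _ hk fun x hx => by
    rw [Subgroup.mem_comap, MonoidHom.mem_ker.1 hx]; exact one_mem _

end Crest.Agent.R176
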