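import Crest.Agent.R176.GD

/-!
Row 176, group half: facts about the algebra.
-/

set_option autoImplicit false
set_option linter.unusedSectionVars false

open scoped commutatorElement

namespace Crest.Agent.R176

variable {A : Type} [Ring A] [Algebra (ZMod 2) A] {𝒜 : ℕ → Submodule (ZMod 2) A}
  [GradedAlgebra 𝒜] {X : Type} {S : Rew X} {g : X → A}

theorem two_eq_zero_alg (R : Type) [Ring R] [Algebra (ZMod 2) R] : (2 : R) = 0 := by
  have := map_ofNat (algebraMap (ZMod 2) R) 2
  rw [← this, show (OfNat.ofNat 2 : ZMod 2) = 0 from rfl, map_zero]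

theorem Aug.charP {R : Type} [Ring R] [Algebra (ZMod 2) R] (E : Aug R) : CharP R 2 := by
  refine CharTwo.of_one_ne_zero_of_two_eq_zero (fun h => ?_) (two_eq_zero_alg R)
  have := congrArg E.ε h
  rw [map_one, map_zero] at this
  exact one_ne_zero this

/-- The augmentation of `ZMod 2`. -/
def Aug.zmod : Aug (ZMod 2) := ⟨RingHom.id _, fun a (h : a = 1) => h ▸ isUnit_one⟩

theorem deep_anti {m n : ℕ} (h : m ≤ n) : deep 𝒜 n ≤ deep 𝒜 m := by
  exact fun a ha d hd => ha d (hd.trans_le h)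

theorem mem_deep_of_mem {d m : ℕ} {a : A} (ha : a ∈ 𝒜 d) (h : m ≤ d) : a ∈ deep 𝒜 m := by
  intro e he
  rw [GradedRing.proj_apply, DirectSum.decompose_of_mem_ne 𝒜 ha (by omega)]

theorem deep_induction {m : ℕ} {P : A → Prop} (h0 : P 0)
    (hd : ∀ d, m ≤ d → ∀ a ∈ 𝒜 d, P a) (hadd : ∀ a b, a ∈ deep 𝒜 m → b ∈ deep 𝒜 m → P a → P b →
      P (a + b)) {a : A} (ha : a ∈ deep 𝒜 m) : P a := by
  classical
  have key : ∀ s : Finset ℕ, (∑ i ∈ s, (DirectSum.decompose 𝒜 a i : A)) ∈ deep 𝒜 m ∧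
      P (∑ i ∈ s, (DirectSum.decompose 𝒜 a i : A)) := by
    intro s
    induction s using Finset.induction_on with
    | empty => exact ⟨by simp, by simpa using h0⟩
    | insert i s hi ih =>
      rw [Finset.sum_insert hi]
      rcases Nat.lt_or_ge i m with h | h
      · have := ha i h
        rw [GradedRing.proj_apply] at this
        rw [this, zero_add]
        exact ih
      · have h1 := mem_deep_of_mem (DirectSum.decompose 𝒜 a i).2 h
        exact ⟨add_mem h1 ih.1, hadd _ _ h1 ih.1 (hd i h _ (DirectSum.decompose 𝒜 a i).2) ih.2⟩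
  rw [← DirectSum.sum_support_decompose 𝒜 a]
  exact (key _).2

theorem eq_zero_of_deep {a : A} (h : ∀ m, a ∈ deep 𝒜 m) : a = 0 := by
  classical
  rw [← DirectSum.sum_support_decompose 𝒜 a]
  exact Finset.sum_eq_zero fun i _ => h (i + 1) i (Nat.lt_succ_self i)

theorem WordAlg.word_mem (h : WordAlg 𝒜 X S g) (w : List X) : (w.map g).prod ∈ 𝒜 w.length := by
  induction w with
  | nil => exact SetLike.one_mem_graded 𝒜
  | cons x w ih =>
    rw [List.map_cons, List.prod_cons, List.length_cons, add_comm]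
    exact SetLike.mul_mem_graded (h.deg x) ih

theorem WordAlg.deep_closure (h : WordAlg 𝒜 X S g) {m : ℕ} {a : A} (ha : a ∈ deep 𝒜 m) :
    a ∈ AddSubgroup.closure {b | ∃ w : List X, m ≤ w.length ∧ b = (w.map g).prod} := by
  refine deep_induction (P := fun a => a ∈ AddSubgroup.closure
    {b | ∃ w : List X, m ≤ w.length ∧ b = (w.map g).prod}) (zero_mem _) (fun d hd a ha => ?_)
    (fun a b _ _ => add_mem) ha
  refine AddSubgroup.closure_mono ?_ (h.span d a ha)
  rintro b ⟨w, hw, e⟩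
  exact ⟨w, hw ▸ hd, e⟩

theorem WordAlg.mem_closure (h : WordAlg 𝒜 X S g) (a : A) :
    a ∈ AddSubgroup.closure (Set.range fun w : List X => (w.map g).prod) := by
  refine AddSubgroup.closure_mono ?_
    (h.deep_closure (m := 0) fun _ hd => absurd hd (Nat.not_lt_zero _))
  rintro b ⟨w, _, e⟩
  exact ⟨w, e.symm⟩

theorem WordAlg.deep_prods (h : WordAlg 𝒜 X S g) {m : ℕ} {a : A} (ha : a ∈ deep 𝒜 (2 * m)) :
    a ∈ AddSubgroup.closure (Prods (deep 𝒜 m)) := by
  refine AddSubgroup.closure_mono ?_ (h.deep_closure ha)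
  rintro b ⟨w, hw, rfl⟩
  refine ⟨_, mem_deep_of_mem (h.word_mem (w.take m)) ?_, _,
    mem_deep_of_mem (h.word_mem (w.drop m)) ?_, ?_⟩
  · rw [List.length_take]; omega
  · rw [List.length_drop]; omega
  · rw [← List.prod_append, ← List.map_append, List.take_append_drop]

theorem WordAlg.finite_quot [Finite X] (h : WordAlg 𝒜 X S g) (m : ℕ) : Finite (A ⧸ deep 𝒜 m) := by
  let π := Ideal.Quotient.mk (deep 𝒜 m)
  have hfin : ((fun w : List X => π (w.map g).prod) '' {w | w.length < m}).Finite :=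
    (List.finite_length_lt X m).image _
  have htop : AddSubgroup.closure ((fun w : List X => π (w.map g).prod) '' {w | w.length < m}) =
      ⊤ := by
    refine eq_top_iff.2 fun b _ => ?_
    obtain ⟨a, rfl⟩ := Ideal.Quotient.mk_surjective b
    refine AddSubgroup.closure_induction (p := fun a _ => π a ∈ AddSubgroup.closure
      ((fun w : List X => π (w.map g).prod) '' {w | w.length < m})) ?_ ?_ ?_ ?_ (h.mem_closure a)
    · rintro _ ⟨w, rfl⟩
      rcases Nat.lt_or_ge w.length m with hw | hw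
      · exact AddSubgroup.subset_closure ⟨w, hw, rfl⟩
      · rw [Ideal.Quotient.eq_zero_iff_mem.2 (mem_deep_of_mem (h.word_mem w) hw)]
        exact zero_mem _
    · rw [map_zero]; exact zero_mem _
    · intro x y _ _ hx hy; rw [map_add]; exact add_mem hx hy
    · intro x _ hx; rw [map_neg]; exact neg_mem hx
  have : AddGroup.FG (A ⧸ deep 𝒜 m) := AddGroup.fg_iff.2 ⟨_, htop, hfin⟩
  refine AddCommGroup.finite_of_fg_isAddTorsion _ fun b => ?_
  refine isOfFinAddOrder_iff_nsmul_eq_zero.2 ⟨2, two_pos, ?_⟩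
  obtain ⟨a, rfl⟩ := Ideal.Quotient.mk_surjective b
  rw [← map_nsmul, two_nsmul, ← two_mul, two_eq_zero_alg, zero_mul, map_zero]

/-- The augmentation of a truncation. -/
theorem Aug.exists_quot (E : Aug A) (hE : E.Graded 𝒜) (hN : E.Nil) {m : ℕ} (hm : 1 ≤ m) :
    ∃ E' : Aug (A ⧸ deep 𝒜 m), E'.Nil ∧ CharP (A ⧸ deep 𝒜 m) 2 ∧
      E'.ε.comp (Ideal.Quotient.mk (deep 𝒜 m)) = E.ε := by
  let ε' : A ⧸ deep 𝒜 m →+* ZMod 2 :=
    Ideal.Quotient.lift _ E.ε fun a ha => (hE a).2 (deep_anti hm ha)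
  have hε : ∀ a, ε' (Ideal.Quotient.mk _ a) = E.ε a := fun a => rfl
  refine ⟨⟨ε', fun b hb => ?_⟩, fun n M hM => ?_, ?_, RingHom.ext hε⟩
  · obtain ⟨a, rfl⟩ := Ideal.Quotient.mk_surjective b
    exact (E.unit a hb).map _
  · choose f hf using Ideal.Quotient.mk_surjective (I := deep 𝒜 m)
    have h1 := (hN n (M.map f) fun i j => by
      rw [Matrix.map_apply, ← hε, hf]; exact hM i j).map
        (Ideal.Quotient.mk (deep 𝒜 m)).mapMatrix
    have h2 : (Ideal.Quotient.mk (deep 𝒜 m)).mapMatrix (M.map f) = M := by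
      ext i j; simp [hf]
    rwa [h2] at h1
  · refine CharTwo.of_one_ne_zero_of_two_eq_zero (fun h => ?_) ?_
    · have := congrArg ε' h
      rw [map_one, map_zero] at this
      exact one_ne_zero this
    · rw [← map_ofNat (Ideal.Quotient.mk (deep 𝒜 m)) 2,
        show (OfNat.ofNat 2 : A) = 0 from two_eq_zero_alg A, map_zero]

theorem Aug.infinite_ker {R : Type} [Ring R] [Infinite R] (E : Aug R) :
    {a : R | E.ε a = 0}.Infinite := by
  intro hf
  refine Set.infinite_univ ((hf.union (hf.image fun a => a + 1)).subset fun a _ => ?_)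
  have : ∀ z : ZMod 2, z = 0 ∨ z = 1 := by decide
  rcases this (E.ε a) with h | h
  · exact Or.inl h
  · exact Or.inr ⟨a - 1, by simp [h], by simp⟩

end Crest.Agent.R176
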