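import Crest.Agent.R176.GDefs

/-!
Row 176, group half: definitions (words, frames, truncated cyclic covers, the groups `QJ`).
-/

set_option autoImplicit false
set_option linter.unusedSectionVars false

open scoped commutatorElement

namespace Crest.Agent.R176

/-! ### Words -/

/-- All letters of the word are off-diagonal and have entries in `P`. -/
def Letters {ι R : Type} (P : Set R) (W : List (ι × ι × R)) : Prop :=
  ∀ t ∈ W, t.1 ≠ t.2.1 ∧ t.2.2 ∈ P

/-- Evaluation of a word in a family of group elements (`ev W = evX StN.x W` by `rfl`). -/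
def evX {ι R G : Type} [Group G] (X : ι → ι → R → G) (W : List (ι × ι × R)) : G :=
  (W.map fun t => X t.1 t.2.1 t.2.2).prod

/-- Products of two elements of `D`. -/
def Prods {R : Type} [Ring R] (D : Ideal R) : Set R := {x | ∃ a ∈ D, ∃ b ∈ D, x = a * b}

/-- The root elements with entries in `P`. -/
def roots (ι : Type) {R : Type} [Ring R] (P : Set R) : Set (St ι R) :=
  {g | ∃ i j a, i ≠ j ∧ a ∈ P ∧ g = StN.x i j a}

/-! ### Padding -/

/-- Extension of a matrix by a zero row and a zero column. -/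
def pad {μ R : Type} [Ring R] : Matrix μ μ R →+ Matrix (Option μ) (Option μ) R where
  toFun M := Matrix.of fun c c' => match c, c' with
    | some c, some c' => M c c'
    | _, _ => 0
  map_zero' := by ext (_ | c) (_ | c') <;> rfl
  map_add' M N := by ext (_ | c) (_ | c') <;> simp

/-- The corner embedding `i ↦ (some i, none)`. -/
def emb0 (ι μ : Type) : ι ↪ Option ι × Option μ :=
  ⟨fun i => (some i, none), fun _ _ h => by simpa using h⟩

/-- The embedding `(i, c) ↦ (some i, some c)`. -/
def emb1 (ι μ : Type) : ι × μ ↪ Option ι × Option μ :=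
  ⟨fun p => (some p.1, some p.2), fun _ _ h => by simpa [Prod.ext_iff] using h⟩

/-! ### The elements `T(c, d)` -/

section T

variable {κ R : Type} [Ring R] [Fintype κ] [DecidableEq κ]

/-- `∏_{k ≠ p} x k p (c k)` -/
noncomputable def colElt (p : κ) (c : κ → R) : St κ R :=
  radElt StN.isSt {k | k ≠ p} (Matrix.of fun k k' => if k' = p then c k else 0)

/-- `∏_{k ≠ p} x p k (d k)` -/
noncomputable def rowElt (p : κ) (d : κ → R) : St κ R :=
  radElt StN.isSt {k | k = p} (Matrix.of fun k k' => if k = p then d k' else 0)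

/-- The lift of `1 + c d` built with the spare index `p`. -/
noncomputable def TT (p : κ) (c d : κ → R) : St κ R := ⁅colElt p c, rowElt p d⁆

/-- `c`, `d` vanish at the spare indices and `d c = 0`. -/
structure Orth (p p' : κ) (c d : κ → R) : Prop where
  c₁ : c p = 0
  c₂ : c p' = 0
  d₁ : d p = 0
  d₂ : d p' = 0
  dot : ∑ k, d k * c k = 0

end T

/-! ### Frames -/

/-- A column `u` of left multipliers and a row `v` of right multipliers of `D` with `v u = 1`. -/
structure Frame {A : Type} [Ring A] (D : Ideal A) (μ : Type) [Fintype μ] where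
  u : μ → A →+ A
  v : μ → A →+ A
  u_mem : ∀ c, ∀ a ∈ D, u c a ∈ D
  v_mem : ∀ c, ∀ a ∈ D, v c a ∈ D
  u_mul : ∀ c, ∀ a ∈ D, ∀ b, u c (a * b) = u c a * b
  v_mul : ∀ c, ∀ a ∈ D, ∀ b, v c (b * a) = b * v c a
  pair : ∀ a ∈ D, ∀ b ∈ D, ∑ c, v c a * u c b = a * b

/-- The map `a ↦ u a v`. -/
def Frame.φ {A : Type} [Ring A] {D : Ideal A} {μ : Type} [Fintype μ] (F : Frame D μ) :
    A →+ Matrix μ μ A where
  toFun a := Matrix.of fun c c' => F.u c (F.v c' a)
  map_zero' := by ext c c'; simp
  map_add' a b := by ext c c'; simp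

/-! ### Truncated cyclic covers -/

section theta

variable {A : Type} [Ring A] [Algebra (ZMod 2) A] (𝒜 : ℕ → Submodule (ZMod 2) A)
  [GradedAlgebra 𝒜]

/-- The positions `c, c + 1, …, c + d` lie in `C`. -/
def Allowed {q : ℕ} (C : Set (ZMod q)) (c : ZMod q) (d : ℕ) : Prop := ∀ k ≤ d, c + (k : ℕ) ∈ C

/-- The additive map with prescribed values `f d` on the homogeneous components. -/
noncomputable def byDeg {M : Type} [AddCommMonoid M] (f : ℕ → A →+ M) : A →+ M :=
  (DirectSum.toAddMonoid fun d => (f d).comp (𝒜 d).subtype.toAddMonoidHom).comp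
    (DirectSum.decomposeAddEquiv 𝒜).toAddMonoidHom

theorem byDeg_of_mem {M : Type} [AddCommMonoid M] (f : ℕ → A →+ M) {d : ℕ} {a : A}
    (ha : a ∈ 𝒜 d) : byDeg 𝒜 f a = f d a := by
  have : DirectSum.decomposeAddEquiv 𝒜 a = DirectSum.of (fun d => 𝒜 d) d ⟨a, ha⟩ :=
    DirectSum.decompose_of_mem 𝒜 ha
  simp only [byDeg, AddMonoidHom.coe_comp, Function.comp_apply, AddEquiv.toAddMonoidHom_eq_coe,
    AddMonoidHom.coe_coe, this, DirectSum.toAddMonoid_of]
  rfl

open Classical in
/-- The shift matrix with the gates selected by `P`. -/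
noncomputable def shiftP (q : ℕ) (P : ZMod q → Prop) (d : ℕ) : A →+ Matrix (ZMod q) (ZMod q) A where
  toFun a := Matrix.of fun c c' => if c' = c + d ∧ P c then a else 0
  map_zero' := by ext c c'; simp
  map_add' a b := by ext c c'; simp only [Matrix.of_apply, Matrix.add_apply]; split_ifs <;> simp

/-- The cyclic cover truncated to the set `C` of positions. -/
noncomputable def theta (q : ℕ) (C : Set (ZMod q)) : A →+ Matrix (ZMod q) (ZMod q) A :=
  byDeg 𝒜 fun d => shiftP q (fun c => Allowed C c d) d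

theorem theta_of_mem (q : ℕ) (C : Set (ZMod q)) {d : ℕ} {a : A} (ha : a ∈ 𝒜 d) :
    theta 𝒜 q C a = shiftP q (fun c => Allowed C c d) d a := byDeg_of_mem 𝒜 _ ha

theorem allowed_add {q : ℕ} (C : Set (ZMod q)) (c : ZMod q) (d d' : ℕ) :
    Allowed C c (d + d') ↔ Allowed C c d ∧ Allowed C (c + d) d' := by
  constructor
  · intro h
    refine ⟨fun k hk => h k (by omega), fun k hk => ?_⟩
    have := h (d + k) (by omega)
    rwa [Nat.cast_add, ← add_assoc] at this
  · rintro ⟨h₁, h₂⟩ k hk
    by_cases hkd : k ≤ d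
    · exact h₁ k hkd
    · obtain ⟨k', rfl⟩ := Nat.exists_eq_add_of_le (le_of_not_ge hkd)
      have := h₂ k' (by omega)
      rwa [Nat.cast_add, ← add_assoc]

theorem theta_mul (q : ℕ) [NeZero q] (C : Set (ZMod q)) (a b : A) :
    theta 𝒜 q C (a * b) = theta 𝒜 q C a * theta 𝒜 q C b := by
  classical
  induction a using DirectSum.Decomposition.inductionOn 𝒜 with
  | zero => simp
  | add a a' h h' => rw [add_mul, map_add, map_add, add_mul, h, h']
  | @homogeneous d a =>
    induction b using DirectSum.Decomposition.inductionOn 𝒜 with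
    | zero => simp
    | add b b' h h' => rw [mul_add, map_add, map_add, mul_add, h, h']
    | @homogeneous d' b =>
      rw [theta_of_mem 𝒜 q C (SetLike.mul_mem_graded a.2 b.2), theta_of_mem 𝒜 q C a.2,
        theta_of_mem 𝒜 q C b.2]
      ext c c'
      simp only [shiftP, AddMonoidHom.coe_mk, ZeroHom.coe_mk, Matrix.of_apply, Matrix.mul_apply]
      rw [Finset.sum_eq_single (c + d)]
      · simp only [allowed_add, Nat.cast_add, ← add_assoc]
        by_cases h₁ : Allowed C c d <;> by_cases h₂ : Allowed C (c + d) d' <;>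
          by_cases h₃ : c' = c + d + d' <;> simp [h₁, h₂, h₃]
      · intro x _ hx; simp [hx]
      · simp

theorem isSt_theta (ι : Type) [Fintype ι] [DecidableEq ι] (q : ℕ) [NeZero q] (C : Set (ZMod q)) :
    IsSt (Net.full ι) fun i j a => (blkElt i j (theta 𝒜 q C a) : St (ι × ZMod q) A) where
  add i j a b h := by rw [map_add, isSt_blkElt.add _ _ _ _ h]
  comm i j k l a b h₁ h₂ h₃ h₄ := isSt_blkElt.comm _ _ _ _ _ _ h₁ h₂ h₃ h₄
  brk i j k a b h₁ h₂ h₃ := by rw [theta_mul, isSt_blkElt.brk _ _ _ _ _ h₁ h₂ h₃]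

/-- The homomorphism of Steinberg groups induced by `theta`. -/
noncomputable def Theta (ι : Type) [Fintype ι] [DecidableEq ι] (q : ℕ) [NeZero q]
    (C : Set (ZMod q)) : St ι A →* St (ι × ZMod q) A := StN.lift (isSt_theta 𝒜 ι q C)

theorem Theta_x {ι : Type} [Fintype ι] [DecidableEq ι] (q : ℕ) [NeZero q] (C : Set (ZMod q))
    {i j : ι} (h : i ≠ j) (a : A) :
    Theta 𝒜 ι q C (StN.x i j a) = blkElt i j (theta 𝒜 q C a) := StN.lift_x _ h a

end theta

/-! ### The groups used for injective stability -/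

section stab

variable {ι : Type} [DecidableEq ι]

/-- `k ∈ J ∪ {∞}`, where `∞ = none`. -/
def InJ (J : Finset ι) (k : Option ι) : Prop := ∀ i, k = some i → i ∈ J

/-- Positions whose column lies in `J ∪ {∞}`. -/
def netJ (J : Finset ι) : Net (Option ι) := Net.par {k | ¬ InJ J k}

theorem netJ_rel (J : Finset ι) (a b : Option ι) : (netJ J).rel a b ↔ a ≠ b ∧ InJ J b := by
  simp [netJ]

/-- The Steinberg group of `netJ J`. -/
abbrev QJ (J : Finset ι) (R : Type) [Ring R] : Type := StN (netJ J) R

theorem getD_ne {J : Finset ι} {l : ι} (hl : l ∉ J) {a b : Option ι} (ha : InJ J a) (hb : InJ J b)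
    (h : a ≠ b) : a.getD l ≠ b.getD l := by
  rcases a with _ | a <;> rcases b with _ | b
  · exact absurd rfl h
  · exact fun e => hl (by simpa [← show l = b from e] using hb b rfl)
  · exact fun e => hl (by simpa [show a = l from e] using ha a rfl)
  · simpa using h

variable (R : Type) [Ring R]

open Classical in
theorem isSt_gJ (J : Finset ι) {l : ι} (hl : l ∉ J) : IsSt (netJ J) fun a b (r : R) =>
    if InJ J a then (StN.x (a.getD l) (b.getD l) r : St ι R) else 1 where
  add a b r s h := by
    rw [netJ_rel] at h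
    split_ifs with ha
    · exact StN.isSt.add _ _ _ _ (getD_ne hl ha h.2 h.1)
    · simp
  comm a b c d r s h₁ h₂ h₃ h₄ := by
    rw [netJ_rel] at h₁ h₂
    split_ifs with ha hc
    · exact StN.isSt.comm _ _ _ _ _ _ (getD_ne hl ha h₁.2 h₁.1) (getD_ne hl hc h₂.2 h₂.1)
        (getD_ne hl h₁.2 hc h₃) (getD_ne hl ha h₂.2 h₄)
    · exact Commute.one_right _
    · exact Commute.one_left _
    · exact Commute.one_left _
  brk a b c r s h₁ h₂ h₃ := by
    rw [netJ_rel] at h₁ h₂
    rw [if_pos h₁.2]
    split_ifs with ha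
    · exact StN.isSt.brk _ _ _ _ _ (getD_ne hl ha h₁.2 h₁.1) (getD_ne hl h₁.2 h₂.2 h₂.1)
        (getD_ne hl ha h₂.2 h₃)
    · simp

/-- Delete the letters with row outside `J ∪ {∞}` and replace `∞` by `l`. -/
noncomputable def gJ (J : Finset ι) (l : ι) : QJ J R →* St ι R :=
  if hl : l ∉ J then StN.lift (isSt_gJ R J hl) else 1

/-- The natural map `QJ J → QJ J'` for `J ⊆ J'`. -/
noncomputable def inclJ (J J' : Finset ι) : QJ J R →* QJ J' R :=
  if h : J ⊆ J' then StN.map id Function.injective_id (fun a b hab => by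
    rw [netJ_rel] at hab ⊢
    exact ⟨hab.1, fun i hi => h (hab.2 i hi)⟩) (RingHom.id R) else 1

variable {R} [Fintype ι]

/-- `q` fixes the basis column `e_∞`. -/
def Stab {J : Finset ι} (q : QJ J R) : Prop :=
  ∀ a, (StN.π _ R q : Matrix (Option ι) (Option ι) R) a none =
    (1 : Matrix (Option ι) (Option ι) R) a none

/-- `h` is the element of `St ι R` attached to `q`. -/
def IsH (J : Finset ι) (l : ι) (q : QJ J R) (h : St ι R) : Prop :=
  h * (gJ R J l q)⁻¹ ∈ Rad (Net.full ι) StN.x {i | i ∉ J} ∧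
    (StN.π _ R h : Matrix ι ι R) =
      (StN.π _ R q : Matrix (Option ι) (Option ι) R).submatrix some some

open Classical in
/-- The element of `St ι R` attached to `q`. -/
noncomputable def HH (J : Finset ι) (l : ι) (q : QJ J R) : St ι R :=
  if h : ∃ g, IsH J l q g then h.choose else 1

end stab

end Crest.Agent.R176
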