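import Crest.Agent.R176.GAlg

/-!
Row 176, group half: balanced maps on deep ideals.
-/

set_option autoImplicit false
set_option linter.unusedSectionVars false

open scoped commutatorElement

namespace Crest.Agent.R176

variable {A : Type} [Ring A] [Algebra (ZMod 2) A] {𝒜 : ℕ → Submodule (ZMod 2) A}
  [GradedAlgebra 𝒜] {X : Type} {S : Rew X} {g : X → A}

theorem tor_add_self (a : A) : a + a = 0 := by
  rw [← two_smul (ZMod 2) a, show (2 : ZMod 2) = 0 from rfl, zero_smul]

theorem tor_ind {D : Ideal A} {T : Set A} (hT : ∀ a ∈ T, a ∈ D) {P : A → Prop}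
    (hP : ∀ a ∈ T, P a) (h0 : P 0) (hadd : ∀ a ∈ D, ∀ b ∈ D, P a → P b → P (a + b)) {a : A}
    (ha : a ∈ AddSubgroup.closure T) : P a := by
  suffices H : a ∈ D ∧ P a from H.2
  induction ha using AddSubgroup.closure_induction with
  | mem a ha => exact ⟨hT a ha, hP a ha⟩
  | zero => exact ⟨D.zero_mem, h0⟩
  | add a b _ _ ha hb => exact ⟨D.add_mem ha.1 hb.1, hadd a ha.1 b hb.1 ha.2 hb.2⟩
  | neg a _ ha => rwa [neg_eq_of_add_eq_zero_right (tor_add_self a)]

theorem tor_split (ℓ : ℕ) (l a r : List X) (ha : a.length ≤ 2)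
    (hw : 2 * ℓ + 1 ≤ (l ++ a ++ r).length) :
    (∃ l₁ l₂, l = l₁ ++ l₂ ∧ l₁.length = ℓ) ∨ ∃ r₁ r₂, r = r₁ ++ r₂ ∧ r₂.length = ℓ := by
  simp only [List.length_append] at hw
  by_cases h : ℓ ≤ l.length
  · exact Or.inl ⟨l.take ℓ, l.drop ℓ, (List.take_append_drop _ _).symm, by simp [h]⟩
  · exact Or.inr ⟨r.take (r.length - ℓ), r.drop (r.length - ℓ), (List.take_append_drop _ _).symm,
      by simp; omega⟩

theorem WordAlg.tor2 (h : WordAlg 𝒜 X S g) (ℓ : ℕ) : Tor2 (deep 𝒜 ℓ) (deep 𝒜 (ℓ + 1)) := by
  intro Z _ η hl hr hb L hL hsum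
  have z : (0 : A) ∈ deep 𝒜 ℓ := Ideal.zero_mem _
  have η0l : ∀ c ∈ deep 𝒜 ℓ, η 0 c = 1 := fun c hc => by
    have := hl 0 z 0 z c hc
    rw [add_zero] at this
    exact left_eq_mul.1 this
  have η0r : ∀ d ∈ deep 𝒜 ℓ, η d 0 = 1 := fun d hd => by
    have := hr d hd 0 z 0 z
    rw [add_zero] at this
    exact left_eq_mul.1 this
  have wm : ∀ w : List X, ℓ ≤ w.length → (w.map g).prod ∈ deep 𝒜 ℓ := fun w hw =>
    mem_deep_of_mem (h.word_mem w) hw
  have cut : ∀ u v u' v' : List X, u ++ v = u' ++ v' → ℓ ≤ u.length → ℓ ≤ v.length →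
      ℓ ≤ u'.length → ℓ ≤ v'.length →
      η (u.map g).prod (v.map g).prod = η (u'.map g).prod (v'.map g).prod := by
    intro u v u' v' e h₁ h₂ h₃ h₄
    rcases List.append_eq_append_iff.1 e with ⟨m, rfl, rfl⟩ | ⟨m, rfl, rfl⟩
    · simp only [List.map_append, List.prod_append]
      exact (hb _ (wm u h₁) _ (wm v' h₄) _).symm
    · simp only [List.map_append, List.prod_append]
      exact hb _ (wm u' h₃) _ (wm v h₂) _
  let F : List X → Additive Z := fun w => if 2 * ℓ + 1 ≤ w.length then
    Additive.ofMul (η ((w.take ℓ).map g).prod ((w.drop ℓ).map g).prod) else 0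
  have Fapp : ∀ u v : List X, ℓ ≤ u.length → ℓ ≤ v.length → 2 * ℓ + 1 ≤ (u ++ v).length →
      F (u ++ v) = Additive.ofMul (η (u.map g).prod (v.map g).prod) := by
    intro u v h₁ h₂ h₃
    refine (if_pos h₃).trans (congrArg _ (cut _ _ _ _ (List.take_append_drop _ _) ?_ ?_ h₁ h₂))
    · rw [List.length_take]; omega
    · rw [List.length_drop]; omega
  have F2 : ∀ w, F w + F w = 0 := by
    intro w
    by_cases hw : 2 * ℓ + 1 ≤ w.length
    · have h₁ := wm (w.take ℓ) (by rw [List.length_take]; omega)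
      have h₂ := wm (w.drop ℓ) (by rw [List.length_drop]; omega)
      simp only [F, if_pos hw]
      rw [← ofMul_mul, ← hl _ h₁ _ h₁ _ h₂, tor_add_self, η0l _ h₂, ofMul_one]
    · simp only [F, if_neg hw, add_zero]
  have Fadm : S.Adm F := by
    constructor
    · intro l a b r hs
      obtain ⟨e, -, ha⟩ := h.short.step a b hs
      by_cases hw : 2 * ℓ + 1 ≤ (l ++ a ++ r).length
      · have hw' := hw
        rcases tor_split ℓ l a r ha hw with ⟨l₁, l₂, rfl, hℓ⟩ | ⟨r₁, r₂, rfl, hℓ⟩
        · simp only [List.length_append] at hw'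
          have e₁ := Fapp l₁ (l₂ ++ a ++ r) hℓ.ge (by simp only [List.length_append]; omega)
            (by simp only [List.length_append]; omega)
          have e₂ := Fapp l₁ (l₂ ++ b ++ r) hℓ.ge (by simp only [List.length_append]; omega)
            (by simp only [List.length_append]; omega)
          rw [h.adm.step l₂ a b r hs, ← e₂] at e₁
          simpa only [List.append_assoc] using e₁
        · simp only [List.length_append] at hw'
          have e₁ := Fapp (l ++ a ++ r₁) r₂ (by simp only [List.length_append]; omega) hℓ.ge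
            (by simp only [List.length_append]; omega)
          have e₂ := Fapp (l ++ b ++ r₁) r₂ (by simp only [List.length_append]; omega) hℓ.ge
            (by simp only [List.length_append]; omega)
          rw [h.adm.step l a b r₁ hs, ← e₂] at e₁
          simpa only [List.append_assoc] using e₁
      · have hw' : ¬ 2 * ℓ + 1 ≤ (l ++ b ++ r).length := by
          simp only [List.length_append] at hw ⊢; omega
        simp only [F, if_neg hw, if_neg hw']
    · intro l a r hz
      obtain ⟨-, ha⟩ := h.short.zero a hz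
      by_cases hw : 2 * ℓ + 1 ≤ (l ++ a ++ r).length
      · have hw' := hw
        rcases tor_split ℓ l a r ha hw with ⟨l₁, l₂, rfl, hℓ⟩ | ⟨r₁, r₂, rfl, hℓ⟩
        · simp only [List.length_append] at hw'
          have e₁ := Fapp l₁ (l₂ ++ a ++ r) hℓ.ge (by simp only [List.length_append]; omega)
            (by simp only [List.length_append]; omega)
          rw [h.adm.zero l₂ a r hz, η0r _ (wm l₁ hℓ.ge), ofMul_one] at e₁
          simpa only [List.append_assoc] using e₁
        · simp only [List.length_append] at hw'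
          have e₁ := Fapp (l ++ a ++ r₁) r₂ (by simp only [List.length_append]; omega) hℓ.ge
            (by simp only [List.length_append]; omega)
          rw [h.adm.zero l a r₁ hz, η0l _ (wm r₂ hℓ.ge), ofMul_one] at e₁
          simpa only [List.append_assoc] using e₁
      · simp only [F, if_neg hw]
  obtain ⟨Λ, hΛ⟩ := h.lin (Additive Z) F F2 Fadm
  have hT : ∀ a ∈ {b | ∃ w : List X, ℓ + 1 ≤ w.length ∧ b = (w.map g).prod}, a ∈ deep 𝒜 ℓ := by
    rintro _ ⟨w, hw, rfl⟩
    exact wm w (by omega)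
  have key : ∀ d ∈ deep 𝒜 (ℓ + 1), ∀ c ∈ deep 𝒜 (ℓ + 1), Λ (d * c) = Additive.ofMul (η d c) := by
    intro d hd c hc
    have hc' : c ∈ deep 𝒜 ℓ := deep_anti (Nat.le_succ ℓ) hc
    refine tor_ind hT (P := fun d => Λ (d * c) = Additive.ofMul (η d c)) ?_ ?_ ?_
      (h.deep_closure hd)
    · rintro _ ⟨u, hu, rfl⟩
      have hu' := wm u (by omega)
      refine tor_ind hT (P := fun c => Λ ((u.map g).prod * c) =
        Additive.ofMul (η (u.map g).prod c)) ?_ ?_ ?_ (h.deep_closure hc)
      · rintro _ ⟨v, hv, rfl⟩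
        rw [← Fapp u v (by omega) (by omega) (by rw [List.length_append]; omega), ← hΛ,
          List.map_append, List.prod_append]
      · rw [mul_zero, map_zero, η0r _ hu', ofMul_one]
      · intro a ha b hb' e₁ e₂
        rw [mul_add, map_add, e₁, e₂, hr _ hu' _ ha _ hb', ofMul_mul]
    · rw [zero_mul, map_zero, η0l _ hc', ofMul_one]
    · intro a ha b hb' e₁ e₂
      rw [add_mul, map_add, e₁, e₂, hl _ ha _ hb' _ hc', ofMul_mul]
  have fin : Λ (L.map fun p => p.1 * p.2).sum = Additive.ofMul (L.map fun p => η p.1 p.2).prod := by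
    clear hsum
    induction L with
    | nil => simp
    | cons p L ih =>
      rw [List.map_cons, List.sum_cons, List.map_cons, List.prod_cons, map_add, ofMul_mul,
        ih fun q hq => hL q (List.mem_cons_of_mem _ hq),
        key _ (hL p List.mem_cons_self).1 _ (hL p List.mem_cons_self).2]
  rw [hsum, map_zero] at fin
  exact ofMul_eq_zero.1 fin.symm

end Crest.Agent.R176
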