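import Crest.Agent.R176.GFrameB
import Crest.Agent.R176.GTor

/-!
Row 176, group half: on deep elements of `K₂` the cyclic cover is a power.
-/

set_option autoImplicit false
set_option linter.unusedSectionVars false

open scoped commutatorElement

namespace Crest.Agent.R176

variable {A : Type} [Ring A] [Algebra (ZMod 2) A] {𝒜 : ℕ → Submodule (ZMod 2) A}
  [GradedAlgebra 𝒜]

namespace Phase

variable {q ℓ : ℕ} [NeZero q] (P : Phase 𝒜 q ℓ)

theorem deep_e_mem (c : ZMod q) {a : A} (ha : a ∈ deep 𝒜 ℓ) : P.e c a ∈ deep 𝒜 ℓ := by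
  refine deep_induction (P := fun a => P.e c a ∈ deep 𝒜 ℓ) ?_ ?_ ?_ ha
  · rw [map_zero]; exact zero_mem _
  · exact fun d hd a ha => mem_deep_of_mem (P.homog c d a ha) hd
  · intro a b _ _ h h'
    rw [map_add]; exact add_mem h h'

/-- The phase of the right end. -/
noncomputable def deepV (c : ZMod q) : A →+ A := byDeg 𝒜 fun d => P.e (c - d)

theorem deepV_of_mem (c : ZMod q) {d : ℕ} {a : A} (ha : a ∈ 𝒜 d) :
    P.deepV c a = P.e (c - d) a := byDeg_of_mem 𝒜 _ ha

theorem deepV_mem (c : ZMod q) {a : A} (ha : a ∈ deep 𝒜 ℓ) : P.deepV c a ∈ deep 𝒜 ℓ := by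
  refine deep_induction (P := fun a => P.deepV c a ∈ deep 𝒜 ℓ) ?_ ?_ ?_ ha
  · rw [map_zero]; exact zero_mem _
  · intro d hd a ha
    rw [P.deepV_of_mem c ha]
    exact mem_deep_of_mem (P.homog _ d a ha) hd
  · intro a b _ _ h h'
    rw [map_add]; exact add_mem h h'

theorem deepV_mul (c : ZMod q) {a : A} (ha : a ∈ deep 𝒜 ℓ) (b : A) :
    P.deepV c (b * a) = b * P.deepV c a := by
  refine deep_induction (P := fun a => P.deepV c (b * a) = b * P.deepV c a) ?_ ?_ ?_ ha
  · simp
  · intro d hd a ha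
    induction b using DirectSum.Decomposition.inductionOn 𝒜 with
    | zero => simp
    | add b b' h h' => rw [add_mul, map_add, add_mul, h, h']
    | @homogeneous d' b =>
      rw [P.deepV_of_mem c (SetLike.mul_mem_graded b.2 ha), P.deepV_of_mem c ha,
        P.mul_left a (mem_deep_of_mem ha hd) d' b b.2]
      congr 3
      push_cast
      ring
  · intro a a' _ _ h h'
    rw [mul_add, map_add, map_add, mul_add, h, h']

theorem deepV_mul_e (x y : ZMod q) {a b : A} (ha : a ∈ deep 𝒜 ℓ) (hb : b ∈ deep 𝒜 ℓ) :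
    P.deepV x a * P.e y b = if y = x then P.deepV x a * b else 0 := by
  refine deep_induction
    (P := fun a => P.deepV x a * P.e y b = if y = x then P.deepV x a * b else 0) ?_ ?_ ?_ ha
  · simp
  · intro d hd a ha
    have ha' := mem_deep_of_mem ha hd
    have h := P.mul_left b hb d _ (P.homog (x - d) d a ha) (y - d)
    rw [sub_add_cancel, P.mul_right _ (P.deep_e_mem _ ha'), P.idem a ha'] at h
    rw [P.deepV_of_mem x ha, ← h]
    by_cases e : y = x <;> simp [e]
  · intro a a' _ _ h h'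
    rw [map_add, add_mul, h, h']
    split_ifs
    · rw [add_mul]
    · rw [add_zero]

theorem sum_deepV {a : A} (ha : a ∈ deep 𝒜 ℓ) : ∑ c, P.deepV c a = a := by
  refine deep_induction (P := fun a => ∑ c, P.deepV c a = a) ?_ ?_ ?_ ha
  · simp
  · intro d hd a ha
    simp only [P.deepV_of_mem _ ha]
    exact ((Equiv.subRight (d : ZMod q)).sum_comp fun c => P.e c a).trans
      (P.sum a (mem_deep_of_mem ha hd))
  · intro a a' _ _ h h'
    simp only [map_add, Finset.sum_add_distrib, h, h']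

/-- The frame with offset `t`. -/
noncomputable def deepF (t : ZMod q) : Frame (deep 𝒜 ℓ) (ZMod q) where
  u c := P.e (c - t)
  v c := P.deepV (c - t)
  u_mem _ _ ha := P.deep_e_mem _ ha
  v_mem _ _ ha := P.deepV_mem _ ha
  u_mul _ a ha b := P.mul_right a ha b _
  v_mul _ _ ha b := P.deepV_mul _ ha b
  pair a ha b hb := by
    simp only [P.deepV_mul_e _ _ ha hb, if_true]
    rw [← Finset.sum_mul]
    exact congrArg (· * b) (((Equiv.subRight t).sum_comp fun c => P.deepV c a).trans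
      (P.sum_deepV ha))

end Phase

/-- Phases split the cyclic cover into `q` orthogonal frames. -/
theorem Phase.exists_frames {q ℓ : ℕ} [NeZero q] (P : Phase 𝒜 q ℓ) :
    ∃ F : ZMod q → Frame (deep 𝒜 ℓ) (ZMod q),
      (∀ t t', t ≠ t' → ∀ a ∈ deep 𝒜 ℓ, ∀ b ∈ deep 𝒜 ℓ, (F t).φ a * (F t').φ b = 0) ∧
      ∀ a ∈ deep 𝒜 ℓ, theta 𝒜 q Set.univ a = ∑ t, (F t).φ a := by
  refine ⟨P.deepF, fun t t' ht a ha b hb => ?_, fun a ha => ?_⟩
  · ext c c'
    rw [Matrix.mul_apply]
    refine Finset.sum_eq_zero fun k _ => ?_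
    change P.e (c - t) (P.deepV (k - t) a) * P.e (k - t') (P.deepV (c' - t') b) = 0
    rw [← P.mul_right _ (P.deepV_mem _ ha), P.deepV_mul_e _ _ ha (P.deepV_mem _ hb),
      if_neg (by simpa using ht.symm), map_zero]
  · refine deep_induction (P := fun a => theta 𝒜 q Set.univ a = ∑ t, (P.deepF t).φ a) ?_ ?_ ?_ ha
    · simp
    · intro d hd a ha
      have ha' := mem_deep_of_mem ha hd
      rw [theta_of_mem 𝒜 q _ ha]
      ext c c'
      have h : ∀ t, (P.deepF t).φ a c c' = if c' = c + d then P.e (c - t) a else 0 := fun t => by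
        change P.e (c - t) (P.deepV (c' - t) a) = _
        rw [P.deepV_of_mem _ ha, P.idem a ha']
        refine if_congr ⟨fun e => ?_, fun e => ?_⟩ rfl rfl
        · linear_combination -e
        · linear_combination -e
      have h' : ∑ t, P.e (c - t) a = a :=
        ((Equiv.subLeft c).sum_comp fun c => P.e c a).trans (P.sum a ha')
      simp only [Matrix.sum_apply, h, shiftP, AddMonoidHom.coe_mk, ZeroHom.coe_mk, Matrix.of_apply,
        Allowed, Set.mem_univ, implies_true, and_true]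
      split_ifs
      · exact h'.symm
      · simp
    · intro a a' _ _ h h'
      simp only [map_add, Finset.sum_add_distrib, h, h']

theorem deep_pow [CharP A 2] {X : Type} {S : Rew X} {g : X → A} (hW : WordAlg 𝒜 X S g)
    {q ℓ : ℕ} [NeZero q] (P : Phase 𝒜 q ℓ) {ι : Type} [Fintype ι] [DecidableEq ι]
    (hι : 3 ≤ Fintype.card ι) {y : St ι A} (hy : y ∈ genI ι (deep 𝒜 (2 * (ℓ + 1))))
    (hπ : StN.π _ A y = 1) (hρ : Theta 𝒜 ι q Set.univ y = 1) :
    St.incl A (emb0 ι (ZMod q)) y ^ q = 1 := by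
  obtain ⟨F, hF, hθ⟩ := P.exists_frames
  rw [genI_eq] at hy
  obtain ⟨W, hWl, rfl⟩ := exists_ev_of_mem (P := Prods (deep 𝒜 (ℓ + 1)))
    (fun a ha => hW.deep_prods ha) hy
  have h := frame_sum (hW.tor2 ℓ) (deep_anti (Nat.le_succ ℓ)) hι F hF Finset.univ hWl hπ
  rw [Finset.card_univ, ZMod.card] at h
  rw [← h, ← map_one (St.incl A (emb1 ι (ZMod q))), ← hρ, ev_eq_evX, map_evX, map_evX]
  refine evX_congr hWl fun i j a hij ha => ?_
  obtain ⟨b, hb, c, -, rfl⟩ := ha
  rw [Theta_x 𝒜 q _ hij, incl_blkElt hij,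
    hθ _ (deep_anti (Nat.le_succ ℓ) (Ideal.mul_mem_right c _ hb))]

end Crest.Agent.R176
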