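import Mathlib

/-!
Row 176: length preserving rewriting systems with zero, admissible functionals.
-/

set_option autoImplicit false

namespace Crest.Agent.R176

/-- A rewriting system with zero. -/
structure Rew (X : Type) where
  step : List X → List X → Prop
  zero : List X → Prop

namespace Rew

variable {X : Type} (S : Rew X)

/-- A function on words compatible with the rules. -/
structure Adm {Z : Type} [Zero Z] (f : List X → Z) : Prop where
  step : ∀ l a b r, S.step a b → f (l ++ a ++ r) = f (l ++ b ++ r)
  zero : ∀ l a r, S.zero a → f (l ++ a ++ r) = 0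

/-- All rules have length one or two and preserve the length. -/
structure Short : Prop where
  step : ∀ a b, S.step a b → a.length = b.length ∧ 1 ≤ a.length ∧ a.length ≤ 2
  zero : ∀ a, S.zero a → 1 ≤ a.length ∧ a.length ≤ 2

/-- The word is non-zero in the algebra. -/
def NZ (w : List X) : Prop := ∃ f : List X → ZMod 2, S.Adm f ∧ f w ≠ 0

/-- Two words are equal in the algebra. -/
def Eqv (v w : List X) : Prop := ∀ f : List X → ZMod 2, S.Adm f → f v = f w

/-- Sum over all words of length `d`. -/
def wsum [Fintype X] {M : Type} [AddCommMonoid M] (d : ℕ) (F : List X → M) : M :=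
  ∑ w : Fin d → X, F (List.ofFn w)

/-- There are non-zero words of every length. -/
def Inf : Prop := ∀ d, ∃ w : List X, w.length = d ∧ S.NZ w

/-- In every representation of the free monoid by `n × n` matrices over `𝔽₂[s]` all class sums of
long words vanish. -/
def NilD [Fintype X] (n : ℕ) : Prop :=
  ∀ ψ : X → Matrix (Fin n) (Fin n) (Polynomial (ZMod 2)), ∃ d, ∀ f : List X → ZMod 2, S.Adm f →
    wsum d (fun w => f w • (w.map ψ).prod) = 0

/-- `NilD n` for all `n`. -/
def Nil [Fintype X] : Prop := ∀ n, S.NilD n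

/-- Long non-zero words know their position modulo `q`. -/
def Ph (q : ℕ) : Prop := ∃ (ℓ : ℕ) (α : List X → ZMod q),
  (∀ l a b r, S.step a b → ℓ ≤ (l ++ a ++ r).length → S.NZ (l ++ a ++ r) →
    α (l ++ a ++ r) = α (l ++ b ++ r)) ∧
  (∀ x w, ℓ ≤ w.length → S.NZ (x :: w) → α w = α (x :: w) + 1) ∧
  (∀ x w, ℓ ≤ w.length → S.NZ (w ++ [x]) → α (w ++ [x]) = α w)

end Rew

/-- The combinatorial heart of row 176. -/
def RewStmt : Prop := ∃ (X : Type) (_ : Fintype X) (S : Rew X),
  S.Short ∧ S.Inf ∧ S.Nil ∧ ∀ s, S.Ph (2 ^ s) ∧ S.Ph (3 ^ s)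

end Crest.Agent.R176
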