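import Crest.Agent.R176.StBasic
import Crest.Agent.R176.RewDefs

/-!
Row 176: the graded algebra interface, block homomorphisms and the statements of the
group-theoretic steps.
-/

set_option autoImplicit false
set_option linter.unusedSectionVars false

open scoped commutatorElement

namespace Crest.Agent.R176

/-- A local ring with residue field `ZMod 2`. -/
structure Aug (R : Type) [Ring R] where
  ε : R →+* ZMod 2
  unit : ∀ a, ε a = 1 → IsUnit a

/-- All matrices with entries in the augmentation ideal are nilpotent. -/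
def Aug.Nil {R : Type} [Ring R] (E : Aug R) : Prop :=
  ∀ (n : ℕ) (M : Matrix (Fin n) (Fin n) R), (∀ i j, E.ε (M i j) = 0) → IsNilpotent M

/-! ### Block homomorphism -/

section blk

variable {ι μ R : Type} [Ring R] [Fintype ι] [DecidableEq ι] [Fintype μ] [DecidableEq μ]

theorem radElt_mem_gen {G : Type} [Group G] {Φ : Net ι} {X : ι → ι → R → G} (h : IsSt Φ X)
    (S : Set ι) (M : Matrix ι ι R) {p : ι → ι → Prop}
    (hp : ∀ i j, Φ.rel i j → i ∈ S → j ∉ S → M i j ≠ 0 → p i j) : radElt h S M ∈ gen Φ X p := by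
  refine Subgroup.noncommProd_mem _ _ fun q hq => ?_
  obtain ⟨h₁, h₂, h₃⟩ := mem_radPos.1 hq
  by_cases h0 : M q.1 q.2 = 0
  · rw [h0, h.zero h₁]; exact one_mem _
  · exact mem_gen h₁ (hp _ _ h₁ h₂ h₃ h0) _

/-- The matrix with `M` in block `(i, j)`. -/
def blkMat (i j : ι) (M : Matrix μ μ R) : Matrix (ι × μ) (ι × μ) R :=
  Matrix.of fun p p' => if p.1 = i ∧ p'.1 = j then M p.2 p'.2 else 0

/-- The product of the root elements of block `(i, j)`. -/
noncomputable def blkElt (i j : ι) (M : Matrix μ μ R) : St (ι × μ) R :=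
  radElt StN.isSt {p | p.1 = i} (blkMat i j M)

theorem blkElt_mem {i j : ι} (M : Matrix μ μ R) :
    blkElt i j M ∈ gen (Net.full (ι × μ)) StN.x fun p p' => p.1 = i ∧ p'.1 = j :=
  radElt_mem_gen _ _ _ fun p p' _ _ _ h => by
    by_contra h'; exact h (by simp only [blkMat, Matrix.of_apply, if_neg h'])

theorem pi_blkElt {i j : ι} (hij : i ≠ j) (M : Matrix μ μ R) :
    (StN.π _ R (blkElt i j M) : Matrix (ι × μ) (ι × μ) R) = 1 + blkMat i j M := by
  refine rad_surj StN.isSt (fun _ _ _ h => StN.π_x h _) _ fun p p' h => ?_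
  simp only [blkMat, Matrix.of_apply]
  rw [if_neg]
  rintro ⟨h₁, h₂⟩
  exact h ⟨fun e => hij (by rw [← h₁, ← h₂, e]), h₁, fun e => hij (by rw [← h₂]; exact e.symm)⟩

theorem blkMat_add (i j : ι) (M N : Matrix μ μ R) :
    blkMat i j (M + N) = blkMat i j M + blkMat i j N := by
  ext p p'; simp only [blkMat, Matrix.of_apply, Matrix.add_apply]; split_ifs <;> simp

theorem blkMat_mul_same (i j k : ι) (M N : Matrix μ μ R) :
    blkMat i j M * blkMat j k N = blkMat i k (M * N) := by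
  ext p p'
  simp only [blkMat, Matrix.of_apply, Matrix.mul_apply, Fintype.sum_prod_type]
  rw [Finset.sum_eq_single j]
  · by_cases h₁ : p.1 = i <;> by_cases h₂ : p'.1 = k <;> simp [h₁, h₂]
  · intro b _ hb; simp [hb]
  · simp

theorem blkMat_mul_of_ne {j k : ι} (h : j ≠ k) (i l : ι) (M N : Matrix μ μ R) :
    blkMat i j M * blkMat k l N = 0 := by
  ext p p'
  simp only [blkMat, Matrix.of_apply, Matrix.mul_apply, Matrix.zero_apply]
  refine Finset.sum_eq_zero fun b _ => ?_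
  by_cases h₁ : b.1 = j
  · have : b.1 ≠ k := h₁ ▸ h
    simp [this]
  · simp [h₁]

theorem isSt_blkElt : IsSt (Net.full ι) (blkElt : ι → ι → Matrix μ μ R → St (ι × μ) R) where
  add i j M N _ := by rw [blkElt, blkMat_add, radElt_add]; rfl
  comm i j k l M N hij hkl hjk hil := by
    refine rad_comm StN.isSt (S := {p : ι × μ | p.1 = i ∨ p.1 = k})
      (gen_mono ?_ (blkElt_mem M)) (gen_mono ?_ (blkElt_mem N))
    · rintro p p' - ⟨h₁, h₂⟩
      exact ⟨Or.inl h₁, fun h => h.elim (fun e => hij (e.symm.trans h₂)) fun e => hjk (h₂.symm.trans e)⟩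
    · rintro p p' - ⟨h₁, h₂⟩
      exact ⟨Or.inr h₁, fun h => h.elim (fun e => hil (e.symm.trans h₂)) fun e => hkl (e.symm.trans h₂)⟩
  brk i j k M N hij hjk hik := by
    have hij' : i ≠ j := hij
    have hjk' : j ≠ k := hjk
    have m₁ : blkElt j k N ∈ Rad (Net.full (ι × μ)) StN.x {p : ι × μ | p.1 ≠ k} :=
      gen_mono (fun p p' _ h => ⟨fun e => hjk' (h.1.symm.trans e), fun e => e h.2⟩) (blkElt_mem N)
    have m₂ : blkElt i k (M * N) ∈ Rad (Net.full (ι × μ)) StN.x {p : ι × μ | p.1 ≠ k} :=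
      gen_mono (fun p p' _ h => ⟨fun e => hik (h.1.symm.trans e), fun e => e h.2⟩) (blkElt_mem _)
    have m₃ : blkElt i j M ∈ ParG (Net.full (ι × μ)) StN.x {p : ι × μ | p.1 ≠ k} :=
      gen_mono (fun p p' _ h h' => h'.1 fun e => hik (h.1.symm.trans e)) (blkElt_mem _)
    rw [commutatorElement_def, mul_inv_eq_iff_eq_mul]
    refine conj_eq_of_pi StN.isSt (fun _ _ _ h => StN.π_x h _) m₃ m₁ (mul_mem m₂ m₁) ?_
    rw [mul_inv_eq_iff_eq_mul, map_mul]
    apply Units.ext
    simp only [Units.val_mul, pi_blkElt hij', pi_blkElt hjk', pi_blkElt hik, mul_add, add_mul,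
      mul_one, one_mul, blkMat_mul_same, blkMat_mul_of_ne hik.symm, blkMat_mul_of_ne hjk'.symm,
      zero_mul]
    abel

/-- `St ι (Matrix μ μ R) → St (ι × μ) R`. -/
noncomputable def blk (ι μ R : Type) [Ring R] [Fintype ι] [DecidableEq ι] [Fintype μ]
    [DecidableEq μ] : St ι (Matrix μ μ R) →* St (ι × μ) R := StN.lift isSt_blkElt

theorem blk_x {i j : ι} (h : i ≠ j) (M : Matrix μ μ R) :
    blk ι μ R (StN.x i j M) = blkElt i j M := StN.lift_x _ h M

end blk

/-! ### Graded algebras -/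

section graded

variable {A : Type} [Ring A] [Algebra (ZMod 2) A] (𝒜 : ℕ → Submodule (ZMod 2) A)
  [GradedAlgebra 𝒜]

theorem proj_mul_eq_zero {a b : A} {m n : ℕ} (ha : ∀ d < m, GradedRing.proj 𝒜 d a = 0)
    (hb : ∀ d < n, GradedRing.proj 𝒜 d b = 0) {d : ℕ} (hd : d < m + n) :
    GradedRing.proj 𝒜 d (a * b) = 0 := by
  classical
  rw [GradedRing.proj_apply, DirectSum.decompose_mul, DirectSum.coe_mul_apply]
  refine Finset.sum_eq_zero fun p hp => ?_
  rw [Finset.mem_filter] at hp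
  by_cases h : p.1 < m
  · have := ha _ h
    rw [GradedRing.proj_apply] at this
    rw [this, zero_mul]
  · have := hb p.2 (by omega)
    rw [GradedRing.proj_apply] at this
    rw [this, mul_zero]

/-- The elements without components of degree `< m`. -/
def deep (m : ℕ) : Ideal A where
  carrier := {a | ∀ d < m, GradedRing.proj 𝒜 d a = 0}
  add_mem' ha hb d hd := by rw [map_add, ha d hd, hb d hd, add_zero]
  zero_mem' d _ := map_zero _
  smul_mem' c _ ha d hd := proj_mul_eq_zero 𝒜 (m := 0) (fun _ h => absurd h (Nat.not_lt_zero _))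
    ha (by simpa using hd)

theorem mem_deep {m : ℕ} {a : A} : a ∈ deep 𝒜 m ↔ ∀ d < m, GradedRing.proj 𝒜 d a = 0 := Iff.rfl

instance (m : ℕ) : (deep 𝒜 m).IsTwoSided where
  mul_mem_of_left b ha d hd := proj_mul_eq_zero 𝒜 (n := 0) ha
    (fun _ h => absurd h (Nat.not_lt_zero _)) (by simpa using hd)

/-- The matrix of a homogeneous element of degree `d` on the cyclic cover. -/
def shiftMat (q d : ℕ) : A →+ Matrix (ZMod q) (ZMod q) A where
  toFun a := Matrix.of fun c c' => if c' = c + d then a else 0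
  map_zero' := by ext c c'; simp
  map_add' a b := by ext c c'; simp only [Matrix.of_apply, Matrix.add_apply]; split_ifs <;> simp

/-- The representation of a graded ring on its `q`-fold cyclic cover. -/
noncomputable def rho (q : ℕ) [NeZero q] : A →+* Matrix (ZMod q) (ZMod q) A :=
  (DirectSum.toSemiring (A := fun d => 𝒜 d)
    (fun d => (shiftMat q d).comp (𝒜 d).subtype.toAddMonoidHom)
    (by
      ext c c'
      simp [shiftMat, Matrix.one_apply, eq_comm])
    (by
      intro i j a b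
      ext c c'
      simp only [shiftMat, AddMonoidHom.coe_comp, Function.comp_apply, AddMonoidHom.coe_mk,
        ZeroHom.coe_mk, Matrix.of_apply, Matrix.mul_apply, LinearMap.toAddMonoidHom_coe,
        Submodule.subtype_apply, SetLike.coe_gMul]
      rw [Finset.sum_eq_single (c + i)]
      · simp [add_assoc]
      · intro b _ hb; simp [hb]
      · simp)).comp (DirectSum.decomposeRingEquiv 𝒜).toRingHom

theorem rho_of_mem (q : ℕ) [NeZero q] {d : ℕ} {a : A} (ha : a ∈ 𝒜 d) (c c' : ZMod q) :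
    rho 𝒜 q a c c' = if c' = c + d then a else 0 := by
  have : DirectSum.decomposeRingEquiv 𝒜 a = DirectSum.of (fun d => 𝒜 d) d ⟨a, ha⟩ :=
    DirectSum.decompose_of_mem 𝒜 ha
  simp only [rho, RingHom.coe_comp, Function.comp_apply, RingEquiv.toRingHom_eq_coe,
    RingHom.coe_coe, this, DirectSum.toSemiring_of]
  rfl

/-- The induced map of Steinberg groups. -/
noncomputable def rhoSt (ι : Type) [Fintype ι] [DecidableEq ι] (q : ℕ) [NeZero q] :
    St ι A →* St (ι × ZMod q) A := (blk ι (ZMod q) A).comp (StN.rmap _ (rho 𝒜 q))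

/-- Orthogonal idempotent multipliers of the ideal `deep ℓ` reading the position modulo `q`. -/
structure Phase (q : ℕ) [NeZero q] (ℓ : ℕ) where
  e : ZMod q → A →+ A
  sum : ∀ a ∈ deep 𝒜 ℓ, ∑ c, e c a = a
  idem : ∀ a ∈ deep 𝒜 ℓ, ∀ c c', e c (e c' a) = if c = c' then e c a else 0
  homog : ∀ c d, ∀ a ∈ 𝒜 d, e c a ∈ 𝒜 d
  mul_right : ∀ a ∈ deep 𝒜 ℓ, ∀ b c, e c (a * b) = e c a * b
  mul_left : ∀ a ∈ deep 𝒜 ℓ, ∀ d, ∀ b ∈ 𝒜 d, ∀ c, e c (b * a) = b * e (c + d) a

/-- A connected graded algebra presented by a short rewriting system. -/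
structure WordAlg (X : Type) (S : Rew X) (g : X → A) : Prop where
  short : S.Short
  zero : 𝒜 0 = 1
  deg : ∀ x, g x ∈ 𝒜 1
  adm : S.Adm fun w => (w.map g).prod
  span : ∀ d, ∀ a ∈ 𝒜 d,
    a ∈ AddSubgroup.closure {b | ∃ w : List X, w.length = d ∧ b = (w.map g).prod}
  lin : ∀ (Z : Type) [AddCommGroup Z] (f : List X → Z), (∀ w, f w + f w = 0) → S.Adm f →
    ∃ L : A →+ Z, ∀ w, L (w.map g).prod = f w

/-- The augmentation is the degree zero part. -/
def Aug.Graded (E : Aug A) : Prop := ∀ a, E.ε a = 0 ↔ a ∈ deep 𝒜 1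

end graded

/-- A balanced bimultiplicative map on `D × D` factors through the multiplication on `D' × D'`. -/
def Tor2 {A : Type} [Ring A] (D D' : Ideal A) : Prop :=
  ∀ (Z : Type) [CommGroup Z] (η : A → A → Z),
    (∀ d ∈ D, ∀ d' ∈ D, ∀ c ∈ D, η (d + d') c = η d c * η d' c) →
    (∀ d ∈ D, ∀ c ∈ D, ∀ c' ∈ D, η d (c + c') = η d c * η d c') →
    (∀ d ∈ D, ∀ c ∈ D, ∀ a, η (d * a) c = η d (a * c)) →
    ∀ l : List (A × A), (∀ p ∈ l, p.1 ∈ D' ∧ p.2 ∈ D') → (l.map fun p => p.1 * p.2).sum = 0 →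
      (l.map fun p => η p.1 p.2).prod = 1

/-- An idempotent multiplier of the ideal `D` preserving `D'`. -/
structure Mult {A : Type} [Ring A] (D D' : Ideal A) where
  L : A →+ A
  R : A →+ A
  L_mem : ∀ a ∈ D, L a ∈ D
  R_mem : ∀ a ∈ D, R a ∈ D
  L_mem' : ∀ a ∈ D', L a ∈ D'
  R_mem' : ∀ a ∈ D', R a ∈ D'
  L_L : ∀ a ∈ D, L (L a) = L a
  R_R : ∀ a ∈ D, R (R a) = R a
  L_mul : ∀ a ∈ D, ∀ b, L (a * b) = L a * b
  R_mul : ∀ a ∈ D, ∀ b, R (b * a) = b * R a
  R_L : ∀ a ∈ D, ∀ b ∈ D, R a * b = a * L b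

/-- Evaluation of a word in the Steinberg generators. -/
def ev {ι R : Type} [Ring R] (W : List (ι × ι × R)) : St ι R :=
  (W.map fun t => StN.x t.1 t.2.1 t.2.2).prod

/-- The subgroup generated by the root elements with entries in `D`. -/
def genI (ι : Type) {R : Type} [Ring R] (D : Ideal R) : Subgroup (St ι R) :=
  Subgroup.closure {g | ∃ i j a, i ≠ j ∧ a ∈ D ∧ g = StN.x i j a}

/-- The product of the root elements `x c (c + d) M` over a cycle. -/
noncomputable def cyc (q : ℕ) [NeZero q] {B : Type} [Ring B] (d : ℕ) (M : B) : St (ZMod q) B :=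
  ((Finset.univ : Finset (ZMod q)).toList.map fun c : ZMod q => StN.x c (c + (d : ZMod q)) M).prod

/-- The algebra produced by the rewriting system (`RewStmt`), as used by the group half. -/
def AlgStmt : Prop :=
  ∃ (A : Type) (_ : Ring A) (_ : Algebra (ZMod 2) A) (𝒜 : ℕ → Submodule (ZMod 2) A)
    (_ : GradedAlgebra 𝒜) (X : Type) (_ : Fintype X) (S : Rew X) (g : X → A) (E : Aug A),
    WordAlg 𝒜 X S g ∧ Infinite A ∧ E.Graded 𝒜 ∧ E.Nil ∧
      ∀ s : ℕ, (∃ ℓ, Nonempty (Phase 𝒜 (2 ^ s) ℓ)) ∧ ∃ ℓ, Nonempty (Phase 𝒜 (3 ^ s) ℓ)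

/-- The statement S0265. -/
def GoalG : Prop := ∃ (G : Type) (_ : Group G),
  Infinite G ∧ Group.IsFinitelyPresented G ∧ Group.ResiduallyFinite G ∧ IsPGroup 2 G

/-- The statement S0266. -/
def GoalA : Prop :=
  ∃ (R : Type) (_ : Ring R) (_ : Algebra (ZMod 2) R) (𝒜 : ℕ → Submodule (ZMod 2) R)
    (_ : GradedAlgebra 𝒜),
    Infinite R ∧ 𝒜 0 = 1 ∧
    (∃ (m : ℕ) (rel : Finset (FreeAlgebra (ZMod 2) (Fin m) × FreeAlgebra (ZMod 2) (Fin m))),
      Nonempty (R ≃ₐ[ZMod 2] RingQuot fun x y : FreeAlgebra (ZMod 2) (Fin m) => (x, y) ∈ rel)) ∧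
    ∀ (l : ℕ) (A : Matrix (Fin l) (Fin l) R), (∀ i j, GradedRing.proj 𝒜 0 (A i j) = 0) →
      IsNilpotent A

/-- The bridge from the rewriting system to the algebra. -/
def BridgeStmt : Prop := RewStmt → AlgStmt ∧ GoalA

/-- The group half. -/
def GroupStmt : Prop := AlgStmt → GoalG

end Crest.Agent.R176
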