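import Crest.Agent.R176.GD

/-!
Row 176, group half: Steinberg relations for words from finitely many relations.
-/

set_option autoImplicit false
set_option linter.unusedSectionVars false

open scoped commutatorElement

namespace Crest.Agent.R176

/-- The relations between the generators `y i j o` (`o = none` stands for the empty word). -/
structure GenRel {ι X G : Type} [Group G] (y : ι → ι → Option X → G) : Prop where
  sq : ∀ i j, i ≠ j → y i j none * y i j none = 1
  comm : ∀ i j k l o o', i ≠ j → k ≠ l → j ≠ k → i ≠ l → Commute (y i j o) (y k l o')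
  brk₁ : ∀ i j k o, i ≠ j → j ≠ k → i ≠ k → ⁅y i j none, y j k o⁆ = y i k o
  brk₂ : ∀ i j k o, i ≠ j → j ≠ k → i ≠ k → ⁅y i j o, y j k none⁆ = y i k o

/-- The root element of a word; `m i j` is a third index. -/
def wordElt {ι X G : Type} [Group G] (m : ι → ι → ι) (y : ι → ι → Option X → G) :
    List X → ι → ι → G
  | [], i, j => y i j none
  | [x], i, j => y i j (some x)
  | x :: x' :: w, i, j => ⁅y i (m i j) (some x), wordElt m y (x' :: w) (m i j) j⁆

theorem wordElt_anchor : type_of% @wordElt.eq_def := @wordElt.eq_def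

variable {ι X G : Type} [Group G] [Fintype ι] [DecidableEq ι] {m : ι → ι → ι}
  {y : ι → ι → Option X → G}

namespace FPA

theorem brk_assoc {a b c e f : G} (hac : Commute a c) (he : ⁅b, c⁆ = e) (hf : ⁅a, b⁆ = f)
    (hfe : Commute f e) (hec : Commute e c) : ⁅a, e⁆ = ⁅f, c⁆ := by
  have h₁ : a * e * a⁻¹ = f * e * f⁻¹ * ⁅f, c⁆ := by
    have h₂ : a * c * a⁻¹ = c := by rw [hac.eq, mul_inv_cancel_right]
    calc a * e * a⁻¹ = ⁅a * b * a⁻¹, a * c * a⁻¹⁆ := by
          rw [← he]; simp only [commutatorElement_def]; group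
      _ = ⁅f * b, c⁆ := by rw [h₂, ← hf, commutatorElement_def a b, inv_mul_cancel_right]
      _ = _ := by rw [← he]; simp only [commutatorElement_def]; group
  have h₃ : Commute e ⁅f, c⁆ := by
    rw [commutatorElement_def]
    exact ((hfe.symm.mul_right hec).mul_right hfe.symm.inv_right).mul_right hec.inv_right
  rw [commutatorElement_def a e, h₁, hfe.eq, mul_inv_cancel_right, h₃.eq, mul_inv_cancel_right]

theorem comm_brk {a b c : G} (h₁ : Commute a c) (h₂ : Commute b c) : Commute ⁅a, b⁆ c := by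
  rw [commutatorElement_def]
  exact ((h₁.mul_left h₂).mul_left h₁.inv_left).mul_left h₂.inv_left

theorem fresh (hι : 5 ≤ Fintype.card ι) (i j k l : ι) : ∃ n, n ≠ i ∧ n ≠ j ∧ n ≠ k ∧ n ≠ l := by
  have : ({i, j, k, l} : Finset ι).card < (Finset.univ : Finset ι).card :=
    lt_of_le_of_lt Finset.card_le_four (by rw [Finset.card_univ]; omega)
  obtain ⟨n, -, hn⟩ := Finset.exists_mem_notMem_of_card_lt_card this
  exact ⟨n, by simpa [not_or] using hn⟩

variable (m y)

/-- Brackets up to total length `d`. -/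
def PB (d : ℕ) : Prop := ∀ u v : List X, u.length + v.length ≤ d → ∀ i j k : ι, i ≠ j → j ≠ k →
  i ≠ k → ⁅wordElt m y u i j, wordElt m y v j k⁆ = wordElt m y (u ++ v) i k

/-- Brackets of non-empty words up to total length `d`. -/
def PB' (d : ℕ) : Prop := ∀ u v : List X, u ≠ [] → v ≠ [] → u.length + v.length ≤ d →
  ∀ i j k : ι, i ≠ j → j ≠ k → i ≠ k →
    ⁅wordElt m y u i j, wordElt m y v j k⁆ = wordElt m y (u ++ v) i k

/-- Commutation for words of length at most `d`. -/
def PC (d : ℕ) : Prop := ∀ u v : List X, u.length ≤ d → v.length ≤ d → ∀ i j k l : ι, i ≠ j →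
  k ≠ l → j ≠ k → i ≠ l → Commute (wordElt m y u i j) (wordElt m y v k l)

variable {m y}

theorem short {u : List X} (h : u.length ≤ 1) : ∃ o, ∀ i j, wordElt m y u i j = y i j o := by
  match u, h with
  | [], _ => exact ⟨none, fun _ _ => rfl⟩
  | [x], _ => exact ⟨some x, fun _ _ => rfl⟩

theorem long {u : List X} (h : ¬ u.length ≤ 1) : ∃ x v, v ≠ [] ∧ u = [x] ++ v := by
  match u, h with
  | [], h => simp at h
  | [x], h => simp at h
  | x :: x' :: v, _ => exact ⟨x, x' :: v, by simp, rfl⟩

theorem pc_of (hι : 5 ≤ Fintype.card ι) (h : GenRel y) {d : ℕ} (hP : PB' m y d) : PC m y d := by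
  have key : ∀ n, ∀ u v : List X, u.length + v.length ≤ n → u.length ≤ d → v.length ≤ d →
      ∀ i j k l : ι, i ≠ j → k ≠ l → j ≠ k → i ≠ l →
      Commute (wordElt m y u i j) (wordElt m y v k l) := by
    intro n
    induction n using Nat.strong_induction_on with
    | _ n ih =>
      intro u v hn hu hv i j k l hij hkl hjk hil
      obtain ⟨p, hpi, hpj, hpk, hpl⟩ := fresh hι i j k l
      by_cases h₁ : u.length ≤ 1
      · by_cases h₂ : v.length ≤ 1
        · obtain ⟨o, ho⟩ := short (m := m) (y := y) h₁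
          obtain ⟨o', ho'⟩ := short (m := m) (y := y) h₂
          rw [ho, ho']
          exact h.comm _ _ _ _ _ _ hij hkl hjk hil
        · obtain ⟨x, w, hw, rfl⟩ := long h₂
          have hl : 0 < w.length := List.length_pos_iff.2 hw
          simp only [List.length_append, List.length_singleton] at hn hv
          rw [← hP [x] w (by simp) hw (by simpa using hv) k p l hpk.symm hpl hkl]
          exact (comm_brk
            (ih (n - 1) (by omega) u [x] (by simp; omega) hu (by simp; omega) i j k p hij hpk.symm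
              hjk hpi.symm).symm
            (ih (n - 1) (by omega) u w (by omega) hu (by omega) i j p l hij hpl hpj.symm
              hil).symm).symm
      · obtain ⟨x, w, hw, rfl⟩ := long h₁
        have hl : 0 < w.length := List.length_pos_iff.2 hw
        simp only [List.length_append, List.length_singleton] at hn hu
        rw [← hP [x] w (by simp) hw (by simpa using hu) i p j hpi.symm hpj hij]
        exact comm_brk
          (ih (n - 1) (by omega) [x] v (by simp; omega) (by simp; omega) hv i p k l hpi.symm hkl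
            hpk hil)
          (ih (n - 1) (by omega) w v (by omega) (by omega) hv p j k l hpj hkl hjk hpl)
  exact fun u v hu hv => key _ u v le_rfl hu hv

theorem move {d : ℕ} (hP : PB m y d) (hC : PC m y d) {u₁ u₂ v : List X} (h₁ : u₁ ≠ [])
    (h₂ : v ≠ []) (hl : u₁.length + u₂.length + v.length ≤ d + 1) {i j j' k : ι} (hij : i ≠ j)
    (hjk : j ≠ k) (hik : i ≠ k) (hi : j' ≠ i) (hj : j' ≠ j) (hk : j' ≠ k) :
    ⁅wordElt m y u₁ i j', wordElt m y (u₂ ++ v) j' k⁆ =
      ⁅wordElt m y (u₁ ++ u₂) i j, wordElt m y v j k⁆ := by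
  have l₁ : 0 < u₁.length := List.length_pos_iff.2 h₁
  have l₂ : 0 < v.length := List.length_pos_iff.2 h₂
  exact brk_assoc (hC _ _ (by omega) (by omega) _ _ _ _ hi.symm hjk hj hik)
    (hP u₂ v (by omega) _ _ _ hj hjk hk) (hP u₁ u₂ (by omega) _ _ _ hi.symm hj hij)
    (hC _ _ (by simp; omega) (by simp; omega) _ _ _ _ hij hk hj.symm hik)
    (hC _ _ (by simp; omega) (by omega) _ _ _ _ hk hjk hjk.symm hk)

theorem pb'_succ (hι : 5 ≤ Fintype.card ι) (hm : ∀ i j, m i j ≠ i ∧ m i j ≠ j) {d : ℕ}
    (hP : PB m y d) (hC : PC m y d) : PB' m y (d + 1) := by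
  intro u v hu hv hl i j k hij hjk hik
  obtain ⟨x, u₂, rfl⟩ := List.exists_cons_of_ne_nil hu
  obtain ⟨p, hpi, hpj, hpk, hpm⟩ := fresh hι i j k (m i k)
  have hw : u₂ ++ v ≠ [] := by simp [hv]
  simp only [List.length_cons] at hl
  have e₁ := move hP hC (u₁ := [x]) (u₂ := u₂) (by simp) hv (by simp; omega) hij hjk hik hpi hpj hpk
  have e₂ := move hP hC (u₁ := [x]) (u₂ := []) (by simp) hw (by simp; omega) (hm i k).1.symm
    (hm i k).2 hik hpi hpm hpk
  obtain ⟨x', w, hw'⟩ := List.exists_cons_of_ne_nil hw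
  rw [List.nil_append, List.append_nil, e₁, List.singleton_append] at e₂
  rw [e₂, List.cons_append, hw']
  rfl

theorem pb_succ (hι : 5 ≤ Fintype.card ι) (hm : ∀ i j, m i j ≠ i ∧ m i j ≠ j) (h : GenRel y)
    {d : ℕ} (hd : 1 ≤ d) (hP : PB m y d) : PB m y (d + 1) := by
  have hP' := pb'_succ hι hm hP (pc_of hι h fun u v _ _ => hP u v)
  have hC := pc_of hι h hP'
  intro u v hl i j k hij hjk hik
  by_cases hle : u.length + v.length ≤ d
  · exact hP u v hle i j k hij hjk hik
  obtain ⟨p, hpi, hpj, hpk, -⟩ := fresh hι i j k k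
  by_cases hu : u = []
  · subst hu
    simp only [List.length_nil, zero_add] at hl hle
    obtain ⟨x, w, hw, rfl⟩ := long (u := v) (by omega)
    simp only [List.length_append, List.length_singleton] at hl
    rw [brk_assoc (b := wordElt m y [x] j p) (c := wordElt m y w p k)
      (hC _ _ (by simp) (by omega) _ _ _ _ hij hpk hpj.symm hik)
      (hP' [x] w (by simp) hw (by simpa using hl) _ _ _ hpj.symm hpk hjk)
      (hP [] [x] (by simpa using hd) _ _ _ hij hpj.symm hpi.symm)
      (hC _ _ (by simp) (by simpa [add_comm] using hl) _ _ _ _ hpi.symm hjk hpj hik)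
      (hC _ _ (by simpa [add_comm] using hl) (by omega) _ _ _ _ hjk hpk hpk.symm hjk)]
    exact hP' [x] w (by simp) hw (by simpa using hl) _ _ _ hpi.symm hpk hik
  by_cases hv : v = []
  · subst hv
    simp only [List.length_nil, add_zero] at hl hle
    obtain ⟨x, w, hw, rfl⟩ := long (u := u) (by omega)
    simp only [List.length_append, List.length_singleton] at hl
    rw [← brk_assoc (a := wordElt m y [x] i p) (b := wordElt m y w p j)
      (hC _ _ (by simp) (by simp) _ _ _ _ hpi.symm hjk hpj hik)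
      (hP w [] (by simp; omega) _ _ _ hpj hjk hpk)
      (hP' [x] w (by simp) hw (by simpa using hl) _ _ _ hpi.symm hpj hij)
      (hC _ _ (by simpa [add_comm] using hl) (by simp; omega) _ _ _ _ hij hpk hpj.symm hik)
      (hC _ _ (by simp; omega) (by simp) _ _ _ _ hpk hjk hjk.symm hpk)]
    simp only [List.append_nil]
    exact hP' [x] w (by simp) hw (by simpa using hl) _ _ _ hpi.symm hpk hik
  exact hP' u v hu hv hl i j k hij hjk hik

theorem pb_all (hι : 5 ≤ Fintype.card ι) (hm : ∀ i j, m i j ≠ i ∧ m i j ≠ j) (h : GenRel y)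
    (d : ℕ) : PB m y (d + 1) := by
  induction d with
  | zero =>
    intro u v hl i j k hij hjk hik
    by_cases hu : u = []
    · subst hu
      obtain ⟨o, ho⟩ := short (m := m) (y := y) (u := v) (by simpa using hl)
      rw [List.nil_append, ho, ho]
      exact h.brk₁ _ _ _ _ hij hjk hik
    · have l₁ : 0 < u.length := List.length_pos_iff.2 hu
      obtain rfl : v = [] := List.length_eq_zero_iff.1 (by omega)
      obtain ⟨o, ho⟩ := short (m := m) (y := y) (u := u) (by omega)
      rw [List.append_nil, ho, ho]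
      exact h.brk₂ _ _ _ _ hij hjk hik
  | succ d ih => exact pb_succ hι hm h (by omega) ih

end FPA

theorem wordElt_brk (hι : 5 ≤ Fintype.card ι) (hm : ∀ i j, m i j ≠ i ∧ m i j ≠ j) (h : GenRel y)
    (u v : List X) {i j k : ι} (hij : i ≠ j) (hjk : j ≠ k) (hik : i ≠ k) :
    ⁅wordElt m y u i j, wordElt m y v j k⁆ = wordElt m y (u ++ v) i k := by
  exact FPA.pb_all hι hm h (u.length + v.length) u v (by omega) i j k hij hjk hik

theorem wordElt_comm (hι : 5 ≤ Fintype.card ι) (hm : ∀ i j, m i j ≠ i ∧ m i j ≠ j) (h : GenRel y)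
    (u v : List X) {i j k l : ι} (hij : i ≠ j) (hkl : k ≠ l) (hjk : j ≠ k) (hil : i ≠ l) :
    Commute (wordElt m y u i j) (wordElt m y v k l) := by
  exact FPA.pc_of hι h (fun u' v' _ _ => FPA.pb_all hι hm h (u.length + v.length) u' v') u v
    (by omega) (by omega) i j k l hij hkl hjk hil

theorem wordElt_sq (hι : 5 ≤ Fintype.card ι) (hm : ∀ i j, m i j ≠ i ∧ m i j ≠ j) (h : GenRel y)
    (u : List X) {i j : ι} (hij : i ≠ j) : wordElt m y u i j * wordElt m y u i j = 1 := by
  obtain ⟨p, hpi, hpj, -, -⟩ := FPA.fresh hι i j j j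
  have h₁ := wordElt_brk hι hm h [] u hpi.symm hpj hij
  have h₂ := wordElt_comm hι hm h [] u hpi.symm hij hpi hij
  have h₃ : wordElt m y [] i p * wordElt m y [] i p = 1 := h.sq _ _ hpi.symm
  rw [List.nil_append] at h₁
  generalize wordElt m y [] i p = a at h₁ h₂ h₃
  generalize wordElt m y u p j = b at h₁
  generalize wordElt m y u i j = t at h₁ h₂
  calc t * t = a * t * a⁻¹ * t := by rw [h₂.eq, mul_inv_cancel_right]
    _ = ⁅a * a, b⁆ := by rw [← h₁]; simp only [commutatorElement_def]; group
    _ = 1 := by rw [h₃, commutatorElement_one_left]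

end Crest.Agent.R176
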