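import Crest.Agent.R176.GD

/-!
Row 176, group half: words, functoriality, comparison lemmas.
-/

set_option autoImplicit false
set_option linter.unusedSectionVars false

open scoped commutatorElement

namespace Crest.Agent.R176

section words

variable {ι R : Type} [Ring R]

theorem ev_eq_evX (W : List (ι × ι × R)) : ev W = evX StN.x W := rfl

@[simp] theorem evX_nil {G : Type} [Group G] (X : ι → ι → R → G) : evX X [] = 1 := rfl

@[simp] theorem evX_cons {G : Type} [Group G] (X : ι → ι → R → G) (t : ι × ι × R)
    (W : List (ι × ι × R)) : evX X (t :: W) = X t.1 t.2.1 t.2.2 * evX X W := by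
  simp [evX]

theorem evX_append {G : Type} [Group G] (X : ι → ι → R → G) (W W' : List (ι × ι × R)) :
    evX X (W ++ W') = evX X W * evX X W' := by
  simp [evX]

theorem evX_congr {G : Type} [Group G] {X X' : ι → ι → R → G} {P : Set R}
    {W : List (ι × ι × R)} (hW : Letters P W)
    (h : ∀ i j a, i ≠ j → a ∈ P → X i j a = X' i j a) : evX X W = evX X' W := by
  unfold evX
  congr 1
  exact List.map_congr_left fun t ht => h _ _ _ (hW t ht).1 (hW t ht).2

theorem map_evX {G H : Type} [Group G] [Group H] (f : G →* H) (X : ι → ι → R → G)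
    (W : List (ι × ι × R)) : f (evX X W) = evX (fun i j a => f (X i j a)) W := by
  induction W with
  | nil => simp
  | cons t W ih => rw [evX_cons, evX_cons, map_mul, ih]

theorem Letters.mono {P P' : Set R} (h : P ⊆ P') {W : List (ι × ι × R)} (hW : Letters P W) :
    Letters P' W := fun t ht => ⟨(hW t ht).1, h (hW t ht).2⟩

theorem Letters.append {P : Set R} {W W' : List (ι × ι × R)} (hW : Letters P W)
    (hW' : Letters P W') : Letters P (W ++ W') := fun t ht =>
  (List.mem_append.1 ht).elim (hW t) (hW' t)

theorem ev_reverse [CharP R 2] {P : Set R} {W : List (ι × ι × R)} (hW : Letters P W) :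
    ev W.reverse = (ev W)⁻¹ := by
  induction W with
  | nil => simp [ev]
  | cons t W ih =>
    have h1 : Letters P W := fun t' ht' => hW t' (List.mem_cons_of_mem _ ht')
    have h2 : t.1 ≠ t.2.1 := (hW t List.mem_cons_self).1
    rw [List.reverse_cons, ev_eq_evX, evX_append, ← ev_eq_evX, ih h1, ev_eq_evX (t :: W),
      evX_cons, evX_cons, evX_nil, mul_one, mul_inv_rev,
      StN.isSt.inv_eq (Φ := Net.full ι) h2, ev_eq_evX]

/-- Elements of the subgroup generated by root elements with entries in the additive closure of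
`P` are words with entries in `P` (characteristic two). -/
theorem exists_ev_of_mem [CharP R 2] {P Q : Set R} (hQ : ∀ a ∈ Q, a ∈ AddSubgroup.closure P)
    {g : St ι R} (hg : g ∈ Subgroup.closure (roots ι Q)) : ∃ W, Letters P W ∧ ev W = g := by
  have hmul : ∀ a b : St ι R, (∃ W, Letters P W ∧ ev W = a) → (∃ W, Letters P W ∧ ev W = b) →
      ∃ W, Letters P W ∧ ev W = a * b := by
    rintro _ _ ⟨W, hW, rfl⟩ ⟨W', hW', rfl⟩
    exact ⟨W ++ W', hW.append hW', evX_append _ _ _⟩
  have hinv : ∀ a : St ι R, (∃ W, Letters P W ∧ ev W = a) → ∃ W, Letters P W ∧ ev W = a⁻¹ := by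
    rintro _ ⟨W, hW, rfl⟩
    exact ⟨W.reverse, fun t ht => hW t (List.mem_reverse.1 ht), ev_reverse hW⟩
  have hone : ∃ W : List (ι × ι × R), Letters P W ∧ ev W = 1 :=
    ⟨[], fun _ h => absurd h List.not_mem_nil, rfl⟩
  induction hg using Subgroup.closure_induction with
  | mem g hg =>
    obtain ⟨i, j, a, hij, ha, rfl⟩ := hg
    have ha' := hQ a ha
    clear ha
    induction ha' using AddSubgroup.closure_induction with
    | mem a ha =>
      refine ⟨[(i, j, a)], fun t ht => ?_, by simp [ev]⟩
      rw [List.mem_singleton.1 ht]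
      exact ⟨hij, ha⟩
    | zero => rw [StN.isSt.zero (Φ := Net.full ι) hij]; exact hone
    | add a b _ _ ha hb => rw [StN.isSt.add (Φ := Net.full ι) i j a b hij]; exact hmul _ _ ha hb
    | neg a _ ha => rw [← StN.isSt.inv (Φ := Net.full ι) hij]; exact hinv _ ha
  | one => exact hone
  | mul a b _ _ ha hb => exact hmul a b ha hb
  | inv a _ ha => exact hinv a ha

theorem closure_roots_univ : Subgroup.closure (roots ι (Set.univ : Set R)) = ⊤ := by
  rw [← StN.closure_x]
  congr 1
  ext g
  simp [roots]

theorem genI_eq (D : Ideal R) : genI ι D = Subgroup.closure (roots ι (D : Set R)) := rfl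

end words

/-- Comparison of two words letter by letter modulo a subgroup on which `π` is injective. -/
theorem cmp_eq {G M T : Type} [Group G] [Group M] (π : G →* M) (H : Subgroup G)
    (hinj : ∀ y ∈ H, π y = 1 → y = 1) (X X' : T → G) (W : List T)
    (hn : ∀ t ∈ W, ∀ y ∈ H, X t * y * (X t)⁻¹ ∈ H) (hd : ∀ t ∈ W, X' t * (X t)⁻¹ ∈ H)
    (hπ : π (W.map X).prod = π (W.map X').prod) : (W.map X).prod = (W.map X').prod := by
  have key : (W.map X').prod * ((W.map X).prod)⁻¹ ∈ H := by
    clear hπ
    induction W with
    | nil => simp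
    | cons t W ih =>
      have h1 := ih (fun t' ht' => hn t' (List.mem_cons_of_mem _ ht'))
        (fun t' ht' => hd t' (List.mem_cons_of_mem _ ht'))
      have h2 := mul_mem (hd t List.mem_cons_self) (hn t List.mem_cons_self _ h1)
      convert h2 using 1
      simp only [List.map_cons, List.prod_cons]
      group
  have h3 := hinj _ key (by rw [map_mul, map_inv, hπ, mul_inv_cancel])
  exact (mul_inv_eq_one.1 h3).symm

/-- Two commuting families. -/
theorem prod_map_mul_of_commute {G T : Type} [Group G] (Y Z : T → G) (W : List T)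
    (h : ∀ t ∈ W, ∀ t' ∈ W, Commute (Y t) (Z t')) :
    (W.map fun t => Y t * Z t).prod = (W.map Y).prod * (W.map Z).prod := by
  induction W with
  | nil => simp
  | cons t W ih =>
    have h1 := ih fun a ha b hb => h a (List.mem_cons_of_mem _ ha) b (List.mem_cons_of_mem _ hb)
    have h2 : Commute (Z t) (W.map Y).prod := by
      refine Commute.list_prod_right _ _ fun y hy => ?_
      obtain ⟨a, ha, rfl⟩ := List.mem_map.1 hy
      exact (h a (List.mem_cons_of_mem _ ha) t List.mem_cons_self).symm
    simp only [List.map_cons, List.prod_cons]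
    rw [h1, mul_assoc, ← mul_assoc (Z t), h2.eq, mul_assoc, mul_assoc]

section funct

variable {ι κ κ' R R' R'' : Type} [Ring R] [Ring R'] [Ring R'']

theorem rmap_incl (f : R →+* R') (e : ι ↪ κ) (g : St ι R) :
    StN.rmap _ f (St.incl R e g) = St.incl R' e (StN.rmap _ f g) := by
  have : (StN.rmap _ f).comp (St.incl R e) = (St.incl R' e).comp (StN.rmap _ f) :=
    StN.hom_ext fun i j a hij => by
      simp only [MonoidHom.comp_apply]
      rw [St.incl_x e hij, StN.rmap_x, StN.rmap_x, St.incl_x e hij]
  exact DFunLike.congr_fun this g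

theorem incl_incl (e : ι ↪ κ) (e' : κ ↪ κ') (g : St ι R) :
    St.incl R e' (St.incl R e g) = St.incl R (e.trans e') g := by
  have : (St.incl R e').comp (St.incl R e) = St.incl R (e.trans e') :=
    StN.hom_ext fun i j a hij => by
      simp only [MonoidHom.comp_apply]
      rw [St.incl_x e hij, St.incl_x e' (e.injective.ne hij), St.incl_x _ hij]
      rfl
  exact DFunLike.congr_fun this g

theorem incl_refl (g : St ι R) : St.incl R (Function.Embedding.refl ι) g = g := by
  have : St.incl R (Function.Embedding.refl ι) = MonoidHom.id _ :=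
    StN.hom_ext fun i j a hij => by
      rw [St.incl_x _ hij]
      rfl
  exact DFunLike.congr_fun this g

theorem rmap_rmap {Φ : Net ι} (f : R →+* R') (f' : R' →+* R'') (g : StN Φ R) :
    StN.rmap Φ f' (StN.rmap Φ f g) = StN.rmap Φ (f'.comp f) g := by
  have : (StN.rmap Φ f').comp (StN.rmap Φ f) = StN.rmap Φ (f'.comp f) :=
    StN.hom_ext fun i j a _ => by
      simp only [MonoidHom.comp_apply, StN.rmap_x, RingHom.comp_apply]
  exact DFunLike.congr_fun this g

/-- The kernel of a surjective change of rings. -/
theorem ker_rmap_le (f : R →+* R') (hf : Function.Surjective f) :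
    (StN.rmap (Net.full ι) f).ker ≤ Subgroup.normalClosure (roots ι {a | f a = 0}) := by
  set N := Subgroup.normalClosure (roots ι {a | f a = 0}) with hN
  have hY : IsSt (Net.full ι) fun i j (a : R) => QuotientGroup.mk' N (StN.x i j a) :=
    StN.isSt.map (QuotientGroup.mk' N)
  have hdep : ∀ i j : ι, i ≠ j → ∀ a b : R, f a = f b →
      QuotientGroup.mk' N (StN.x i j a) = QuotientGroup.mk' N (StN.x i j b) := by
    intro i j hij a b hab
    have h1 : QuotientGroup.mk' N (StN.x i j (a - b)) = 1 := by
      rw [QuotientGroup.mk'_apply, QuotientGroup.eq_one_iff]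
      exact Subgroup.subset_normalClosure ⟨i, j, a - b, hij, by simp [hab], rfl⟩
    have h2 := hY.add i j (a - b) b hij
    rw [sub_add_cancel, h1, one_mul] at h2
    exact h2
  have hs : ∀ a', f (Function.surjInv hf a') = a' := Function.surjInv_eq hf
  have hX : IsSt (Net.full ι) fun i j (a' : R') =>
      QuotientGroup.mk' N (StN.x i j (Function.surjInv hf a')) :=
    { add := fun i j a b hij => by
        rw [← hY.add i j _ _ hij]
        exact hdep i j hij _ _ (by rw [map_add, hs, hs, hs])
      comm := fun i j k l a b h₁ h₂ h₃ h₄ => hY.comm i j k l _ _ h₁ h₂ h₃ h₄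
      brk := fun i j k a b h₁ h₂ h₃ => by
        rw [hY.brk i j k _ _ h₁ h₂ h₃]
        exact hdep i k h₃ _ _ (by rw [map_mul, hs, hs, hs]) }
  have hc : (StN.lift hX).comp (StN.rmap (Net.full ι) f) = QuotientGroup.mk' N :=
    StN.hom_ext fun i j a hij => by
      rw [MonoidHom.comp_apply, StN.rmap_x, StN.lift_x hX hij]
      exact hdep i j hij _ _ (hs _)
  intro g hg
  have h1 := DFunLike.congr_fun hc g
  rw [MonoidHom.comp_apply, MonoidHom.mem_ker.1 hg, map_one] at h1
  exact (QuotientGroup.eq_one_iff g).1 h1.symm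

/-- After one stabilisation the normal closure of the root elements over `D²` lies in the
subgroup generated by the root elements over `D`. -/
theorem incl_mem_genI (D : Ideal R) [D.IsTwoSided] {Q : Set R}
    (hQ : ∀ a ∈ Q, a ∈ AddSubgroup.closure (Prods D)) {y : St ι R}
    (hy : y ∈ Subgroup.normalClosure (roots ι Q)) :
    St.incl R (Function.Embedding.some : ι ↪ Option ι) y ∈ genI (Option ι) D := by
  classical
  set φ := St.incl R (Function.Embedding.some : ι ↪ Option ι) with hφ
  have hφx : ∀ {i j : ι}, i ≠ j → ∀ a : R, φ (StN.x i j a) = StN.x (some i) (some j) a :=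
    fun hij a => St.incl_x _ hij a
  let K : Subgroup (St (Option ι) R) := Subgroup.closure
    {g | ∃ i d, d ∈ D ∧ (g = StN.x (some i) none d ∨ g = StN.x none (some i) d)}
  have hC : ∀ i, ∀ d ∈ D, StN.x (some i) none d ∈ K := fun i d hd =>
    Subgroup.subset_closure ⟨i, d, hd, Or.inl rfl⟩
  have hR : ∀ i, ∀ d ∈ D, StN.x none (some i) d ∈ K := fun i d hd =>
    Subgroup.subset_closure ⟨i, d, hd, Or.inr rfl⟩
  have hsn : ∀ i : ι, (Net.full (Option ι)).rel (some i) none := fun i => Option.some_ne_none i
  have hns : ∀ i : ι, (Net.full (Option ι)).rel none (some i) := fun i =>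
    (Option.some_ne_none i).symm
  have hKle : K ≤ genI (Option ι) D := by
    refine (Subgroup.closure_le _).2 ?_
    rintro _ ⟨i, d, hd, rfl | rfl⟩
    · exact Subgroup.subset_closure ⟨_, _, d, hsn i, hd, rfl⟩
    · exact Subgroup.subset_closure ⟨_, _, d, hns i, hd, rfl⟩
  have hgen : ∀ i j : ι, i ≠ j → ∀ r : R, ∀ z ∈ K,
      StN.x (some i) (some j) r * z * (StN.x (some i) (some j) r)⁻¹ ∈ K := by
    intro i j hij r z hz
    have hss : (Net.full (Option ι)).rel (some i) (some j) := fun e => hij (Option.some.inj e)
    induction hz using Subgroup.closure_induction with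
    | mem z hz =>
      obtain ⟨k, d, hd, rfl | rfl⟩ := hz
      · by_cases hk : k = j
        · subst hk
          rw [StN.isSt.conj_left hss (hsn k) (hsn i)]
          exact mul_mem (hC _ _ (D.mul_mem_left r hd)) (hC _ _ hd)
        · rw [StN.isSt.conj_comm hss (hsn k) (fun e => hk (Option.some.inj e).symm) (hsn i)]
          exact hC _ _ hd
      · by_cases hk : k = i
        · subst hk
          rw [StN.isSt.conj_right hss (hns k) (hns j)]
          exact mul_mem (hR _ _ (neg_mem (Ideal.mul_mem_right r D hd))) (hR _ _ hd)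
        · rw [StN.isSt.conj_comm hss (hns k) (hsn j) (fun e => hk (Option.some.inj e).symm)]
          exact hR _ _ hd
    | one => simp
    | mul a b _ _ ha hb =>
      convert mul_mem ha hb using 1
      group
    | inv a _ ha =>
      convert inv_mem ha using 1
      group
  have hconj : ∀ g : St ι R, (∀ z ∈ K, φ g * z * (φ g)⁻¹ ∈ K) ∧
      ∀ z ∈ K, (φ g)⁻¹ * z * φ g ∈ K := by
    intro g
    induction g using StN.induction with
    | hx i j a hij =>
      have hss : (Net.full (Option ι)).rel (some i) (some j) := fun e => hij (Option.some.inj e)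
      rw [hφx hij]
      refine ⟨hgen i j hij a, fun z hz => ?_⟩
      have := hgen i j hij (-a) z hz
      rwa [← StN.isSt.inv hss, inv_inv] at this
    | h1 => simp
    | hm a b ha hb =>
      refine ⟨fun z hz => ?_, fun z hz => ?_⟩
      · convert ha.1 _ (hb.1 z hz) using 1
        rw [map_mul]; group
      · convert hb.2 _ (ha.2 z hz) using 1
        rw [map_mul]; group
    | hi a ha =>
      rw [map_inv, inv_inv]
      exact ⟨ha.2, ha.1⟩
  have hnormal : (K.comap φ).Normal := ⟨fun n hn g => by
    rw [Subgroup.mem_comap, map_mul, map_mul, map_inv]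
    exact (hconj g).1 _ hn⟩
  have hsub : roots ι Q ⊆ K.comap φ := by
    rintro _ ⟨i, j, a, hij, ha, rfl⟩
    have hss : (Net.full (Option ι)).rel (some i) (some j) := fun e => hij (Option.some.inj e)
    rw [SetLike.mem_coe, Subgroup.mem_comap, hφx hij]
    have ha' := hQ a ha
    clear ha
    induction ha' using AddSubgroup.closure_induction with
    | mem a ha =>
      obtain ⟨b, hb, c, hc, rfl⟩ := ha
      rw [← StN.isSt.brk _ none _ b c (hsn i) (hns j) hss, commutatorElement_def]
      exact mul_mem (mul_mem (mul_mem (hC _ _ hb) (hR _ _ hc)) (inv_mem (hC _ _ hb)))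
        (inv_mem (hR _ _ hc))
    | zero => rw [StN.isSt.zero hss]; exact one_mem _
    | add a b _ _ ha hb => rw [StN.isSt.add _ _ a b hss]; exact mul_mem ha hb
    | neg a _ ha => rw [← StN.isSt.inv hss]; exact inv_mem ha
  exact hKle (Subgroup.normalClosure_le_normal hsub hy)

end funct

end Crest.Agent.R176
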