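import Crest.Agent.R176.GFPA
import Crest.Agent.R176.GAlg
import Crest.Agent.R176.GWord
import Crest.Agent.R185.FPres

/-!
Row 176, group half: the Steinberg group is finitely presented.
-/

set_option autoImplicit false
set_option linter.unusedSectionVars false

open scoped commutatorElement

namespace Crest.Agent.R176

namespace GFPB

section words

variable {ι X G H : Type} [Group G] [Group H] {m : ι → ι → ι}

theorem wordElt_nil (y : ι → ι → Option X → G) (i j : ι) : wordElt m y [] i j = y i j none := rfl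

theorem wordElt_one (y : ι → ι → Option X → G) (x : X) (i j : ι) :
    wordElt m y [x] i j = y i j (some x) := rfl

theorem wordElt_two (y : ι → ι → Option X → G) (x x' : X) (w : List X) (i j : ι) :
    wordElt m y (x :: x' :: w) i j =
      ⁅y i (m i j) (some x), wordElt m y (x' :: w) (m i j) j⁆ := rfl

theorem map_wordElt (f : G →* H) (y : ι → ι → Option X → G) (w : List X) (i j : ι) :
    f (wordElt m y w i j) = wordElt m (fun i j o => f (y i j o)) w i j := by
  induction w generalizing i with
  | nil => rfl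
  | cons x w ih =>
    cases w with
    | nil => rfl
    | cons x' w => rw [wordElt_two, wordElt_two, map_commutatorElement, ih]

theorem wordElt_st {A : Type} [Ring A] (hm : ∀ i j, m i j ≠ i ∧ m i j ≠ j) (g : X → A)
    (w : List X) {i j : ι} (hij : i ≠ j) :
    wordElt m (fun i j o => (StN.x i j (o.elim 1 g) : St ι A)) w i j =
      StN.x i j (w.map g).prod := by
  induction w generalizing i with
  | nil => rfl
  | cons x w ih =>
    cases w with
    | nil => rw [wordElt_one, List.map_singleton, List.prod_singleton]; rfl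
    | cons x' w =>
      rw [wordElt_two, ih (hm i j).2, StN.isSt.brk i (m i j) j _ _ (hm i j).1.symm (hm i j).2 hij,
        List.map_cons (a := x), List.prod_cons]
      rfl

end words

variable {A : Type} [Ring A] [Algebra (ZMod 2) A] [CharP A 2] {𝒜 : ℕ → Submodule (ZMod 2) A}
  [GradedAlgebra 𝒜] {X : Type} {S : Rew X} {g : X → A}

theorem word_ind (h : WordAlg 𝒜 X S g) {P : A → Prop} (h0 : P 0)
    (hw : ∀ w : List X, P (w.map g).prod) (hadd : ∀ a b, P a → P b → P (a + b)) (a : A) : P a := by
  induction h.mem_closure a using AddSubgroup.closure_induction with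
  | mem a ha => obtain ⟨w, rfl⟩ := ha; exact hw w
  | zero => exact h0
  | add a b _ _ ha hb => exact hadd a b ha hb
  | neg a _ ha => rwa [CharTwo.neg_eq]

theorem lin_group (h : WordAlg 𝒜 X S g) {G : Type} [Group G] (f : List X → G)
    (hc : ∀ u v, Commute (f u) (f v)) (hsq : ∀ w, f w * f w = 1)
    (hs : ∀ l a b r, S.step a b → f (l ++ a ++ r) = f (l ++ b ++ r))
    (hz : ∀ l a r, S.zero a → f (l ++ a ++ r) = 1) :
    ∃ L : A → G, (∀ a b, L (a + b) = L a * L b) ∧ ∀ w, L (w.map g).prod = f w := by
  have hc' := Subgroup.isMulCommutative_closure (k := Set.range f)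
    (by rintro _ ⟨u, rfl⟩ _ ⟨v, rfl⟩; exact hc u v)
  let _ : CommGroup (Subgroup.closure (Set.range f)) :=
    { (inferInstance : Group (Subgroup.closure (Set.range f))) with mul_comm := hc'.is_comm.comm }
  obtain ⟨L, hL⟩ := h.lin (Additive (Subgroup.closure (Set.range f)))
    (fun w => Additive.ofMul ⟨f w, Subgroup.subset_closure ⟨w, rfl⟩⟩)
    (fun w => Subtype.ext (hsq w))
    ⟨fun l a b r hab => Subtype.ext (hs l a b r hab), fun l a r ha => Subtype.ext (hz l a r ha)⟩
  refine ⟨fun a => (L a).toMul.1, fun a b => ?_, fun w => ?_⟩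
  · exact congrArg (fun z => (Additive.toMul z).1) (L.map_add a b)
  · exact congrArg (fun z => (Additive.toMul z).1) (hL w)

theorem exists_isSt (h : WordAlg 𝒜 X S g) {ι G : Type} [Group G] [Fintype ι] [DecidableEq ι]
    (hι : 5 ≤ Fintype.card ι) {m : ι → ι → ι} (hm : ∀ i j, m i j ≠ i ∧ m i j ≠ j)
    {y : ι → ι → Option X → G} (hy : GenRel y)
    (hs : ∀ i j a b, i ≠ j → S.step a b → wordElt m y a i j = wordElt m y b i j)
    (hz : ∀ i j a, i ≠ j → S.zero a → wordElt m y a i j = 1) :
    ∃ X' : ι → ι → A → G, IsSt (Net.full ι) X' ∧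
      ∀ i j w, i ≠ j → X' i j (w.map g).prod = wordElt m y w i j := by
  have split : ∀ i j l a r, i ≠ j → wordElt m y (l ++ a ++ r) i j = ⁅wordElt m y l i (m i j),
      ⁅wordElt m y a (m i j) (m (m i j) j), wordElt m y r (m (m i j) j) j⁆⁆ := fun i j l a r hij => by
    rw [wordElt_brk hι hm hy a r (hm _ j).1.symm (hm _ j).2 (hm i j).2,
      wordElt_brk hι hm hy l _ (hm i j).1.symm (hm i j).2 hij, List.append_assoc]
  have ex : ∀ i j, ∃ L : A → G, i ≠ j → (∀ a b, L (a + b) = L a * L b) ∧
      ∀ w, L (w.map g).prod = wordElt m y w i j := fun i j => by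
    by_cases hij : i = j
    · exact ⟨fun _ => 1, fun h => absurd hij h⟩
    · obtain ⟨L, hL⟩ := lin_group h (fun w => wordElt m y w i j)
        (fun u v => wordElt_comm hι hm hy u v hij hij (Ne.symm hij) hij)
        (fun w => wordElt_sq hι hm hy w hij)
        (fun l a b r hab => by
          rw [split i j l a r hij, split i j l b r hij, hs _ _ a b (hm _ j).1.symm hab])
        (fun l a r ha => by
          rw [split i j l a r hij, hz _ _ a (hm _ j).1.symm ha, commutatorElement_one_left,
            commutatorElement_one_right])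
      exact ⟨L, fun _ => hL⟩
  choose X' hX' using ex
  have h0 : ∀ i j, i ≠ j → X' i j 0 = 1 := fun i j hij => by
    have := (hX' i j hij).1 0 0
    rwa [add_zero, left_eq_mul] at this
  have hcomm : ∀ i j k l a b, i ≠ j → k ≠ l → j ≠ k → i ≠ l → Commute (X' i j a) (X' k l b) := by
    intro i j k l a b hij hkl hjk hil
    induction a using word_ind h with
    | h0 => rw [h0 i j hij]; exact Commute.one_left _
    | hadd a a' ha ha' => rw [(hX' i j hij).1]; exact ha.mul_left ha'
    | hw u =>
      induction b using word_ind h with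
      | h0 => rw [h0 k l hkl]; exact Commute.one_right _
      | hadd b b' hb hb' => rw [(hX' k l hkl).1]; exact hb.mul_right hb'
      | hw v =>
        rw [(hX' i j hij).2, (hX' k l hkl).2]
        exact wordElt_comm hι hm hy u v hij hkl hjk hil
  refine ⟨X', ⟨fun i j a b hij => (hX' i j hij).1 a b, hcomm, ?_⟩,
    fun i j w hij => (hX' i j hij).2 w⟩
  intro i j k a b hij hjk hik
  have hij : i ≠ j := hij
  have hjk : j ≠ k := hjk
  induction a using word_ind h with
  | h0 => rw [h0 i j hij, zero_mul, h0 i k hik, commutatorElement_one_left]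
  | hadd a a' ha ha' =>
    rw [(hX' i j hij).1, commutatorElement_mul_left_eq_conj_mul, ha, ha',
      (hcomm i j i k _ _ hij hik hij.symm hik).eq, mul_inv_cancel_right, ← (hX' i k hik).1,
      add_mul, add_comm]
  | hw u =>
    induction b using word_ind h with
    | h0 => rw [h0 j k hjk, mul_zero, h0 i k hik, commutatorElement_one_right]
    | hadd b b' hb hb' =>
      rw [(hX' j k hjk).1, commutatorElement_mul_right_eq_mul_conj, hb, hb', mul_assoc, mul_assoc,
        ← mul_assoc (X' j k b), (hcomm j k i k _ _ hjk hik hik.symm hjk).eq, mul_inv_cancel_right,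
        ← (hX' i k hik).1, mul_add]
    | hw v =>
      rw [(hX' i j hij).2, (hX' j k hjk).2, wordElt_brk hι hm hy u v hij hjk hik,
        ← List.prod_append, ← List.map_append, (hX' i k hik).2]

theorem exists_third {ι : Type} [Fintype ι] [DecidableEq ι] (hι : 5 ≤ Fintype.card ι) (i j : ι) :
    ∃ k, k ≠ i ∧ k ≠ j := by
  obtain ⟨k, -, hk⟩ := Finset.exists_mem_notMem_of_card_lt_card
    (s := ({i, j} : Finset ι)) (t := Finset.univ)
    (lt_of_le_of_lt Finset.card_le_two (by rw [Finset.card_univ]; omega))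
  exact ⟨k, by simpa using hk⟩

end GFPB

open GFPB in
theorem st_fp {A : Type} [Ring A] [Algebra (ZMod 2) A] [CharP A 2] {𝒜 : ℕ → Submodule (ZMod 2) A}
    [GradedAlgebra 𝒜] {X : Type} [Fintype X] {S : Rew X} {g : X → A} (h : WordAlg 𝒜 X S g)
    {ι : Type} [Fintype ι] [DecidableEq ι] (hι : 5 ≤ Fintype.card ι) :
    Group.IsFinitelyPresented (St ι A) := by
  choose m hm using exists_third hι
  let y₀ : ι → ι → Option X → FreeGroup (ι × ι × Option X) := fun i j o => FreeGroup.of (i, j, o)
  let φ : FreeGroup (ι × ι × Option X) →* St ι A :=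
    FreeGroup.lift fun t => StN.x t.1 t.2.1 (t.2.2.elim 1 g)
  have φy : ∀ i j o, φ (y₀ i j o) = StN.x i j (o.elim 1 g) := fun i j o => FreeGroup.lift_apply_of
  have φw : ∀ w i j, i ≠ j → φ (wordElt m y₀ w i j) = StN.x i j (w.map g).prod :=
    fun w i j hij => by
      rw [map_wordElt, ← wordElt_st hm g w hij]
      simp only [φy]
  -- the relators
  let W : Set (FreeGroup (ι × ι × Option X)) := insert 1
    ((fun t : List X × ι × ι => wordElt m y₀ t.1 t.2.1 t.2.2) '' {w | w.length ≤ 2} ×ˢ Set.univ)
  have hW : W.Finite := (((List.finite_length_le X 2).prod Set.finite_univ).image _).insert _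
  have W1 : 1 ∈ W := Set.mem_insert _ _
  have Ww : ∀ w i j, w.length ≤ 2 → wordElt m y₀ w i j ∈ W := fun w i j hw =>
    Set.mem_insert_of_mem _ ⟨(w, i, j), ⟨hw, trivial⟩, rfl⟩
  have Wy : ∀ i j o, y₀ i j o ∈ W := fun i j o => by
    cases o with
    | none => exact Ww [] i j (by simp)
    | some x => exact Ww [x] i j (by simp)
  let T : Set (FreeGroup (ι × ι × Option X)) :=
    (Set.image2 (fun p q => p * q⁻¹) (Set.image2 (fun p q => ⁅p, q⁆) W W ∪
      Set.image2 (fun p q => p * q) W W) W) ∩ φ.ker
  have hT : T.Finite := (((hW.image2 _ hW).union (hW.image2 _ hW)).image2 _ hW).inter_of_left _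
  let π := QuotientGroup.mk' (Subgroup.normalClosure T)
  have key : ∀ p q, p ∈ Set.image2 (fun p q => ⁅p, q⁆) W W ∪ Set.image2 (fun p q => p * q) W W →
      q ∈ W → φ p = φ q → π p = π q := fun p q hp hq e => by
    rw [← mul_inv_eq_one, ← map_inv, ← map_mul]
    refine (QuotientGroup.eq_one_iff _).2 (Subgroup.subset_normalClosure ⟨⟨p, hp, q, hq, rfl⟩, ?_⟩)
    change φ (p * q⁻¹) = 1
    rw [map_mul, map_inv, e, mul_inv_cancel]
  have k₁ : ∀ p ∈ W, ∀ q ∈ W, ∀ r ∈ W, ⁅φ p, φ q⁆ = φ r → ⁅π p, π q⁆ = π r :=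
    fun p hp q hq r hr e => by
      rw [← map_commutatorElement] at e ⊢
      exact key _ _ (Or.inl ⟨p, hp, q, hq, rfl⟩) hr e
  have k₂ : ∀ p ∈ W, ∀ q ∈ W, φ p = φ q → π p = π q := fun p hp q hq e =>
    key _ _ (Or.inr ⟨p, hp, 1, W1, mul_one p⟩) hq e
  have hy : GenRel fun i j o => π (y₀ i j o) := by
    refine ⟨fun i j hij => ?_, fun i j k l o o' hij hkl hjk hil => ?_,
      fun i j k o hij hjk hik => k₁ _ (Wy _ _ _) _ (Wy _ _ _) _ (Wy _ _ _) ?_,
      fun i j k o hij hjk hik => k₁ _ (Wy _ _ _) _ (Wy _ _ _) _ (Wy _ _ _) ?_⟩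
    · rw [← map_mul, ← map_one π]
      refine key _ _ (Or.inr ⟨_, Wy _ _ _, _, Wy _ _ _, rfl⟩) W1 ?_
      rw [map_mul, φy, map_one]
      exact StN.isSt.mul_self hij _
    · rw [← commutatorElement_eq_one_iff_commute, ← map_one π]
      refine k₁ _ (Wy _ _ _) _ (Wy _ _ _) _ W1 ?_
      rw [φy, φy, map_one, commutatorElement_eq_one_iff_commute]
      exact StN.isSt.comm i j k l _ _ hij hkl hjk hil
    · rw [φy, φy, φy, StN.isSt.brk i j k _ _ hij hjk hik]
      exact congrArg _ (one_mul _)
    · rw [φy, φy, φy, StN.isSt.brk i j k _ _ hij hjk hik]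
      exact congrArg _ (mul_one _)
  obtain ⟨X', hX', hXw⟩ := exists_isSt h hι hm hy
    (fun i j a b hij hab => by
      have hl := h.short.step a b hab
      rw [← map_wordElt, ← map_wordElt]
      refine k₂ _ (Ww _ _ _ hl.2.2) _ (Ww _ _ _ (hl.1 ▸ hl.2.2)) ?_
      have := h.adm.step [] a b [] hab
      simp only [List.nil_append, List.append_nil] at this
      rw [φw _ _ _ hij, φw _ _ _ hij, this])
    (fun i j a hij ha => by
      rw [← map_wordElt, ← map_one π]
      refine k₂ _ (Ww _ _ _ (h.short.zero a ha).2) _ W1 ?_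
      have := h.adm.zero [] a [] ha
      simp only [List.nil_append, List.append_nil] at this
      rw [φw _ _ _ hij, this, map_one]
      exact StN.isSt.zero hij)
  have hψ : (StN.lift hX').comp φ = π := by
    refine FreeGroup.ext_hom _ _ ?_
    rintro ⟨i, j, o⟩
    change StN.lift hX' (φ (y₀ i j o)) = π (y₀ i j o)
    by_cases hij : i = j
    · have e : φ (y₀ i j o) = φ 1 := by rw [φy, map_one, StN.x_off (Φ := Net.full ι) fun h => h hij]
      rw [k₂ _ (Wy _ _ _) _ W1 e, e, map_one, map_one, map_one]
    · rw [φy, StN.lift_x hX' hij]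
      cases o with
      | none => exact hXw i j [] hij
      | some x =>
        have := hXw i j [x] hij
        rwa [List.map_singleton, List.prod_singleton] at this
  refine R185.fp_of_ker φ (fun z => ?_) ⟨T, hT, le_antisymm
    (Subgroup.normalClosure_le_normal Set.inter_subset_right) fun z hz => ?_⟩
  · change z ∈ φ.range
    induction z using StN.induction with
    | hx i j a hij =>
      induction a using word_ind h with
      | h0 => rw [StN.isSt.zero hij]; exact one_mem _
      | hw w => exact ⟨_, φw w i j hij⟩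
      | hadd a b ha hb => rw [StN.isSt.add i j a b hij]; exact mul_mem ha hb
    | h1 => exact one_mem _
    | hm a b ha hb => exact mul_mem ha hb
    | hi a ha => exact inv_mem ha
  · refine (QuotientGroup.eq_one_iff z).1 ?_
    change π z = 1
    rw [← hψ, MonoidHom.comp_apply, MonoidHom.mem_ker.1 hz, map_one]

end Crest.Agent.R176
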