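import Crest.Agent.R176.FPIndex

/-!
Row 176, group half: Reidemeister–Schreier and a transfer lemma.
-/

set_option autoImplicit false
set_option linter.unusedSectionVars false

open scoped commutatorElement

namespace Crest.Agent.R176

/-- Reidemeister–Schreier. -/
theorem fp_of_finiteIndex {G : Type} [Group G] (h : Group.IsFinitelyPresented G) (H : Subgroup G)
    [H.FiniteIndex] : Group.IsFinitelyPresented H :=
  fp_finiteIndex H h

/-- A group generated by involutions whose centre has finite index `m` has exponent dividing
`2 m`. -/
theorem grs_pow_center {H : Type} [Group H] [(Subgroup.center H).FiniteIndex] (S : Set H)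
    (hS : Subgroup.closure S = ⊤) (h2 : ∀ s ∈ S, s * s = 1) (g : H) :
    g ^ (2 * (Subgroup.center H).index) = 1 := by
  have key : ∀ x : H, (MonoidHom.transferCenterPow H x) ^ 2 = 1 := by
    intro x
    have hx : x ∈ Subgroup.closure S := hS ▸ Subgroup.mem_top x
    induction hx using Subgroup.closure_induction with
    | mem s hs => rw [← map_pow, pow_two, h2 s hs, map_one]
    | one => simp
    | mul a b _ _ ha hb =>
      have hc : Commute (MonoidHom.transferCenterPow H a) (MonoidHom.transferCenterPow H b) :=
        Subtype.ext (Subgroup.mem_center_iff.1 (MonoidHom.transferCenterPow H b).2 _)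
      rw [map_mul, hc.mul_pow, ha, hb, one_mul]
    | inv a _ ha => rw [map_inv, inv_pow, ha, inv_one]
  have h := congrArg (fun z : Subgroup.center H => (z : H)) (key g)
  simp only [SubmonoidClass.coe_pow, MonoidHom.transferCenterPow_apply, OneMemClass.coe_one] at h
  rw [mul_comm, pow_mul]
  exact h

/-- Transfer: a group generated by involutions with a central subgroup of index `n` has
exponent dividing `2 n`. -/
theorem pow_eq_one_of_central {G : Type} [Group G] (H K : Subgroup G) (S : Set G)
    (hS : Subgroup.closure S = H) (h2 : ∀ s ∈ S, s * s = 1) (hK : K ≤ Subgroup.center G)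
    (hn : K.relIndex H ≠ 0) {g : G} (hg : g ∈ H) : g ^ (2 * K.relIndex H) = 1 := by
  subst hS
  have hle : K.subgroupOf (Subgroup.closure S) ≤ Subgroup.center (Subgroup.closure S) := by
    intro x hx
    rw [Subgroup.mem_center_iff]
    intro y
    exact Subtype.ext (Subgroup.mem_center_iff.1 (hK (Subgroup.mem_subgroupOf.1 hx)) y)
  have hdvd : (Subgroup.center (Subgroup.closure S)).index ∣ K.relIndex (Subgroup.closure S) :=
    Subgroup.index_dvd_of_le hle
  have : (Subgroup.center (Subgroup.closure S)).FiniteIndex :=
    ⟨fun h0 => hn (by rw [h0] at hdvd; exact zero_dvd_iff.1 hdvd)⟩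
  have h := grs_pow_center (H := Subgroup.closure S) (Subtype.val ⁻¹' S)
    (Subgroup.closure_preimage_eq_top S) (fun s hs => Subtype.ext (h2 s hs)) ⟨g, hg⟩
  obtain ⟨c, hc⟩ := hdvd
  have h' := congrArg (fun z : Subgroup.closure S => (z : G)) h
  simp only [SubmonoidClass.coe_pow, OneMemClass.coe_one] at h'
  rw [hc, ← mul_assoc, pow_mul, h', one_pow]

end Crest.Agent.R176
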