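import Crest.Agent.R176.GSP
import Crest.Agent.R176.GAlg
import Crest.Agent.R176.GRS

/-!
Row 176, group half: finite local rings.
-/

set_option autoImplicit false
set_option linter.unusedSectionVars false

open scoped commutatorElement

namespace Crest.Agent.R176

variable {ι R : Type} [Ring R] [Fintype ι] [DecidableEq ι]

theorem pow_relIndex [Finite R] [CharP R 2] (E : Aug R) (hι : 4 ≤ Fintype.card ι) {S : Set (St ι R)}
    (hS : ∀ s ∈ S, s * s = 1) {g : St ι R} (hg : g ∈ Subgroup.closure S) :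
    g ^ (2 * Nat.card ((Subgroup.closure S).map (StN.π _ R))) = 1 := by
  rw [← Subgroup.relIndex_ker]
  refine pow_eq_one_of_central _ _ S rfl hS (fun z hz => k2_central E hι hz) ?_ hg
  rw [Subgroup.relIndex_ker]
  exact Nat.card_pos.ne'

theorem roots_mul_self [CharP R 2] {P : Set R} : ∀ s ∈ roots ι P, s * s = 1 := by
  rintro _ ⟨i, j, a, h, -, rfl⟩
  exact StN.isSt.mul_self h a

theorem st_finite [Finite R] [CharP R 2] (E : Aug R) (hι : 4 ≤ Fintype.card ι) :
    Finite (St ι R) := by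
  have : Group.FG (St ι R) := Group.fg_iff.2 ⟨_, closure_roots_univ,
    (Set.finite_range fun t : ι × ι × R => (StN.x t.1 t.2.1 t.2.2 : St ι R)).subset (by
      rintro _ ⟨i, j, a, -, -, rfl⟩
      exact ⟨(i, j, a), rfl⟩)⟩
  let _ : CommGroup (StN.π (Net.full ι) R).ker :=
    { (inferInstance : Group _) with
      mul_comm := fun a b => Subtype.ext (Subgroup.mem_center_iff.1 (k2_central E hι b.2) a) }
  have : Finite (StN.π (Net.full ι) R).ker := CommGroup.finite_of_fg_isMulTorsion _ fun g =>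
    isOfFinOrder_iff_pow_eq_one.2 ⟨_, mul_pos two_pos Nat.card_pos, Subtype.ext
      (pow_relIndex E hι (roots_mul_self (P := Set.univ)) (by rw [closure_roots_univ]; trivial))⟩
  exact Finite.of_subgroup_quotient (StN.π (Net.full ι) R).ker

theorem pi_pow_eq_one [CharP R 2] (E : Aug R) (hN : E.Nil) {g : St ι R}
    (hg : StN.rmap _ E.ε g = 1) : ∃ k : ℕ, StN.π _ R g ^ 2 ^ k = 1 := by
  have h := pi_rmap E.ε g
  rw [hg, map_one] at h
  obtain ⟨M, hM⟩ : ∃ M, (StN.π _ R g : Matrix ι ι R) = 1 + M := ⟨_, (add_sub_cancel _ _).symm⟩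
  obtain ⟨N, hN⟩ : IsNilpotent M := by
    refine (IsNilpotent.map_iff (f := Matrix.reindexRingEquiv R (Fintype.equivFin ι))
      (RingEquiv.injective _)).1 (hN _ _ fun i j => ?_)
    have := congrFun₂ h ((Fintype.equivFin ι).symm i) ((Fintype.equivFin ι).symm j)
    rw [hM, Matrix.map_add _ (map_add _), Matrix.map_one _ (map_zero _) (map_one _)] at this
    simpa using this
  have h2 : ∀ k : ℕ, (1 + M) ^ 2 ^ k = 1 + M ^ 2 ^ k := fun k => by
    induction k with
    | zero => simp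
    | succ k ih =>
      have : M ^ 2 ^ k + M ^ 2 ^ k = 0 := by ext; simp [CharTwo.add_self_eq_zero]
      rw [pow_succ, pow_mul, pow_mul, ih, sq, sq, add_mul, mul_add, mul_add, one_mul, one_mul,
        mul_one, add_assoc, ← add_assoc (M ^ 2 ^ k), this, zero_add]
  refine ⟨N, Units.ext ?_⟩
  rw [Units.val_pow_eq_pow_val, hM, h2, pow_eq_zero_of_le Nat.lt_two_pow_self.le hN, add_zero,
    Units.val_one]

theorem ker_two_group [Finite R] [CharP R 2] (E : Aug R) (hN : E.Nil) (hι : 4 ≤ Fintype.card ι)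
    {g : St ι R} (hg : StN.rmap _ E.ε g = 1) : ∃ k : ℕ, g ^ 2 ^ k = 1 := by
  have hs : Function.Surjective E.ε := ZMod.ringHom_surjective _
  have hle : Subgroup.normalClosure (roots ι {a | E.ε a = 0}) ≤ (StN.rmap _ E.ε).ker :=
    Subgroup.normalClosure_le_normal (by
      rintro _ ⟨i, j, a, h, ha, rfl⟩
      rw [SetLike.mem_coe, MonoidHom.mem_ker, StN.rmap_x, show E.ε a = 0 from ha]
      exact StN.isSt.zero h)
  obtain ⟨n, hn⟩ := IsPGroup.iff_card.1 (show IsPGroup 2
      ((Subgroup.normalClosure (roots ι {a | E.ε a = 0})).map (StN.π _ R)) by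
    rintro ⟨_, y, hy, rfl⟩
    exact (pi_pow_eq_one E hN (hle hy)).imp fun k hk => Subtype.ext hk)
  refine ⟨n + 1, ?_⟩
  rw [pow_succ', ← hn]
  refine pow_relIndex E hι (fun s hs => ?_) (ker_rmap_le E.ε hs hg)
  obtain ⟨a, ha, hc⟩ := Group.mem_conjugatesOfSet_iff.1 hs
  obtain ⟨c, rfl⟩ := isConj_iff.1 hc
  rw [conj_mul, roots_mul_self a ha, mul_one, mul_inv_cancel]

end Crest.Agent.R176
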