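import Crest.Agent.R176.GT

/-!
Row 176, group half: change of frames.
-/

set_option autoImplicit false
set_option linter.unusedSectionVars false

open scoped commutatorElement

namespace Crest.Agent.R176

variable {A ι μ : Type} [Ring A] [Fintype ι] [DecidableEq ι] [Fintype μ] [DecidableEq μ]

theorem Frame.φ_mul {D : Ideal A} (F : Frame D μ) {a b : A} (ha : a ∈ D) (hb : b ∈ D) :
    F.φ (a * b) = F.φ a * F.φ b := by
  ext c c'
  change F.u c (F.v c' (a * b)) = ∑ k, F.u c (F.v k a) * F.u k (F.v c' b)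
  rw [F.v_mul c' b hb a, ← F.pair a ha _ (F.v_mem c' b hb), map_sum]
  exact Finset.sum_congr rfl fun k _ => F.u_mul c _ (F.v_mem k a ha) _

theorem Frame.φ_prod {D : Ideal A} (F : Frame D μ) {a b : A} (ha : a ∈ D) (hb : b ∈ D)
    (c c' : μ) : F.φ (a * b) c c' = F.u c a * F.v c' b := by
  change F.u c (F.v c' (a * b)) = _
  rw [F.v_mul c' b hb a, F.u_mul c a ha]

/-- A product of commuting balanced biadditive symbols is trivial if the sums of the products
vanish for each index. -/
theorem frameA_inj {G I : Type} [Group G] [Fintype I] [DecidableEq I] {D D' : Ideal A}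
    [D.IsTwoSided] (hT : Tor2 D D') (hD : D' ≤ D) (η : I → A → A → G)
    (hc : ∀ i j, ∀ a ∈ D, ∀ b ∈ D, ∀ a' ∈ D, ∀ b' ∈ D, Commute (η i a b) (η j a' b'))
    (h₁ : ∀ i, ∀ d ∈ D, ∀ d' ∈ D, ∀ c ∈ D, η i (d + d') c = η i d c * η i d' c)
    (h₂ : ∀ i, ∀ d ∈ D, ∀ c ∈ D, ∀ c' ∈ D, η i d (c + c') = η i d c * η i d c')
    (h₃ : ∀ i, ∀ d ∈ D, ∀ c ∈ D, ∀ a, η i (d * a) c = η i d (a * c))
    (L : List (I × A × A)) (hL : ∀ t ∈ L, t.2.1 ∈ D' ∧ t.2.2 ∈ D')
    (h0 : ∀ i, (L.map fun t => if t.1 = i then t.2.1 * t.2.2 else 0).sum = 0) :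
    (L.map fun t => η t.1 t.2.1 t.2.2).prod = 1 := by
  classical
  let S : Set G := {g | ∃ i, ∃ a ∈ D, ∃ b ∈ D, g = η i a b}
  have hS : ∀ x ∈ S, ∀ y ∈ S, x * y = y * x := by
    rintro _ ⟨i, a, ha, b, hb, rfl⟩ _ ⟨j, a', ha', b', hb', rfl⟩
    exact hc i j a ha b hb a' ha' b' hb'
  have : IsMulCommutative (Subgroup.closure S) := Subgroup.isMulCommutative_closure hS
  let _ : CommGroup (Subgroup.closure S) :=
    { (inferInstance : Group (Subgroup.closure S)) with
      mul_comm := fun a b => this.is_comm.comm a b }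
  let η' : I → A → A → Subgroup.closure S := fun i a b =>
    if h : a ∈ D ∧ b ∈ D then ⟨η i a b, Subgroup.subset_closure ⟨i, a, h.1, b, h.2, rfl⟩⟩ else 1
  have e : ∀ i, ∀ a ∈ D, ∀ b ∈ D, (η' i a b : G) = η i a b := by
    intro i a ha b hb
    simp only [η', dif_pos (And.intro ha hb)]
  have a₁ : ∀ i, ∀ d ∈ D, ∀ d' ∈ D, ∀ c ∈ D, η' i (d + d') c = η' i d c * η' i d' c := by
    intro i d hd d' hd' c hc'
    apply Subtype.ext
    rw [Subgroup.coe_mul, e i _ (D.add_mem hd hd') c hc', e i d hd c hc', e i d' hd' c hc',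
      h₁ i d hd d' hd' c hc']
  have a₂ : ∀ i, ∀ d ∈ D, ∀ c ∈ D, ∀ c' ∈ D, η' i d (c + c') = η' i d c * η' i d c' := by
    intro i d hd c hc₁ c' hc'
    apply Subtype.ext
    rw [Subgroup.coe_mul, e i d hd _ (D.add_mem hc₁ hc'), e i d hd c hc₁, e i d hd c' hc',
      h₂ i d hd c hc₁ c' hc']
  have a₃ : ∀ i, ∀ d ∈ D, ∀ c ∈ D, ∀ a, η' i (d * a) c = η' i d (a * c) := by
    intro i d hd c hc₁ a
    apply Subtype.ext
    rw [e i _ (D.mul_mem_right a hd) c hc₁, e i d hd _ (D.mul_mem_left a hc₁), h₃ i d hd c hc₁]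
  have a₀ : ∀ i, η' i 0 0 = 1 := by
    intro i
    have := a₁ i 0 D.zero_mem 0 D.zero_mem 0 D.zero_mem
    rw [add_zero] at this
    exact left_eq_mul.1 this
  let sel : I → I × A × A → A × A := fun i t => if t.1 = i then t.2 else (0, 0)
  have b₁ : ∀ i, ((L.map (sel i)).map fun q => η' i q.1 q.2).prod = 1 := by
    intro i
    refine hT _ (η' i) (a₁ i) (a₂ i) (a₃ i) _ ?_ ?_
    · intro q hq
      obtain ⟨t, ht, rfl⟩ := List.mem_map.1 hq
      simp only [sel]
      split_ifs
      · exact hL t ht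
      · exact ⟨D'.zero_mem, D'.zero_mem⟩
    · rw [List.map_map, ← h0 i]
      congr 1
      refine List.map_congr_left fun t _ => ?_
      simp only [sel, Function.comp_apply]
      split_ifs
      · rfl
      · exact mul_zero 0
  have b₂ : ∀ L : List (I × A × A), (L.map fun t => η' t.1 t.2.1 t.2.2).prod =
      ∏ i, ((L.map (sel i)).map fun q => η' i q.1 q.2).prod := by
    intro L
    induction L with
    | nil => simp
    | cons t L ih =>
      simp only [List.map_cons, List.prod_cons]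
      rw [Finset.prod_mul_distrib, ih]
      congr 1
      rw [Finset.prod_eq_single t.1]
      · simp only [sel, if_true]
      · intro i _ hi
        simp only [sel, if_neg hi.symm, a₀]
      · intro h
        exact absurd (Finset.mem_univ _) h
  have b₃ := b₂ L
  simp only [b₁, Finset.prod_const_one] at b₃
  have b₄ := congrArg (Subgroup.closure S).subtype b₃
  rw [map_list_prod, List.map_map, map_one] at b₄
  rw [← b₄]
  congr 1
  refine List.map_congr_left fun t ht => ?_
  exact (e _ _ (hD (hL t ht).1) _ (hD (hL t ht).2)).symm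

/-- A vector supported in the block `some i`. -/
def frameVec {ν : Type} (w : ν → A →+ A) (i : ι) : A →+ (Option ι × ν → A) where
  toFun a k := if k.1 = some i then w k.2 a else 0
  map_zero' := by funext k; simp
  map_add' a b := by funext k; simp only [Pi.add_apply, map_add]; split_ifs <;> simp

theorem frameVec_apply {ν : Type} (w : ν → A →+ A) (i : ι) (a : A) (k : Option ι × ν) :
    frameVec w i a k = if k.1 = some i then w k.2 a else 0 := rfl

theorem frameVec_dot {ν : Type} [Fintype ν] (w u : ν → A →+ A) (i j : ι) {a b : A}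
    (h : ∑ c, w c b * u c a = 0) : ∑ k, frameVec w j b k * frameVec u i a k = 0 := by
  rw [Fintype.sum_prod_type]
  refine Finset.sum_eq_zero fun x _ => ?_
  simp only [frameVec_apply]
  by_cases h₁ : x = some j
  · by_cases h₂ : x = some i
    · simp only [if_pos h₁, if_pos h₂, h]
    · simp only [if_neg h₂, mul_zero, Finset.sum_const_zero]
  · simp only [if_neg h₁, zero_mul, Finset.sum_const_zero]

theorem frameVec_mulVec {ν : Type} [Fintype ν] [DecidableEq ν] {D : Ideal A} (F : Frame D ν)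
    (i k l : ι) {r a : A} (hr : r ∈ D) (ha : a ∈ D) :
    (blkMat (some k) (some l) (F.φ r)).mulVec (frameVec F.u i a) =
      frameVec F.u k (if l = i then r * a else 0) := by
  funext m
  simp only [Matrix.mulVec, dotProduct, blkMat, Matrix.of_apply, frameVec_apply,
    Fintype.sum_prod_type]
  by_cases hm : m.1 = some k
  · rw [if_pos hm, Finset.sum_eq_single (some l)]
    · by_cases hl : l = i
      · subst hl
        simp only [hm, and_self, if_true]
        rw [← F.pair r hr a ha, map_sum]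
        exact Finset.sum_congr rfl fun c _ => (F.u_mul m.2 _ (F.v_mem c r hr) _).symm
      · simp [hl]
    · intro x _ hx
      simp [hx]
    · intro h
      exact absurd (Finset.mem_univ _) h
  · simp [hm]

theorem frameVec_vecMul {ν : Type} [Fintype ν] [DecidableEq ν] {D : Ideal A} (F : Frame D ν)
    (w : ν → A →+ A) (j k l : ι) {r b : A} (hr : r ∈ D)
    (h : ∀ a ∈ D, ∑ c, w c b * F.u c a = 0) :
    Matrix.vecMul (frameVec w j b) (blkMat (some k) (some l) (F.φ r)) = 0 := by
  funext m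
  simp only [Matrix.vecMul, dotProduct, blkMat, Matrix.of_apply, frameVec_apply,
    Fintype.sum_prod_type, Pi.zero_apply]
  refine Finset.sum_eq_zero fun x _ => ?_
  by_cases h₁ : x = some j
  · by_cases h₂ : x = some k ∧ m.1 = some l
    · simp only [if_pos h₁, if_pos h₂]
      exact h _ (F.v_mem m.2 r hr)
    · simp only [if_neg h₂, mul_zero, Finset.sum_const_zero]
  · simp only [if_neg h₁, zero_mul, Finset.sum_const_zero]

/-- The subgroup of the products of symbols along lists. -/
def frameSub {G T : Type} [Group G] (η : T → G) (P : T → Prop)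
    (h : ∀ t, P t → η t * η t = 1) : Subgroup G where
  carrier := {y | ∃ L : List T, (∀ t ∈ L, P t) ∧ y = (L.map η).prod}
  one_mem' := ⟨[], by simp, rfl⟩
  mul_mem' := by
    rintro _ _ ⟨L, hL, rfl⟩ ⟨L', hL', rfl⟩
    refine ⟨L ++ L', fun t ht => ?_, by simp⟩
    rcases List.mem_append.1 ht with h | h
    · exact hL t h
    · exact hL' t h
  inv_mem' := by
    rintro _ ⟨L, hL, rfl⟩
    refine ⟨L.reverse, fun t ht => hL t (List.mem_reverse.1 ht), ?_⟩
    rw [List.prod_inv_reverse, List.map_map, List.map_reverse]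
    congr 2
    refine List.map_congr_left fun t ht => ?_
    exact inv_eq_of_mul_eq_one_right (h t (hL t ht))

theorem frameSub_mem {G T : Type} [Group G] {η : T → G} {P : T → Prop}
    (h : ∀ t, P t → η t * η t = 1) {t : T} (ht : P t) : η t ∈ frameSub η P h :=
  ⟨[t], by simpa using ht, by simp⟩

theorem frameSub_conj {G T : Type} [Group G] {η : T → G} {P : T → Prop}
    (h : ∀ t, P t → η t * η t = 1) {g : G} (hg : ∀ t, P t → g * η t * g⁻¹ ∈ frameSub η P h)
    {y : G} (hy : y ∈ frameSub η P h) : g * y * g⁻¹ ∈ frameSub η P h := by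
  obtain ⟨L, hL, rfl⟩ := hy
  induction L with
  | nil => simp
  | cons t L ih =>
    have e : g * ((t :: L).map η).prod * g⁻¹ = (g * η t * g⁻¹) * (g * (L.map η).prod * g⁻¹) := by
      simp only [List.map_cons, List.prod_cons]
      group
    rw [e]
    exact mul_mem (hg t (hL t List.mem_cons_self))
      (ih fun t' ht' => hL t' (List.mem_cons_of_mem _ ht'))

theorem frameA_pi_prod {G T R : Type} [Group G] [Ring R] (π : G →* Rˣ) (η : T → G) (N : T → R)
    (L : List T) (h₁ : ∀ t ∈ L, (π (η t) : R) = 1 + N t) (h₂ : ∀ t ∈ L, ∀ t' ∈ L, N t * N t' = 0) :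
    (π (L.map η).prod : R) = 1 + (L.map N).sum := by
  induction L with
  | nil => simp
  | cons t L ih =>
    have e : N t * (L.map N).sum = 0 := by
      rw [← List.sum_map_mul_left]
      refine List.sum_eq_zero fun x hx => ?_
      obtain ⟨t', ht', rfl⟩ := List.mem_map.1 hx
      exact h₂ t List.mem_cons_self t' (List.mem_cons_of_mem _ ht')
    simp only [List.map_cons, List.prod_cons, List.sum_cons, map_mul, Units.val_mul]
    rw [h₁ t List.mem_cons_self, ih (fun t' ht' => h₁ t' (List.mem_cons_of_mem _ ht'))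
      (fun a ha b hb => h₂ a (List.mem_cons_of_mem _ ha) b (List.mem_cons_of_mem _ hb)),
      add_mul, mul_add, mul_add, e]
    simp only [mul_one, one_mul, add_zero]
    abel

/-- Two frames on `Option μ` with the same column `u`, `u none = id`, and rows with
`v none = 0`, `v' none = id`. -/
theorem frame_step [CharP A 2] [Nonempty μ] {D D' : Ideal A} [D.IsTwoSided] (hT : Tor2 D D')
    (hD : D' ≤ D) (F F' : Frame D (Option μ)) (hu : F'.u = F.u)
    (h₁ : F.u none = AddMonoidHom.id A) (h₂ : F.v none = 0) (h₃ : F'.v none = AddMonoidHom.id A)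
    {W : List (ι × ι × A)} (hW : Letters (Prods D') W) (h1 : StN.π _ A (ev W) = 1) :
    evX (fun i j a => (blkElt (some i) (some j) (F.φ a) : St (Option ι × Option μ) A)) W =
      evX (fun i j a => (blkElt (some i) (some j) (F'.φ a) : St (Option ι × Option μ) A)) W := by
  obtain ⟨c₀⟩ := ‹Nonempty μ›
  let p : Option ι × Option μ := (none, none)
  let p' : Option ι × Option μ := (none, some c₀)
  have hp : p ≠ p' := by simp [p, p']
  let w : Option μ → A →+ A := fun c => F'.v c - F.v c
  have hw : ∀ b ∈ D, ∀ a ∈ D, ∑ c, w c b * F.u c a = 0 := by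
    intro b hb a ha
    have e := F'.pair b hb a ha
    rw [hu] at e
    simp only [w, AddMonoidHom.sub_apply, sub_mul, Finset.sum_sub_distrib, e, F.pair b hb a ha,
      sub_self]
  have hdot : ∀ i j : ι, ∀ a ∈ D, ∀ b ∈ D, ∑ k, frameVec w j b k * frameVec F.u i a k = 0 :=
    fun i j a ha b hb => frameVec_dot w F.u i j (hw b hb a ha)
  have hO : ∀ i j : ι, ∀ a ∈ D, ∀ b ∈ D, Orth p p' (frameVec F.u i a) (frameVec w j b) :=
    fun i j a ha b hb => ⟨rfl, rfl, rfl, rfl, hdot i j a ha b hb⟩
  let η : ι × ι → A → A → St (Option ι × Option μ) A := fun ij a b =>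
    TT p (frameVec F.u ij.1 a) (frameVec w ij.2 b)
  have a₁ : ∀ i, ∀ d ∈ D, ∀ d' ∈ D, ∀ c ∈ D, η i (d + d') c = η i d c * η i d' c := by
    intro i d hd d' hd' c hc
    simp only [η, map_add]
    exact TT_add_left hp (hO _ _ d hd c hc) (hO _ _ d' hd' c hc)
  have a₂ : ∀ i, ∀ d ∈ D, ∀ c ∈ D, ∀ c' ∈ D, η i d (c + c') = η i d c * η i d c' := by
    intro i d hd c hc c' hc'
    simp only [η, map_add]
    exact TT_add_right hp (hO _ _ d hd c hc) (hO _ _ d hd c' hc')
  have a₃ : ∀ i, ∀ d ∈ D, ∀ c ∈ D, ∀ a, η i (d * a) c = η i d (a * c) := by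
    intro i d hd c hc a
    have e := TT_bal hp (hO i.1 i.2 d hd c hc) a
    have e₁ : frameVec F.u i.1 (d * a) = fun k => frameVec F.u i.1 d k * a := by
      funext k
      simp only [frameVec_apply]
      split_ifs
      · exact F.u_mul _ d hd a
      · exact (zero_mul a).symm
    have e₂ : frameVec w i.2 (a * c) = fun k => a * frameVec w i.2 c k := by
      funext k
      simp only [frameVec_apply]
      split_ifs
      · simp only [w, AddMonoidHom.sub_apply, F.v_mul _ c hc a, F'.v_mul _ c hc a, mul_sub]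
      · exact (mul_zero a).symm
    simp only [η, e₁, e₂]
    exact e
  have a₄ : ∀ i j, ∀ a ∈ D, ∀ b ∈ D, ∀ a' ∈ D, ∀ b' ∈ D, Commute (η i a b) (η j a' b') :=
    fun i j a ha b hb a' ha' b' hb' => TT_comm hp (hO _ _ a ha b hb) (hO _ _ a' ha' b' hb')
      (hdot _ _ a' ha' b hb) (hdot _ _ a ha b' hb')
  have a₀ : ∀ i, ∀ b ∈ D, η i 0 b = 1 := by
    intro i b hb
    have := a₁ i 0 D.zero_mem 0 D.zero_mem b hb
    rw [add_zero] at this
    exact left_eq_mul.1 this
  let P : (ι × ι) × A × A → Prop := fun t => t.2.1 ∈ D' ∧ t.2.2 ∈ D'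
  have a₅ : ∀ t, P t → η t.1 t.2.1 t.2.2 * η t.1 t.2.1 t.2.2 = 1 := by
    intro t ht
    rw [← a₁ _ _ (hD ht.1) _ (hD ht.1) _ (hD ht.2), CharTwo.add_self_eq_zero, a₀ _ _ (hD ht.2)]
  have hW' : Letters (D : Set A) W := by
    refine Letters.mono ?_ hW
    rintro _ ⟨a, -, b, hb, rfl⟩
    exact hD (D'.mul_mem_left a hb)
  refine cmp_eq (StN.π (Net.full (Option ι × Option μ)) A)
    (frameSub (fun t : (ι × ι) × A × A => η t.1 t.2.1 t.2.2) P a₅) ?_
    (fun t : ι × ι × A => (blkElt (some t.1) (some t.2.1) (F.φ t.2.2) :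
      St (Option ι × Option μ) A))
    (fun t : ι × ι × A => (blkElt (some t.1) (some t.2.1) (F'.φ t.2.2) :
      St (Option ι × Option μ) A)) W ?_ ?_ ?_
  · rintro _ ⟨L, hL, rfl⟩ hy
    refine frameA_inj hT hD η a₄ a₁ a₂ a₃ L hL fun ij => ?_
    have e := frameA_pi_prod (StN.π _ A) (fun t : (ι × ι) × A × A => η t.1 t.2.1 t.2.2)
      (fun t => Matrix.vecMulVec (frameVec F.u t.1.1 t.2.1) (frameVec w t.1.2 t.2.2)) L
      (fun t ht => pi_TT rfl rfl (hdot _ _ _ (hD (hL t ht).1) _ (hD (hL t ht).2)))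
      (fun t ht t' ht' => by
        rw [Matrix.vecMulVec_mul_vecMulVec]
        have : frameVec w t.1.2 t.2.2 ⬝ᵥ frameVec F.u t'.1.1 t'.2.1 = 0 :=
          hdot _ _ _ (hD (hL t' ht').1) _ (hD (hL t ht).2)
        rw [this, zero_smul, Matrix.vecMulVec_zero])
    rw [hy, Units.val_one, left_eq_add] at e
    have e' := congrArg (Matrix.entryAddMonoidHom A ((some ij.1, none) : Option ι × Option μ)
      ((some ij.2, none) : Option ι × Option μ)) e
    rw [map_list_sum, List.map_map, map_zero] at e'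
    refine Eq.trans (congrArg List.sum (List.map_congr_left fun t _ => ?_)) e'
    simp only [Function.comp_apply, Matrix.entryAddMonoidHom_apply, Matrix.vecMulVec_apply,
      frameVec_apply, w, h₁, h₂, h₃, sub_zero, AddMonoidHom.id_apply, Option.some.injEq]
    obtain ⟨⟨i, j⟩, a, b⟩ := t
    obtain ⟨i', j'⟩ := ij
    by_cases c₁ : i' = i <;> by_cases c₂ : j' = j <;> simp [c₁, c₂, @eq_comm _ i, @eq_comm _ j]
  · rintro ⟨k, l, r⟩ ht y hy
    obtain ⟨hkl, a₀', -, b₀, hb₀, hr'⟩ := hW _ ht
    have hkl' : (some k : Option ι) ≠ some l := fun e => hkl (Option.some.inj e)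
    have hr : r ∈ D := (hW' _ ht).2
    refine frameSub_conj a₅ ?_ hy
    rintro ⟨⟨i, j⟩, a, b⟩ ⟨ha, hb⟩
    have hg : (blkElt (some k) (some l) (F.φ r) : St (Option ι × Option μ) A) ∈
        gen (Net.full _) StN.x fun i j => i ≠ p ∧ j ≠ p := by
      refine gen_mono ?_ (blkElt_mem _)
      rintro q q' - ⟨e₁, e₂⟩
      refine ⟨fun e => ?_, fun e => ?_⟩
      · rw [e] at e₁; exact absurd e₁ (by simp [p])
      · rw [e] at e₂; exact absurd e₂ (by simp [p])
    have e := TT_conj (c := frameVec F.u i a) (d := frameVec w j b) rfl rfl hg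
    rw [isSt_blkElt.inv hkl', ← map_neg F.φ, pi_blkElt hkl', pi_blkElt hkl', Matrix.add_mulVec,
      Matrix.one_mulVec, Matrix.vecMul_add, Matrix.vecMul_one, frameVec_mulVec F i k l hr (hD ha),
      frameVec_vecMul F w j k l (D.neg_mem hr) (hw b (hD hb)), add_zero, map_neg F.φ,
      ← isSt_blkElt.inv hkl'] at e
    have hra : (if l = i then r * a else 0) ∈ D' := by
      split_ifs
      · exact D'.mul_mem_left r ha
      · exact D'.zero_mem
    rw [TT_add_left hp (hO _ _ a (hD ha) b (hD hb)) (hO _ _ _ (hD hra) b (hD hb))] at e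
    change _ * TT p (frameVec F.u i a) (frameVec w j b) * _ ∈ _
    rw [e]
    exact mul_mem (frameSub_mem a₅ (t := ((i, j), a, b)) ⟨ha, hb⟩)
      (frameSub_mem a₅ (t := ((k, j), if l = i then r * a else 0, b)) ⟨hra, hb⟩)
  · rintro ⟨i, j, r⟩ ht
    obtain ⟨hij, a, ha, b, hb, rfl⟩ := hW _ ht
    have hij' : (some i : Option ι) ≠ some j := fun e => hij (Option.some.inj e)
    dsimp only
    rw [isSt_blkElt.inv hij', ← isSt_blkElt.add _ _ _ _ hij']
    have e : (blkElt (some i) (some j) (F'.φ (a * b) + -F.φ (a * b)) :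
        St (Option ι × Option μ) A) = η (i, j) a b := by
      simp only [η]
      rw [TT_rad (p := p) (c := frameVec F.u i a) (d := frameVec w j b)
        {k : Option ι × Option μ | k.1 = some i} (by simp [p]) (fun k hk => if_neg hk)
        (fun k hk => if_neg fun e => hij' (Eq.trans (Eq.symm hk) e)) rfl, blkElt]
      congr 1
      ext q q'
      simp only [blkMat, Matrix.of_apply, Matrix.vecMulVec_apply, frameVec_apply,
        Matrix.add_apply, Matrix.neg_apply, F.φ_prod (hD ha) (hD hb), F'.φ_prod (hD ha) (hD hb),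
        hu, w, AddMonoidHom.sub_apply]
      by_cases c₁ : q.1 = some i <;> by_cases c₂ : q'.1 = some j <;>
        simp [c₁, c₂, mul_add, sub_eq_add_neg]
    rw [e]
    exact frameSub_mem a₅ (t := ((i, j), a, b)) ⟨ha, hb⟩
  · exact (pi_evX_blk D F.φ (fun a ha b hb => F.φ_mul ha hb) Function.Embedding.some hW' h1).trans
      (pi_evX_blk D F'.φ (fun a ha b hb => F'.φ_mul ha hb) Function.Embedding.some hW' h1).symm

end Crest.Agent.R176
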