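import Crest.Agent.R176.GFrameA

/-!
Row 176, group half: every frame is equivalent to the corner.
-/

set_option autoImplicit false
set_option linter.unusedSectionVars false

open scoped commutatorElement

namespace Crest.Agent.R176

variable {A ι μ : Type} [Ring A] [Fintype ι] [DecidableEq ι] [Fintype μ] [DecidableEq μ]

theorem blkElt_mem_supp {κ ν R : Type} [Ring R] [Fintype κ] [DecidableEq κ] [Fintype ν]
    [DecidableEq ν] (i j : κ) (M : Matrix ν ν R) :
    blkElt i j M ∈ gen (Net.full (κ × ν)) StN.x fun p p' => M p.2 p'.2 ≠ 0 :=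
  radElt_mem_gen _ _ _ fun p p' _ _ _ h => by
    intro h'; apply h; simp only [blkMat, Matrix.of_apply, h', ite_self]

theorem prods_subset {D D' : Ideal A} (hD : D' ≤ D) : Prods D' ⊆ (D : Set A) := by
  rintro _ ⟨a, -, b, hb, rfl⟩
  exact D.mul_mem_left a (hD hb)

/-- Two frames which differ only in the unipotent radical defined by `T`. -/
theorem frame_cmp {ν : Type} [Fintype ν] [DecidableEq ν] {D : Ideal A} (F F' : Frame D ν)
    (T : Set ν) (h₁ : ∀ a c c', c ∉ T → c' ∈ T → F.φ a c c' = 0)
    (h₂ : ∀ a c c', ¬ (c ∈ T ∧ c' ∉ T) → F'.φ a c c' = F.φ a c c')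
    {W : List (ι × ι × A)} (hW : Letters (D : Set A) W) (h1 : StN.π _ A (ev W) = 1) :
    evX (fun i j a => (blkElt (some i) (some j) (F.φ a) : St (Option ι × ν) A)) W =
      evX (fun i j a => (blkElt (some i) (some j) (F'.φ a) : St (Option ι × ν) A)) W := by
  refine cmp_eq (StN.π _ A) (Rad (Net.full (Option ι × ν)) StN.x {k | k.2 ∈ T}) ?_
    (fun t : ι × ι × A => (blkElt (some t.1) (some t.2.1) (F.φ t.2.2) : St (Option ι × ν) A))
    (fun t : ι × ι × A => (blkElt (some t.1) (some t.2.1) (F'.φ t.2.2) : St (Option ι × ν) A))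
    W ?_ ?_ ?_
  · intro y hy e
    exact rad_inj StN.isSt (fun _ _ _ h => StN.π_x h _) hy (one_mem _) (by rw [e, map_one])
  · intro t _ y hy
    refine rad_conj StN.isSt (gen_mono ?_ (blkElt_mem_supp _ _ _)) hy
    intro p p' _ h h'
    exact h (h₁ _ _ _ h'.1 h'.2)
  · intro t ht
    have hne : (some t.1 : Option ι) ≠ some t.2.1 := fun e => (hW t ht).1 (Option.some.inj e)
    have e : F'.φ t.2.2 = (F'.φ t.2.2 - F.φ t.2.2) + F.φ t.2.2 := by abel
    rw [e, isSt_blkElt.add _ _ _ _ hne, mul_inv_cancel_right]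
    refine gen_mono ?_ (blkElt_mem_supp _ _ _)
    intro p p' _ h
    by_contra h'
    exact h (by rw [Matrix.sub_apply, h₂ _ _ _ h', sub_self])
  · have e₁ := pi_evX_blk D F.φ (fun a ha b hb => F.φ_mul ha hb)
      (Function.Embedding.some : ι ↪ Option ι) hW h1
    have e₂ := pi_evX_blk D F'.φ (fun a ha b hb => F'.φ_mul ha hb)
      (Function.Embedding.some : ι ↪ Option ι) hW h1
    exact e₁.trans e₂.symm

/-- `(u, 0 ; v, 0)` -/
def Frame.ext0 {D : Ideal A} (F : Frame D μ) : Frame D (Option μ) where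
  u c := c.elim 0 F.u
  v c := c.elim 0 F.v
  u_mem := by rintro (_ | c) a ha; exacts [D.zero_mem, F.u_mem c a ha]
  v_mem := by rintro (_ | c) a ha; exacts [D.zero_mem, F.v_mem c a ha]
  u_mul := by rintro (_ | c) a ha b; exacts [by simp, F.u_mul c a ha b]
  v_mul := by rintro (_ | c) a ha b; exacts [by simp, F.v_mul c a ha b]
  pair a ha b hb := by simpa [Fintype.sum_option] using F.pair a ha b hb

/-- `(u, 1 ; v, 0)` -/
def Frame.ext1 {D : Ideal A} (F : Frame D μ) : Frame D (Option μ) where
  u c := c.elim (AddMonoidHom.id A) F.u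
  v c := c.elim 0 F.v
  u_mem := by rintro (_ | c) a ha; exacts [ha, F.u_mem c a ha]
  v_mem := by rintro (_ | c) a ha; exacts [D.zero_mem, F.v_mem c a ha]
  u_mul := by rintro (_ | c) a ha b; exacts [by simp, F.u_mul c a ha b]
  v_mul := by rintro (_ | c) a ha b; exacts [by simp, F.v_mul c a ha b]
  pair a ha b hb := by simpa [Fintype.sum_option] using F.pair a ha b hb

/-- `(u, 1 ; 0, 1)` -/
def Frame.ext2 {D : Ideal A} (F : Frame D μ) : Frame D (Option μ) where
  u c := c.elim (AddMonoidHom.id A) F.u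
  v c := c.elim (AddMonoidHom.id A) fun _ => 0
  u_mem := by rintro (_ | c) a ha; exacts [ha, F.u_mem c a ha]
  v_mem := by rintro (_ | c) a ha; exacts [ha, D.zero_mem]
  u_mul := by rintro (_ | c) a ha b; exacts [by simp, F.u_mul c a ha b]
  v_mul := by rintro (_ | c) a ha b <;> simp
  pair a ha b hb := by simp [Fintype.sum_option]

/-- `(0, 1 ; 0, 1)` -/
def Frame.corner (D : Ideal A) (μ : Type) [Fintype μ] : Frame D (Option μ) where
  u c := c.elim (AddMonoidHom.id A) fun _ => 0
  v c := c.elim (AddMonoidHom.id A) fun _ => 0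
  u_mem := by rintro (_ | c) a ha; exacts [ha, D.zero_mem]
  v_mem := by rintro (_ | c) a ha; exacts [ha, D.zero_mem]
  u_mul := by rintro (_ | c) a ha b <;> simp
  v_mul := by rintro (_ | c) a ha b <;> simp
  pair a ha b hb := by simp [Fintype.sum_option]

theorem Frame.ext0_φ {D : Ideal A} (F : Frame D μ) (a : A) : F.ext0.φ a = pad (F.φ a) := by
  ext (_ | c) (_ | c') <;> simp [Frame.φ, Frame.ext0, pad]

theorem Frame.corner_φ (D : Ideal A) (a : A) :
    (Frame.corner D μ).φ a = Matrix.single none none a := by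
  ext (_ | c) (_ | c') <;> simp [Frame.φ, Frame.corner]

theorem frame_eq [CharP A 2] [Nonempty μ] {D D' : Ideal A} [D.IsTwoSided] (hT : Tor2 D D')
    (hD : D' ≤ D) (F : Frame D μ) {W : List (ι × ι × A)} (hW : Letters (Prods D') W)
    (h1 : StN.π _ A (ev W) = 1) :
    evX (fun i j a => (blkElt (some i) (some j) (pad (F.φ a)) : St (Option ι × Option μ) A)) W =
      St.incl A (emb0 ι μ) (ev W) := by
  have hW' : Letters (D : Set A) W := hW.mono (prods_subset hD)
  have e₁ := frame_cmp F.ext0 F.ext1 {c | c = none}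
    (by
      rintro a c _ - rfl
      simp [Frame.φ, Frame.ext0])
    (by
      rintro a (_ | c) (_ | c') h
      · simp [Frame.φ, Frame.ext0, Frame.ext1]
      · simp at h
      · simp [Frame.φ, Frame.ext0, Frame.ext1]
      · simp [Frame.φ, Frame.ext0, Frame.ext1]) hW' h1
  have e₂ := frame_step hT hD F.ext1 F.ext2 rfl rfl rfl rfl hW h1
  have e₃ := frame_cmp (Frame.corner D μ) F.ext2 {c | c ≠ none}
    (by
      rintro a c (_ | c') - h
      · simp at h
      · simp [Frame.φ, Frame.corner])
    (by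
      rintro a (_ | c) (_ | c') h
      · simp [Frame.φ, Frame.corner, Frame.ext2]
      · simp [Frame.φ, Frame.corner, Frame.ext2]
      · simp at h
      · simp [Frame.φ, Frame.corner, Frame.ext2]) hW' h1
  simp only [Frame.ext0_φ] at e₁
  rw [e₁, e₂, ← e₃, ev_eq_evX, map_evX]
  refine evX_congr hW fun i j a hij _ => ?_
  rw [Frame.corner_φ, blkElt_single (fun e => hij (Option.some.inj e)), St.incl_x _ hij]
  rfl

/-- Root elements with orthogonal entries commute. -/
theorem IsSt.commute_of_orth {κ R G : Type} [Ring R] [Group G] {X : κ → κ → R → G}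
    (h : IsSt (Net.full κ) X) {i j k l m : κ} (hij : i ≠ j) (hkl : k ≠ l) (him : i ≠ m)
    (hjm : j ≠ m) {a₁ a₂ b : R} (h₁ : b * a₁ = 0) (h₂ : a₂ * b = 0) :
    Commute (X i j (a₁ * a₂)) (X k l b) := by
  by_cases hjk : j = k
  · subst hjk
    by_cases hil : i = l
    · subst hil
      rw [← h.brk i m j a₁ a₂ him hjm.symm hij]
      have c₁ : Commute (X j i b) (X i m a₁) := by
        rw [← commutatorElement_eq_one_iff_commute, h.brk j i m _ _ hkl him hjm, h₁, h.zero hjm]
      have c₂ : Commute (X m j a₂) (X j i b) := by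
        rw [← commutatorElement_eq_one_iff_commute, h.brk m j i _ _ hjm.symm hkl him.symm, h₂,
          h.zero him.symm]
      rw [commutatorElement_def]
      exact ((c₁.symm.mul_left c₂).mul_left c₁.symm.inv_left).mul_left c₂.inv_left
    · rw [← commutatorElement_eq_one_iff_commute, h.brk i j l _ _ hij hkl hil, mul_assoc, h₂,
        mul_zero, h.zero hil]
  · by_cases hil : i = l
    · subst hil
      symm
      rw [← commutatorElement_eq_one_iff_commute, h.brk k i j _ _ hkl hij (Ne.symm hjk),
        ← mul_assoc, h₁, zero_mul, h.zero (Ne.symm hjk)]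
    · exact h.comm _ _ _ _ _ _ hij hkl hjk hil

/-- A sum of mutually orthogonal frames gives a power of the corner embedding. -/
theorem frame_sum [CharP A 2] [Nonempty μ] {D D' : Ideal A} [D.IsTwoSided] (hT : Tor2 D D')
    (hD : D' ≤ D) (hι : 3 ≤ Fintype.card ι) {τ : Type} [DecidableEq τ] (F : τ → Frame D μ)
    (horth : ∀ t t', t ≠ t' → ∀ a ∈ D, ∀ b ∈ D, (F t).φ a * (F t').φ b = 0) (s : Finset τ)
    {W : List (ι × ι × A)} (hW : Letters (Prods D') W) (h1 : StN.π _ A (ev W) = 1) :
    evX (fun i j a => (blkElt (some i) (some j) (pad (∑ t ∈ s, (F t).φ a)) :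
      St (Option ι × Option μ) A)) W = St.incl A (emb0 ι μ) (ev W) ^ s.card := by
  have _ := hι
  induction s using Finset.induction_on with
  | empty =>
    rw [Finset.card_empty, pow_zero]
    rw [evX_congr (X' := fun _ _ _ => 1) hW]
    · simp [evX]
    · intro i j a hij _
      rw [Finset.sum_empty, map_zero]
      exact isSt_blkElt.zero (fun e => hij (Option.some.inj e))
  | insert t s ht ih =>
    rw [Finset.card_insert_of_notMem ht, pow_succ', ← ih, ← frame_eq hT hD (F t) hW h1]
    rw [evX_congr (X' := fun i j a =>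
      (blkElt (some i) (some j) (pad ((F t).φ a)) : St (Option ι × Option μ) A) *
        blkElt (some i) (some j) (pad (∑ t ∈ s, (F t).φ a))) hW]
    · refine prod_map_mul_of_commute
        (fun u : ι × ι × A => (blkElt (some u.1) (some u.2.1) (pad ((F t).φ u.2.2)) :
          St (Option ι × Option μ) A))
        (fun u : ι × ι × A => (blkElt (some u.1) (some u.2.1) (pad (∑ t ∈ s, (F t).φ u.2.2)) :
          St (Option ι × Option μ) A)) W ?_
      intro u hu u' hu'
      obtain ⟨hij, a₁, ha₁, a₂, ha₂, e⟩ := hW u hu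
      obtain ⟨hkl, hb⟩ := hW u' hu'
      have hb' : u'.2.2 ∈ D := prods_subset hD hb
      rw [e, (F t).φ_mul (hD ha₁) (hD ha₂), pad_mul]
      refine isSt_blkElt.commute_of_orth (m := none) (fun e => hij (Option.some.inj e))
        (fun e => hkl (Option.some.inj e)) (Option.some_ne_none _) (Option.some_ne_none _) ?_ ?_
      · rw [← pad_mul, Finset.sum_mul, Finset.sum_eq_zero, map_zero]
        intro t' ht'
        exact horth t' t (by rintro rfl; exact ht ht') _ hb' _ (hD ha₁)
      · rw [← pad_mul, Finset.mul_sum, Finset.sum_eq_zero, map_zero]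
        intro t' ht'
        exact horth t t' (by rintro rfl; exact ht ht') _ (hD ha₂) _ hb'
    · intro i j a hij _
      rw [Finset.sum_insert ht, map_add]
      exact isSt_blkElt.add _ _ _ _ (fun e => hij (Option.some.inj e))

end Crest.Agent.R176
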