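import Crest.Agent.R176.GLightB

/-!
Row 176, group half: the light cone lemma.
-/

set_option autoImplicit false
set_option linter.unusedSectionVars false

open scoped commutatorElement

namespace Crest.Agent.R176

variable {A : Type} [Ring A] [Algebra (ZMod 2) A] (𝒜 : ℕ → Submodule (ZMod 2) A)
  [GradedAlgebra 𝒜] {ι : Type} [Fintype ι] [DecidableEq ι]

theorem light [CharP A 2] (E : Aug A) (hE : E.Graded 𝒜) (h0 : 𝒜 0 = 1) {z : St ι A}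
    (h₁ : StN.rmap _ E.ε z = 1) (h₂ : StN.π _ A z = 1) :
    ∃ q₀ : ℕ, ∀ (q : ℕ) [NeZero q], q₀ ≤ q → Theta 𝒜 ι q Set.univ z = 1 := by
  obtain ⟨ρ, hρ⟩ := Theta_cut 𝒜 z
  refine ⟨2 * ρ + 2, fun q _ hq => ?_⟩
  have hl : ∀ C, StN.rmap _ E.lev (Theta 𝒜 ι q C z) = 1 := fun C => by
    rw [lev_Theta 𝒜 E hE h0, Aug.lev, ← rmap_rmap, h₁, map_one, map_one]
  have hπ : ∀ C, StN.π _ A (Theta 𝒜 ι q C z) = 1 := fun C => by
    obtain ⟨W, hW, rfl⟩ := LightB.exists_hom_word 𝒜 z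
    have hW' : Letters ((⊤ : Ideal A) : Set A) W := hW.mono fun _ _ => trivial
    rw [ev_eq_evX, map_evX, evX_congr hW' fun i j a h _ => Theta_x 𝒜 q C h a]
    exact pi_evX_blk ⊤ (theta 𝒜 q C) (fun a _ b _ => theta_mul 𝒜 q C a b)
      (Function.Embedding.refl ι) hW' h₂
  have h₃ : Theta 𝒜 ι q {0}ᶜ z = 1 :=
    gates_eq_one 𝒜 E hE h0 (p := 0) (by simp) (Theta_mem_gates 𝒜 q _ z) (hl _) (hπ _)
  have h₄ := hρ q
  rw [h₃, inv_one, mul_one] at h₄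
  refine gates_eq_one 𝒜 E hE h0 (p := ((ρ + 1 : ℤ) : ZMod q)) ?_ h₄ (hl _) (hπ _)
  rintro ⟨k, hk, e⟩
  rw [abs_le] at hk
  have h₅ := (ZMod.intCast_eq_intCast_iff_dvd_sub _ _ _).1 e.symm
  have h₆ := Int.le_of_dvd (by omega) h₅
  omega

end Crest.Agent.R176
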