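import Crest.Agent.R176.GMat
import Crest.Agent.R176.GAlg

/-!
Row 176, group half: gates.
-/

set_option autoImplicit false
set_option linter.unusedSectionVars false

open scoped commutatorElement

namespace Crest.Agent.R176

variable {A : Type} [Ring A] [Algebra (ZMod 2) A] (𝒜 : ℕ → Submodule (ZMod 2) A)
  [GradedAlgebra 𝒜] {ι : Type} [Fintype ι] [DecidableEq ι]

/-- The subgroup generated by the gates inside `Z`. -/
def Gates (ι : Type) (q : ℕ) (Z : Set (ZMod q)) : Subgroup (St (ι × ZMod q) A) :=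
  Subgroup.closure {y | ∃ (i j : ι) (c : ZMod q) (d : ℕ) (a : A), i ≠ j ∧ a ∈ 𝒜 d ∧
    Allowed Z c d ∧ y = StN.x (i, c) (j, c + (d : ℕ)) a}

/-- The retraction of `A` onto its degree zero part. -/
noncomputable def Aug.lev (E : Aug A) : A →+* A := (algebraMap (ZMod 2) A).comp E.ε

namespace LightA

variable {𝒜}

theorem lev_pos (E : Aug A) (hE : E.Graded 𝒜) {d : ℕ} (hd : 0 < d) {a : A} (ha : a ∈ 𝒜 d) :
    E.lev a = 0 := by
  rw [Aug.lev, RingHom.comp_apply, (hE a).2 (mem_deep_of_mem ha hd), map_zero]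

theorem lev_zero (E : Aug A) (h0 : 𝒜 0 = 1) {a : A} (ha : a ∈ 𝒜 0) : E.lev a = a := by
  rw [h0, Submodule.mem_one] at ha
  obtain ⟨r, rfl⟩ := ha
  have h : E.ε.comp (algebraMap (ZMod 2) A) = RingHom.id _ := RingHom.ext_zmod _ _
  have h' : E.ε (algebraMap (ZMod 2) A r) = r := congrArg (fun f : ZMod 2 →+* ZMod 2 => f r) h
  rw [Aug.lev, RingHom.comp_apply, h']

theorem val_shift {q : ℕ} [NeZero q] {Z : Set (ZMod q)} {p : ZMod q} (hp : p ∉ Z) {c : ZMod q}
    {d : ℕ} (h : Allowed Z c d) : (c + (d : ℕ) - p).val = (c - p).val + d := by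
  induction d with
  | zero => simp
  | succ d ih =>
    have h₁ := ih fun k hk => h k (by omega)
    have h₂ : c + ((d + 1 : ℕ) : ZMod q) - p = (((c + (d : ℕ) - p).val + 1 : ℕ) : ZMod q) := by
      rw [Nat.cast_add, Nat.cast_add, ZMod.natCast_zmod_val]
      ring
    have h₃ : c + ((d + 1 : ℕ) : ZMod q) - p ≠ 0 := fun e =>
      hp (sub_eq_zero.1 e ▸ h (d + 1) le_rfl)
    have h₄ : (c + (d : ℕ) - p).val + 1 < q := by
      have h₅ := ZMod.val_lt (c + (d : ZMod q) - p)
      rcases (Nat.succ_le_of_lt h₅).lt_or_eq with h₆ | h₆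
      · exact h₆
      · refine absurd ?_ h₃
        rw [h₂, show (c + (d : ℕ) - p).val + 1 = q from h₆, ZMod.natCast_self]
    rw [h₂, ZMod.val_natCast_of_lt h₄, h₁, add_assoc]

theorem level_conj {κ R G : Type} [Ring R] [Group G] {Φ : Net κ} {X : κ → κ → R → G}
    (h : IsSt Φ X) (ht : κ → ℕ) {g y : G} (hg : g ∈ gen Φ X fun i j => ht i = ht j)
    (hy : y ∈ gen Φ X fun i j => ht i < ht j) :
    g * y * g⁻¹ ∈ gen Φ X fun i j => ht i < ht j := by
  refine gen_induction_left h (P := fun g => ∀ y ∈ gen Φ X fun i j => ht i < ht j,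
    g * y * g⁻¹ ∈ gen Φ X fun i j => ht i < ht j) hg (fun y hy => by simpa using hy) ?_ y hy
  clear hg hy g y
  intro u v b g h₁ h₂ _ ih y hy
  have key : ∀ z ∈ gen Φ X fun i j => ht i < ht j,
      X u v b * z * (X u v b)⁻¹ ∈ gen Φ X fun i j => ht i < ht j := by
    intro z hz
    refine gen_induction
      (P := fun z => X u v b * z * (X u v b)⁻¹ ∈ gen Φ X fun i j => ht i < ht j) hz
      (fun s t a h₃ h₄ => ?_) (by simp)
      (fun a b _ _ ha hb => by simpa [mul_assoc] using mul_mem ha hb)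
      (fun a _ ha => by simpa [mul_assoc] using inv_mem ha)
    by_cases e₁ : v = s
    · subst e₁
      have hut : u ≠ t := by
        rintro rfl
        omega
      rw [h.conj_left h₁ h₃ hut]
      exact mul_mem (mem_gen (Φ.trans h₁ h₃ hut) (by omega) _) (mem_gen h₃ h₄ _)
    · by_cases e₂ : u = t
      · subst e₂
        rw [h.conj_right h₁ h₃ (Ne.symm e₁)]
        exact mul_mem (mem_gen (Φ.trans h₃ h₁ (Ne.symm e₁)) (by omega) _) (mem_gen h₃ h₄ _)
      · rw [h.conj_comm h₁ h₃ e₁ e₂]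
        exact mem_gen h₃ h₄ _
  simpa [mul_assoc] using key _ (ih y hy)

theorem theta_map_lev (E : Aug A) (hE : E.Graded 𝒜) (h0 : 𝒜 0 = 1) (q : ℕ) (C : Set (ZMod q))
    (a : A) : (theta 𝒜 q C a).map E.lev = theta 𝒜 q C (E.lev a) := by
  induction a using DirectSum.Decomposition.inductionOn 𝒜 with
  | zero => rw [map_zero, map_zero, map_zero, Matrix.map_zero _ (map_zero _)]
  | add a a' h h' => rw [map_add, map_add, map_add, ← h, ← h', Matrix.map_add _ (map_add _)]
  | @homogeneous d a =>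
    rcases Nat.eq_zero_or_pos d with rfl | hd
    · rw [lev_zero E h0 a.2, theta_of_mem 𝒜 q C a.2]
      ext c c'
      simp only [shiftP, AddMonoidHom.coe_mk, ZeroHom.coe_mk, Matrix.map_apply, Matrix.of_apply]
      split_ifs
      · exact lev_zero E h0 a.2
      · exact map_zero _
    · rw [lev_pos E hE hd a.2, map_zero, theta_of_mem 𝒜 q C a.2]
      ext c c'
      simp only [shiftP, AddMonoidHom.coe_mk, ZeroHom.coe_mk, Matrix.map_apply, Matrix.of_apply,
        Matrix.zero_apply]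
      split_ifs
      · exact lev_pos E hE hd a.2
      · exact map_zero _

end LightA

open LightA in
/-- Products of gates inside a proper subset of the circle are determined by their level part
and their matrix. -/
theorem gates_eq_one (E : Aug A) (hE : E.Graded 𝒜) (h0 : 𝒜 0 = 1) {q : ℕ} [NeZero q]
    {Z : Set (ZMod q)} {p : ZMod q} (hp : p ∉ Z) {y : St (ι × ZMod q) A} (hy : y ∈ Gates 𝒜 ι q Z)
    (h₁ : StN.rmap _ E.lev y = 1) (h₂ : StN.π _ A y = 1) : y = 1 := by
  have key : ∀ y ∈ Gates 𝒜 ι q Z,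
      StN.rmap _ E.lev y ∈ gen (Net.full (ι × ZMod q)) StN.x
        (fun i j => (i.2 - p).val = (j.2 - p).val) ∧
      y * (StN.rmap _ E.lev y)⁻¹ ∈ gen (Net.full (ι × ZMod q)) StN.x
        (fun i j => (i.2 - p).val < (j.2 - p).val) := by
    intro y hy
    induction hy using Subgroup.closure_induction with
    | mem y hy =>
      obtain ⟨i, j, c, d, a, hij, ha, hal, rfl⟩ := hy
      have hrel : (Net.full (ι × ZMod q)).rel (i, c) (j, c + (d : ℕ)) := fun e =>
        hij (congrArg Prod.fst e)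
      have hv := val_shift hp hal
      rw [StN.rmap_x]
      rcases Nat.eq_zero_or_pos d with rfl | hd
      · rw [lev_zero E h0 ha, mul_inv_cancel]
        exact ⟨mem_gen hrel hv.symm _, one_mem _⟩
      · rw [lev_pos E hE hd ha, StN.isSt.zero hrel, inv_one, mul_one]
        exact ⟨one_mem _, mem_gen hrel (by simp only [hv]; omega) _⟩
    | one => rw [map_one, inv_one, mul_one]; exact ⟨one_mem _, one_mem _⟩
    | mul a b _ _ ha hb =>
      rw [map_mul]
      refine ⟨mul_mem ha.1 hb.1, ?_⟩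
      have h := mul_mem ha.2
        (level_conj StN.isSt (fun i : ι × ZMod q => (i.2 - p).val) ha.1 hb.2)
      convert h using 1
      group
    | inv a _ ha =>
      rw [map_inv]
      refine ⟨inv_mem ha.1, ?_⟩
      have h := level_conj StN.isSt (fun i : ι × ZMod q => (i.2 - p).val) (inv_mem ha.1)
        (inv_mem ha.2)
      convert h using 1
      group
  have h := (key y hy).2
  rw [h₁, inv_one, mul_one] at h
  exact tri_inj StN.isSt (fun _ _ _ h => StN.π_x h _) (fun i : ι × ZMod q => (i.2 - p).val) h h₂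

theorem Theta_mem_gates (q : ℕ) [NeZero q] (C : Set (ZMod q)) (z : St ι A) :
    Theta 𝒜 ι q C z ∈ Gates 𝒜 ι q C := by
  refine StN.induction (p := fun z => Theta 𝒜 ι q C z ∈ Gates 𝒜 ι q C) z (fun i j a hij => ?_)
    (by rw [map_one]; exact one_mem _) (fun a b ha hb => by rw [map_mul]; exact mul_mem ha hb)
    (fun a ha => by rw [map_inv]; exact inv_mem ha)
  rw [Theta_x 𝒜 q C hij]
  induction a using DirectSum.Decomposition.inductionOn 𝒜 with
  | zero => rw [map_zero, isSt_blkElt.zero hij]; exact one_mem _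
  | add a a' h h' => rw [map_add, isSt_blkElt.add _ _ _ _ hij]; exact mul_mem h h'
  | @homogeneous d a =>
    rw [theta_of_mem 𝒜 q C a.2]
    refine radElt_mem_of _ _ _ ?_
    rintro ⟨i', c⟩ ⟨j', c'⟩ - - - hne
    simp only [blkMat, shiftP, AddMonoidHom.coe_mk, ZeroHom.coe_mk, Matrix.of_apply] at hne ⊢
    split_ifs at hne ⊢ with h₁ h₂
    · obtain ⟨rfl, rfl⟩ := h₁
      obtain ⟨rfl, h₃⟩ := h₂
      exact Subgroup.subset_closure ⟨_, _, c, d, a, hij, a.2, h₃, rfl⟩
    · exact absurd rfl hne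
    · exact absurd rfl hne

theorem lev_Theta (E : Aug A) (hE : E.Graded 𝒜) (h0 : 𝒜 0 = 1) (q : ℕ) [NeZero q]
    (C : Set (ZMod q)) (z : St ι A) :
    StN.rmap _ E.lev (Theta 𝒜 ι q C z) = Theta 𝒜 ι q C (StN.rmap _ E.lev z) := by
  have h : (StN.rmap _ E.lev).comp (Theta 𝒜 ι q C) = (Theta 𝒜 ι q C).comp (StN.rmap _ E.lev) := by
    refine StN.hom_ext fun i j a hij => ?_
    rw [MonoidHom.comp_apply, MonoidHom.comp_apply, StN.rmap_x, Theta_x 𝒜 q C hij,
      Theta_x 𝒜 q C hij, rmap_blkElt, LightA.theta_map_lev E hE h0]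
  exact DFunLike.congr_fun h z

end Crest.Agent.R176
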