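import Crest.Agent.R176.GLightA

/-!
Row 176, group half: locality of the cyclic cover.
-/

set_option autoImplicit false
set_option linter.unusedSectionVars false

open scoped commutatorElement

namespace Crest.Agent.R176

variable {A : Type} [Ring A] [Algebra (ZMod 2) A] (𝒜 : ℕ → Submodule (ZMod 2) A)
  [GradedAlgebra 𝒜] {ι : Type} [Fintype ι] [DecidableEq ι]

namespace LightB

omit [GradedAlgebra 𝒜] [Fintype ι] [DecidableEq ι] in
theorem gates_mono {q : ℕ} {Z Z' : Set (ZMod q)} (h : Z ⊆ Z') : Gates 𝒜 ι q Z ≤ Gates 𝒜 ι q Z' :=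
  Subgroup.closure_mono fun _ ⟨i, j, c, d, a, h₁, h₂, h₃, e⟩ =>
    ⟨i, j, c, d, a, h₁, h₂, fun k hk => h (h₃ k hk), e⟩

theorem shift_split {q : ℕ} [NeZero q] {i j : ι} (hij : i ≠ j) {P P₁ P₂ : ZMod q → Prop}
    (h : ∀ c, P c ↔ P₁ c ∨ P₂ c) (h' : ∀ c, P₁ c → ¬ P₂ c) (d : ℕ) (a : A) :
    (blkElt i j (shiftP q P d a) : St (ι × ZMod q) A) =
      blkElt i j (shiftP q P₁ d a) * blkElt i j (shiftP q P₂ d a) := by
  rw [← isSt_blkElt.add i j _ _ hij]
  congr 1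
  ext c c'
  simp only [shiftP, AddMonoidHom.coe_mk, ZeroHom.coe_mk, Matrix.of_apply, Matrix.add_apply, h]
  have := h' c
  by_cases h₁ : P₁ c <;> by_cases h₂ : P₂ c <;> simp_all

theorem shift_mem {q : ℕ} [NeZero q] {i j : ι} {P : ZMod q → Prop} {d : ℕ} {a : A}
    {K : Subgroup (St (ι × ZMod q) A)} (h : ∀ c, P c → StN.x (i, c) (j, c + (d : ℕ)) a ∈ K) :
    blkElt i j (shiftP q P d a) ∈ K := by
  refine radElt_mem_of _ _ _ ?_
  rintro ⟨i', c⟩ ⟨j', c'⟩ - - - h0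
  simp only [blkMat, shiftP, AddMonoidHom.coe_mk, ZeroHom.coe_mk, Matrix.of_apply] at h0 ⊢
  split_ifs at h0 ⊢ with h₁ h₂
  · rw [h₁.1, h₁.2, h₂.1]
    exact h c h₂.2
  · exact absurd rfl h0
  · exact absurd rfl h0

/-- The positions near `0`. -/
def Zr (q ρ : ℕ) : Set (ZMod q) := {c | ∃ k : ℤ, |k| ≤ ρ ∧ c = (k : ZMod q)}

theorem cut_ev (W : List (ι × ι × A)) (hW : Letters (⋃ d, (𝒜 d : Set A)) W) :
    ∃ ρ : ℕ, ∀ (q : ℕ) [NeZero q],
      Theta 𝒜 ι q Set.univ (ev W) * (Theta 𝒜 ι q {0}ᶜ (ev W))⁻¹ ∈ Gates 𝒜 ι q (Zr q ρ) := by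
  induction W with
  | nil => exact ⟨0, fun q _ => by simp [ev_eq_evX]⟩
  | cons t W ih =>
    obtain ⟨ρ, hρ⟩ := ih fun t' ht' => hW t' (List.mem_cons_of_mem _ ht')
    obtain ⟨i, j, a⟩ := t
    obtain ⟨hij, ha⟩ := hW _ List.mem_cons_self
    obtain ⟨d, ha⟩ := Set.mem_iUnion.1 ha
    have ha' : a ∈ 𝒜 d := ha
    have hij' : i ≠ j := hij
    refine ⟨ρ + d, fun q _ => ?_⟩
    have hy := hρ q
    rw [ev_eq_evX] at hy ⊢
    rw [evX_cons, map_mul, map_mul, Theta_x 𝒜 q _ hij', Theta_x 𝒜 q _ hij',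
      theta_of_mem 𝒜 q _ ha', theta_of_mem 𝒜 q _ ha',
      shift_split hij' (P := fun c => Allowed Set.univ c d) (P₁ := fun c => ¬ Allowed {0}ᶜ c d)
        (P₂ := fun c => Allowed {0}ᶜ c d)
        (fun c => iff_of_true (fun _ _ => trivial) (em' _)) (fun _ h => h),
      shift_split hij' (P := fun c => Allowed {0}ᶜ c d)
        (P₁ := fun c => Allowed {0}ᶜ c d ∧ (c ∈ Zr q ρ ∨ c + d ∈ Zr q ρ))
        (P₂ := fun c => Allowed {0}ᶜ c d ∧ ¬ (c ∈ Zr q ρ ∨ c + d ∈ Zr q ρ))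
        (fun c => by tauto) (fun c => by tauto)]
    set y := Theta 𝒜 ι q Set.univ (evX StN.x W) * (Theta 𝒜 ι q {0}ᶜ (evX StN.x W))⁻¹ with hy'
    set B : St (ι × ZMod q) A := blkElt i j (shiftP q (fun c => ¬ Allowed {0}ᶜ c d) d a)
    set T : St (ι × ZMod q) A :=
      blkElt i j (shiftP q (fun c => Allowed {0}ᶜ c d ∧ (c ∈ Zr q ρ ∨ c + d ∈ Zr q ρ)) d a)
    set F : St (ι × ZMod q) A :=
      blkElt i j (shiftP q (fun c => Allowed {0}ᶜ c d ∧ ¬ (c ∈ Zr q ρ ∨ c + d ∈ Zr q ρ)) d a)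
    have hB : B ∈ Gates 𝒜 ι q (Zr q (ρ + d)) := shift_mem fun c hc => by
      refine Subgroup.subset_closure ⟨i, j, c, d, a, hij', ha', fun k hk => ?_, rfl⟩
      simp only [Allowed, not_forall, Set.mem_compl_iff, Set.mem_singleton_iff, not_not] at hc
      obtain ⟨k₀, hk₀, e⟩ := hc
      refine ⟨k - k₀, abs_le.2 ⟨by push_cast; omega, by push_cast; omega⟩, ?_⟩
      push_cast
      rw [eq_neg_of_add_eq_zero_left e]
      ring
    have hT : T ∈ Gates 𝒜 ι q (Zr q (ρ + d)) := shift_mem fun c hc => by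
      refine Subgroup.subset_closure ⟨i, j, c, d, a, hij', ha', fun k hk => ?_, rfl⟩
      rcases hc.2 with ⟨l, hl, e⟩ | ⟨l, hl, e⟩
      · rw [abs_le] at hl
        refine ⟨l + k, abs_le.2 ⟨by push_cast; omega, by push_cast; omega⟩, ?_⟩
        push_cast
        rw [e]
      · rw [abs_le] at hl
        refine ⟨l - d + k, abs_le.2 ⟨by push_cast; omega, by push_cast; omega⟩, ?_⟩
        push_cast
        rw [← e]
        ring
    have hF : F ∈ Subgroup.centralizer {y} := shift_mem fun c hc => by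
      rw [Subgroup.mem_centralizer_singleton_iff]
      refine (Subgroup.mem_centralizer_singleton_iff.1 ((Subgroup.closure_le
        (Subgroup.centralizer {StN.x (i, c) (j, c + (d : ℕ)) a})).2 ?_ hy)).symm
      rintro _ ⟨i', j', c', d', a', h₁, -, h₃, rfl⟩
      have h₄ : c' ∈ Zr q ρ := by simpa using h₃ 0 (Nat.zero_le _)
      have h₅ := h₃ d' le_rfl
      refine Subgroup.mem_centralizer_singleton_iff.2 (StN.isSt.comm _ _ _ _ _ _
        (fun e => h₁ (congrArg Prod.fst e)) (fun e => hij' (congrArg Prod.fst e))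
        (fun e => hc.2 (Or.inl ?_)) fun e => hc.2 (Or.inr ?_)).eq
      · rwa [show c' + (d' : ℕ) = c from congrArg Prod.snd e] at h₅
      · rwa [show c' = c + (d : ℕ) from congrArg Prod.snd e] at h₄
    have hy₂ : y ∈ Gates 𝒜 ι q (Zr q (ρ + d)) := by
      refine gates_mono 𝒜 (Z := Zr q ρ) ?_ hy
      rintro c ⟨k, hk, e⟩
      exact ⟨k, hk.trans (by push_cast; omega), e⟩
    have e : B * (T * F) * Theta 𝒜 ι q Set.univ (evX StN.x W) *
        (T * F * Theta 𝒜 ι q {0}ᶜ (evX StN.x W))⁻¹ = B * T * (F * y * F⁻¹) * T⁻¹ := by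
      rw [hy']; group
    rw [e, Subgroup.mem_centralizer_singleton_iff.1 hF, mul_inv_cancel_right]
    exact mul_mem (mul_mem (mul_mem hB hT) hy₂) (inv_mem hT)

omit [Fintype ι] [DecidableEq ι] in
theorem exists_hom_word [CharP A 2] (z : St ι A) :
    ∃ W, Letters (⋃ d, (𝒜 d : Set A)) W ∧ ev W = z := by
  refine exists_ev_of_mem (Q := Set.univ) (fun a ha => ?_) (by rw [closure_roots_univ]; trivial)
  clear ha
  induction a using DirectSum.Decomposition.inductionOn 𝒜 with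
  | zero => exact zero_mem _
  | add a a' h h' => exact add_mem h h'
  | @homogeneous d a => exact AddSubgroup.subset_closure (Set.mem_iUnion.2 ⟨d, a.2⟩)

end LightB

/-- Locality: cutting the circle at `0` changes the cover only near `0`. -/
theorem Theta_cut [CharP A 2] (z : St ι A) : ∃ ρ : ℕ, ∀ (q : ℕ) [NeZero q],
    Theta 𝒜 ι q Set.univ z * (Theta 𝒜 ι q {0}ᶜ z)⁻¹ ∈
      Gates 𝒜 ι q {c | ∃ k : ℤ, |k| ≤ ρ ∧ c = (k : ZMod q)} := by
  obtain ⟨W, hW, rfl⟩ := LightB.exists_hom_word 𝒜 z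
  exact LightB.cut_ev 𝒜 W hW

end Crest.Agent.R176
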