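import Crest.Agent.R176.GWord

/-!
Row 176, group half: the matrix side.
-/

set_option autoImplicit false
set_option linter.unusedSectionVars false

open scoped commutatorElement

namespace Crest.Agent.R176

variable {ι κ μ R R' : Type} [Ring R] [Ring R'] [Fintype ι] [DecidableEq ι] [Fintype κ]
  [DecidableEq κ] [Fintype μ] [DecidableEq μ]

theorem elem_mul_apply {i' j' : ι} (h : i' ≠ j') (a : R) (M : Matrix ι ι R) (i j : ι) :
    ((elem i' j' a : Matrix ι ι R) * M) i j = M i j + if i = i' then a * M j' j else 0 := by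
  rw [elem_val h, add_mul, one_mul, Matrix.add_apply]
  split_ifs with e
  · rw [e, Matrix.single_mul_apply_same]
  · rw [Matrix.single_mul_apply_of_ne _ _ _ _ _ e]

theorem StN.mem_gen_top {Φ : Net ι} (g : StN Φ R) : g ∈ gen Φ StN.x fun _ _ => True := by
  rw [StN.gen_top]; trivial

theorem pi_rmap {Φ : Net ι} (f : R →+* R') (g : StN Φ R) :
    (StN.π Φ R' (StN.rmap Φ f g) : Matrix ι ι R') = (StN.π Φ R g : Matrix ι ι R).map f := by
  refine gen_induction_left StN.isSt (P := fun g =>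
    (StN.π Φ R' (StN.rmap Φ f g) : Matrix ι ι R') = (StN.π Φ R g : Matrix ι ι R).map f)
    (StN.mem_gen_top g) (by simp) fun i j a y h _ _ ih => ?_
  ext k l
  rw [map_mul, map_mul, map_mul, StN.rmap_x, StN.π_x h, StN.π_x h, Units.val_mul, Units.val_mul,
    Matrix.map_apply, elem_mul_apply (Φ.ne h), elem_mul_apply (Φ.ne h), ih]
  split_ifs <;> simp

/-- Rows without generators are rows of the identity matrix. -/
theorem pi_gen_row {G : Type} [Group G] {Φ : Net ι} {X : ι → ι → R → G} (h : IsSt Φ X)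
    {π : G →* (Matrix ι ι R)ˣ} (hπ : ∀ i j a, Φ.rel i j → π (X i j a) = elem i j a)
    {p : ι → ι → Prop} {g : G} (hg : g ∈ gen Φ X p) {i : ι} (hi : ∀ j, Φ.rel i j → ¬ p i j)
    (j : ι) : (π g : Matrix ι ι R) i j = (1 : Matrix ι ι R) i j := by
  refine gen_induction_left h (P := fun g => (π g : Matrix ι ι R) i j = (1 : Matrix ι ι R) i j)
    hg (by simp) fun k l a y h₁ h₂ _ ih => ?_
  rw [map_mul, hπ _ _ _ h₁, Units.val_mul, elem_mul_apply (Φ.ne h₁), ih, if_neg, add_zero]
  rintro rfl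
  exact hi l h₁ h₂

/-- Columns without generators are columns of the identity matrix. -/
theorem pi_gen_col {G : Type} [Group G] {Φ : Net ι} {X : ι → ι → R → G} (h : IsSt Φ X)
    {π : G →* (Matrix ι ι R)ˣ} (hπ : ∀ i j a, Φ.rel i j → π (X i j a) = elem i j a)
    {p : ι → ι → Prop} {g : G} (hg : g ∈ gen Φ X p) {j : ι} (hj : ∀ i, Φ.rel i j → ¬ p i j)
    (i : ι) : (π g : Matrix ι ι R) i j = (1 : Matrix ι ι R) i j := by
  refine gen_induction_left h
    (P := fun g => ∀ i, (π g : Matrix ι ι R) i j = (1 : Matrix ι ι R) i j)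
    hg (by simp) (fun k l a y h₁ h₂ _ ih i => ?_) i
  have hl : l ≠ j := by rintro rfl; exact hj k h₁ h₂
  rw [map_mul, hπ _ _ _ h₁, Units.val_mul, elem_mul_apply (Φ.ne h₁), ih, ih,
    Matrix.one_apply_ne hl, mul_zero, ite_self, add_zero]

theorem incl_mem_gen (e : ι ↪ κ) {p : ι → ι → Prop} {q : κ → κ → Prop}
    (hpq : ∀ i j, p i j → q (e i) (e j)) {g : St ι R} (hg : g ∈ gen (Net.full ι) StN.x p) :
    St.incl R e g ∈ gen (Net.full κ) StN.x q :=
  (gen_le (H := (gen (Net.full κ) StN.x q).comap (St.incl R e))).2 (fun i j a h₁ h₂ => by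
    rw [Subgroup.mem_comap, St.incl_x e h₁]
    exact mem_gen (e.injective.ne h₁) (hpq i j h₂) a) hg

theorem pi_incl_apply (e : ι ↪ κ) (g : St ι R) (i j : ι) :
    (StN.π _ R (St.incl R e g) : Matrix κ κ R) (e i) (e j) = (StN.π _ R g : Matrix ι ι R) i j := by
  refine gen_induction_left StN.isSt (P := fun g => ∀ i,
    (StN.π _ R (St.incl R e g) : Matrix κ κ R) (e i) (e j) = (StN.π _ R g : Matrix ι ι R) i j)
    (StN.mem_gen_top g) (fun i => by simp [Matrix.one_apply]) (fun k l a y h _ _ ih i => ?_) i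
  have h' : e k ≠ e l := e.injective.ne h
  rw [map_mul, map_mul, map_mul, St.incl_x e h, StN.π_x h, StN.π_x (Φ := Net.full κ) h',
    Units.val_mul, Units.val_mul, elem_mul_apply h, elem_mul_apply h', ih, ih]
  simp

theorem pi_incl_apply_of_not (e : ι ↪ κ) (g : St ι R) {a b : κ}
    (h : a ∉ Set.range e ∨ b ∉ Set.range e) :
    (StN.π _ R (St.incl R e g) : Matrix κ κ R) a b = (1 : Matrix κ κ R) a b := by
  have hg := incl_mem_gen e (q := fun a b => a ∈ Set.range e ∧ b ∈ Set.range e)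
    (fun i j _ => ⟨⟨i, rfl⟩, j, rfl⟩) (StN.mem_gen_top g)
  rcases h with h | h
  · exact pi_gen_row StN.isSt (fun _ _ _ h => StN.π_x h _) hg (fun _ _ h' => h h'.1) b
  · exact pi_gen_col StN.isSt (fun _ _ _ h => StN.π_x h _) hg (fun _ _ h' => h h'.2) a

theorem pi_incl_eq_one (e : ι ↪ κ) {g : St ι R} :
    StN.π _ R (St.incl R e g) = 1 ↔ StN.π _ R g = 1 := by
  refine ⟨fun h => Units.ext ?_, fun h => Units.ext ?_⟩
  · ext i j
    rw [← pi_incl_apply e, h]
    simp [Matrix.one_apply]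
  · ext a b
    by_cases hab : a ∈ Set.range e ∧ b ∈ Set.range e
    · obtain ⟨⟨i, rfl⟩, j, rfl⟩ := hab
      rw [pi_incl_apply, h]
      simp [Matrix.one_apply]
    · exact pi_incl_apply_of_not e g (not_and_or.1 hab)

/-- An element of the radical lies in any subgroup containing its root factors. -/
theorem radElt_mem_of {G : Type} [Group G] {Φ : Net ι} {X : ι → ι → R → G} (h : IsSt Φ X)
    (S : Set ι) (M : Matrix ι ι R) {K : Subgroup G}
    (hK : ∀ i j, Φ.rel i j → i ∈ S → j ∉ S → M i j ≠ 0 → X i j (M i j) ∈ K) :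
    radElt h S M ∈ K := by
  refine Subgroup.noncommProd_mem _ _ fun q hq => ?_
  obtain ⟨h₁, h₂, h₃⟩ := mem_radPos.1 hq
  by_cases h0 : M q.1 q.2 = 0
  · rw [h0, h.zero h₁]; exact one_mem _
  · exact hK _ _ h₁ h₂ h₃ h0

/-- Unitriangular subgroups embed into matrices. -/
theorem tri_inj {G : Type} [Group G] {Φ : Net ι} {X : ι → ι → R → G} (h : IsSt Φ X)
    {π : G →* (Matrix ι ι R)ˣ} (hπ : ∀ i j a, Φ.rel i j → π (X i j a) = elem i j a)
    (ht : ι → ℕ) {y : G} (hy : y ∈ gen Φ X fun i j => ht i < ht j) (h1 : π y = 1) : y = 1 := by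
  have key : ∀ m, ∀ y ∈ gen Φ X fun i j => ht i < ht j ∧ ht j ≤ m, π y = 1 → y = 1 := by
    intro m
    induction m with
    | zero =>
      intro y hy _
      exact (gen_le (H := ⊥)).2 (fun i j a _ h₂ => absurd h₂ (by omega)) hy
    | succ m ih =>
      intro y hy h1
      obtain ⟨u, hu, r, hr, rfl⟩ : ∃ u ∈ gen Φ X fun i j => ht i < ht j ∧ ht j ≤ m,
          ∃ r ∈ Rad Φ X {i | ht i ≤ m}, y = u * r := by
        refine gen_induction_left h (P := fun y => ∃ u ∈ gen Φ X fun i j => ht i < ht j ∧ ht j ≤ m,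
          ∃ r ∈ Rad Φ X {i | ht i ≤ m}, y = u * r) hy ⟨1, one_mem _, 1, one_mem _, by simp⟩ ?_
        rintro i j a y h₁ h₂ - ⟨u, hu, r, hr, rfl⟩
        by_cases hj : ht j ≤ m
        · exact ⟨_, mul_mem (mem_gen h₁ ⟨h₂.1, hj⟩ a) hu, r, hr, (mul_assoc _ _ _).symm⟩
        · have hp : u⁻¹ ∈ ParG Φ X {i | ht i ≤ m} :=
            inv_mem (gen_mono (fun k l _ h₃ h₄ => h₄.1 (h₃.1.le.trans h₃.2)) hu)
          have hx : X i j a ∈ Rad Φ X {i | ht i ≤ m} :=
            mem_gen h₁ ⟨show ht i ≤ m by omega, hj⟩ a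
          exact ⟨u, hu, _, mul_mem (rad_conj h hp hx) hr, by group⟩
      have e1 : π r⁻¹ = π u := by
        rw [map_mul] at h1
        rw [map_inv, eq_inv_of_mul_eq_one_left h1]
      have e2 : π r⁻¹ = π 1 := by
        rw [map_one]
        refine Units.ext ?_
        ext i j
        by_cases hj : ht j ≤ m
        · exact rad_pi_apply h hπ (inv_mem hr) fun h' => h'.2.2 hj
        · rw [e1]
          exact pi_gen_col h hπ hu (fun _ _ h' => hj h'.2) i
      rw [inv_eq_one.1 (rad_inj h hπ (inv_mem hr) (one_mem _) e2), mul_one]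
      exact ih u hu (by rw [← e1, e2, map_one])
  exact key (Finset.univ.sup ht) y
    (gen_mono (fun i j _ h' => ⟨h', Finset.le_sup (Finset.mem_univ j)⟩) hy) h1

theorem blkMat_zero (i j : ι) : blkMat i j (0 : Matrix μ μ R) = 0 := by
  ext p p'; simp [blkMat]

/-- A word with trivial matrix has trivial matrix after substitution of blocks along a map that
is additive, and multiplicative on `D`. -/
theorem pi_evX_blk (D : Ideal R) (φ : R →+ Matrix μ μ R')
    (hφ : ∀ a ∈ D, ∀ b ∈ D, φ (a * b) = φ a * φ b) (e : ι ↪ κ) {W : List (ι × ι × R)}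
    (hW : Letters (D : Set R) W) (h1 : StN.π _ R (ev W) = 1) :
    StN.π _ R' (evX (fun i j a => (blkElt (e i) (e j) (φ a) : St (κ × μ) R')) W) = 1 := by
  obtain ⟨F, hF⟩ : ∃ F : Matrix ι ι R → Matrix (κ × μ) (κ × μ) R',
      ∀ M, F M = ∑ k, ∑ l, blkMat (e k) (e l) (φ (M k l)) := ⟨_, fun _ => rfl⟩
  have hadd : ∀ M N, F (M + N) = F M + F N := fun M N => by
    simp only [hF, Matrix.add_apply, map_add, blkMat_add, Finset.sum_add_distrib]
  have hzero : F 0 = 0 := by simp [hF, blkMat_zero]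
  have hs : ∀ i j a, F (Matrix.single i j a) = blkMat (e i) (e j) (φ a) := fun i j a => by
    rw [hF, Finset.sum_eq_single i, Finset.sum_eq_single j, Matrix.single_apply_same]
    · intro l _ hl
      rw [Matrix.single_apply_of_col_ne _ _ hl.symm, map_zero, blkMat_zero]
    · simp
    · intro k _ hk
      exact Finset.sum_eq_zero fun l _ => by
        rw [Matrix.single_apply_of_row_ne hk.symm, map_zero, blkMat_zero]
    · simp
  have hmul : ∀ i j a M, a ∈ D → (∀ k l, M k l ∈ D) →
      F (Matrix.single i j a * M) = blkMat (e i) (e j) (φ a) * F M := fun i j a M ha hM => by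
    have e1 : F (Matrix.single i j a * M) = ∑ l, blkMat (e i) (e l) (φ a * φ (M j l)) := by
      rw [hF, Finset.sum_eq_single i]
      · exact Finset.sum_congr rfl fun l _ => by
          rw [Matrix.single_mul_apply_same, hφ a ha _ (hM _ _)]
      · intro k _ hk
        exact Finset.sum_eq_zero fun l _ => by
          rw [Matrix.single_mul_apply_of_ne _ _ _ _ _ hk, map_zero, blkMat_zero]
      · simp
    rw [e1, hF, Finset.mul_sum, eq_comm, Finset.sum_eq_single j, Finset.mul_sum]
    · exact Finset.sum_congr rfl fun l _ => blkMat_mul_same _ _ _ _ _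
    · intro k _ hk
      rw [Finset.mul_sum]
      exact Finset.sum_eq_zero fun l _ => blkMat_mul_of_ne (e.injective.ne hk.symm) _ _ _ _
    · simp
  have key : ∃ M : Matrix ι ι R, (∀ k l, M k l ∈ D) ∧ (StN.π _ R (ev W) : Matrix ι ι R) = 1 + M ∧
      (StN.π _ R' (evX (fun i j a => (blkElt (e i) (e j) (φ a) : St (κ × μ) R')) W) :
        Matrix (κ × μ) (κ × μ) R') = 1 + F M := by
    clear h1
    induction W with
    | nil => exact ⟨0, fun _ _ => D.zero_mem, by simp [ev], by simp [evX, hzero]⟩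
    | cons t W ih =>
      obtain ⟨i, j, a⟩ := t
      obtain ⟨M, h₁, h₂, h₃⟩ := ih fun t ht => hW t (List.mem_cons_of_mem _ ht)
      obtain ⟨hij, ha⟩ : i ≠ j ∧ a ∈ D := hW _ List.mem_cons_self
      refine ⟨Matrix.single i j a + M + Matrix.single i j a * M, fun k l => ?_, ?_, ?_⟩
      · refine D.add_mem (D.add_mem ?_ (h₁ k l)) (D.sum_mem fun n _ => D.mul_mem_left _ (h₁ n l))
        rw [Matrix.single_apply]
        split_ifs
        exacts [ha, D.zero_mem]
      · rw [show ev ((i, j, a) :: W) = StN.x i j a * ev W from rfl, map_mul, Units.val_mul, h₂,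
          StN.π_x (Φ := Net.full ι) hij, elem_val hij, add_mul, one_mul, mul_add, mul_one]
        abel
      · rw [evX_cons, map_mul, Units.val_mul, h₃,
          pi_blkElt (e.injective.ne hij), hadd, hadd, hs, hmul _ _ _ _ ha h₁, add_mul, one_mul,
          mul_add, mul_one]
        abel
  obtain ⟨M, -, h₂, h₃⟩ := key
  rw [h1, Units.val_one, left_eq_add] at h₂
  exact Units.ext (by rw [h₃, h₂, hzero, add_zero, Units.val_one])

theorem pad_mul (M N : Matrix μ μ R) : pad (M * N) = pad M * pad N := by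
  ext (_ | c) (_ | c') <;> simp [pad, Matrix.mul_apply, Fintype.sum_option]

theorem incl_blkElt {i j : ι} (h : i ≠ j) (M : Matrix μ μ R) :
    St.incl R (emb1 ι μ) (blkElt i j M) = blkElt (some i) (some j) (pad M) := by
  have h' : some i ≠ some j := by simpa using h
  have m₁ : St.incl R (emb1 ι μ) (blkElt i j M) ∈
      Rad (Net.full (Option ι × Option μ)) StN.x {p | p.1 = some i} :=
    incl_mem_gen (emb1 ι μ) (q := fun p p' => p.1 = some i ∧ ¬ p'.1 = some i)
      (fun p p' hp => ⟨congrArg some hp.1, fun e => h' (e.symm.trans (congrArg some hp.2))⟩)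
      (blkElt_mem M)
  have m₂ : blkElt (some i) (some j) (pad M) ∈
      Rad (Net.full (Option ι × Option μ)) StN.x {p | p.1 = some i} := radElt_mem _ _ _
  refine rad_inj StN.isSt (π := StN.π _ R) (fun _ _ _ h => StN.π_x h _) m₁ m₂ (Units.ext ?_)
  rw [pi_blkElt h']
  ext a b
  by_cases hab : a ∈ Set.range (emb1 ι μ) ∧ b ∈ Set.range (emb1 ι μ)
  · obtain ⟨⟨p, rfl⟩, p', rfl⟩ := hab
    rw [pi_incl_apply, pi_blkElt h]
    simp [Matrix.one_apply, blkMat, emb1, pad, Prod.ext_iff]
  · rw [pi_incl_apply_of_not _ _ (not_and_or.1 hab), Matrix.add_apply, left_eq_add, blkMat,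
      Matrix.of_apply]
    split_ifs with hc
    · obtain ⟨a, _ | c⟩ := a
      · rfl
      obtain ⟨b, _ | c'⟩ := b
      · rfl
      exact absurd ⟨⟨(i, c), Prod.ext hc.1.symm rfl⟩, (j, c'), Prod.ext hc.2.symm rfl⟩ hab
    · rfl

theorem blkElt_single {i j : ι} (h : i ≠ j) (c c' : μ) (a : R) :
    (blkElt i j (Matrix.single c c' a) : St (ι × μ) R) = StN.x (i, c) (j, c') a := by
  have e : blkMat i j (Matrix.single c c' a) = Matrix.single (i, c) (j, c') a := by
    ext ⟨k, d⟩ ⟨l, d'⟩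
    simp only [blkMat, Matrix.of_apply, Matrix.single_apply, Prod.mk.injEq]
    by_cases h₁ : i = k <;> by_cases h₂ : j = l <;> simp [h₁, h₂, @eq_comm _ k, @eq_comm _ l]
  rw [blkElt, e]
  exact radElt_single (Φ := Net.full (ι × μ)) (S := {p | p.1 = i}) (i := (i, c)) (j := (j, c')) _
    (fun e => h (congrArg Prod.fst e)) rfl (fun e : j = i => h e.symm) a

theorem rmap_blkElt (f : R →+* R') (i j : ι) (M : Matrix μ μ R) :
    StN.rmap _ f (blkElt i j M : St (ι × μ) R) = blkElt i j (M.map f) := by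
  unfold blkElt radElt
  rw [Finset.map_noncommProd]
  refine Finset.noncommProd_congr rfl (fun p _ => ?_) _
  rw [StN.rmap_x, blkMat, blkMat, Matrix.of_apply, Matrix.of_apply]
  split_ifs <;> simp

end Crest.Agent.R176
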