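import Crest.Agent.R176.GMat

/-!
Row 176, group half: stabilisers of basis columns over local rings; `K₂` is central.
-/

set_option autoImplicit false
set_option linter.unusedSectionVars false

open scoped commutatorElement

namespace Crest.Agent.R176

/-- A criterion for a root element to normalise `gen q`. -/
theorem gen_conj_x {ι R G : Type} [Ring R] [Group G] {Φ : Net ι} {X : ι → ι → R → G}
    (h : IsSt Φ X) {q : ι → ι → Prop} {a b : ι} (hab : Φ.rel a b) (r : R)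
    (h₁ : ∀ j, Φ.rel b j → q b j → a ≠ j ∧ q a j)
    (h₂ : ∀ i, Φ.rel i a → q i a → i ≠ b → q i b) {y : G} (hy : y ∈ gen Φ X q) :
    X a b r * y * (X a b r)⁻¹ ∈ gen Φ X q := by
  refine gen_induction (P := fun z => X a b r * z * (X a b r)⁻¹ ∈ gen Φ X q) hy
    (fun s t c h₃ h₄ => ?_) (by simp)
    (fun a b _ _ ha hb => by simpa [mul_assoc] using mul_mem ha hb)
    (fun a _ ha => by simpa [mul_assoc] using inv_mem ha)
  by_cases e₁ : b = s
  · subst e₁
    obtain ⟨h₅, h₆⟩ := h₁ t h₃ h₄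
    rw [h.conj_left hab h₃ h₅]
    exact mul_mem (mem_gen (Φ.trans hab h₃ h₅) h₆ _) (mem_gen h₃ h₄ _)
  · by_cases e₂ : a = t
    · subst e₂
      rw [h.conj_right hab h₃ (Ne.symm e₁)]
      exact mul_mem (mem_gen (Φ.trans h₃ hab (Ne.symm e₁)) (h₂ s h₃ h₄ (Ne.symm e₁)) _)
        (mem_gen h₃ h₄ _)
    · rw [h.conj_comm hab h₃ e₁ e₂]; exact mem_gen h₃ h₄ _

variable {ι R : Type} [Ring R] [Fintype ι] [DecidableEq ι]

namespace SP

/-- Subgroups of `St ι R` generated by root elements. -/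
abbrev gn (R : Type) [Ring R] (p : ι → ι → Prop) : Subgroup (St ι R) := gen (Net.full ι) StN.x p

/-- The column `l` of the matrix of `g`. -/
noncomputable def col (l : ι) (g : St ι R) (i : ι) : R := (StN.π _ R g : Matrix ι ι R) i l

theorem hπ : ∀ (i j : ι) (a : R), (Net.full ι).rel i j →
    StN.π (Net.full ι) R (StN.x i j a) = elem i j a := fun _ _ _ h => StN.π_x h _

theorem col_one (l i : ι) : col l (1 : St ι R) i = if i = l then 1 else 0 := by
  simp [col, Matrix.one_apply]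

theorem col_x {a b : ι} (h : a ≠ b) (l : ι) (r : R) (g : St ι R) (i : ι) :
    col l (StN.x a b r * g) i = col l g i + if i = a then r * col l g b else 0 := by
  rw [col, map_mul, hπ a b r h, Units.val_mul, elem_val h, add_mul, one_mul, Matrix.add_apply]
  congr 1
  split_ifs with e
  · subst e; rw [Matrix.single_mul_apply_same]; rfl
  · rw [Matrix.single_mul_apply_of_ne _ _ _ _ _ e]

theorem col_row {p : ι → ι → Prop} {h : St ι R} (hh : h ∈ gn R p) {i : ι} (hi : ∀ j, ¬ p i j)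
    (l : ι) (g : St ι R) : col l (h * g) i = col l g i := by
  refine gen_induction_left StN.isSt (P := fun h => col l (h * g) i = col l g i) hh (by simp) ?_
  intro a b r y h₁ h₂ _ ih
  rw [mul_assoc, col_x h₁, if_neg (fun e : i = a => hi b (e ▸ h₂)), add_zero, ih]

theorem col_col {p : ι → ι → Prop} {h : St ι R} (hh : h ∈ gn R p) {l : ι} (hl : ∀ i, ¬ p i l)
    (g : St ι R) (i : ι) : col l (g * h) i = col l g i := by
  simp only [col, map_mul, Units.val_mul, Matrix.mul_apply,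
    pi_gen_col StN.isSt hπ hh (fun i _ => hl i)]
  rw [← Matrix.mul_apply, mul_one]

variable (E : Aug R) (J : Finset ι) (l : ι)

/-- `g ∈ C_k x_{kl}(unit) P`. -/
def Good (k : ι) (g : St ι R) : Prop :=
  ∃ X ∈ gn R fun i j => (i ∈ J ∨ i = l) ∧ j = k, ∃ s, E.ε s = 1 ∧
    ∃ p ∈ gn R fun i j => (i ∈ J ∨ i = l) ∧ j ∈ J, g = X * StN.x k l s * p

/-- The root elements in `J ∪ {l}` with row different from `k`. -/
abbrev GG (R : Type) [Ring R] (k : ι) : Subgroup (St ι R) :=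
  gn R fun i j => i ≠ k ∧ (i ∈ J ∨ i = l) ∧ (j ∈ J ∨ j = l)

/-- The root elements in `J ∪ {l}` with row `k`. -/
abbrev YY (R : Type) [Ring R] (k : ι) : Subgroup (St ι R) := gn R fun i j => i = k ∧ (j ∈ J ∨ j = l)

variable {E J l}

theorem eps_cases (a : R) : E.ε a = 0 ∨ E.ε a = 1 := by
  generalize E.ε a = t; revert t; decide

theorem Good.mul (hl : l ∉ J) {k : ι} (hk : k ∈ J) {g h : St ι R} (hg : Good E J l k g)
    (hh : h ∈ GG J l R k) : Good E J l k (h * g) := by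
  have hkl : k ≠ l := fun e => hl (e ▸ hk)
  refine gen_induction_left StN.isSt (P := fun h => Good E J l k (h * g)) hh (by simpa using hg) ?_
  rintro a b r y hab ⟨hak, ha, hb⟩ - ⟨X, hX, s, hs, p, hp, e⟩
  have hab' : a ≠ b := hab
  rw [mul_assoc, e]
  by_cases hbk : b = k
  · exact ⟨StN.x a b r * X, mul_mem (mem_gen hab ⟨ha, hbk⟩ _) hX, s, hs, p, hp, by group⟩
  have hX' : StN.x a b r * X * (StN.x a b r)⁻¹ ∈ gn R fun i j => (i ∈ J ∨ i = l) ∧ j = k :=
    gen_conj_x StN.isSt (q := fun i j => (i ∈ J ∨ i = l) ∧ j = k) hab r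
      (fun j _ hj => ⟨hj.2 ▸ hak, ha, hj.2⟩) (fun i _ hi _ => absurd hi.2 hak) hX
  rcases hb with hb | rfl
  · have hxp : (StN.x a b r : St ι R) ∈ gn R fun i j => (i ∈ J ∨ i = l) ∧ j ∈ J :=
      mem_gen hab ⟨ha, hb⟩ _
    by_cases hal : a = l
    · subst hal
      have h1 := StN.isSt.conj_left (Φ := Net.full ι) (R := R) hkl hab (Ne.symm hbk) (-s) r
      rw [← StN.isSt.inv (Φ := Net.full ι) hkl, inv_inv] at h1
      refine ⟨_, hX', s, hs, StN.x k b (-s * r) * StN.x a b r * p,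
        mul_mem (mul_mem (mem_gen (Ne.symm hbk) ⟨Or.inl hk, hb⟩ _) hxp) hp, ?_⟩
      rw [← h1]; group
    · have h1 := StN.isSt.comm (Φ := Net.full ι) (R := R) a b k l r s hab hkl hbk hal
      refine ⟨_, hX', s, hs, StN.x a b r * p, mul_mem hxp hp, ?_⟩
      calc _ = StN.x a b r * X * (StN.x a b r)⁻¹ * (StN.x a b r * StN.x k l s) * p := by group
        _ = _ := by rw [h1.eq]; group
  · obtain ⟨u, rfl⟩ := E.unit s hs
    have h1 := StN.isSt.conj_left (Φ := Net.full ι) (R := R) hak hkl hab (r * (u⁻¹ : Rˣ)) u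
    rw [Units.inv_mul_cancel_right] at h1
    refine ⟨_ * StN.x a k (r * (u⁻¹ : Rˣ)), mul_mem hX' (mem_gen hak ⟨ha, rfl⟩ _), u, hs,
      (StN.x a k (r * (u⁻¹ : Rˣ)))⁻¹ * p, mul_mem (inv_mem (mem_gen hak ⟨ha, hk⟩ _)) hp, ?_⟩
    calc _ = StN.x a b r * X * (StN.x a b r)⁻¹ * (StN.x a b r * StN.x k b (u : R)) * p := by group
      _ = _ := by rw [← h1]; group

theorem Good.of_mul (hl : l ∉ J) {k : ι} (hk : k ∈ J) {g h : St ι R} (hg : Good E J l k (h * g))
    (hh : h ∈ GG J l R k) : Good E J l k g := by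
  simpa using hg.mul hl hk (inv_mem hh)

theorem good_base {k : ι} {s : R} (hs : E.ε s = 1) {p : St ι R}
    (hp : p ∈ gn R fun i j => (i ∈ J ∨ i = l) ∧ j ∈ J) : Good E J l k (StN.x k l s * p) :=
  ⟨1, one_mem _, s, hs, p, hp, by rw [one_mul]⟩

theorem Good.change (hl : l ∉ J) {k k' : ι} (hk : k ∈ J) (hk' : k' ∈ J) {g : St ι R}
    (hg : Good E J l k g) (hu : E.ε (col l g k') = 1) : Good E J l k' g := by
  by_cases hkk : k' = k
  · exact hkk ▸ hg
  have hkl : k ≠ l := fun e => hl (e ▸ hk)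
  have hkl' : k' ≠ l := fun e => hl (e ▸ hk')
  obtain ⟨X, hX, s, hs, p, hp, rfl⟩ := hg
  have key : ∃ X' ∈ gn R fun i j => i ≠ k' ∧ (i ∈ J ∨ i = l) ∧ j = k, ∃ a,
      X = X' * StN.x k' k a := by
    refine gen_induction_left StN.isSt (P := fun X => ∃ X' ∈ gn R fun i j => i ≠ k' ∧
      (i ∈ J ∨ i = l) ∧ j = k, ∃ a, X = X' * StN.x k' k a) hX
      ⟨1, one_mem _, 0, by rw [StN.isSt.zero (Φ := Net.full ι) hkk, mul_one]⟩ ?_
    rintro i j r y hij ⟨hi, rfl⟩ - ⟨X', hX', a, rfl⟩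
    by_cases e : i = k'
    · subst e
      refine ⟨X', hX', r + a, ?_⟩
      have : Commute (StN.x i j r) X' :=
        rad_comm StN.isSt (S := {i | i ≠ j}) (mem_gen hij ⟨hij, fun h => h rfl⟩ _)
          (gen_mono (fun a b hab h => ⟨h.2.2 ▸ hab, fun h' => h' h.2.2⟩) hX')
      rw [← mul_assoc, this.eq, StN.isSt.add _ _ _ _ hij, mul_assoc]
    · exact ⟨StN.x i j r * X', mul_mem (mem_gen hij ⟨e, hi, rfl⟩ _) hX', a, by rw [mul_assoc]⟩
  obtain ⟨X', hX', a, rfl⟩ := key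
  have hX'' : X' ∈ GG J l R k' :=
    gen_mono (fun _ _ _ h => ⟨h.1, h.2.1, Or.inl (h.2.2 ▸ hk)⟩) hX'
  have h1 := StN.isSt.conj_left (Φ := Net.full ι) (R := R) hkk hkl hkl' a s
  have h2 := StN.isSt.comm (Φ := Net.full ι) (R := R) k' l k l (a * s) s hkl' hkl hkl.symm hkl'
  have h3 : X' * StN.x k' k a * StN.x k l s * p =
      X' * (StN.x k l s * (StN.x k' l (a * s) * (StN.x k' k a * p))) := by
    calc _ = X' * (StN.x k' k a * StN.x k l s * (StN.x k' k a)⁻¹) * (StN.x k' k a * p) := by group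
      _ = _ := by rw [h1, h2.eq]; group
  have hp' : StN.x k' k a * p ∈ gn R fun i j => (i ∈ J ∨ i = l) ∧ j ∈ J :=
    mul_mem (mem_gen hkk ⟨Or.inl hk', hk⟩ _) hp
  rw [h3] at hu ⊢
  rw [col_row hX'' (fun j h => h.1 rfl), col_x hkl, if_neg hkk, add_zero, col_x hkl', if_pos rfl,
    ← one_mul (StN.x k' k a * p), col_col hp' (fun i h => hl h.2), col_col hp' (fun i h => hl h.2),
    col_one, col_one, if_neg hkl', if_pos rfl, zero_add, mul_one] at hu
  exact ((good_base hu hp').mul hl hk'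
    (mem_gen hkl ⟨Ne.symm hkk, Or.inl hk, Or.inr rfl⟩ _)).mul hl hk' hX''

theorem Good.unit (hl : l ∉ J) {k : ι} (hk : k ∈ J) {g : St ι R} (hg : Good E J l k g) :
    E.ε (col l g k) = 1 := by
  have hkl : k ≠ l := fun e => hl (e ▸ hk)
  obtain ⟨X, hX, s, hs, p, hp, rfl⟩ := hg
  have hX' : X ∈ gn R fun i j => i ≠ k := gen_mono (fun _ _ h h' => h'.2 ▸ h) hX
  rw [col_col hp (fun i h => hl h.2), col_row hX' (fun j h => h rfl), ← mul_one (StN.x k l s),
    col_x hkl, if_pos rfl, col_one, col_one, if_neg hkl, if_pos rfl, zero_add, mul_one, hs]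

theorem yy_le_gg {k k' : ι} (hk : k ∈ J) (h : k ≠ k') : YY J l R k ≤ GG J l R k' :=
  gen_mono fun _ _ _ hp => ⟨hp.1 ▸ h, Or.inl (hp.1 ▸ hk), hp.2⟩

theorem yy_conj {k a b : ι} (hab : a ≠ b) (hb : b ∈ J ∨ b = l) (hbk : b ≠ k) (r : R)
    {z : St ι R} (hz : z ∈ YY J l R k) :
    StN.x a b r * z * (StN.x a b r)⁻¹ ∈ YY J l R k :=
  gen_conj_x StN.isSt hab r (fun _ _ h => absurd h.1 hbk) (fun _ _ h _ => ⟨h.1, hb⟩) hz

theorem exists_unit {k : ι} (hk : k ∈ J) {z g : St ι R} (hz : z ∈ YY J l R k)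
    (h : E.ε (col l (z * g) k) = 1) : ∃ p, (p ∈ J ∨ p = l) ∧ E.ε (col l g p) = 1 := by
  by_contra hcon
  have h0 : ∀ p, (p ∈ J ∨ p = l) → E.ε (col l g p) = 0 := fun p hp =>
    (eps_cases _).resolve_right fun e => hcon ⟨p, hp, e⟩
  have : ∀ p, (p ∈ J ∨ p = l) → E.ε (col l (z * g) p) = 0 := by
    refine gen_induction_left StN.isSt (P := fun z => ∀ p, (p ∈ J ∨ p = l) →
      E.ε (col l (z * g) p) = 0) hz (by simpa using h0) ?_
    intro a b r y hab hp _ ih p hp'
    rw [mul_assoc, col_x hab, map_add, ih p hp']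
    split_ifs
    · rw [map_mul, ih b hp.2]; simp
    · simp
  rw [this k (Or.inl hk)] at h
  exact absurd h (by decide)

variable (E J l) in
/-- The invariant. -/
def Inv (k : ι) (g : St ι R) : Prop := ∃ r, Good E J l k (StN.x k l r * g)

theorem Good.inv (hl : l ∉ J) {k : ι} (hk : k ∈ J) {g : St ι R} (hg : Good E J l k g) :
    Inv E J l k g :=
  ⟨0, by rwa [StN.isSt.zero (Φ := Net.full ι) (fun e => hl (e ▸ hk) : k ≠ l), one_mul]⟩

theorem Inv.transfer (hl : l ∉ J) {k k' : ι} (hk : k ∈ J) (hk' : k' ∈ J) (hkk : k' ≠ k)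
    {g z : St ι R} (hg : Inv E J l k g) (hz : z ∈ YY J l R k') (hu : E.ε (col l (z * g) k') = 1) :
    Good E J l k' (z * g) := by
  have hkl : k ≠ l := fun e => hl (e ▸ hk)
  have hkl' : k' ≠ l := fun e => hl (e ▸ hk')
  obtain ⟨r, hr⟩ := hg
  have h1 := hr.mul hl hk (yy_le_gg hk' hkk (yy_conj hkl (Or.inr rfl) hkl'.symm r hz))
  have h2 : StN.x k l r * z * (StN.x k l r)⁻¹ * (StN.x k l r * g) = StN.x k l r * (z * g) := by
    group
  rw [h2] at h1
  refine (h1.change hl hk hk' ?_).of_mul hl hk' (mem_gen hkl ⟨hkk.symm, Or.inl hk, Or.inr rfl⟩ _)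
  rwa [col_x hkl, if_neg hkk, add_zero]

theorem exists_other (hJ : 3 ≤ J.card) (a b : ι) : ∃ k ∈ J, k ≠ a ∧ k ≠ b := by
  have : (({a, b} : Finset ι)).card < J.card := lt_of_le_of_lt Finset.card_le_two (by omega)
  obtain ⟨k, hk, h⟩ := Finset.exists_mem_notMem_of_card_lt_card this
  exact ⟨k, hk, by simpa using h⟩

theorem Inv.good (hl : l ∉ J) (hJ : 3 ≤ J.card) {k k' : ι} (hk : k ∈ J) (hk' : k' ∈ J)
    {g : St ι R} (hg : Inv E J l k g) (hu : E.ε (col l g k') = 1) : Good E J l k' g := by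
  by_cases hkk : k' = k
  · subst hkk
    obtain ⟨m, hm, hmk, -⟩ := exists_other hJ k' k'
    have key : ∃ r, E.ε (col l (StN.x m k' r * g) m) = 1 := by
      rcases eps_cases (E := E) (col l g m) with h | h
      · exact ⟨1, by rw [col_x hmk, if_pos rfl, map_add, h, one_mul, hu, zero_add]⟩
      · exact ⟨0, by rw [col_x hmk, if_pos rfl, zero_mul, add_zero, h]⟩
    obtain ⟨r, hr⟩ := key
    have h1 := hg.transfer hl hk hm hmk (mem_gen hmk ⟨rfl, Or.inl hk⟩ r) hr
    refine (h1.change hl hm hk ?_).of_mul hl hk (mem_gen hmk ⟨hmk, Or.inl hm, Or.inl hk⟩ _)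
    rwa [col_x hmk, if_neg hmk.symm, add_zero]
  · simpa using hg.transfer hl hk hk' hkk (one_mem _) (by simpa using hu)

theorem inv_of_good (hl : l ∉ J) (hJ : 3 ≤ J.card) {k : ι} (hk : k ∈ J) {g z : St ι R}
    (hz : z ∈ YY J l R k) (hg : Good E J l k (z * g)) (h0 : E.ε (col l g k) = 0) :
    ∃ m ∈ J, Inv E J l m g := by
  by_cases h : ∃ m ∈ J, E.ε (col l g m) = 1
  · obtain ⟨m, hm, hu⟩ := h
    have hmk : k ≠ m := by rintro rfl; rw [h0] at hu; exact absurd hu (by decide)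
    refine ⟨m, hm, ((hg.change hl hk hm ?_).of_mul hl hm (yy_le_gg hk hmk hz)).inv hl hm⟩
    rwa [col_row hz (fun j h => hmk h.1.symm)]
  · obtain ⟨p, hp, hu⟩ := exists_unit hk hz (hg.unit hl hk)
    obtain rfl : p = l := hp.resolve_left fun hp => h ⟨p, hp, hu⟩
    obtain ⟨m, hm, hmk, -⟩ := exists_other hJ k k
    have hml : m ≠ p := fun e => hl (e ▸ hm)
    have hkl : k ≠ p := fun e => hl (e ▸ hk)
    have hm0 : E.ε (col p g m) = 0 := (eps_cases _).resolve_right fun e => h ⟨m, hm, e⟩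
    have h1 := hg.mul hl hk (mem_gen hml ⟨hmk, Or.inl hm, Or.inr rfl⟩ (1 : R))
    have h2 := h1.change hl hk hm (by
      rw [col_x hml, if_pos rfl, col_row hz (fun j h => hmk h.1),
        col_row hz (fun j h => hkl h.1.symm), one_mul, map_add, hm0, hu, zero_add])
    have h3 : StN.x m p (1 : R) * (z * g) =
        StN.x m p 1 * z * (StN.x m p 1)⁻¹ * (StN.x m p 1 * g) := by group
    rw [h3] at h2
    exact ⟨m, hm, 1, h2.of_mul hl hm
      (yy_le_gg hk hmk.symm (yy_conj hml (Or.inr rfl) hkl.symm 1 hz))⟩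

theorem Inv.step (hl : l ∉ J) (hJ : 3 ≤ J.card) {k : ι} (hk : k ∈ J) {g : St ι R}
    (hg : Inv E J l k g) {a b : ι} (hab : a ≠ b) (ha : a ∈ J ∨ a = l) (hb : b ∈ J ∨ b = l) (t : R) :
    ∃ m ∈ J, Inv E J l m (StN.x a b t * g) := by
  obtain ⟨m, hm, hma, hmb⟩ := exists_other hJ a b
  have hx : (StN.x a b t : St ι R) ∈ GG J l R m := mem_gen hab ⟨hma.symm, ha, hb⟩ _
  rcases eps_cases (E := E) (col l g m) with h | h
  · have key : ∃ y ∈ YY J l R m, Good E J l m (y * g) := by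
      have hkl : k ≠ l := fun e => hl (e ▸ hk)
      by_cases hmk : m = k
      · obtain ⟨r, hr⟩ := hg
        exact ⟨_, mem_gen hkl ⟨hmk.symm, Or.inr rfl⟩ r, hmk ▸ hr⟩
      · obtain ⟨r, hr⟩ := id hg
        obtain ⟨p, hp, hu⟩ := exists_unit hk (mem_gen hkl ⟨rfl, Or.inr rfl⟩ r) (hr.unit hl hk)
        have hmp : m ≠ p := by rintro rfl; rw [h] at hu; exact absurd hu (by decide)
        refine ⟨_, mem_gen hmp ⟨rfl, hp⟩ (1 : R), hg.transfer hl hk hm hmk
          (mem_gen hmp ⟨rfl, hp⟩ (1 : R)) ?_⟩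
        rw [col_x hmp, if_pos rfl, one_mul, map_add, h, hu, zero_add]
    obtain ⟨y, hy, hyg⟩ := key
    have h1 := hyg.mul hl hm hx
    have h3 : StN.x a b t * (y * g) =
        StN.x a b t * y * (StN.x a b t)⁻¹ * (StN.x a b t * g) := by group
    rw [h3] at h1
    refine inv_of_good hl hJ hm (yy_conj hab hb hmb.symm t hy) h1 ?_
    rwa [col_x hab, if_neg hma, add_zero]
  · exact ⟨m, hm, ((hg.good hl hJ hk hm h).mul hl hm hx).inv hl hm⟩

theorem Inv.mem (hl : l ∉ J) {k : ι} (hk : k ∈ J) {g : St ι R} (hg : Inv E J l k g)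
    (hcol : ∀ i, col l g i = if i = l then 1 else 0) :
    g ∈ gn R fun i j => (i ∈ J ∨ i = l) ∧ j ∈ J := by
  have hkl : k ≠ l := fun e => hl (e ▸ hk)
  obtain ⟨r, X, hX, s, hs, p, hp, e⟩ := hg
  have hX' : X ∈ gn R fun i j => i ≠ k := gen_mono (fun _ _ h h' => h'.2 ▸ h) hX
  have h1 : ∀ i, col l (StN.x k l r * g) i = col l X i + col k X i * s := by
    intro i
    rw [e, col_col hp (fun i h => hl h.2), col, map_mul, hπ k l s hkl, Units.val_mul, elem_val hkl,
      mul_add, mul_one, Matrix.add_apply, Matrix.mul_single_apply_same]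
    rfl
  have h2 : ∀ j, j ≠ k → ∀ i, col j X i = if i = j then 1 else 0 := fun j hj i => by
    rw [← one_mul X, col_col hX (fun i h => hj h.2), col_one]
  have h3 : col k X k = 1 := by
    rw [← mul_one X, col_row hX' (fun j h => h rfl), col_one, if_pos rfl]
  have h4 : X = 1 := by
    refine rad_inj StN.isSt hπ (S := {i | i ≠ k})
      (gen_mono (fun a b hab h => ⟨h.2 ▸ hab, fun h' => h' h.2⟩) hX) (one_mem _) ?_
    apply Units.ext
    ext i j
    change col j X i = col j 1 i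
    rw [col_one]
    by_cases hj : j = k
    · subst hj
      by_cases hi : i = j
      · rw [hi, h3, if_pos rfl]
      · have := h1 i
        rw [col_x hkl, if_neg hi, add_zero, hcol, h2 l hkl.symm, left_eq_add,
          (E.unit s hs).mul_left_eq_zero] at this
        rw [this, if_neg hi]
    · exact h2 j hj i
  have h5 : r = s := by
    have := h1 k
    rwa [col_x hkl, if_pos rfl, hcol, hcol, h2 l hkl.symm, h3, if_pos rfl, mul_one, one_mul,
      add_right_inj] at this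
  rw [h4, h5, one_mul, mul_right_inj] at e
  exact e ▸ hp

end SP

/-- An element of `S_{J ∪ {l}}` fixing the column `e_l` is a word in root elements with columns
in `J`. -/
theorem stab_sp (E : Aug R) (J : Finset ι) {l : ι} (hl : l ∉ J) (hJ : 3 ≤ J.card) {g : St ι R}
    (hg : g ∈ gen (Net.full ι) StN.x fun i j => (i ∈ J ∨ i = l) ∧ (j ∈ J ∨ j = l))
    (hcol : ∀ i, (StN.π _ R g : Matrix ι ι R) i l = (1 : Matrix ι ι R) i l) :
    g ∈ gen (Net.full ι) StN.x fun i j => (i ∈ J ∨ i = l) ∧ j ∈ J := by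
  have key : ∃ k ∈ J, SP.Inv E J l k g := by
    refine gen_induction_left StN.isSt (P := fun g => ∃ k ∈ J, SP.Inv E J l k g) hg ?_ ?_
    · obtain ⟨k, hk, -⟩ := SP.exists_other hJ l l
      exact ⟨k, hk, 1, SP.good_base (map_one _) (one_mem _)⟩
    · rintro a b t y hab hp - ⟨k, hk, hy⟩
      exact hy.step hl hJ hk hab hp.1 hp.2 t
  obtain ⟨k, hk, h⟩ := key
  exact h.mem hl hk fun i => (hcol i).trans (Matrix.one_apply)

theorem k2_central (E : Aug R) (hι : 4 ≤ Fintype.card ι) {z : St ι R} (hz : StN.π _ R z = 1) :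
    z ∈ Subgroup.center (St ι R) := by
  rw [Subgroup.mem_center_iff]
  intro g
  suffices h : Commute g z from h.eq
  refine StN.induction (p := fun g : St ι R => Commute g z) g (fun a b r hab => ?_)
    (Commute.one_left z) (fun _ _ h h' => Commute.mul_left h h') (fun _ h => Commute.inv_left h)
  show Commute _ _
  have h0 : z ∈ gen (Net.full ι) StN.x fun i j => (i ∈ Finset.univ.erase a ∨ i = a) ∧
      (j ∈ Finset.univ.erase a ∨ j = a) := by
    have : z ∈ gen (Net.full ι) StN.x fun _ _ => True := by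
      rw [StN.gen_top]; exact Subgroup.mem_top _
    refine gen_mono (fun i j _ _ => ⟨?_, ?_⟩) this
    · by_cases h : i = a <;> simp [h]
    · by_cases h : j = a <;> simp [h]
  have h1 := stab_sp E (Finset.univ.erase a) (l := a) (by simp)
    (by rw [Finset.card_erase_of_mem (Finset.mem_univ _), Finset.card_univ]; omega) h0
    (fun i => by rw [hz, Units.val_one])
  have h2 : z ∈ ParG (Net.full ι) StN.x {i | i = a} := by
    refine gen_mono ?_ h1
    rintro i j - ⟨-, h⟩ ⟨-, h'⟩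
    exact Finset.ne_of_mem_erase h h'
  have h3 : (StN.x a b r : St ι R) ∈ Rad (Net.full ι) StN.x {i | i = a} :=
    mem_gen hab ⟨rfl, fun e => hab (Eq.symm e)⟩ _
  have h4 := conj_eq_of_pi StN.isSt SP.hπ h2 h3 h3 (by rw [hz, one_mul, inv_one, mul_one])
  rw [mul_inv_eq_iff_eq_mul] at h4
  exact h4.symm

end Crest.Agent.R176
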