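import Crest.Agent.R176.GSP

/-!
Row 176, group half: the homomorphisms `HH` on stabilisers.
-/

set_option autoImplicit false
set_option linter.unusedSectionVars false

open scoped commutatorElement

namespace Crest.Agent.R176

variable {ι R : Type} [Ring R] [Fintype ι] [DecidableEq ι]

open Classical in
theorem gJ_x {J : Finset ι} {l : ι} (hl : l ∉ J) {a b : Option ι} (hab : a ≠ b) (hb : InJ J b)
    (r : R) : gJ R J l (StN.x a b r) =
      if InJ J a then (StN.x (a.getD l) (b.getD l) r : St ι R) else 1 := by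
  rw [gJ, dif_pos hl]
  exact StN.lift_x _ ((netJ_rel J a b).2 ⟨hab, hb⟩) r

theorem inclJ_x {J J' : Finset ι} (h : J ⊆ J') {a b : Option ι} (hab : a ≠ b) (hb : InJ J b)
    (r : R) : inclJ R J J' (StN.x a b r) = StN.x a b r := by
  rw [inclJ, dif_pos h]
  exact StN.map_x _ _ _ _ ((netJ_rel J a b).2 ⟨hab, hb⟩) r

theorem pi_inclJ {J J' : Finset ι} (h : J ⊆ J') (q : QJ J R) :
    StN.π _ R (inclJ R J J' q) = StN.π _ R q := by
  refine DFunLike.congr_fun (StN.hom_ext (f := (StN.π _ R).comp (inclJ R J J'))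
    (g := StN.π _ R) fun a b r hab => ?_) q
  have hab' := (netJ_rel J a b).1 hab
  rw [MonoidHom.comp_apply, inclJ_x h hab'.1 hab'.2, StN.π_x hab,
    StN.π_x ((netJ_rel J' a b).2 ⟨hab'.1, fun i hi => h (hab'.2 i hi)⟩)]

theorem inclJ_inclJ {J J' J'' : Finset ι} (h : J ⊆ J') (h' : J' ⊆ J'') (q : QJ J R) :
    inclJ R J' J'' (inclJ R J J' q) = inclJ R J J'' q := by
  refine DFunLike.congr_fun (StN.hom_ext (f := (inclJ R J' J'').comp (inclJ R J J'))
    (g := inclJ R J J'') fun a b r hab => ?_) q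
  have hab' := (netJ_rel J a b).1 hab
  rw [MonoidHom.comp_apply, inclJ_x h hab'.1 hab'.2, inclJ_x (h.trans h') hab'.1 hab'.2,
    inclJ_x h' hab'.1 fun i hi => h (hab'.2 i hi)]

namespace StabAux

theorem hπ {κ : Type} [Fintype κ] [DecidableEq κ] (Φ : Net κ) (i j : κ) (a : R) (h : Φ.rel i j) :
    StN.π Φ R (StN.x i j a) = elem i j a := StN.π_x h a

theorem col_mul {κ : Type} [Fintype κ] [DecidableEq κ] (A : Matrix κ κ R) {B : Matrix κ κ R}
    {j : κ} (h : ∀ i, B i j = (1 : Matrix κ κ R) i j) (i : κ) : (A * B) i j = A i j := by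
  conv_rhs => rw [← mul_one A]
  simp only [Matrix.mul_apply, h]

/-- The stabiliser of a basis column. -/
def colS {κ : Type} [Fintype κ] [DecidableEq κ] (Φ : Net κ) (R : Type) [Ring R] (j : κ) :
    Subgroup (StN Φ R) where
  carrier := {g | ∀ i, (StN.π Φ R g : Matrix κ κ R) i j = (1 : Matrix κ κ R) i j}
  one_mem' i := by rw [map_one, Units.val_one]
  mul_mem' {a b} ha hb i := by rw [map_mul, Units.val_mul, col_mul _ hb, ha]
  inv_mem' {a} ha i := by
    rw [← col_mul (StN.π Φ R a⁻¹ : Matrix κ κ R) ha i, ← Units.val_mul, ← map_mul, inv_mul_cancel,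
      map_one, Units.val_one]

theorem pi_x_mul {κ : Type} [Fintype κ] [DecidableEq κ] {Φ : Net κ} {i j : κ} (h : Φ.rel i j)
    (r : R) (y : StN Φ R) (a b : κ) : (StN.π Φ R (StN.x i j r * y) : Matrix κ κ R) a b =
      (StN.π Φ R y : Matrix κ κ R) a b +
        if i = a then r * (StN.π Φ R y : Matrix κ κ R) j b else 0 := by
  rw [map_mul, Units.val_mul, StN.π_x h, elem_val (Φ.ne h), add_mul, one_mul, Matrix.add_apply]
  split_ifs with e
  · subst e; rw [Matrix.single_mul_apply_same]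
  · rw [Matrix.single_mul_apply_of_ne _ _ _ _ _ (Ne.symm e)]

theorem supp {S T : Set ι} {y : St ι R} (hy : y ∈ Rad (Net.full ι) StN.x S)
    (hT : ∀ j ∈ T, y ∈ colS _ R j) :
    y ∈ gen (Net.full ι) StN.x fun i j => i ∈ S ∧ j ∉ S ∧ j ∉ T := by
  obtain ⟨M, rfl⟩ := exists_radElt StN.isSt hy
  refine radElt_mem_gen _ _ _ fun i j h₁ h₂ h₃ h₄ => ⟨h₂, h₃, fun hj => h₄ ?_⟩
  have := hT j hj i
  rw [pi_radElt StN.isSt (hπ _), Matrix.add_apply, Matrix.of_apply, if_pos ⟨h₁, h₂, h₃⟩] at this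
  exact add_eq_left.1 this

theorem getD_mem {J : Finset ι} (l : ι) {a : Option ι} (ha : InJ J a) :
    a.getD l ∈ J ∨ a.getD l = l := by
  rcases a with _ | a
  · exact Or.inr rfl
  · exact Or.inl (ha a rfl)

theorem inJ_none (J : Finset ι) : InJ J none := fun _ h => by cases h

theorem inJ_some {J : Finset ι} {i : ι} : InJ J (some i) ↔ i ∈ J :=
  ⟨fun h => h i rfl, fun h _ e => by cases e; exact h⟩

theorem mem_top {J : Finset ι} (q : QJ J R) : q ∈ gen (netJ J) StN.x fun _ _ => True := by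
  rw [StN.gen_top]; trivial

theorem gJ_mem {J : Finset ι} {l : ι} (hl : l ∉ J) (q : QJ J R) :
    gJ R J l q ∈ gen (Net.full ι) StN.x fun i j => (i ∈ J ∨ i = l) ∧ (j ∈ J ∨ j = l) := by
  refine gen_induction_left StN.isSt (P := fun q => gJ R J l q ∈
    gen (Net.full ι) StN.x fun i j => (i ∈ J ∨ i = l) ∧ (j ∈ J ∨ j = l)) (mem_top q)
    (by rw [map_one]; exact one_mem _) fun a b r y hab _ _ ih => ?_
  rw [netJ_rel] at hab
  rw [map_mul, gJ_x hl hab.1 hab.2]
  refine mul_mem ?_ ih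
  split_ifs with ha
  · exact mem_gen (getD_ne hl ha hab.2 hab.1) ⟨getD_mem l ha, getD_mem l hab.2⟩ r
  · exact one_mem _

theorem pi_gJ {J : Finset ι} {l : ι} (hl : l ∉ J) (q : QJ J R) :
    ∀ a b, InJ J a → InJ J b → (StN.π _ R (gJ R J l q) : Matrix ι ι R) (a.getD l) (b.getD l) =
      (StN.π _ R q : Matrix (Option ι) (Option ι) R) a b := by
  refine gen_induction_left StN.isSt (P := fun q => ∀ a b, InJ J a → InJ J b →
    (StN.π _ R (gJ R J l q) : Matrix ι ι R) (a.getD l) (b.getD l) =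
      (StN.π _ R q : Matrix (Option ι) (Option ι) R) a b) (mem_top q)
    (fun a b ha hb => ?_) fun c d r y hcd _ _ ih a b ha hb => ?_
  · simp only [map_one, Units.val_one]
    by_cases e : a = b
    · subst e; simp
    · rw [Matrix.one_apply_ne e, Matrix.one_apply_ne (getD_ne hl ha hb e)]
  · have hcd' := (netJ_rel J c d).1 hcd
    rw [map_mul, gJ_x hl hcd'.1 hcd'.2, pi_x_mul hcd]
    by_cases hc : InJ J c
    · rw [if_pos hc, pi_x_mul (Φ := Net.full ι) (getD_ne hl hc hcd'.2 hcd'.1), ih a b ha hb,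
        ih d b hcd'.2 hb]
      by_cases e : c = a
      · rw [if_pos e, if_pos (by rw [e])]
      · rw [if_neg e, if_neg (getD_ne hl hc ha e)]
    · rw [if_neg hc, one_mul, ih a b ha hb, if_neg (fun e : c = a => hc (e ▸ ha)), add_zero]

theorem col_q {J : Finset ι} (q : QJ J R) {j : ι} (hj : j ∉ J) (a : Option ι) :
    (StN.π _ R q : Matrix (Option ι) (Option ι) R) a (some j) =
      (1 : Matrix (Option ι) (Option ι) R) a (some j) :=
  pi_gen_col StN.isSt (hπ _) (mem_top q)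
    (fun _ h _ => hj (inJ_some.1 ((netJ_rel J _ _).1 h).2)) a

theorem one_some (i j : ι) :
    (1 : Matrix (Option ι) (Option ι) R) (some i) (some j) = (1 : Matrix ι ι R) i j := by
  simp [Matrix.one_apply]

theorem col_gJ {J : Finset ι} {l : ι} (hl : l ∉ J) {q : QJ J R} (hq : Stab q) {j : ι}
    (hj : j ∉ J) : gJ R J l q ∈ colS _ R j := by
  intro i
  by_cases e : j = l
  · subst e
    by_cases hi : i ∈ J
    · have := pi_gJ hl q (some i) none (inJ_some.2 hi) (inJ_none J)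
      rw [hq, Matrix.one_apply_ne (by simp)] at this
      rw [Matrix.one_apply_ne fun e : i = j => hl (e ▸ hi)]
      exact this
    · by_cases hi' : i = j
      · subst hi'
        have := pi_gJ hl q none none (inJ_none J) (inJ_none J)
        rw [hq, Matrix.one_apply_eq] at this
        rw [Matrix.one_apply_eq]
        exact this
      · exact pi_gen_row StN.isSt (hπ _) (gJ_mem hl q) (fun _ _ h => h.1.elim hi hi') j
  · exact pi_gen_col StN.isSt (hπ _) (gJ_mem hl q) (fun _ _ h => h.2.elim hj e) i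

theorem gJ_mem' (E : Aug R) {J : Finset ι} {l : ι} (hl : l ∉ J) (hJ : 3 ≤ J.card) {q : QJ J R}
    (hq : Stab q) : gJ R J l q ∈ gen (Net.full ι) StN.x fun i j => (i ∈ J ∨ i = l) ∧ j ∈ J :=
  stab_sp E J hl hJ (gJ_mem hl q) (col_gJ hl hq hl)

theorem exists_isH {J : Finset ι} {l : ι} (hl : l ∉ J) {q : QJ J R} (hq : Stab q) :
    ∃ h, IsH J l q h := by
  refine ⟨radElt StN.isSt {i | i ∉ J}
    ((StN.π _ R q : Matrix (Option ι) (Option ι) R).submatrix some some *
      (StN.π _ R (gJ R J l q)⁻¹ : Matrix ι ι R) - 1) * gJ R J l q, ?_, ?_⟩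
  · rw [mul_inv_cancel_right]; exact radElt_mem _ _ _
  · rw [map_mul, Units.val_mul, rad_surj StN.isSt (hπ _), add_sub_cancel, mul_assoc,
      ← Units.val_mul, ← map_mul, inv_mul_cancel, map_one, Units.val_one, mul_one]
    intro i j hij
    rw [Matrix.sub_apply, sub_eq_zero]
    by_cases hj : j ∈ J
    · have hi : i ∈ J := by
        by_contra hi
        exact hij ⟨fun e => hi (e ▸ hj), hi, fun h => h hj⟩
      have h1 : ∀ k, (StN.π _ R q : Matrix (Option ι) (Option ι) R).submatrix some some i k =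
          (StN.π _ R (gJ R J l q) : Matrix ι ι R) i k := by
        intro k
        by_cases hk : k ∈ J
        · exact (pi_gJ hl q (some i) (some k) (inJ_some.2 hi) (inJ_some.2 hk)).symm
        · rw [col_gJ hl hq hk i, Matrix.submatrix_apply, col_q q hk, one_some]
      rw [Matrix.mul_apply]
      simp only [h1]
      rw [← Matrix.mul_apply, ← Units.val_mul, ← map_mul, mul_inv_cancel, map_one, Units.val_one]
    · rw [col_mul _ (inv_mem (col_gJ hl hq hj)), Matrix.submatrix_apply, col_q q hj, one_some]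

theorem gJ_incl_mem {J J' : Finset ι} (h : J ⊆ J') {l : ι} (hl : l ∉ J') (q : QJ J R) :
    gJ R J' l (inclJ R J J' q) ∈ gen (Net.full ι) StN.x fun _ j => j ∈ J ∨ j = l := by
  refine gen_induction_left StN.isSt (P := fun q => gJ R J' l (inclJ R J J' q) ∈
    gen (Net.full ι) StN.x fun _ j => j ∈ J ∨ j = l) (mem_top q)
    (by rw [map_one, map_one]; exact one_mem _) fun a b r y hab _ _ ih => ?_
  rw [netJ_rel] at hab
  have hb : InJ J' b := fun i hi => h (hab.2 i hi)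
  rw [map_mul, map_mul, inclJ_x h hab.1 hab.2, gJ_x hl hab.1 hb]
  refine mul_mem ?_ ih
  split_ifs with ha
  · exact mem_gen (Φ := Net.full ι) (p := fun _ j => j ∈ J ∨ j = l) (getD_ne hl ha hb hab.1)
      (getD_mem l hab.2) r
  · exact one_mem _

theorem gJ_incl_div {J J' : Finset ι} (h : J ⊆ J') {l : ι} (hl : l ∉ J') (q : QJ J R) :
    gJ R J' l (inclJ R J J' q) * (gJ R J l q)⁻¹ ∈
      Rad (Net.full ι) StN.x {i | i ∉ J ∧ i ≠ l} := by
  have hl' : l ∉ J := fun e => hl (h e)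
  refine gen_induction_left StN.isSt (P := fun q => gJ R J' l (inclJ R J J' q) * (gJ R J l q)⁻¹ ∈
    Rad (Net.full ι) StN.x {i | i ∉ J ∧ i ≠ l}) (mem_top q)
    (by simp only [map_one, inv_one, mul_one]; exact one_mem _) fun a b r y hab _ _ ih => ?_
  rw [netJ_rel] at hab
  have hb : InJ J' b := fun i hi => h (hab.2 i hi)
  have hb' : b.getD l ∉ {i | i ∉ J ∧ i ≠ l} := fun e => (getD_mem l hab.2).elim e.1 e.2
  rw [map_mul, map_mul, map_mul, inclJ_x h hab.1 hab.2, gJ_x hl hab.1 hb, gJ_x hl' hab.1 hab.2]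
  by_cases ha : InJ J a
  · have ha' : InJ J' a := fun i hi => h (ha i hi)
    rw [if_pos ha, if_pos ha']
    have := rad_conj StN.isSt
      (mem_gen (p := fun i j => ¬ (i ∉ {i | i ∉ J ∧ i ≠ l} ∧ j ∈ {i | i ∉ J ∧ i ≠ l}))
        (getD_ne hl ha' hb hab.1) (fun e => hb' e.2) r) ih
    simpa only [mul_inv_rev, mul_assoc] using this
  · rw [if_neg ha, one_mul, mul_assoc]
    refine mul_mem ?_ ih
    split_ifs with ha'
    · refine mem_gen (getD_ne hl ha' hb hab.1) ⟨?_, hb'⟩ r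
      rcases a with _ | a
      · exact absurd (inJ_none J) ha
      · exact ⟨fun e => ha (inJ_some.2 e), fun e : a = l => hl (e ▸ inJ_some.1 ha')⟩
    · exact one_mem _

/-- The lift of the transposition (characteristic two). -/
def sw (R : Type) [Ring R] (l l' : ι) : St ι R := StN.x l l' 1 * StN.x l' l 1 * StN.x l l' 1

theorem sw_conj (l l' : ι) (z : St ι R) : sw R l l' * z * (sw R l l')⁻¹ =
    StN.x l l' 1 * (StN.x l' l 1 * (StN.x l l' 1 * z * (StN.x l l' 1)⁻¹) * (StN.x l' l 1)⁻¹) *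
      (StN.x l l' 1)⁻¹ := by
  rw [sw]; group

theorem conj_mul' {G : Type} [Group G] (a y z : G) :
    a * (y * z) * a⁻¹ = (a * y * a⁻¹) * (a * z * a⁻¹) := by group

theorem sw_comm {l l' i j : ι} (h : l ≠ l') (hij : i ≠ j) (h₁ : i ≠ l) (h₂ : i ≠ l') (h₃ : j ≠ l)
    (h₄ : j ≠ l') (r : R) : sw R l l' * StN.x i j r * (sw R l l')⁻¹ = StN.x i j r := by
  have S := StN.isSt (Φ := Net.full ι) (R := R)
  rw [sw_conj, S.conj_comm h hij h₂.symm h₃.symm, S.conj_comm h.symm hij h₁.symm h₄.symm,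
    S.conj_comm h hij h₂.symm h₃.symm]

theorem sw_row [CharP R 2] {l l' j : ι} (h : l ≠ l') (h₃ : j ≠ l) (h₄ : j ≠ l') (r : R) :
    sw R l l' * StN.x l j r * (sw R l l')⁻¹ = StN.x l' j r := by
  have S := StN.isSt (Φ := Net.full ι) (R := R)
  rw [sw_conj, S.conj_comm h h₃.symm h.symm h₃.symm, S.conj_left h.symm h₃.symm h₄.symm, one_mul,
    conj_mul', S.conj_left h h₄.symm h₃.symm, one_mul, S.conj_comm h h₃.symm h.symm h₃.symm,
    (S.comm l j l' j r r h₃.symm h₄.symm h₄ h₃.symm).eq, mul_assoc, S.mul_self h₃.symm, mul_one]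

theorem sw_col [CharP R 2] {l l' i : ι} (h : l ≠ l') (h₁ : i ≠ l) (h₂ : i ≠ l') (r : R) :
    sw R l l' * StN.x i l r * (sw R l l')⁻¹ = StN.x i l' r := by
  have S := StN.isSt (Φ := Net.full ι) (R := R)
  rw [sw_conj, S.conj_right h h₁ h₂, mul_one, CharTwo.neg_eq, conj_mul' (StN.x l' l 1),
    S.conj_right h.symm h₂ h₁, mul_one, CharTwo.neg_eq, S.conj_comm h.symm h₁ h₁.symm h.symm,
    (S.comm i l i l' r r h₁ h₂ h₁.symm h₂).eq, mul_assoc (StN.x i l' r), S.mul_self h₁, mul_one,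
    S.conj_comm h h₂ h₂.symm h]

theorem gJ_sw [CharP R 2] {J : Finset ι} {l l' : ι} (hl : l ∉ J) (hl' : l' ∉ J) (h : l ≠ l')
    (q : QJ J R) : gJ R J l' q = sw R l l' * gJ R J l q * (sw R l l')⁻¹ := by
  refine DFunLike.congr_fun (StN.hom_ext (f := gJ R J l')
    (g := (MulAut.conj (sw R l l')).toMonoidHom.comp (gJ R J l)) fun a b r hab => ?_) q
  rw [netJ_rel] at hab
  have n₁ : ∀ {i}, InJ J (some i) → i ≠ l := fun hi e => hl (e ▸ inJ_some.1 hi)
  have n₂ : ∀ {i}, InJ J (some i) → i ≠ l' := fun hi e => hl' (e ▸ inJ_some.1 hi)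
  change _ = sw R l l' * gJ R J l _ * (sw R l l')⁻¹
  rw [gJ_x hl hab.1 hab.2, gJ_x hl' hab.1 hab.2]
  split_ifs with ha
  · rcases a with _ | a <;> rcases b with _ | b
    · exact absurd rfl hab.1
    · exact (sw_row h (n₁ hab.2) (n₂ hab.2) r).symm
    · exact (sw_col h (n₁ ha) (n₂ ha) r).symm
    · exact (sw_comm h (fun e => hab.1 (congrArg some e)) (n₁ ha) (n₂ ha) (n₁ hab.2)
        (n₂ hab.2) r).symm
  · simp

theorem sw_div {J : Finset ι} {l l' : ι} (hl : l ∉ J) (hl' : l' ∉ J) (h : l ≠ l') {g : St ι R}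
    (hg : g ∈ gen (Net.full ι) StN.x fun i j => (i ∈ J ∨ i = l) ∧ j ∈ J) :
    sw R l l' * g * (sw R l l')⁻¹ * g⁻¹ ∈ Rad (Net.full ι) StN.x {i | i ∉ J} := by
  have hw : sw R l l' ∈ ParG (Net.full ι) StN.x {i | i ∉ J} :=
    mul_mem (mul_mem (mem_gen h (fun e => e.1 hl) _) (mem_gen h.symm (fun e => e.1 hl') _))
      (mem_gen h (fun e => e.1 hl) _)
  refine gen_induction_left StN.isSt (P := fun g => sw R l l' * g * (sw R l l')⁻¹ * g⁻¹ ∈
    Rad (Net.full ι) StN.x {i | i ∉ J}) hg (by simp) fun i j r y hij hp _ ih => ?_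
  have e : sw R l l' * (StN.x i j r * y) * (sw R l l')⁻¹ * (StN.x i j r * y)⁻¹ =
      (sw R l l' * StN.x i j r * (sw R l l')⁻¹ * (StN.x i j r)⁻¹) *
        (StN.x i j r * (sw R l l' * y * (sw R l l')⁻¹ * y⁻¹) * (StN.x i j r)⁻¹) := by group
  rw [e]
  refine mul_mem ?_ (rad_conj StN.isSt (mem_gen hij (fun e => e.2 hp.2) r) ih)
  rcases hp.1 with hi | rfl
  · rw [sw_comm h hij (fun e => hl (e ▸ hi)) (fun e => hl' (e ▸ hi)) (fun e => hl (e ▸ hp.2))
      (fun e => hl' (e ▸ hp.2)), mul_inv_cancel]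
    exact one_mem _
  · have : (StN.x i j r : St ι R) ∈ Rad (Net.full ι) StN.x {i | i ∉ J} :=
      mem_gen hij ⟨hl, fun e => e hp.2⟩ r
    exact mul_mem (rad_conj StN.isSt hw this) (inv_mem this)

end StabAux

open StabAux

theorem IsH.unique {J : Finset ι} {l : ι} {q : QJ J R} {h h' : St ι R} (H : IsH J l q h)
    (H' : IsH J l q h') : h = h' := by
  refine mul_right_cancel (rad_inj StN.isSt (hπ _) H.1 H'.1 ?_)
  rw [map_mul, map_mul, Units.ext (H.2.trans H'.2.symm)]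

theorem HH_eq {J : Finset ι} {l : ι} {q : QJ J R} {h : St ι R} (H : IsH J l q h) :
    HH J l q = h := by
  rw [HH, dif_pos ⟨h, H⟩]
  exact (Exists.choose_spec (⟨h, H⟩ : ∃ g, IsH J l q g)).unique H

theorem isH_HH {J : Finset ι} {l : ι} (hl : l ∉ J) {q : QJ J R} (hq : Stab q) :
    IsH J l q (HH J l q) := by
  obtain ⟨h, H⟩ := exists_isH hl hq
  rwa [HH_eq H]

theorem HH_one {J : Finset ι} (l : ι) : HH J l (1 : QJ J R) = 1 := by
  refine HH_eq ⟨by simp, ?_⟩
  simp only [map_one, Units.val_one]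
  exact (Matrix.submatrix_one _ (Option.some_injective ι)).symm

theorem HH_mul (E : Aug R) {J : Finset ι} {l : ι} (hl : l ∉ J) (hJ : 3 ≤ J.card)
    {q q' : QJ J R} (hq : Stab q) (hq' : Stab q') : HH J l (q * q') = HH J l q * HH J l q' := by
  have H := isH_HH hl hq
  have H' := isH_HH hl hq'
  refine HH_eq ⟨?_, ?_⟩
  · have h1 := mul_mem H.1 (rad_conj StN.isSt
      (gen_mono (fun i j _ h e => e.2 h.2) (gJ_mem' E hl hJ hq)) H'.1)
    rw [map_mul]
    convert h1 using 1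
    group
  · rw [map_mul, map_mul, Units.val_mul, Units.val_mul, H.2, H'.2]
    ext i j
    simp only [Matrix.mul_apply, Matrix.submatrix_apply, Fintype.sum_option]
    rw [hq, Matrix.one_apply_ne (by simp), zero_mul, zero_add]

theorem HH_x {J : Finset ι} {l : ι} (hl : l ∉ J) {i j : ι} (hij : i ≠ j) (hj : j ∈ J) (r : R) :
    HH J l (StN.x (some i) (some j) r : QJ J R) = StN.x i j r := by
  have hne : some i ≠ some j := fun e => hij (Option.some.inj e)
  refine HH_eq ⟨?_, ?_⟩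
  · rw [gJ_x hl hne (inJ_some.2 hj)]
    split_ifs with hi
    · simp
    · rw [inv_one, mul_one]
      exact mem_gen hij ⟨fun e => hi (inJ_some.2 e), fun e => e hj⟩ r
  · rw [StN.π_x (Φ := Net.full ι) hij, StN.π_x ((netJ_rel J _ _).2 ⟨hne, inJ_some.2 hj⟩),
      elem_val hij, elem_val hne]
    ext a b
    simp [Matrix.one_apply, Matrix.single_apply]

theorem HH_mono {J J' : Finset ι} (h : J ⊆ J') {l : ι} (hl : l ∉ J') {q : QJ J R} (hq : Stab q) :
    HH J' l (inclJ R J J' q) = HH J l q := by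
  have hl' : l ∉ J := fun e => hl (h e)
  have hq' : Stab (inclJ R J J' q) := fun a => by rw [pi_inclJ h]; exact hq a
  have H := isH_HH hl hq'
  have H2 := H.2
  rw [pi_inclJ h] at H2
  refine (HH_eq ⟨?_, H2⟩).symm
  have h1 := supp (T := {j | j ∉ J ∧ j ≠ l}) H.1 fun j hj => mul_mem
    (fun i => by rw [H2, Matrix.submatrix_apply, col_q q hj.1, one_some])
    (inv_mem (pi_gen_col StN.isSt (hπ _) (gJ_incl_mem h hl q) fun _ _ e => e.elim hj.1 hj.2))
  have h2 := supp (T := {l}) (gJ_incl_div h hl q) fun j hj => by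
    rw [Set.mem_singleton_iff.1 hj]
    exact mul_mem (col_gJ hl hq' hl) (inv_mem (col_gJ hl' hq hl'))
  have h3 := mul_mem
    (gen_mono (q := fun i j => i ∈ {i | i ∉ J} ∧ j ∉ {i | i ∉ J}) (fun i j _ e =>
      ⟨fun hi => e.1 (h hi), fun hj => e.2.2 ⟨hj, fun e' => e.2.1 (e' ▸ hl)⟩⟩) h1)
    (gen_mono (fun i j _ e => ⟨e.1.1, fun hj => e.2.1 ⟨hj, e.2.2⟩⟩) h2)
  rw [mul_assoc, inv_mul_cancel_left] at h3
  exact h3

theorem HH_indep [CharP R 2] (E : Aug R) {J : Finset ι} {l l' : ι} (hl : l ∉ J) (hl' : l' ∉ J)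
    (hJ : 3 ≤ J.card) {q : QJ J R} (hq : Stab q) : HH J l q = HH J l' q := by
  by_cases h : l = l'
  · rw [h]
  have H := isH_HH hl hq
  refine (HH_eq ⟨?_, H.2⟩).symm
  have h1 := mul_mem H.1 (inv_mem (sw_div hl hl' h (gJ_mem' E hl hJ hq)))
  rw [gJ_sw hl hl' h]
  convert h1 using 1
  group

end Crest.Agent.R176
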