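import Crest.Agent.R176.GStabA

/-!
Row 176, group half: injective stability for local rings.
-/

set_option autoImplicit false
set_option linter.unusedSectionVars false

open scoped commutatorElement

namespace Crest.Agent.R176

variable {R : Type} [Ring R]

namespace GStabBAux

open Matrix

variable {ι : Type} [Fintype ι] [DecidableEq ι]

/-- unimodular columns -/
def Um (E : Aug R) (ι : Type) : Type := {v : Option ι → R // ∃ k, E.ε (v k) = 1}

variable {E : Aug R}

/-- the action of invertible matrices on unimodular columns -/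
def mv (M : (Matrix (Option ι) (Option ι) R)ˣ) (v : Um E ι) : Um E ι :=
  ⟨(M : Matrix (Option ι) (Option ι) R) *ᵥ v.1, by
    by_contra h
    obtain ⟨k, hk⟩ := v.2
    have h0 : ∀ x : ZMod 2, x ≠ 1 → x = 0 := by decide
    have h1 : v.1 = ((M⁻¹ : (Matrix (Option ι) (Option ι) R)ˣ) : Matrix (Option ι) (Option ι) R) *ᵥ
        ((M : Matrix (Option ι) (Option ι) R) *ᵥ v.1) := by
      rw [mulVec_mulVec, Units.inv_mul, one_mulVec]
    rw [h1, mulVec, dotProduct, map_sum, Finset.sum_eq_zero fun j _ => by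
      rw [map_mul, h0 _ fun e => h ⟨j, e⟩, mul_zero]] at hk
    exact zero_ne_one hk⟩

theorem mv_one (v : Um E ι) : mv 1 v = v := Subtype.ext (one_mulVec _)

theorem mv_mul (M N : (Matrix (Option ι) (Option ι) R)ˣ) (v : Um E ι) :
    mv (M * N) v = mv M (mv N v) := Subtype.ext (mulVec_mulVec _ _ _).symm

/-- the basis column `e_∞` -/
def e0 (E : Aug R) (ι : Type) [DecidableEq ι] : Um E ι := ⟨Pi.single none 1, none, by simp⟩

theorem stab_of {J : Finset ι} {q : QJ J R} (h : mv (StN.π _ R q) (e0 E ι) = e0 E ι) : Stab q := by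
  intro a
  have h1 := congrFun (congrArg Subtype.val h) a
  simp only [mv, e0, mulVec_single_one, col_apply] at h1
  rw [h1, one_apply, Pi.single_apply]

theorem inJ_none (J : Finset ι) : InJ J none := fun _ h => by cases h

theorem inJ_some {J : Finset ι} {i : ι} (h : i ∈ J) : InJ J (some i) := fun _ e => by
  cases e; exact h

theorem exists_sec_of_unit (v : Um E ι) {k : ι} (hk : E.ε (v.1 (some k)) = 1) :
    ∃ q : QJ {k} R, mv (StN.π _ R q) (e0 E ι) = v := by
  obtain ⟨u, hu⟩ := E.unit _ hk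
  let M : Matrix (Option ι) (Option ι) R := of fun a b =>
    if b = some k ∧ a ≠ some k then (v.1 a - (e0 E ι).1 a) * (u⁻¹ : Rˣ) else 0
  have hM := rad_surj (Φ := netJ {k}) StN.isSt (fun _ _ _ h => StN.π_x h _) {a | a ≠ some k}
    (M := M) fun a b h => if_neg fun h' : b = some k ∧ a ≠ some k => h ⟨(netJ_rel _ _ _).2
      ⟨h'.1 ▸ h'.2, h'.1 ▸ inJ_some (Finset.mem_singleton_self k)⟩, h'.2, fun e => e h'.1⟩
  refine ⟨radElt StN.isSt {a | a ≠ some k} M * StN.x (some k) none (u : R), Subtype.ext ?_⟩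
  rw [map_mul, mv_mul, StN.π_x ((netJ_rel _ _ _).2 ⟨by simp, inJ_none _⟩)]
  simp only [mv, hM, elem_val (show some k ≠ none by simp), add_mulVec, one_mulVec, e0,
    mulVec_single_one]
  funext a
  by_cases ha : a = some k
  · subst ha
    simp [M, mulVec, dotProduct, hu]
  · simp [M, mulVec, dotProduct, ha, e0, mul_assoc, one_apply, Pi.single_apply, Ne.symm ha]

theorem exists_sec (k₀ : ι) (v : Um E ι) :
    ∃ (k : ι) (q : QJ {k} R), mv (StN.π _ R q) (e0 E ι) = v ∧ (v = e0 E ι → q = 1) := by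
  by_cases h0 : v = e0 E ι
  · exact ⟨k₀, 1, by rw [map_one, mv_one, h0], fun _ => rfl⟩
  by_cases h1 : ∃ k, E.ε (v.1 (some k)) = 1
  · obtain ⟨k, hk⟩ := h1
    obtain ⟨q, hq⟩ := exists_sec_of_unit v hk
    exact ⟨k, q, hq, fun h => absurd h h0⟩
  have h2 : E.ε (v.1 none) = 1 := by
    obtain ⟨_ | k, hk⟩ := v.2
    · exact hk
    · exact absurd ⟨k, hk⟩ h1
  have h3 : ∀ x : ZMod 2, x ≠ 1 → x = 0 := by decide
  have hr : (netJ {k₀}).rel (some k₀) none := (netJ_rel _ _ _).2 ⟨by simp, inJ_none _⟩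
  obtain ⟨q, hq⟩ := exists_sec_of_unit (mv (elem (some k₀) none 1) v) (k := k₀) (by
    simp only [mv, elem_val (show some k₀ ≠ none by simp), add_mulVec, one_mulVec, single_mulVec,
      Pi.add_apply, Function.update_self, one_mul, map_add, h2, h3 _ fun e => h1 ⟨k₀, e⟩, zero_add])
  refine ⟨k₀, (StN.x (some k₀) none 1)⁻¹ * q, ?_, fun h => absurd h h0⟩
  rw [map_mul, mv_mul, hq, ← mv_mul, map_inv, StN.π_x hr, inv_mul_cancel, mv_one]

/-- the choices -/
structure Sec (E : Aug R) (ι : Type) [Fintype ι] [DecidableEq ι] where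
  base : Finset ι
  card : base.card = 3
  piv : Um E ι → ι
  σ : ∀ v, QJ {piv v} R
  spec : ∀ v, mv (StN.π _ R (σ v)) (e0 E ι) = v
  one : σ (e0 E ι) = 1

theorem nonempty_sec (hι : 20 ≤ Fintype.card ι) : Nonempty (Sec E ι) := by
  obtain ⟨b, -, hb⟩ := Finset.exists_subset_card_eq (s := (Finset.univ : Finset ι)) (n := 3)
    (by rw [Finset.card_univ]; omega)
  obtain ⟨k₀⟩ : Nonempty ι := Fintype.card_pos_iff.1 (by omega)
  choose piv σ h h' using exists_sec (E := E) k₀
  exact ⟨⟨b, hb, piv, σ, h, h' _ rfl⟩⟩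

namespace Sec

variable (S : Sec E ι)

/-- the section in `QJ J` -/
noncomputable def s (J : Finset ι) (v : Um E ι) : QJ J R := inclJ R {S.piv v} J (S.σ v)

/-- the cocycle -/
noncomputable def C (J : Finset ι) (l : ι) (q : QJ J R) (v : Um E ι) : St ι R :=
  HH J l ((S.s J (mv (StN.π _ R q) v))⁻¹ * q * S.s J v)

variable {S} {J J' : Finset ι} {l l' : ι} {v : Um E ι}

theorem mv_s (h : S.piv v ∈ J) : mv (StN.π _ R (S.s J v)) (e0 E ι) = v := by
  rw [s, pi_inclJ (Finset.singleton_subset_iff.2 h), S.spec]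

theorem stab {q : QJ J R} (h : S.piv v ∈ J) (h' : S.piv (mv (StN.π _ R q) v) ∈ J) :
    Stab ((S.s J (mv (StN.π _ R q) v))⁻¹ * q * S.s J v) := by
  refine stab_of (E := E) ?_
  rw [map_mul, map_mul, mv_mul, mv_mul, mv_s h, map_inv]
  nth_rw 2 [← mv_s h']
  rw [← mv_mul, inv_mul_cancel, mv_one]

theorem three_le (h : S.base ⊆ J) : 3 ≤ J.card := S.card ▸ Finset.card_le_card h

theorem C_incl [CharP R 2] (hJ : J ⊆ J') (hb : S.base ⊆ J) (hl : l ∉ J) (hl' : l' ∉ J')
    {q : QJ J R} (h : S.piv v ∈ J) (h' : S.piv (mv (StN.π _ R q) v) ∈ J) :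
    S.C J' l' (inclJ R J J' q) v = S.C J l q v := by
  rw [C, C, HH_indep E hl (fun e => hl' (hJ e)) (three_le hb) (stab h h'),
    ← HH_mono hJ hl' (stab h h'), map_mul, map_mul, map_inv, pi_inclJ hJ, s, s, s, s,
    inclJ_inclJ (Finset.singleton_subset_iff.2 h) hJ,
    inclJ_inclJ (Finset.singleton_subset_iff.2 h') hJ]

theorem C_one : S.C J l 1 v = 1 := by
  rw [C, map_one, mv_one, mul_one, inv_mul_cancel, HH_one]

theorem C_mul (hb : S.base ⊆ J) (hl : l ∉ J) {q q' : QJ J R} (h : S.piv v ∈ J)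
    (h' : S.piv (mv (StN.π _ R q') v) ∈ J)
    (h'' : S.piv (mv (StN.π _ R q) (mv (StN.π _ R q') v)) ∈ J) :
    S.C J l (q * q') v = S.C J l q (mv (StN.π _ R q') v) * S.C J l q' v := by
  rw [C, C, C, ← HH_mul E hl (three_le hb) (stab h' h'') (stab h h'), map_mul, mv_mul]
  congr 1
  group

variable (S)

/-- the smallest index set used for a letter -/
def J₀ (t : Option ι × Option ι × R) (v : Um E ι) : Finset ι :=
  S.base ∪ (t.2.1.toFinset ∪ {S.piv v, S.piv (mv (elem t.1 t.2.1 t.2.2) v)})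

open Classical in
/-- an index outside `J` -/
noncomputable def out (J : Finset ι) : ι := if h : ∃ l, l ∉ J then h.choose else S.piv (e0 E ι)

/-- the action of a letter -/
noncomputable def F (t : Option ι × Option ι × R) (p : Um E ι × St ι R) : Um E ι × St ι R :=
  (mv (elem t.1 t.2.1 t.2.2) p.1,
    S.C (S.J₀ t p.1) (S.out (S.J₀ t p.1)) (StN.x t.1 t.2.1 t.2.2) p.1 * p.2)

variable {S} [CharP R 2]

theorem F_eq (hb : S.base ⊆ J) (hl : l ∉ J) {t : Option ι × Option ι × R} (ht : t.1 ≠ t.2.1)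
    (ht' : InJ J t.2.1) (h : S.piv v ∈ J) (h' : S.piv (mv (elem t.1 t.2.1 t.2.2) v) ∈ J)
    (g : St ι R) :
    S.F t (v, g) = (mv (elem t.1 t.2.1 t.2.2) v, S.C J l (StN.x t.1 t.2.1 t.2.2) v * g) := by
  have h1 : S.J₀ t v ⊆ J := by
    intro i hi
    simp only [J₀, Finset.mem_union, Option.mem_toFinset, Option.mem_def, Finset.mem_insert,
      Finset.mem_singleton] at hi
    rcases hi with hi | hi | rfl | rfl
    exacts [hb hi, ht' i hi, h, h']
  have h2 : InJ (S.J₀ t v) t.2.1 := fun i hi => by simp [J₀, hi]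
  have h3 : ∃ l, l ∉ S.J₀ t v := ⟨l, fun e => hl (h1 e)⟩
  have h4 : S.out (S.J₀ t v) ∉ S.J₀ t v := by
    rw [out, dif_pos h3]
    exact h3.choose_spec
  rw [F, ← inclJ_x h1 ht h2, C_incl h1 Finset.subset_union_left h4 hl (by simp [J₀])
    (by rw [StN.π_x ((netJ_rel _ _ _).2 ⟨ht, h2⟩)]; simp [J₀])]

omit [CharP R 2] in
theorem pi_evX {L : List (Option ι × Option ι × R)} (hL : ∀ t ∈ L, t.1 ≠ t.2.1 ∧ InJ J t.2.1) :
    StN.π _ R (evX StN.x L : QJ J R) = evX elem L := by
  induction L with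
  | nil => exact map_one _
  | cons t L ih =>
    rw [evX_cons, evX_cons, map_mul, ih fun t ht => hL t (List.mem_cons_of_mem _ ht),
      StN.π_x ((netJ_rel _ _ _).2 (hL t List.mem_cons_self))]

theorem foldr_eq (hb : S.base ⊆ J) (hl : l ∉ J) {L : List (Option ι × Option ι × R)}
    (hL : ∀ t ∈ L, t.1 ≠ t.2.1 ∧ InJ J t.2.1)
    (hp : ∀ L' ∈ L.tails, S.piv (mv (evX elem L') v) ∈ J) (g : St ι R) :
    L.foldr S.F (v, g) = (mv (evX elem L) v, S.C J l (evX StN.x L) v * g) := by
  induction L with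
  | nil => rw [evX_nil, evX_nil, mv_one, C_one, one_mul, List.foldr_nil]
  | cons t L ih =>
    have hL' : ∀ t ∈ L, t.1 ≠ t.2.1 ∧ InJ J t.2.1 := fun t ht => hL t (List.mem_cons_of_mem _ ht)
    have ht := hL t List.mem_cons_self
    have h0 : S.piv v ∈ J := by
      have := hp [] (by simp)
      rwa [evX_nil, mv_one] at this
    have h1 : S.piv (mv (evX elem L) v) ∈ J := hp L (by simp)
    have h2 : S.piv (mv (elem t.1 t.2.1 t.2.2) (mv (evX elem L) v)) ∈ J := by
      have := hp (t :: L) (by simp)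
      rwa [evX_cons, mv_mul] at this
    rw [List.foldr_cons, ih hL' fun L' h => hp L' (by rw [List.tails_cons]; exact .tail _ h),
      F_eq hb hl ht.1 ht.2 h1 h2, evX_cons, evX_cons, mv_mul,
      C_mul hb hl h0 (by rwa [pi_evX hL'])
        (by rwa [pi_evX hL', StN.π_x ((netJ_rel _ _ _).2 ht)]), pi_evX hL', mul_assoc]

theorem foldr_congr (hι : 20 ≤ Fintype.card ι) {L L' : List (Option ι × Option ι × R)}
    (hL : ∀ t ∈ L ++ L', t.1 ≠ t.2.1) (hn : L.length + L'.length ≤ 5)
    (h : ∀ J : Finset ι, (∀ t ∈ L ++ L', InJ J t.2.1) → (evX StN.x L : QJ J R) = evX StN.x L')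
    (p : Um E ι × St ι R) : L.foldr S.F p = L'.foldr S.F p := by
  obtain ⟨v, g⟩ := p
  let J : Finset ι := S.base ∪ (((L ++ L').filterMap fun t => t.2.1).toFinset ∪
    ((L.tails ++ L'.tails).map fun W => S.piv (mv (evX elem W) v)).toFinset)
  have h1 : J.card < Fintype.card ι := by
    have a1 := Finset.card_union_le S.base (((L ++ L').filterMap fun t => t.2.1).toFinset ∪
      ((L.tails ++ L'.tails).map fun W => S.piv (mv (evX elem W) v)).toFinset)
    have a2 := Finset.card_union_le ((L ++ L').filterMap fun t => t.2.1).toFinset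
      ((L.tails ++ L'.tails).map fun W => S.piv (mv (evX elem W) v)).toFinset
    have a3 := List.toFinset_card_le ((L ++ L').filterMap fun t => t.2.1)
    have a4 := List.toFinset_card_le
      ((L.tails ++ L'.tails).map fun W => S.piv (mv (evX elem W) v))
    have a5 := List.length_filterMap_le (fun t : Option ι × Option ι × R => t.2.1) (L ++ L')
    have a6 := S.card
    simp only [List.length_map, List.length_append, List.length_tails] at a4 a5
    simp only [J]
    omega
  obtain ⟨l, -, hl⟩ := Finset.exists_mem_notMem_of_card_lt_card (t := Finset.univ) h1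
  have h2 : ∀ t ∈ L ++ L', InJ J t.2.1 := fun t ht i hi =>
    Finset.mem_union_right _ (Finset.mem_union_left _
      (List.mem_toFinset.2 (List.mem_filterMap.2 ⟨t, ht, hi⟩)))
  have h3 : ∀ W ∈ L.tails ++ L'.tails, S.piv (mv (evX elem W) v) ∈ J := fun W hW =>
    Finset.mem_union_right _ (Finset.mem_union_right _
      (List.mem_toFinset.2 (List.mem_map.2 ⟨W, hW, rfl⟩)))
  have h4 : ∀ t ∈ L, t.1 ≠ t.2.1 ∧ InJ J t.2.1 := fun t ht =>
    ⟨hL t (List.mem_append_left _ ht), h2 t (List.mem_append_left _ ht)⟩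
  have h5 : ∀ t ∈ L', t.1 ≠ t.2.1 ∧ InJ J t.2.1 := fun t ht =>
    ⟨hL t (List.mem_append_right _ ht), h2 t (List.mem_append_right _ ht)⟩
  rw [foldr_eq Finset.subset_union_left hl h4 fun W hW => h3 W (List.mem_append_left _ hW),
    foldr_eq Finset.subset_union_left hl h5 fun W hW => h3 W (List.mem_append_right _ hW),
    ← pi_evX h4, ← pi_evX h5, h J h2]

theorem F_neg (hι : 20 ≤ Fintype.card ι) {a b : Option ι} (hab : a ≠ b) {r r' : R}
    (hr : r + r' = 0) (p : Um E ι × St ι R) : S.F (a, b, r) (S.F (a, b, r') p) = p :=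
  foldr_congr hι (L := [(a, b, r), (a, b, r')]) (L' := []) (by simpa using hab) (by simp)
    (fun J hJ => by
      have h : (netJ J).rel a b := (netJ_rel _ _ _).2 ⟨hab, hJ (a, b, r) (by simp)⟩
      simp only [evX_cons, evX_nil, mul_one]
      rw [← StN.isSt.add _ _ _ _ h, hr, StN.isSt.zero h]) p

open Classical in
/-- the permutation attached to a letter -/
noncomputable def P (S : Sec E ι) (hι : 20 ≤ Fintype.card ι) (a b : Option ι) (r : R) :
    Equiv.Perm (Um E ι × St ι R) :=
  if h : a ≠ b then ⟨S.F (a, b, r), S.F (a, b, -r), F_neg hι h (neg_add_cancel r),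
    F_neg hι h (add_neg_cancel r)⟩ else 1

theorem P_apply (hι : 20 ≤ Fintype.card ι) {a b : Option ι} (h : a ≠ b) (r : R)
    (p : Um E ι × St ι R) : S.P hι a b r p = S.F (a, b, r) p := by
  rw [P, dif_pos h]
  rfl

theorem isSt_P (S : Sec E ι) (hι : 20 ≤ Fintype.card ι) : IsSt (Net.full (Option ι)) (S.P hι) where
  add a b r r' h := Equiv.ext fun p => by
    have h' : a ≠ b := h
    rw [Equiv.Perm.mul_apply, P_apply hι h', P_apply hι h', P_apply hι h']
    refine foldr_congr hι (L := [(a, b, r + r')]) (L' := [(a, b, r), (a, b, r')])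
      (by simpa using h') (by simp) (fun J hJ => ?_) p
    simp only [evX_cons, evX_nil, mul_one]
    exact StN.isSt.add _ _ _ _ ((netJ_rel _ _ _).2 ⟨h', hJ (a, b, r) (by simp)⟩)
  comm a b c d r r' h₁ h₂ h₃ h₄ := Equiv.ext fun p => by
    have h₁' : a ≠ b := h₁
    have h₂' : c ≠ d := h₂
    rw [Equiv.Perm.mul_apply, Equiv.Perm.mul_apply, P_apply hι h₁', P_apply hι h₂',
      P_apply hι h₂', P_apply hι h₁']
    refine foldr_congr hι (L := [(a, b, r), (c, d, r')]) (L' := [(c, d, r'), (a, b, r)])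
      (by simp [h₁', h₂']) (by simp) (fun J hJ => ?_) p
    simp only [evX_cons, evX_nil, mul_one]
    exact StN.isSt.comm _ _ _ _ _ _ ((netJ_rel _ _ _).2 ⟨h₁', hJ (a, b, r) (by simp)⟩)
      ((netJ_rel _ _ _).2 ⟨h₂', hJ (c, d, r') (by simp)⟩) h₃ h₄
  brk a b c r r' h₁ h₂ h₃ := by
    have h₁' : a ≠ b := h₁
    have h₂' : b ≠ c := h₂
    rw [commutatorElement_def, mul_inv_eq_iff_eq_mul, mul_inv_eq_iff_eq_mul]
    refine Equiv.ext fun p => ?_
    rw [Equiv.Perm.mul_apply, Equiv.Perm.mul_apply, Equiv.Perm.mul_apply, P_apply hι h₁',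
      P_apply hι h₂', P_apply hι h₃, P_apply hι h₂', P_apply hι h₁']
    refine foldr_congr hι (L := [(a, b, r), (b, c, r')])
      (L' := [(a, c, r * r'), (b, c, r'), (a, b, r)]) (by simp [h₁', h₂', h₃]) (by simp)
      (fun J hJ => ?_) p
    simp only [evX_cons, evX_nil, mul_one]
    rw [← StN.isSt.brk _ _ _ _ _ ((netJ_rel _ _ _).2 ⟨h₁', hJ (a, b, r) (by simp)⟩)
      ((netJ_rel _ _ _).2 ⟨h₂', hJ (b, c, r') (by simp)⟩) h₃, commutatorElement_def]
    group

theorem F_e0 (hι : 20 ≤ Fintype.card ι) {i j : ι} (hij : i ≠ j) (r : R) (g : St ι R) :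
    S.F (some i, some j, r) (e0 E ι, g) = (e0 E ι, StN.x i j r * g) := by
  have hne : some i ≠ some j := by simpa using hij
  have h1 : mv (elem (some i) (some j) r) (e0 E ι) = e0 E ι := Subtype.ext (by
    funext a
    simp [mv, e0, elem_val hne, one_apply, Pi.single_apply])
  let J : Finset ι := S.base ∪ {j, S.piv (e0 E ι)}
  have h2 : J.card < Fintype.card ι := by
    have a1 := Finset.card_union_le S.base {j, S.piv (e0 E ι)}
    have a2 := Finset.card_le_two (a := j) (b := S.piv (e0 E ι))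
    have a3 := S.card
    simp only [J]
    omega
  obtain ⟨l, -, hl⟩ := Finset.exists_mem_notMem_of_card_lt_card (t := Finset.univ) h2
  have hj : j ∈ J := by simp [J]
  have hp : S.piv (e0 E ι) ∈ J := by simp [J]
  rw [F_eq Finset.subset_union_left hl hne (inJ_some hj) hp (by rw [h1]; exact hp), C,
    StN.π_x ((netJ_rel _ _ _).2 ⟨hne, inJ_some hj⟩), h1, s, S.one, map_one, inv_one, one_mul,
    mul_one, HH_x hl hij hj]

theorem lift_incl (S : Sec E ι) (hι : 20 ≤ Fintype.card ι) (g : St ι R) : ∀ h : St ι R,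
    StN.lift (S.isSt_P hι) (St.incl R (Function.Embedding.some : ι ↪ Option ι) g) (e0 E ι, h) =
      (e0 E ι, g * h) := by
  refine StN.induction (p := fun g => ∀ h : St ι R, StN.lift (S.isSt_P hι)
    (St.incl R (Function.Embedding.some : ι ↪ Option ι) g) (e0 E ι, h) = (e0 E ι, g * h)) g
    (fun i j a hij h => ?_) (fun h => ?_) (fun a b ha hb h => ?_) fun a ha h => ?_
  · have hne : some i ≠ some j := by simpa using hij
    rw [St.incl_x _ hij, Function.Embedding.some_apply, StN.lift_x _ hne, P_apply hι hne,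
      F_e0 hι hij]
  · rw [map_one, map_one, one_mul, Equiv.Perm.one_apply]
  · rw [map_mul, map_mul, Equiv.Perm.mul_apply, hb, ha, mul_assoc]
  · rw [map_inv, map_inv, Equiv.Perm.inv_eq_iff_eq, ha, mul_inv_cancel_left]

end Sec

theorem incl_injective_of_surjective {ι κ : Type} (e : ι ↪ κ) (he : Function.Surjective e) :
    Function.Injective (St.incl R e) := by
  refine Function.LeftInverse.injective
    (g := St.incl R (Equiv.ofBijective e ⟨e.injective, he⟩).symm.toEmbedding) fun g => ?_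
  rw [incl_incl, show e.trans (Equiv.ofBijective e ⟨e.injective, he⟩).symm.toEmbedding =
    Function.Embedding.refl ι from Function.Embedding.ext fun i =>
      (Equiv.ofBijective e ⟨e.injective, he⟩).symm_apply_apply i, incl_refl]

end GStabBAux

theorem incl_some_injective [CharP R 2] (E : Aug R) {ι : Type} [Fintype ι] [DecidableEq ι]
    (hι : 20 ≤ Fintype.card ι) :
    Function.Injective (St.incl R (Function.Embedding.some : ι ↪ Option ι)) := by
  obtain ⟨S⟩ := GStabBAux.nonempty_sec (E := E) hι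
  intro g g' h
  have h1 := S.lift_incl hι g 1
  rw [h, S.lift_incl hι g' 1, mul_one, mul_one] at h1
  exact (congrArg Prod.snd h1).symm

theorem incl_injective [CharP R 2] (E : Aug R) {ι κ : Type} [Fintype ι] [DecidableEq ι]
    [Fintype κ] [DecidableEq κ] (hι : 20 ≤ Fintype.card ι) (e : ι ↪ κ) :
    Function.Injective (St.incl R e) := by
  induction hn : Fintype.card κ using Nat.strong_induction_on generalizing κ with
  | _ n ih =>
    by_cases he : Function.Surjective e
    · exact GStabBAux.incl_injective_of_surjective e he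
    obtain ⟨k, hk⟩ := not_forall.1 he
    let e₁ : ι ↪ {x // x ≠ k} :=
      ⟨fun i => ⟨e i, fun h => hk ⟨i, h⟩⟩, fun _ _ h => e.injective (congrArg Subtype.val h)⟩
    have h₁ := ih _ (hn ▸ Fintype.card_subtype_lt (p := fun x => x ≠ k) (x := k) (by simp)) e₁ rfl
    have h₂ := incl_some_injective E (hι.trans (Fintype.card_le_of_embedding e₁))
    have h₃ := GStabBAux.incl_injective_of_surjective (R := R)
      (Equiv.optionSubtypeNe k).toEmbedding (Equiv.optionSubtypeNe k).surjective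
    intro g g' h
    refine h₁ (h₂ (h₃ ?_))
    have h₄ : (e₁.trans Function.Embedding.some).trans (Equiv.optionSubtypeNe k).toEmbedding = e :=
      Function.Embedding.ext fun i => rfl
    rw [incl_incl, incl_incl, incl_incl, incl_incl, ← Function.Embedding.trans_assoc, h₄, h]

end Crest.Agent.R176
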