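import Crest.Agent.R176.GMat

/-!
Row 176, group half: calculus of the elements `T(c, d)`.
-/

set_option autoImplicit false
set_option linter.unusedSectionVars false

open scoped commutatorElement

namespace Crest.Agent.R176

open Matrix

variable {κ R : Type} [Ring R] [Fintype κ] [DecidableEq κ]

namespace GTa

theorem hπ : ∀ (i j : κ) (a : R), (Net.full κ).rel i j →
    StN.π (Net.full κ) R (StN.x i j a) = elem i j a :=
  fun _ _ a h => StN.π_x h a

theorem pi_col {p : κ} {c : κ → R} (hc : c p = 0) :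
    (StN.π _ R (colElt p c) : Matrix κ κ R) = 1 + vecMulVec c (Pi.single p 1) := by
  rw [colElt, rad_surj StN.isSt hπ]
  · congr 1
    ext i j
    by_cases h : j = p <;> simp [vecMulVec_apply, h]
  · intro i j h
    by_cases hj : j = p
    · subst hj
      by_cases hi : i = j
      · simp [hi, hc]
      · exact absurd ⟨hi, hi, fun e => e rfl⟩ h
    · simp [hj]

theorem pi_row {p : κ} {d : κ → R} (hd : d p = 0) :
    (StN.π _ R (rowElt p d) : Matrix κ κ R) = 1 + vecMulVec (Pi.single p 1) d := by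
  rw [rowElt, rad_surj StN.isSt hπ]
  · congr 1
    ext i j
    by_cases h : i = p <;> simp [vecMulVec_apply, h]
  · intro i j h
    by_cases hi : i = p
    · subst hi
      by_cases hj : j = i
      · simp [hj, hd]
      · exact absurd ⟨Ne.symm hj, rfl, hj⟩ h
    · simp [hi]

theorem col_mem (p : κ) (c : κ → R) {q : κ → κ → Prop} (h : ∀ i, c i ≠ 0 → q i p) :
    colElt p c ∈ gen (Net.full κ) StN.x q :=
  radElt_mem_gen _ _ _ fun i j _ _ hj h0 => by
    have : j = p := by simpa using hj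
    subst this
    exact h i (by simpa using h0)

theorem row_mem (p : κ) (d : κ → R) {q : κ → κ → Prop} (h : ∀ j, d j ≠ 0 → q p j) :
    rowElt p d ∈ gen (Net.full κ) StN.x q :=
  radElt_mem_gen _ _ _ fun i j _ hi _ h0 => by
    have : i = p := hi
    subst this
    exact h j (by simpa using h0)

theorem col_add (p : κ) (c c' : κ → R) : colElt p (c + c') = colElt p c * colElt p c' := by
  rw [colElt, colElt, colElt, ← radElt_add]
  congr 1
  ext i j
  by_cases h : j = p <;> simp [h]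

theorem row_add (p : κ) (d d' : κ → R) : rowElt p (d + d') = rowElt p d * rowElt p d' := by
  rw [rowElt, rowElt, rowElt, ← radElt_add]
  congr 1
  ext i j
  by_cases h : i = p <;> simp [h]

theorem col_single {p p' : κ} (hp : p ≠ p') (a : R) :
    colElt p' (Pi.single p a) = StN.x p p' a := by
  rw [colElt, ← radElt_single StN.isSt (S := {k | k ≠ p'}) (i := p) (j := p') hp hp
    (fun h => h rfl) a]
  congr 1
  ext i j
  simp only [Matrix.of_apply, Matrix.single_apply, Pi.single_apply]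
  by_cases h : j = p' <;> by_cases h' : i = p <;> simp [h, h', Ne.symm]

theorem row_single {p p' : κ} (hp : p ≠ p') (a : R) :
    rowElt p (Pi.single p' a) = StN.x p p' a := by
  rw [rowElt, ← radElt_single StN.isSt (S := {k | k = p}) (i := p) (j := p') hp rfl
    (fun h => hp (Eq.symm h)) a]
  congr 1
  ext i j
  simp only [Matrix.of_apply, Matrix.single_apply, Pi.single_apply]
  by_cases h : j = p' <;> by_cases h' : i = p <;> simp [h, h', Ne.symm]

theorem conj_mat {S : Set κ} {g y y' : St κ R} (hg : g ∈ ParG (Net.full κ) StN.x S)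
    (hy : y ∈ Rad (Net.full κ) StN.x S) (hy' : y' ∈ Rad (Net.full κ) StN.x S)
    (e : (StN.π _ R g : Matrix κ κ R) * (StN.π _ R y : Matrix κ κ R) =
      (StN.π _ R y' : Matrix κ κ R) * (StN.π _ R g : Matrix κ κ R)) : g * y * g⁻¹ = y' := by
  refine conj_eq_of_pi StN.isSt hπ hg hy hy' ?_
  rw [mul_inv_eq_iff_eq_mul]
  exact Units.ext e

theorem row_fix {p : κ} {g : St κ R}
    (hg : g ∈ gen (Net.full κ) StN.x fun i j => i ≠ p ∧ j ≠ p) :
    Pi.single p (1 : R) ᵥ* (StN.π _ R g : Matrix κ κ R) = Pi.single p 1 := by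
  ext j
  rw [single_one_vecMul, Matrix.row_apply', pi_gen_row StN.isSt hπ hg (fun _ _ h => h.1 rfl)]
  simp [Matrix.one_apply, Pi.single_apply, eq_comm]

theorem col_fix {p : κ} {g : St κ R}
    (hg : g ∈ gen (Net.full κ) StN.x fun i j => i ≠ p ∧ j ≠ p) :
    (StN.π _ R g : Matrix κ κ R) *ᵥ Pi.single p (1 : R) = Pi.single p 1 := by
  ext j
  rw [mulVec_single_one, Matrix.col_apply, pi_gen_col StN.isSt hπ hg (fun _ _ h => h.2 rfl)]
  simp [Matrix.one_apply, Pi.single_apply, eq_comm]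

theorem mulVec_zero_at {p : κ} {c : κ → R} (hc : c p = 0) {g : St κ R}
    (hg : g ∈ gen (Net.full κ) StN.x fun i j => i ≠ p ∧ j ≠ p) :
    ((StN.π _ R g : Matrix κ κ R) *ᵥ c) p = 0 := by
  have h := dotProduct_mulVec (Pi.single p (1 : R)) (StN.π _ R g : Matrix κ κ R) c
  rw [row_fix hg, single_dotProduct, single_dotProduct, one_mul, one_mul, hc] at h
  exact h

theorem vecMul_zero_at {p : κ} {d : κ → R} (hd : d p = 0) {g : St κ R}
    (hg : g ∈ gen (Net.full κ) StN.x fun i j => i ≠ p ∧ j ≠ p) :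
    (d ᵥ* (StN.π _ R g : Matrix κ κ R)) p = 0 := by
  have h := dotProduct_mulVec d (StN.π _ R g : Matrix κ κ R) (Pi.single p (1 : R))
  rw [col_fix hg, dotProduct_single, dotProduct_single, mul_one, mul_one, hd] at h
  exact h.symm

theorem conj_col {p : κ} {c : κ → R} (hc : c p = 0) {g : St κ R}
    (hg : g ∈ gen (Net.full κ) StN.x fun i j => i ≠ p ∧ j ≠ p) :
    g * colElt p c * g⁻¹ = colElt p ((StN.π _ R g : Matrix κ κ R) *ᵥ c) := by
  refine conj_mat (S := {k | k ≠ p}) (gen_mono (fun i j _ h h' => h'.1 h.1) hg)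
    (radElt_mem _ _ _) (radElt_mem _ _ _) ?_
  rw [pi_col hc, pi_col (mulVec_zero_at hc hg), mul_add, add_mul, mul_one, one_mul,
    mul_vecMulVec, vecMulVec_mul, row_fix hg]

theorem conj_row {p : κ} {d : κ → R} (hd : d p = 0) {g : St κ R}
    (hg : g ∈ gen (Net.full κ) StN.x fun i j => i ≠ p ∧ j ≠ p) :
    g * rowElt p d * g⁻¹ =
      rowElt p (d ᵥ* ((StN.π _ R g⁻¹ : (Matrix κ κ R)ˣ) : Matrix κ κ R)) := by
  refine conj_mat (S := {k | k = p}) (gen_mono (fun i j _ h h' => h.2 h'.2) hg)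
    (radElt_mem _ _ _) (radElt_mem _ _ _) ?_
  rw [pi_row hd, pi_row (vecMul_zero_at hd (inv_mem hg)), mul_add, add_mul, mul_one, one_mul,
    mul_vecMulVec, vecMulVec_mul, col_fix hg, vecMul_vecMul, ← Units.val_mul, ← map_mul,
    inv_mul_cancel, map_one, Units.val_one, vecMul_one]

theorem conj_row' {p : κ} {d : κ → R} (hd : d p = 0) {g : St κ R}
    (hg : g ∈ gen (Net.full κ) StN.x fun i j => i ≠ p ∧ j ≠ p) :
    g⁻¹ * rowElt p d * g = rowElt p (d ᵥ* (StN.π _ R g : Matrix κ κ R)) := by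
  have := conj_row hd (inv_mem hg)
  rwa [inv_inv] at this

theorem comm_col {p : κ} {c : κ → R} (hc : c p = 0) {g : St κ R}
    (hg : g ∈ gen (Net.full κ) StN.x fun i j => i ≠ p ∧ j ≠ p)
    (e : (StN.π _ R g : Matrix κ κ R) *ᵥ c = c) : Commute g (colElt p c) := by
  have := conj_col hc hg
  rw [e, mul_inv_eq_iff_eq_mul] at this
  exact this

theorem comm_row {p : κ} {d : κ → R} (hd : d p = 0) {g : St κ R}
    (hg : g ∈ gen (Net.full κ) StN.x fun i j => i ≠ p ∧ j ≠ p)
    (e : d ᵥ* (StN.π _ R g : Matrix κ κ R) = d) : Commute g (rowElt p d) := by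
  have := conj_row' hd hg
  rw [e, mul_assoc, inv_mul_eq_iff_eq_mul] at this
  exact this.symm

theorem one_add_mulVec (c d v : κ → R) (h : d ⬝ᵥ v = 0) : (1 + vecMulVec c d) *ᵥ v = v := by
  rw [add_mulVec, one_mulVec, vecMulVec_mulVec, h]
  simp

theorem vecMul_one_add (c d v : κ → R) (h : v ⬝ᵥ c = 0) : v ᵥ* (1 + vecMulVec c d) = v := by
  rw [vecMul_add, vecMul_one, vecMul_vecMulVec, h]
  simp

theorem mem_of_ne {p p' : κ} (hp : p ≠ p') {c d : κ → R} (hc : c p' = 0) (hd : d p' = 0) :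
    TT p c d ∈ gen (Net.full κ) StN.x fun i j => i ≠ p' ∧ j ≠ p' := by
  have h1 : colElt p c ∈ gen (Net.full κ) StN.x fun i j => i ≠ p' ∧ j ≠ p' :=
    col_mem p c fun i hi => ⟨fun e => hi (e ▸ hc), hp⟩
  have h2 : rowElt p d ∈ gen (Net.full κ) StN.x fun i j => i ≠ p' ∧ j ≠ p' :=
    row_mem p d fun i hi => ⟨hp, fun e => hi (e ▸ hd)⟩
  rw [TT, commutatorElement_def]
  exact mul_mem (mul_mem (mul_mem h1 h2) (inv_mem h1)) (inv_mem h2)

theorem pi_x {i j : κ} (h : i ≠ j) :
    (StN.π _ R (StN.x i j (1 : R) : St κ R) : Matrix κ κ R) =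
      1 + vecMulVec (Pi.single i 1) (Pi.single j 1) := by
  rw [← col_single h, pi_col (by simp [h.symm])]

theorem Orth.symm {p p' : κ} {c d : κ → R} (h : Orth p p' c d) : Orth p' p c d :=
  ⟨h.c₂, h.c₁, h.d₂, h.d₁, h.dot⟩

end GTa

open GTa

theorem pi_TT {p : κ} {c d : κ → R} (hc : c p = 0) (hd : d p = 0) (h : ∑ k, d k * c k = 0) :
    (StN.π _ R (TT p c d) : Matrix κ κ R) = 1 + vecMulVec c d := by
  have h0 : d ⬝ᵥ c = 0 := h
  have h1 : TT p c d * (rowElt p d * colElt p c) = colElt p c * rowElt p d := by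
    rw [TT, commutatorElement_def]; group
  have h2 := congrArg (fun g => (StN.π _ R g : Matrix κ κ R)) h1
  rw [← Units.mul_left_inj (StN.π _ R (rowElt p d * colElt p c))]
  simp only [map_mul, Units.val_mul] at h2 ⊢
  rw [h2, pi_col hc, pi_row hd]
  simp only [mul_add, add_mul, mul_one, one_mul, vecMulVec_mul_vecMulVec, h0, dotProduct_single,
    hd, zero_smul, vecMulVec_zero, Pi.single_eq_same, one_smul, add_zero]
  abel

/-- equivariance -/
theorem TT_conj {p : κ} {c d : κ → R} (hc : c p = 0) (hd : d p = 0) {g : St κ R}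
    (hg : g ∈ gen (Net.full κ) StN.x fun i j => i ≠ p ∧ j ≠ p) :
    g * TT p c d * g⁻¹ = TT p ((StN.π _ R g : Matrix κ κ R) *ᵥ c)
      (d ᵥ* ((StN.π _ R g⁻¹ : (Matrix κ κ R)ˣ) : Matrix κ κ R)) := by
  rw [TT, TT, ← conj_col hc hg, ← conj_row hd hg, commutatorElement_def, commutatorElement_def]
  group

/-- independence of the spare index -/
theorem TT_eq [CharP R 2] {p p' : κ} (hp : p ≠ p') {c d : κ → R} (h : Orth p p' c d) :
    TT p c d = TT p' c d := by
  have hp' : p' ≠ p := hp.symm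
  set w : St κ R := StN.x p p' 1 * StN.x p' p 1 * StN.x p p' 1 with hw
  have hwm : ∀ q : κ → κ → Prop, q p p' → q p' p → w ∈ gen (Net.full κ) StN.x q :=
    fun q h1 h2 => mul_mem (mul_mem (mem_gen hp h1 _) (mem_gen hp' h2 _)) (mem_gen hp h1 _)
  have hpw : (StN.π _ R w : Matrix κ κ R) =
      (1 + vecMulVec (Pi.single p 1) (Pi.single p' 1)) *
        (1 + vecMulVec (Pi.single p' 1) (Pi.single p 1)) *
        (1 + vecMulVec (Pi.single p 1) (Pi.single p' 1)) := by
    rw [hw, map_mul, map_mul, Units.val_mul, Units.val_mul, pi_x hp, pi_x hp']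
  have h2 : ∀ v : κ → R, v + v = 0 := fun v => funext fun k => CharTwo.add_self_eq_zero _
  have e1 : (StN.π _ R w : Matrix κ κ R) *ᵥ c = c := by
    rw [hpw, ← mulVec_mulVec, ← mulVec_mulVec, one_add_mulVec _ _ c (by simp [h.c₂]),
      one_add_mulVec _ _ c (by simp [h.c₁]), one_add_mulVec _ _ c (by simp [h.c₂])]
  have e2 : d ᵥ* (StN.π _ R w : Matrix κ κ R) = d := by
    rw [hpw, ← vecMul_vecMul, ← vecMul_vecMul, vecMul_one_add _ _ d (by simp [h.d₁]),
      vecMul_one_add _ _ d (by simp [h.d₂]), vecMul_one_add _ _ d (by simp [h.d₁])]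
  have e3 : Pi.single p' (1 : R) ᵥ* (StN.π _ R w : Matrix κ κ R) = Pi.single p 1 := by
    rw [hpw, ← vecMul_vecMul, ← vecMul_vecMul, vecMul_one_add _ _ (Pi.single p' 1) (by simp [hp'])]
    simp only [vecMul_add, vecMul_one, vecMul_vecMulVec, add_dotProduct,
      single_dotProduct, Pi.single_eq_same, mul_one, one_smul, Pi.single_eq_of_ne hp',
      mul_zero, zero_add]
    rw [add_right_comm, h2, zero_add]
  have e4 : (StN.π _ R w : Matrix κ κ R) *ᵥ Pi.single p (1 : R) = Pi.single p' 1 := by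
    rw [hpw, ← mulVec_mulVec, ← mulVec_mulVec, one_add_mulVec _ _ (Pi.single p 1) (by simp [hp'])]
    simp only [add_mulVec, one_mulVec, vecMulVec_mulVec, dotProduct_add,
      single_dotProduct, Pi.single_eq_same, mul_one, Pi.single_eq_of_ne hp',
      mul_zero, zero_add, MulOpposite.op_one, one_smul]
    rw [add_right_comm, h2, zero_add]
  have c1 : w * colElt p c * w⁻¹ = colElt p' c := by
    refine conj_mat (S := {k | k ≠ p ∧ k ≠ p'}) (hwm _ (fun h => h.2.2 rfl) fun h => h.2.1 rfl)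
      (col_mem p c fun i hi => ⟨⟨fun e => hi (e ▸ h.c₁), fun e => hi (e ▸ h.c₂)⟩,
        fun h => h.1 rfl⟩)
      (col_mem p' c fun i hi => ⟨⟨fun e => hi (e ▸ h.c₁), fun e => hi (e ▸ h.c₂)⟩,
        fun h => h.2 rfl⟩) ?_
    rw [pi_col h.c₁, pi_col h.c₂, mul_add, add_mul, mul_one, one_mul, mul_vecMulVec,
      vecMulVec_mul, e1, e3]
  have c2 : w * rowElt p d * w⁻¹ = rowElt p' d := by
    refine conj_mat (S := {k | k = p ∨ k = p'})
      (hwm _ (fun h => h.1 (Or.inl rfl)) fun h => h.1 (Or.inr rfl))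
      (row_mem p d fun i hi => ⟨Or.inl rfl,
        fun e => e.elim (fun e => hi (e ▸ h.d₁)) fun e => hi (e ▸ h.d₂)⟩)
      (row_mem p' d fun i hi => ⟨Or.inr rfl,
        fun e => e.elim (fun e => hi (e ▸ h.d₁)) fun e => hi (e ▸ h.d₂)⟩) ?_
    rw [pi_row h.d₁, pi_row h.d₂, mul_add, add_mul, mul_one, one_mul, mul_vecMulVec,
      vecMulVec_mul, e2, e4]
  have c3 : w * TT p c d * w⁻¹ = TT p' c d := by
    rw [TT, TT, ← c1, ← c2, commutatorElement_def, commutatorElement_def]
    group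
  have hm := mem_of_ne hp h.c₂ h.d₂
  have k1 : Commute (TT p c d) (StN.x p p' 1) := by
    rw [← col_single hp]
    refine comm_col (by simp [hp']) hm ?_
    rw [pi_TT h.c₁ h.d₁ h.dot, one_add_mulVec _ _ _ (by simp [h.d₁])]
  have k2 : Commute (TT p c d) (StN.x p' p 1) := by
    rw [← row_single hp']
    refine comm_row (by simp [hp']) hm ?_
    rw [pi_TT h.c₁ h.d₁ h.dot, vecMul_one_add _ _ _ (by simp [h.c₁])]
  have k3 : Commute (TT p c d) w := (k1.mul_right k2).mul_right k1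
  rw [← c3, ← k3.eq, mul_inv_cancel_right]

theorem TT_mem [CharP R 2] {p p' : κ} (hp : p ≠ p') {c d : κ → R} (h : Orth p p' c d) :
    TT p c d ∈ gen (Net.full κ) StN.x fun i j => i ≠ p ∧ j ≠ p := by
  rw [TT_eq hp h]
  exact mem_of_ne hp.symm h.c₁ h.d₁

namespace GTa

theorem fix_col [CharP R 2] {p p' : κ} (hp : p ≠ p') {c d : κ → R} (h : Orth p p' c d)
    {v : κ → R} (hv : v p = 0) (e : d ⬝ᵥ v = 0) : Commute (TT p c d) (colElt p v) := by
  refine comm_col hv (TT_mem hp h) ?_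
  rw [pi_TT h.c₁ h.d₁ h.dot, one_add_mulVec _ _ _ e]

theorem fix_row [CharP R 2] {p p' : κ} (hp : p ≠ p') {c d : κ → R} (h : Orth p p' c d)
    {v : κ → R} (hv : v p = 0) (e : v ⬝ᵥ c = 0) : Commute (TT p c d) (rowElt p v) := by
  refine comm_row hv (TT_mem hp h) ?_
  rw [pi_TT h.c₁ h.d₁ h.dot, vecMul_one_add _ _ _ e]

theorem col_row_comm {p p' : κ} (hp : p ≠ p') {c d : κ → R} (h : Orth p p' c d) :
    Commute (colElt p c) (rowElt p' d) := by
  refine comm_row h.d₂ (col_mem p c fun i hi => ⟨fun e => hi (e ▸ h.c₂), hp⟩) ?_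
  rw [pi_col h.c₁, vecMul_one_add _ _ _ h.dot]

theorem bal_aux {G : Type} [Group G] {A B C D : G} (hAC : Commute A C) (hBD : Commute B D)
    (h : Commute (B * A) (C * D⁻¹)) (h₁ : Commute ⁅B, C⁆ B) (h₂ : Commute ⁅B, C⁆ C)
    (h₃ : Commute ⁅B, C⁆ D) : ⁅B, C⁆ = ⁅A, D⁆ := by
  have e0 : B * C = ⁅B, C⁆ * (C * B) := by rw [commutatorElement_def]; group
  have e1 : B * A * (C * D⁻¹) = C * B * (⁅B, C⁆ * (A * D⁻¹)) := by
    calc B * A * (C * D⁻¹) = B * (A * C) * D⁻¹ := by group
      _ = B * C * (A * D⁻¹) := by rw [hAC.eq]; group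
      _ = ⁅B, C⁆ * (C * B) * (A * D⁻¹) := by rw [← e0]
      _ = C * B * (⁅B, C⁆ * (A * D⁻¹)) := by rw [(h₂.mul_right h₁).eq]; group
  have e2 : C * D⁻¹ * (B * A) = C * B * (D⁻¹ * A) := by
    calc C * D⁻¹ * (B * A) = C * (D⁻¹ * B) * A := by group
      _ = C * B * (D⁻¹ * A) := by rw [← hBD.inv_right.eq]; group
  have e3 : ⁅B, C⁆ * (A * D⁻¹) = D⁻¹ * A := by
    have := h.eq
    rw [e1, e2] at this
    exact mul_left_cancel this
  have e4 : D * ⁅B, C⁆ * D⁻¹ = ⁅B, C⁆ := by rw [← h₃.eq]; group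
  have e5 : ⁅B, C⁆ = D⁻¹ * A * (A * D⁻¹)⁻¹ := by rw [← e3]; group
  rw [← e4, e5, commutatorElement_def]
  group

end GTa

theorem TT_add_left [CharP R 2] {p p' : κ} (hp : p ≠ p') {c c' d : κ → R} (h : Orth p p' c d)
    (h' : Orth p p' c' d) : TT p (c + c') d = TT p c d * TT p c' d := by
  have k := fix_col hp h h'.c₁ h'.dot
  have e : TT p (c + c') d = colElt p c' * TT p c d * (colElt p c')⁻¹ * TT p c' d := by
    rw [add_comm, TT, TT, TT, col_add, commutatorElement_def, commutatorElement_def,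
      commutatorElement_def]
    group
  rw [e, ← k.eq, mul_inv_cancel_right]

theorem TT_add_right [CharP R 2] {p p' : κ} (hp : p ≠ p') {c d d' : κ → R} (h : Orth p p' c d)
    (h' : Orth p p' c d') : TT p c (d + d') = TT p c d * TT p c d' := by
  have k := fix_row hp h' h.d₁ h.dot
  have e : TT p c (d + d') = TT p c d * (rowElt p d * TT p c d' * (rowElt p d)⁻¹) := by
    rw [TT, TT, TT, row_add, commutatorElement_def, commutatorElement_def,
      commutatorElement_def]
    group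
  rw [e, ← k.eq, mul_inv_cancel_right]

theorem TT_bal [CharP R 2] {p p' : κ} (hp : p ≠ p') {c d : κ → R} (h : Orth p p' c d) (r : R) :
    TT p (fun k => c k * r) d = TT p c (fun k => r * d k) := by
  have hp' : p' ≠ p := hp.symm
  have hdot : d ⬝ᵥ c = 0 := h.dot
  have o1 : Orth p p' (fun k => c k * r) d :=
    ⟨by simp [h.c₁], by simp [h.c₂], h.d₁, h.d₂, by
      simp only [← mul_assoc]; rw [← Finset.sum_mul, h.dot, zero_mul]⟩
  have o2 : Orth p' p (fun k => c k * r) (fun k => r * d k) :=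
    ⟨by simp [h.c₂], by simp [h.c₁], by simp [h.d₂], by simp [h.d₁], by
      simp only [mul_assoc]; rw [← Finset.mul_sum, o1.dot, mul_zero]⟩
  set A := colElt p c with hA
  set B := colElt p' (fun k => c k * r) with hB
  set C := rowElt p' d with hC
  set D := rowElt p (fun k => r * d k) with hD
  set u : St κ R := StN.x p p' r with hu
  have hAC : Commute A C := col_row_comm hp h
  have hBD : Commute B D := col_row_comm hp' o2
  have e1 : A * u * A⁻¹ = u * B := by
    rw [hu, ← col_single hp, conj_col (by simp [hp'])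
      (col_mem p c fun i hi => ⟨fun e => hi (e ▸ h.c₂), hp⟩), ← col_add, pi_col h.c₁,
      add_mulVec, one_mulVec, vecMulVec_mulVec]
    congr 2
    ext k
    simp
  have e2 : C⁻¹ * u * C = u * D := by
    rw [hu, ← row_single hp, conj_row' (by simp [hp])
      (row_mem p' d fun i hi => ⟨hp', fun e => hi (e ▸ h.d₁)⟩), ← row_add, pi_row h.d₂,
      vecMul_add, vecMul_one, vecMul_vecMulVec]
    congr 2
    ext k
    simp
  have e3 : B * A = u⁻¹ * A * u := by
    rw [eq_comm, mul_assoc, inv_mul_eq_iff_eq_mul, ← mul_assoc, ← e1]; group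
  have e4 : C * D⁻¹ = u⁻¹ * C * u := by
    have : D = u⁻¹ * (C⁻¹ * u * C) := by rw [e2]; group
    rw [this]; group
  have hc : Commute (B * A) (C * D⁻¹) := by
    rw [e3, e4]
    have := hAC.conj u⁻¹
    rwa [inv_inv] at this
  have t : TT p (fun k => c k * r) d = ⁅B, C⁆ := TT_eq hp o1
  have h₁ : Commute ⁅B, C⁆ B := fix_col hp' (Orth.symm o1) o1.c₂ o1.dot
  have h₂ : Commute ⁅B, C⁆ C := fix_row hp' (Orth.symm o1) o1.d₂ o1.dot
  have h₃ : Commute ⁅B, C⁆ D := by
    rw [← t]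
    exact fix_row hp o1 o2.d₂ o2.dot
  rw [t]
  exact bal_aux hAC hBD hc h₁ h₂ h₃

theorem TT_comm [CharP R 2] {p p' : κ} (hp : p ≠ p') {c d c' d' : κ → R} (h : Orth p p' c d)
    (h' : Orth p p' c' d') (h₁ : ∑ k, d k * c' k = 0) (h₂ : ∑ k, d' k * c k = 0) :
    Commute (TT p c d) (TT p c' d') := by
  have k1 := fix_col hp h h'.c₁ h₁
  have k2 := fix_row hp h h'.d₁ h₂
  conv_rhs => rw [TT, commutatorElement_def]
  exact ((k1.mul_right k2).mul_right k1.inv_right).mul_right k2.inv_right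

theorem TT_rad {p : κ} {c d : κ → R} (S : Set κ) (hp : p ∉ S) (hc : ∀ k ∉ S, c k = 0)
    (hd : ∀ k ∈ S, d k = 0) (hdp : d p = 0) :
    TT p c d = radElt StN.isSt S (vecMulVec c d) := by
  have h1 : colElt p c ∈ Rad (Net.full κ) StN.x S :=
    col_mem p c fun i hi => ⟨by by_contra e; exact hi (hc i e), hp⟩
  have h2 : rowElt p d ∈ ParG (Net.full κ) StN.x S :=
    row_mem p d fun j hj e => hj (hd j e.2)
  have h3 : TT p c d ∈ Rad (Net.full κ) StN.x S := by
    have : TT p c d = colElt p c * (rowElt p d * (colElt p c)⁻¹ * (rowElt p d)⁻¹) := by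
      rw [TT, commutatorElement_def]; group
    rw [this]
    exact mul_mem h1 (rad_conj StN.isSt h2 (inv_mem h1))
  refine rad_inj StN.isSt hπ h3 (radElt_mem _ _ _) (Units.ext ?_)
  rw [pi_TT (hc p hp) hdp, rad_surj StN.isSt hπ]
  · intro i j h
    rw [vecMulVec_apply]
    by_cases hi : i ∈ S
    · by_cases hj : j ∈ S
      · rw [hd j hj, mul_zero]
      · exact absurd ⟨fun e : i = j => hj (e ▸ hi), hi, hj⟩ h
    · rw [hc i hi, zero_mul]
  · refine Finset.sum_eq_zero fun k _ => ?_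
    by_cases hk : k ∈ S
    · rw [hd k hk, zero_mul]
    · rw [hc k hk, mul_zero]

end Crest.Agent.R176
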