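import Crest.Agent.R176.GStabB
import Crest.Agent.R176.GDeep
import Crest.Agent.R176.GLight
import Crest.Agent.R176.GFPB
import Crest.Agent.R176.GFin

/-!
Row 176, group half: assembly.
-/

set_option autoImplicit false
set_option linter.unusedSectionVars false

namespace Crest.Agent.R176

section

variable {A : Type} [Ring A] [Algebra (ZMod 2) A] {𝒜 : ℕ → Submodule (ZMod 2) A}
  [GradedAlgebra 𝒜] {X : Type} {S : Rew X} {g : X → A} {ι : Type} [Fintype ι] [DecidableEq ι]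

/-- A deep element of `K₂` killed by the `q`-fold cover has order dividing `q`. -/
theorem grp_pow [CharP A 2] (hW : WordAlg 𝒜 X S g) (E : Aug A) (hι : 20 ≤ Fintype.card ι)
    {q ℓ : ℕ} [NeZero q] (P : Phase 𝒜 q ℓ) {y : St ι A}
    (hy : StN.rmap _ (Ideal.Quotient.mk (deep 𝒜 (2 * (2 * (ℓ + 1))))) y = 1)
    (hπ : StN.π _ A y = 1)
    (hρ : Theta 𝒜 (Option ι) q Set.univ (St.incl A Function.Embedding.some y) = 1) :
    y ^ q = 1 := by
  have h1 := ker_rmap_le (ι := ι) _ Ideal.Quotient.mk_surjective hy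
  have h2 := incl_mem_genI (deep 𝒜 (2 * (ℓ + 1)))
    (fun a ha => hW.deep_prods (Ideal.Quotient.eq_zero_iff_mem.1 ha)) h1
  have h3 := deep_pow hW P (by rw [Fintype.card_option]; omega) h2
    ((pi_incl_eq_one _).2 hπ) hρ
  rw [incl_incl, ← map_pow] at h3
  exact incl_injective E hι _ (h3.trans (map_one _).symm)

theorem grp_light [CharP A 2] (E : Aug A) (hE : E.Graded 𝒜) (h0 : 𝒜 0 = 1) {z : St ι A}
    (h₁ : StN.rmap _ E.ε z = 1) (h₂ : StN.π _ A z = 1) (b : ℕ) (hb : 2 ≤ b) :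
    ∃ s : ℕ, ∀ [NeZero (b ^ s)],
      Theta 𝒜 (Option ι) (b ^ s) Set.univ (St.incl A Function.Embedding.some z) = 1 := by
  obtain ⟨q₀, h⟩ := light 𝒜 E hE h0 (z := St.incl A (Function.Embedding.some : ι ↪ Option ι) z)
    (by rw [rmap_incl, h₁, map_one]) ((pi_incl_eq_one _).2 h₂)
  exact ⟨q₀, h _ (Nat.lt_pow_self hb).le⟩

end

theorem groupStmt : GroupStmt := by
  rintro ⟨A, _, _, 𝒜, _, X, _, S, g, E, hW, hinf, hE, hN, hP⟩
  have := E.charP
  have hι : 20 ≤ Fintype.card (Fin 20) := by simp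
  have hfin : ∀ m, 1 ≤ m → Finite (St (Fin 20) (A ⧸ deep 𝒜 m)) := fun m hm => by
    obtain ⟨E', -, _, -⟩ := E.exists_quot hE hN hm
    have := hW.finite_quot m
    exact st_finite E' (by simp)
  refine ⟨(StN.rmap (Net.full (Fin 20)) E.ε).ker, inferInstance, ?_, ?_, ?_, ?_⟩
  · have := E.infinite_ker.to_subtype
    refine Infinite.of_injective (fun a : {a : A | E.ε a = 0} =>
      (⟨StN.x 0 1 a.1, ?_⟩ : (StN.rmap (Net.full (Fin 20)) E.ε).ker)) fun a b hab => ?_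
    · rw [MonoidHom.mem_ker, StN.rmap_x, show E.ε a.1 = 0 from a.2]
      exact StN.isSt.zero (by simp)
    · have h1 := congrArg (fun y : (StN.rmap (Net.full (Fin 20)) E.ε).ker =>
        (StN.π _ A y.1 : Matrix (Fin 20) (Fin 20) A) 0 1) hab
      have h01 : (0 : Fin 20) ≠ 1 := by decide
      simp only [StN.π_x (Φ := Net.full (Fin 20)) h01, elem_val h01, Matrix.add_apply,
        Matrix.single_apply_same, add_right_inj] at h1
      exact Subtype.ext h1
  · have : Finite (St (Fin 20) (ZMod 2)) := st_finite Aug.zmod (by simp)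
    have : (StN.rmap (Net.full (Fin 20)) E.ε).ker.FiniteIndex := Subgroup.finiteIndex_ker _
    exact fp_of_finiteIndex (st_fp hW (by simp)) _
  · refine Group.residuallyFinite_of_forall_exists_finite_monoidHom.{0} fun y hy => ?_
    by_contra hcon
    have h1 : ∀ m, 1 ≤ m → StN.rmap _ (Ideal.Quotient.mk (deep 𝒜 m)) y.1 = 1 := fun m hm => by
      by_contra h
      exact hcon ⟨_, inferInstance, hfin m hm,
        (StN.rmap _ (Ideal.Quotient.mk (deep 𝒜 m))).comp (Subgroup.subtype _), h⟩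
    have h2 : StN.π _ A y.1 = 1 := by
      apply Units.ext
      ext i j
      rw [← sub_eq_zero]
      refine eq_zero_of_deep (𝒜 := 𝒜) fun m => deep_anti (Nat.le_succ m) ?_
      have h3 := congrFun (congrFun (pi_rmap (Ideal.Quotient.mk (deep 𝒜 (m + 1))) y.1) i) j
      rw [h1 _ (Nat.le_add_left 1 m), map_one, Matrix.map_apply] at h3
      rw [← Ideal.Quotient.eq_zero_iff_mem, map_sub, ← h3]
      simp only [Units.val_one, Matrix.one_apply]
      split_ifs <;> simp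
    obtain ⟨s, hs⟩ := grp_light E hE hW.zero y.2 h2 2 le_rfl
    obtain ⟨t, ht⟩ := grp_light E hE hW.zero y.2 h2 3 (by norm_num)
    obtain ⟨ℓ, ⟨P⟩⟩ := (hP s).1
    obtain ⟨ℓ', ⟨P'⟩⟩ := (hP t).2
    have h3 := grp_pow hW E hι P (h1 _ (by omega)) h2 hs
    have h4 := grp_pow hW E hι P' (h1 _ (by omega)) h2 ht
    have h5 : Nat.Coprime (2 ^ s) (3 ^ t) := Nat.Coprime.pow _ _ (by norm_num)
    have h6 := (pow_gcd_eq_one (a := y.1)).2 ⟨h3, h4⟩
    rw [h5.gcd_eq_one, pow_one] at h6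
    exact hy (Subtype.ext h6)
  · intro y
    obtain ⟨k, hk⟩ := pi_pow_eq_one E hN y.2
    have h₁ : StN.rmap _ E.ε (y.1 ^ 2 ^ k) = 1 := by rw [map_pow, y.2, one_pow]
    have h₂ : StN.π _ A (y.1 ^ 2 ^ k) = 1 := by rw [map_pow, hk]
    obtain ⟨s, hs⟩ := grp_light E hE hW.zero h₁ h₂ 2 le_rfl
    obtain ⟨ℓ, ⟨P⟩⟩ := (hP s).1
    obtain ⟨E', hN', _, hε⟩ := E.exists_quot hE hN (m := 2 * (2 * (ℓ + 1))) (by omega)
    have := hW.finite_quot (2 * (2 * (ℓ + 1)))
    obtain ⟨a, ha⟩ := ker_two_group E' hN' (ι := Fin 20) (by simp)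
      (g := StN.rmap _ (Ideal.Quotient.mk (deep 𝒜 (2 * (2 * (ℓ + 1))))) (y.1 ^ 2 ^ k))
      (by rw [rmap_rmap, hε, h₁])
    have h3 := grp_pow hW E hι P (y := (y.1 ^ 2 ^ k) ^ 2 ^ a) (by rw [map_pow, ha])
      (by rw [map_pow, h₂, one_pow]) (by rw [map_pow, map_pow, hs, one_pow])
    refine ⟨k + a + s, Subtype.ext ?_⟩
    rw [Subgroup.coe_pow, pow_add, pow_add, pow_mul, pow_mul, h3, Subgroup.coe_one]

end Crest.Agent.R176
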