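import Crest.Agent.R176.LvStmts

/-!
Row 176: nilpotence of level `R` in dimensions small compared with the level (exchange of
register regions).
-/

set_option autoImplicit false
set_option synthInstance.maxSize 4096

namespace Crest.Agent.R176.Lv

namespace Base

section flat

variable {X : Type} {d Q : ℕ}

/-- Concatenation of `d` slots of length `Q`. -/
def flat (y : Fin d → Fin Q → X) : List X := (List.ofFn fun i => List.ofFn (y i)).flatten

theorem length_flatten_const (L : List (List X)) (h : ∀ a ∈ L, a.length = Q) :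
    L.flatten.length = L.length * Q := by
  induction L with
  | nil => simp
  | cons a L ih =>
    rw [List.flatten_cons, List.length_append, ih fun b hb => h b (List.mem_cons_of_mem _ hb),
      h a List.mem_cons_self, List.length_cons]
    ring

theorem len_mem (y : Fin d → Fin Q → X) : ∀ a ∈ List.ofFn fun i => List.ofFn (y i),
    a.length = Q := by
  intro a ha
  obtain ⟨i, rfl⟩ := List.mem_ofFn.1 ha
  simp

theorem length_flat (y : Fin d → Fin Q → X) : (flat y).length = d * Q := by
  rw [flat, length_flatten_const _ (len_mem y), List.length_ofFn]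

theorem ofFn_update {Y : Type} (g : Fin d → Y) (i : Fin d) (a : Y) :
    List.ofFn (Function.update g i a) =
      (List.ofFn g).take i ++ a :: (List.ofFn g).drop (i + 1) := by
  have h : List.ofFn (Function.update g i a) = (List.ofFn g).set i a := by
    apply List.ext_getElem
    · simp
    · intro k h₁ h₂
      simp only [List.getElem_ofFn, List.getElem_set]
      by_cases hk : (i : ℕ) = k
      · subst hk
        simp
      · rw [if_neg hk, Function.update_of_ne]
        intro e
        exact hk (by rw [← e])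
  rw [h, List.set_eq_take_append_cons_drop, if_pos (by simp)]

theorem flat_update (y : Fin d → Fin Q → X) (i : Fin d) :
    ∃ l r : List X, l.length = i * Q ∧
      ∀ v, flat (Function.update y i v) = l ++ List.ofFn v ++ r := by
  refine ⟨((List.ofFn fun i => List.ofFn (y i)).take i).flatten,
    ((List.ofFn fun i => List.ofFn (y i)).drop (i + 1)).flatten, ?_, fun v => ?_⟩
  · rw [length_flatten_const _ fun a ha => len_mem y a (List.mem_of_mem_take ha)]
    simp
  · have : (fun k => List.ofFn (Function.update y i v k)) =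
        Function.update (fun k => List.ofFn (y k)) i (List.ofFn v) := by
      funext k
      by_cases hk : k = i
      · subst hk; simp
      · simp [Function.update_of_ne hk]
    rw [flat, this, ofFn_update]
    simp

theorem wsum_flat [Fintype X] {M : Type} [AddCommMonoid M] (d Q : ℕ) (G : List X → M) :
    Rew.wsum (d * Q) G = ∑ y : Fin d → Fin Q → X, G (flat y) := by
  unfold Rew.wsum
  refine Fintype.sum_equiv
    ((finProdFinEquiv.symm.arrowCongr (Equiv.refl X)).trans (Equiv.curry _ _ _)) _ _ fun w => ?_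
  rw [List.ofFn_mul]
  congr 3
  funext i
  congr 1
  funext j
  simp only [Equiv.trans_apply, Equiv.curry_apply, Function.curry_apply, Equiv.arrowCongr_apply,
    Equiv.coe_refl, Equiv.symm_symm, Function.comp_apply, id_eq]
  congr 1
  apply Fin.ext
  simp [finProdFinEquiv]
  ring

theorem prod_flat {M : Type} [Monoid M] (ψ : X → M) (y : Fin d → Fin Q → X) :
    ((flat y).map ψ).prod = (List.ofFn fun i => ((List.ofFn (y i)).map ψ).prod).prod := by
  rw [flat, List.map_flatten, List.prod_flatten, List.map_ofFn, List.map_ofFn]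
  rfl

end flat

variable {R d r : ℕ}

/-- The first position of a slot. -/
def z0 (R : ℕ) : Fin (2 ^ R) := ⟨0, Nat.two_pow_pos R⟩

theorem ofFn_cons {X : Type} (v : Fin (2 ^ R) → X) : ∃ r, List.ofFn v = v (z0 R) :: r := by
  have h : List.ofFn v ≠ [] := by
    intro e
    have := congrArg List.length e
    have h2 := Nat.two_pow_pos R
    simp at this
  obtain ⟨a, r, e⟩ := List.exists_cons_of_ne_nil h
  refine ⟨r, ?_⟩
  have h0 : (List.ofFn v)[0]'(by simp) = a := by simp only [e]; rfl
  rw [e, ← h0]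
  simp [z0]

theorem split_eq {X : Type} {c : ℕ → X} {W₁ W₂ : List X} {x : X}
    (h : (List.range r).map c = W₁ ++ x :: W₂) :
    W₁.length < r ∧ x = c W₁.length ∧
      ∀ x', W₁ ++ x' :: W₂ = (List.range r).map (Function.update c W₁.length x') := by
  have h' : (List.range r).map c = W₁ ++ [x] ++ W₂ := by simpa using h
  obtain ⟨h₁, h₂, h₃, h₄⟩ := range_map_eq_one h'
  refine ⟨h₁, h₂, fun x' => ?_⟩
  rw [range_map_split_one h₁, Function.update_self]
  have e₁ : (List.range W₁.length).map (Function.update c W₁.length x') = W₁ := by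
    conv_rhs => rw [h₃]
    exact range_map_congr fun i hi => Function.update_of_ne (by omega) _ _
  have e₂ : ((List.range (r - (W₁.length + 1))).map
      fun i => Function.update c W₁.length x' (W₁.length + 1 + i)) = W₂ := by
    conv_rhs => rw [h₄]
    exact range_map_congr fun i _ => Function.update_of_ne (by omega) _ _
  rw [e₁, e₂]
  simp

theorem lstI (H : RepFacts R) {y : Fin d → Fin (2 ^ R) → Let R} {c : ℕ → Let (2 ^ R)}
    (h : Dec Unit (flat y) ((List.range r).map c)) (i : Fin d) :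
    upLst (y i (z0 R)) = (c (i / 6)).σ.1.lst := by
  obtain ⟨l, r', hl, e⟩ := flat_update y i
  have e' := e (y i)
  rw [Function.update_eq_self] at e'
  obtain ⟨r'', e''⟩ := ofFn_cons (y i)
  rw [e', e'', List.append_assoc, List.cons_append] at h
  obtain ⟨W₁, X, W₂, hW, hlen, hx⟩ := H.lst _ _ _ _ h
  obtain ⟨-, hX, -⟩ := split_eq hW
  rw [hx, hX, hlen, hl, N, Nat.mul_div_mul_right _ _ (Nat.two_pow_pos R)]

theorem cleanI (H : RepFacts R) {y : Fin (6 * r) → Fin (2 ^ R) → Let R} {c : ℕ → Let (2 ^ R)}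
    (h : Dec Unit (flat y) ((List.range r).map c)) (k : ℕ) (hk : k < r) :
    ∃ (i : Fin (6 * r)) (κ : Cls) (u : _) (t : _), κ.ok ∧ TInj t ∧ (i : ℕ) / 6 = k ∧
      y i = regLet κ u t := by
  obtain ⟨κ, u, t, l, r', h₁, h₂, e, hl⟩ := H.clean _ _ h k (by simpa using hk)
  have hj := κ.j.isLt
  refine ⟨⟨6 * k + κ.j + 1, by omega⟩, κ, u, t, h₁, h₂, by simp only; omega, ?_⟩
  obtain ⟨l', r'', hl', e'⟩ := flat_update y ⟨6 * k + κ.j + 1, by omega⟩
  have e'' := e' (y ⟨6 * k + κ.j + 1, by omega⟩)
  rw [Function.update_eq_self, e, List.append_assoc, List.append_assoc] at e''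
  have e₃ := (List.append_inj e'' (by rw [hl, hl'])).2
  exact (List.ofFn_injective (List.append_inj e₃ (by simp)).1).symm

theorem repI (H : RepFacts R) {y : Fin d → Fin (2 ^ R) → Let R} {c : ℕ → Let (2 ^ R)}
    (h : Dec Unit (flat y) ((List.range r).map c)) (i : Fin d) {κ : Cls} {u t}
    (hy : y i = regLet κ u t) (hκ : κ.ok) (u' : Fin (2 ^ R) → Bool) {t'} (ht' : TInj t') :
    ∃ k, k < r ∧ (i : ℕ) = 6 * k + κ.j + 1 ∧ (c k).t κ.j = u ∧
      Dec Unit (flat (Function.update y i (regLet κ u' t')))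
        ((List.range r).map (Function.update c k ((c k).setT κ.j u'))) := by
  obtain ⟨l, r', hl, e⟩ := flat_update y i
  have e' := e (y i)
  rw [Function.update_eq_self, hy] at e'
  rw [e'] at h
  obtain ⟨W₁, X, W₂, hW, hg, hu, hD⟩ := H.rep κ u u' t t' l r' _ i h hκ ht' hl
  obtain ⟨h₁, hX, h₂⟩ := split_eq hW
  refine ⟨W₁.length, h₁, hg, hX ▸ hu, ?_⟩
  rw [e, ← hX, ← h₂]
  exact hD

theorem setT_self (x : Let R) (j : Fin 4) : x.setT j (x.t j) = x := by
  simp [Let.setT]

theorem swapT_comm (c : ℕ → Let R) (j : Fin 4) (k k' : ℕ) : swapT c j k k' = swapT c j k' k := by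
  funext i
  rw [swapT, swapT, Equiv.swap_comm]

theorem swapI (H : RepFacts R) {y : Fin d → Fin (2 ^ R) → Let R} {c : ℕ → Let (2 ^ R)}
    (h : Dec Unit (flat y) ((List.range r).map c)) {i i' : Fin d} (hi : i ≠ i') {κ : Cls}
    {u t u' t'} (hy : y i = regLet κ u t) (hy' : y i' = regLet κ u' t') (hκ : κ.ok)
    (ht : TInj t) (ht' : TInj t') :
    ∃ k k', k < r ∧ k' < r ∧ (i : ℕ) = 6 * k + κ.j + 1 ∧ (i' : ℕ) = 6 * k' + κ.j + 1 ∧
      (c k).t κ.j = u ∧ (c k').t κ.j = u' ∧
      Dec Unit (flat (y ∘ Equiv.swap i i')) ((List.range r).map (swapT c κ.j k k')) := by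
  obtain ⟨k, hk, hik, hu, h₁⟩ := repI H h i hy hκ u' ht'
  obtain ⟨k', hk', hik', hu', h₂⟩ := repI H h₁ i' (u := u') (t := t')
    (by rw [Function.update_of_ne hi.symm, hy']) hκ u ht
  have hkk : k ≠ k' := by
    rintro rfl
    exact hi (Fin.ext (hik.trans hik'.symm))
  rw [Function.update_of_ne hkk.symm] at hu' h₂
  refine ⟨k, k', hk, hk', hik, hik', hu, hu', ?_⟩
  have e₁ : y ∘ Equiv.swap i i' =
      Function.update (Function.update y i (regLet κ u' t')) i' (regLet κ u t) := by
    funext a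
    by_cases g₁ : a = i'
    · subst g₁
      simp [hy]
    · by_cases g₂ : a = i
      · subst g₂
        simp [Function.update_of_ne g₁, hy']
      · simp [Function.update_of_ne g₁, Function.update_of_ne g₂,
          Equiv.swap_apply_of_ne_of_ne g₂ g₁]
  have e₂ : swapT c κ.j k k' = Function.update (Function.update c k ((c k).setT κ.j u')) k'
      ((c k').setT κ.j u) := by
    funext a
    by_cases g₁ : a = k'
    · subst g₁
      rw [Function.update_self, swapT, Equiv.swap_apply_right, hu]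
    · by_cases g₂ : a = k
      · subst g₂
        rw [Function.update_of_ne g₁, Function.update_self, swapT, Equiv.swap_apply_left, hu']
      · rw [Function.update_of_ne g₁, Function.update_of_ne g₂, swapT,
          Equiv.swap_apply_of_ne_of_ne g₂ g₁, setT_self]
  rw [e₁, e₂]
  exact h₂

theorem regLet_u {κ : Cls} {u u' : Fin (2 ^ R) → Bool} {t t'}
    (h : regLet κ u t = regLet κ u' t') : u = u' := by
  funext i
  have := mkC_injective (congrArg Let.σ (congrFun h i))
  exact congrArg CC.u this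

open Classical in
/-- The type of a slot. -/
noncomputable def clsOf (v : Fin (2 ^ R) → Let R) : Option Cls :=
  if h : ∃ κ : Cls, ∃ u t, κ.ok ∧ TInj t ∧ v = regLet κ u t then some h.choose else none

theorem clsOf_spec {v : Fin (2 ^ R) → Let R} {κ : Cls} (h : clsOf v = some κ) :
    ∃ u t, κ.ok ∧ TInj t ∧ v = regLet κ u t := by
  unfold clsOf at h
  split_ifs at h with h'
  obtain rfl := Option.some.inj h
  exact h'.choose_spec

theorem clsOf_ex {v : Fin (2 ^ R) → Let R} {κ : Cls} {u t} (h₁ : κ.ok) (h₂ : TInj t)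
    (h : v = regLet κ u t) : ∃ κ', clsOf v = some κ' := by
  unfold clsOf
  rw [dif_pos ⟨κ, u, t, h₁, h₂, h⟩]
  exact ⟨_, rfl⟩

/-- The class of a slot. -/
noncomputable def cls (v : Fin (2 ^ R) → Let R) : Option Cls × Bool := (clsOf v, upLst (v (z0 R)))

theorem cls_fst (v : Fin (2 ^ R) → Let R) : (cls v).1 = clsOf v := by rw [cls]

theorem cls_snd (v : Fin (2 ^ R) → Let R) : (cls v).2 = upLst (v (z0 R)) := by rw [cls]

/-- Exchangeable slots. -/
def Sw (cs : Fin d → Option Cls × Bool) (i i' : Fin d) : Prop :=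
  ∃ κ, (cs i).1 = some κ ∧ cs i' = cs i ∧
    ∀ a : Fin d, min (i : ℕ) i' ≤ a → (a : ℕ) ≤ max (i : ℕ) i' → (cs a).2 = false

theorem parse_of {X X' : Type} {U : List X → List X' → Prop} {f : List X' → ZMod 2} {M : List X}
    (h : decF U f M ≠ 0) : ∃ W, Dec U M W := by
  by_contra h'
  exact h (by rw [decF, dif_neg h'])

theorem decF_of_not {X X' : Type} {U : List X → List X' → Prop} (f : List X' → ZMod 2)
    {M : List X} (h : ¬ ∃ W, Dec U M W) : decF U f M = 0 := by
  rw [decF, dif_neg h]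

/-- A default letter. -/
def dflt (R : ℕ) : Let R :=
  ⟨z0 R, 0, fun _ _ => false, mkC ⟨Pos.dflt, zdflt.1, .bef false, .lt, .lt, false⟩⟩

theorem parseI (hlen : ∀ (M : List (Let R)) W, Dec Unit M W → M.length = N R * W.length)
    {y : Fin (6 * r) → Fin (2 ^ R) → Let R} {W : List (Let (2 ^ R))} (h : Dec Unit (flat y) W) :
    ∃ c : ℕ → Let (2 ^ R), W = (List.range r).map c := by
  have h₁ := hlen _ _ h
  rw [length_flat, N] at h₁
  have h₂ : W.length = r := by
    have h₃ : 6 * 2 ^ R * W.length = 6 * 2 ^ R * r := by rw [← h₁]; ring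
    exact Nat.eq_of_mul_eq_mul_left (by have := Nat.two_pow_pos R; omega) h₃
  exact ⟨_, h₂ ▸ eq_range_map W (dflt _)⟩

theorem many (H : RepFacts R) (F : FermFacts (2 ^ R)) {n : ℕ}
    (hn : 2 * (Fintype.card Cls * (n * n) + 1) + 1 ≤ 2 ^ 2 ^ R)
    (hr : 2 * (Fintype.card Cls * (n * n) + 1) + 1 ≤ r)
    {y : Fin (6 * r) → Fin (2 ^ R) → Let R} {c : ℕ → Let (2 ^ R)}
    (h : Dec Unit (flat y) ((List.range r).map c)) (hNZ : (lev (2 ^ R)).NZ ((List.range r).map c)) :
    ∃ s : Finset (Fin (6 * r)), n * n < s.card ∧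
      ∀ i ∈ s, ∀ i' ∈ s, i ≠ i' → Sw (cls ∘ y) i i' := by
  classical
  obtain ⟨k₀, hk₀, hw⟩ := F.window r _ c hNZ hr hn
  have key : ∀ a : Fin (Fintype.card Cls * (n * n) + 1), ∃ (i : Fin (6 * r)) (κ : Cls),
      (i : ℕ) / 6 = k₀ + a ∧ clsOf (y i) = some κ := by
    intro a
    obtain ⟨i, κ, u, t, h₁, h₂, h₃, h₄⟩ := cleanI H h (k₀ + a) (by have := a.isLt; omega)
    obtain ⟨κ', h₅⟩ := clsOf_ex h₁ h₂ h₄
    exact ⟨i, κ', h₃, h₅⟩
  choose g κ hg hκ using key
  obtain ⟨κ₀, hκ₀⟩ := Fintype.exists_lt_card_fiber_of_mul_lt_card (n := n * n) κ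
    (by rw [Fintype.card_fin]; exact Nat.lt_succ_self _)
  have hinj : Function.Injective g := by
    intro a b e
    have h₁ := hg a
    rw [e, hg b] at h₁
    exact Fin.ext (by omega)
  refine ⟨(Finset.univ.filter fun a => κ a = κ₀).image g, ?_, ?_⟩
  · rwa [Finset.card_image_of_injective _ hinj]
  · intro i hi i' hi' _
    obtain ⟨a, ha, rfl⟩ := Finset.mem_image.1 hi
    obtain ⟨a', ha', rfl⟩ := Finset.mem_image.1 hi'
    have e := (Finset.mem_filter.1 ha).2
    have e' := (Finset.mem_filter.1 ha').2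
    have btw : ∀ b : Fin (6 * r), min (g a : ℕ) (g a') ≤ b → (b : ℕ) ≤ max (g a : ℕ) (g a') →
        upLst (y b (z0 R)) = false := by
      intro b hb hb'
      rw [lstI H h b]
      have h₁ := hg a
      have h₂ := hg a'
      have h₃ := a.isLt
      have h₄ := a'.isLt
      exact hw _ (by omega) (by omega)
    refine ⟨κ₀, ?_, ?_, fun b hb hb' => ?_⟩
    · rw [Function.comp_apply, cls_fst, hκ a, e]
    · refine Prod.ext ?_ ?_
      · rw [Function.comp_apply, Function.comp_apply, cls_fst, cls_fst, hκ a, hκ a', e, e']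
      · rw [Function.comp_apply, Function.comp_apply, cls_snd, cls_snd,
          btw _ (by omega) (by omega), btw _ (by omega) (by omega)]
    · rw [Function.comp_apply, cls_snd, btw b hb hb']

theorem exch (H : RepFacts R) (F : FermFacts (2 ^ R))
    (hlen : ∀ (M : List (Let R)) W, Dec Unit M W → M.length = N R * W.length)
    {f : List (Let (2 ^ R)) → ZMod 2} (hf : (lev (2 ^ R)).Adm f)
    (hdec : ∀ (M : List (Let R)) W, Dec Unit M W → decF Unit f M = f W)
    (y : Fin (6 * r) → Fin (2 ^ R) → Let R) (i i' : Fin (6 * r)) (hi : i ≠ i')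
    (hS : Sw (cls ∘ y) i i') :
    cls (y i) = cls (y i') ∧ decF Unit f (flat (y ∘ Equiv.swap i i')) = decF Unit f (flat y) ∧
      (y i = y i' → decF Unit f (flat y) = 0) := by
  obtain ⟨κ, h₁, h₂, h₃⟩ := hS
  simp only [Function.comp_apply] at h₁ h₂ h₃
  have h₁' := h₁
  rw [← h₂, cls_fst] at h₁'
  rw [cls_fst] at h₁
  simp only [cls_snd] at h₃
  obtain ⟨u, t, hκ, ht, hy⟩ := clsOf_spec h₁
  obtain ⟨u', t', -, ht', hy'⟩ := clsOf_spec h₁'
  refine ⟨h₂.symm, ?_⟩
  by_cases hp : ∃ W, Dec Unit (flat y) W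
  · obtain ⟨W, hW⟩ := hp
    obtain ⟨c, rfl⟩ := parseI hlen hW
    obtain ⟨k, k', hk, hk', e, e', hu, hu', hD⟩ := swapI H hW hi hy hy' hκ ht ht'
    have hj := κ.j.isLt
    have btw : ∀ a, min k k' ≤ a → a ≤ max k k' → (c a).σ.1.lst = false := by
      intro a ha ha'
      have h₄ := lstI H hW ⟨6 * a + κ.j + 1, by omega⟩
      have h₅ := h₃ ⟨6 * a + κ.j + 1, by omega⟩ (by simp only; omega) (by simp only; omega)
      have h₆ : (6 * a + κ.j + 1) / 6 = a := by omega
      simp only [h₆] at h₄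
      exact h₄.symm.trans h₅
    have hkk : k ≠ k' := by
      rintro rfl
      exact hi (Fin.ext (e.trans e'.symm))
    rw [hdec _ _ hW, hdec _ _ hD]
    rcases lt_or_gt_of_ne hkk with hlt | hlt
    · refine ⟨(F.swap r c κ.j k k' hlt hk' (fun a ha ha' => btw a (by omega) (by omega))
        f hf).symm, fun e₁ => ?_⟩
      have e₂ : u = u' := regLet_u (hy.symm.trans (e₁.trans hy'))
      exact Rew.not_NZ_iff.1 (F.zero r c κ.j k k' hlt hk'
        (fun a ha ha' => btw a (by omega) (by omega)) (by rw [hu, hu', e₂])) f hf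
    · rw [swapT_comm]
      refine ⟨(F.swap r c κ.j k' k hlt hk (fun a ha ha' => btw a (by omega) (by omega))
        f hf).symm, fun e₁ => ?_⟩
      have e₂ : u = u' := regLet_u (hy.symm.trans (e₁.trans hy'))
      exact Rew.not_NZ_iff.1 (F.zero r c κ.j k' k hlt hk
        (fun a ha ha' => btw a (by omega) (by omega)) (by rw [hu, hu', e₂])) f hf
  · have hp' : ¬ ∃ W, Dec Unit (flat (y ∘ Equiv.swap i i')) W := by
      rintro ⟨W, hW⟩
      obtain ⟨c, rfl⟩ := parseI hlen hW
      obtain ⟨k, k', -, -, -, -, -, -, hD⟩ := swapI H hW hi (κ := κ) (u := u') (t := t') (u' := u)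
        (t' := t) (by simp [hy']) (by simp [hy]) hκ ht' ht
      have e : (y ∘ Equiv.swap i i') ∘ Equiv.swap i i' = y := by
        funext a
        simp
      rw [e] at hD
      exact hp ⟨_, hD⟩
    rw [decF_of_not f hp, decF_of_not f hp']
    exact ⟨rfl, fun _ => rfl⟩

end Base

open Base in
theorem baseOfStmt : BaseOfStmt := by
  intro hP hRep hF hL hSF hSM hSw
  refine ⟨Fintype.card Cls, fun R hR n hn ψ => ?_⟩
  obtain ⟨T, hT⟩ := hL R hR
  have SF := hSF _ _ _ _ _ T
  have H := hRep R (hP R hR)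
  have F := hF (2 ^ R)
  refine hSM _ _ _ _ _ T SF n ψ (2 * (Fintype.card Cls * (n * n) + 1) + 1) fun r hr f hf => ?_
  have hlen : ∀ (M : List (Let R)) W, Dec Unit M W → M.length = N R * W.length := by
    rw [← hT]; exact SF.len
  have hdec : ∀ (M : List (Let R)) W, Dec Unit M W → decF Unit f M = f W := by
    rw [← hT]; exact SF.decF_eq f
  have e : N R * r = 6 * r * 2 ^ R := by rw [N]; ring
  rw [e, wsum_flat, hT]
  simp only [prod_flat]
  refine hSw (Fin (2 ^ R) → Let R) _ cls (6 * r) n (fun y => decF Unit f (flat y)) Sw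
    (fun v => ((List.ofFn v).map ψ).prod) (fun y hy => ?_) (exch H F hlen hf hdec)
  obtain ⟨W, hW⟩ := parse_of hy
  obtain ⟨c, rfl⟩ := parseI hlen hW
  exact many H F hn hr hW ⟨f, hf, by rw [← hdec _ _ hW]; exact hy⟩

end Crest.Agent.R176.Lv
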