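import Crest.Agent.R176.LvStmts

/-!
Row 176: the static parse of a block.
-/

set_option autoImplicit false
set_option synthInstance.maxSize 4096

namespace Crest.Agent.R176.Lv

namespace BlockAux

variable {R : ℕ}

/-! ### Arithmetic -/

theorem succ_dm {m : ℕ} (hm : 0 < m) (i : ℕ) :
    (i % m + 1 = m ∧ (i + 1) / m = i / m + 1 ∧ (i + 1) % m = 0) ∨
    (i % m + 1 < m ∧ (i + 1) / m = i / m ∧ (i + 1) % m = i % m + 1) := by
  have h1 := Nat.mod_lt i hm
  have h2 := Nat.div_add_mod i m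
  rcases (Nat.succ_le_of_lt h1).eq_or_lt with h | h
  · left
    have e : i + 1 = m * (i / m + 1) := by rw [Nat.mul_succ]; omega
    refine ⟨h, ?_, ?_⟩
    · rw [e, Nat.mul_div_cancel_left _ hm]
    · rw [e, Nat.mul_mod_right]
  · right
    have e : i + 1 = (i % m + 1) + m * (i / m) := by omega
    refine ⟨h, ?_, ?_⟩
    · rw [e, Nat.add_mul_div_left _ _ hm, Nat.div_eq_of_lt h, Nat.zero_add]
    · rw [e, Nat.add_mul_mod_self_left, Nat.mod_eq_of_lt h]

theorem div_lt_six {m i : ℕ} (hi : i < 6 * m) : i / m < 6 := Nat.div_lt_of_lt_mul (by omega)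

theorem div_ge_iff {m : ℕ} (hm : 0 < m) (k i : ℕ) : k ≤ i / m ↔ k * m ≤ i :=
  Nat.le_div_iff_mul_le hm

theorem all_bits {m A : ℕ} (hA : A < 2 ^ m) :
    (∀ j < m, A.testBit j = true) ↔ A + 1 = 2 ^ m := by
  have hp := Nat.two_pow_pos m
  constructor
  · intro h
    have : A = 2 ^ m - 1 := by
      refine Nat.eq_of_testBit_eq fun j => ?_
      rw [Nat.testBit_two_pow_sub_one]
      rcases Nat.lt_or_ge j m with hj | hj
      · rw [h j hj]; simp [hj]
      · rw [Nat.testBit_lt_two_pow (hA.trans_le (Nat.pow_le_pow_right (by norm_num) hj))]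
        simp [hj]
    omega
  · intro h j hj
    have : A = 2 ^ m - 1 := by omega
    rw [this, Nat.testBit_two_pow_sub_one]
    simp [hj]

/-- Arrow chains. -/
theorem arrows {n : ℕ} (hn : 0 < n) (f : ℕ → Arr) (h0 : f 0 ≠ .gt) (h1 : f (n - 1) ≠ .lt)
    (h : ∀ i, i + 1 < n → okArr (f i) (f (i + 1))) : ∃ a < n, ∀ i < n, f i = arr i a := by
  classical
  have hex : ∃ i, f i ≠ .lt := ⟨_, h1⟩
  have ha : Nat.find hex ≤ n - 1 := Nat.find_min' hex h1
  have hlt : ∀ i < Nat.find hex, f i = .lt := fun i hi => not_not.1 (Nat.find_min hex hi)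
  have hne : f (Nat.find hex) ≠ .lt := Nat.find_spec hex
  generalize Nat.find hex = a at ha hlt hne
  have heq : f a = .eq := by
    rcases a with _ | a
    · cases e : f 0
      · exact absurd e hne
      · rfl
      · exact absurd e h0
    · have h2 := h a (by omega)
      rw [hlt a (by omega)] at h2
      cases e : f (a + 1)
      · exact absurd e hne
      · rfl
      · rw [e] at h2; exact h2.elim
  have hgt : ∀ k, a + 1 + k < n → f (a + 1 + k) = .gt := by
    intro k
    induction k with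
    | zero =>
      intro hk
      have h2 := h a hk
      rw [heq] at h2
      cases e : f (a + 1) <;> first | rfl | (rw [e] at h2; exact h2.elim)
    | succ k ih =>
      intro hk
      have h2 := h (a + 1 + k) hk
      rw [ih (by omega)] at h2
      change f (a + 1 + k + 1) = _
      cases e : f (a + 1 + k + 1) <;> first | rfl | (rw [e] at h2; exact h2.elim)
  refine ⟨a, by omega, fun i hi => ?_⟩
  unfold arr
  split_ifs with h2 h3
  · exact hlt i h2
  · rw [h3, heq]
  · obtain ⟨k, rfl⟩ : ∃ k, i = a + 1 + k := ⟨i - (a + 1), by omega⟩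
    exact hgt k hi

/-! ### Chains of letters -/

theorem chain {x₀ : Let R} {n : ℕ} {c : ℕ → Let R}
    (h : (lev R).NZ (x₀ :: (List.range n).map c)) :
    (0 < n → PairOk x₀ (c 0)) ∧ ∀ i, i + 1 < n → PairOk (c i) (c (i + 1)) := by
  refine ⟨fun hn => ?_, fun i hi => pairOk_of_NZ (h.of_cons.range_pair hi)⟩
  obtain ⟨n, rfl⟩ : ∃ m, n = m + 1 := ⟨n - 1, by omega⟩
  rw [List.range_succ_eq_map, List.map_cons] at h
  exact pairOk_of_NZ (Rew.NZ.of_append_left (w := [x₀, c 0]) h)

theorem pair_reg {x y : Let R} (h : PairOk x y) :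
    y.σ.1.reg = if x.σ.1.lst then x.σ.1.reg + 1 else x.σ.1.reg := by
  obtain ⟨c₁, c₂, e₁, e₂, h, -⟩ := h.can
  rw [e₁, e₂]
  exact h.reg

theorem bd_iff (p : Pos) : p.bd = true ↔ p.reg = 5 ∧ p.lst = true := by
  simp [Pos.bd]

theorem pos_of {x : Let R} {i : ℕ} (hv : x.valid) (hA : x.A.val = i % 2 ^ R)
    (hπ : x.π.val = ptr R i) (hr : x.σ.1.reg.val = i / 2 ^ R % 6) : x.σ.1 = posAt R i := by
  refine Pos.ext (Fin.ext hr) ?_ ?_
  · change _ = decide _
    rw [← hA, Bool.eq_iff_iff, decide_eq_true_iff]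
    exact hv.2
  · change _ = Tab _
    rw [← hπ]
    exact hv.1

theorem pos_ind {x₀ : Let R} {n : ℕ} {c : ℕ → Let R} (hb : x₀.σ.1.bd = true)
    (h0 : 0 < n → PairOk x₀ (c 0)) (hs : ∀ i, i + 1 < n → PairOk (c i) (c (i + 1))) (i : ℕ)
    (hi : i < n) (hN : i < N R) :
    (c i).A.val = i % 2 ^ R ∧ (c i).π.val = ptr R i ∧ (c i).σ.1 = posAt R i := by
  have hp := Nat.two_pow_pos R
  induction i with
  | zero =>
    have h := h0 hi
    obtain ⟨h5, hl⟩ := (bd_iff _).1 hb
    have hA : (c 0).A.val = 0 % 2 ^ R := by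
      rw [h.inc.1, h.vx.2.1 hl, Nat.mod_self, Nat.zero_mod]
    have hπ : (c 0).π.val = ptr R 0 := by
      rw [h.inc.2, h5, hl]
      unfold ptr
      rw [if_neg (by decide), if_pos ⟨rfl, rfl⟩, if_neg (by omega)]
    refine ⟨hA, hπ, pos_of h.vy hA hπ ?_⟩
    rw [pair_reg h, h5, hl, Nat.zero_div]
    rfl
  | succ i ih =>
    obtain ⟨hA, hπ, hpos⟩ := ih (by omega) (by omega)
    have h := hs i hi
    unfold N at hN
    have hq : i / 2 ^ R < 6 := div_lt_six (by omega)
    have hq' : (i + 1) / 2 ^ R < 6 := div_lt_six hN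
    have hreg : (c i).σ.1.reg.val = i / 2 ^ R := by
      rw [hpos]; exact Nat.mod_eq_of_lt hq
    have hlst : (c i).σ.1.lst = true ↔ i % 2 ^ R + 1 = 2 ^ R := by
      rw [← hA]; exact h.vx.2
    have h4 : (c i).σ.1.reg = 4 ↔ i / 2 ^ R = 4 := by rw [Fin.ext_iff, hreg]; rfl
    have h5 : (c i).σ.1.reg = 5 ↔ i / 2 ^ R = 5 := by rw [Fin.ext_iff, hreg]; rfl
    have g5 := div_ge_iff hp 5 i
    have g5' := div_ge_iff hp 5 (i + 1)
    have hd := succ_dm hp i
    have hA' : (c (i + 1)).A.val = (i + 1) % 2 ^ R := by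
      rw [h.inc.1, hA, Nat.mod_add_mod]
    have hπ' : (c (i + 1)).π.val = ptr R (i + 1) := by
      rw [h.inc.2, hπ]
      simp only [hlst, h4, h5]
      unfold ptr
      have g4 := div_ge_iff hp 4 i
      have := Nat.div_add_mod i (2 ^ R)
      split_ifs <;> omega
    refine ⟨hA', hπ', pos_of h.vy hA' hπ' ?_⟩
    rw [pair_reg h, Nat.mod_eq_of_lt hq']
    split_ifs with hl
    · rw [Fin.val_add, hreg]
      have := hlst.1 hl
      change (_ + 1) % 6 = _
      omega
    · have := mt hlst.2 hl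
      omega

theorem find (w : List (Let R)) (h : (lev R).NZ w) (hw : w.length = N R) :
    ∃ x ∈ w, x.σ.1.bd = true := by
  have h6 := six_le_N R
  have hp := Nat.two_pow_pos R
  obtain ⟨x₀, hx₀⟩ : ∃ x, x ∈ w := List.exists_mem_of_length_pos (by omega)
  have e := eq_range_map w x₀
  rw [hw] at e
  generalize (fun i => w.getD i x₀) = c at e
  subst e
  by_contra hc
  have hb : ∀ i < N R, ¬ ((c i).σ.1.reg = 5 ∧ (c i).σ.1.lst = true) := fun i hi hb =>
    hc ⟨c i, List.mem_map.2 ⟨i, List.mem_range.2 hi, rfl⟩, (bd_iff _).2 hb⟩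
  have hs : ∀ i, i + 1 < N R → PairOk (c i) (c (i + 1)) := fun i hi =>
    pairOk_of_NZ (h.range_pair hi)
  have key : ∀ i < N R, i ≤ (c i).σ.1.reg.val * 2 ^ R + (c i).A.val := by
    intro i
    induction i with
    | zero => intro _; omega
    | succ i ih =>
      intro hi
      have h1 := ih (by omega)
      have h2 := hs i hi
      have h3 := (c i).A.isLt
      rw [pair_reg h2, h2.inc.1]
      split_ifs with hl
      · have h4 : (c i).σ.1.reg ≠ 5 := fun e => hb i (by omega) ⟨e, hl⟩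
        have h5 : (c i).σ.1.reg.val ≠ 5 := fun e => h4 (Fin.ext e)
        have h6 := (c i).σ.1.reg.isLt
        have h7 : ((c i).σ.1.reg + 1).val = (c i).σ.1.reg.val + 1 := by
          rw [Fin.val_add]
          change (_ + 1) % 6 = _
          omega
        rw [h7, Nat.succ_mul]
        omega
      · have h4 := mt h2.vx.2.2 hl
        rw [Nat.mod_eq_of_lt (by omega)]
        omega
  have h1 := key (N R - 1) (by omega)
  have h2 : (c (N R - 1)).valid := by
    have := (hs (N R - 2) (by omega)).vy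
    rwa [show N R - 2 + 1 = N R - 1 by omega] at this
  have h3 := (c (N R - 1)).A.isLt
  have h4 := (c (N R - 1)).σ.1.reg.isLt
  have h5 : (c (N R - 1)).σ.1.reg.val * 2 ^ R ≤ 5 * 2 ^ R := Nat.mul_le_mul_right _ (by omega)
  have hN : N R = 6 * 2 ^ R := rfl
  refine hb (N R - 1) (by omega) ⟨Fin.ext ?_, h2.2.2 (by omega)⟩
  by_contra h7
  have h8 : (c (N R - 1)).σ.1.reg.val ≠ 5 := h7
  have h5 : (c (N R - 1)).σ.1.reg.val * 2 ^ R ≤ 4 * 2 ^ R := Nat.mul_le_mul_right _ (by omega)
  omega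

/-! ### The tracks of the last region -/

theorem tracks {m : ℕ} (_hm : 0 < m) (e : ℕ → Data) (h0 : (e 0).c = true ∧ (e 0).q = true)
    (hs : ∀ k, k + 1 < m → (e (k + 1)).c = ((e k).c && (e k).a) ∧ (e (k + 1)).q = (e k).p)
    (mono : ∀ k < m, (e k).p = true → (e k).q = true) :
    ∃ A < 2 ^ m, ∃ pi ≤ m, ∀ k < m, (e k).a = A.testBit k ∧
      (e k).c = decide (∀ j < k, A.testBit j = true) ∧ (e k).p = decide (k < pi) ∧
      (e k).q = decide (k ≤ pi) := by
  classical
  have hex : ∃ k, k = m ∨ (e k).p = false := ⟨m, Or.inl rfl⟩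
  have hpi : Nat.find hex ≤ m := Nat.find_min' hex (Or.inl rfl)
  have hlt : ∀ k < Nat.find hex, (e k).p = true := fun k hk => by
    have := Nat.find_min hex hk
    rw [not_or] at this
    simpa using this.2
  have hne := Nat.find_spec hex
  generalize Nat.find hex = pi at hpi hlt hne
  have hge : ∀ k, pi + k < m → (e (pi + k)).p = false := by
    intro k
    induction k with
    | zero => intro hk; exact hne.resolve_left (by omega)
    | succ k ih =>
      intro hk
      have h1 := (hs (pi + k) hk).2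
      rw [ih (by omega)] at h1
      by_contra h2
      have h3 := mono (pi + k + 1) hk (Bool.not_eq_false _ ▸ h2)
      rw [h1] at h3
      exact Bool.false_ne_true h3
  have hP : ∀ k < m, (e k).p = decide (k < pi) := by
    intro k hk
    rcases Nat.lt_or_ge k pi with h | h
    · rw [hlt k h]; simp [h]
    · obtain ⟨j, rfl⟩ : ∃ j, k = pi + j := ⟨k - pi, by omega⟩
      rw [hge j hk]; simp
  have hA : ∀ k < m, (e k).a = (Nat.ofBits fun j : Fin m => (e j).a).testBit k := by
    intro k hk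
    rw [Nat.testBit_ofBits_lt _ _ hk]
  refine ⟨Nat.ofBits fun j : Fin m => (e j).a, Nat.ofBits_lt_two_pow _, pi, hpi, fun k hk =>
    ⟨hA k hk, ?_, hP k hk, ?_⟩⟩
  · generalize (Nat.ofBits fun j : Fin m => (e j).a) = A at hA
    induction k with
    | zero => rw [h0.1]; simp
    | succ k ih =>
      rw [(hs k hk).1, ih (by omega), hA k (by omega), Bool.eq_iff_iff, decide_eq_true_iff]
      simp only [Bool.and_eq_true, decide_eq_true_eq]
      exact Nat.forall_lt_succ_right.symm
  · rcases k with _ | k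
    · rw [h0.2]; simp
    · rw [(hs k hk).2, hP k (by omega)]
      exact decide_eq_decide.2 Iff.rfl

theorem cells (P : PosFacts R) {d₀ : CC} {d : ℕ → CC} (hb : d₀.pos.bd = true)
    (h0 : OkS d₀ (d 0)) (hs : ∀ i, i + 1 < N R → OkS (d i) (d (i + 1)))
    (hpos : ∀ i < N R, (d i).pos = posAt R i) (t : ℕ → Fin 4 → Fin R → Bool) :
    ∃ B : Blk R, B.t = t ∧ B.A < 2 ^ 2 ^ R ∧ B.pi ≤ 2 ^ R ∧ B.b.lab = Tab B.pi ∧
      (B.b.lst = true ↔ B.A + 1 = 2 ^ 2 ^ R) ∧ B.al < N R ∧ B.be < N R ∧ Blk.UOk R B.b B.u ∧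
      ∀ i < N R, d i = B.cc (d i).hd i := by
  have hp := Nat.two_pow_pos R
  have hN : N R = 6 * 2 ^ R := rfl
  obtain ⟨hB1, hB2, hB3⟩ := P.Bc_le
  have one : ∀ i < N R, One (d i) := by
    rintro (_ | i) hi
    · exact h0.one₂
    · exact (hs i hi).one₂
  have nbd : ∀ i, i + 1 < N R → (d i).pos.bd = false := by
    intro i hi
    rw [hpos i (by omega), ← Bool.not_eq_true, P.bd i (by omega)]
    omega
  have lbd : (d (N R - 1)).pos.bd = true := by
    rw [hpos _ (by omega), P.bd _ (by omega)]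
    omega
  have last := (one (N R - 1) (by omega)).last lbd
  have hbc : ∀ i < N R, (d i).dat.b = (d 0).dat.b := by
    intro i
    induction i with
    | zero => intro _; rfl
    | succ i ih => intro hi; rw [((hs i hi).ins (nbd i hi)).2.2.2, ih (by omega)]
  obtain ⟨al, hal, hal'⟩ := arrows (n := N R) (by omega) (fun i => (d i).al) (h0.bd hb).2.1
    last.2.2.1 fun i hi => ((hs i hi).ins (nbd i hi)).2.1
  obtain ⟨be, hbe, hbe'⟩ := arrows (n := N R) (by omega) (fun i => (d i).be) (h0.bd hb).2.2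
    last.2.2.2.1 fun i hi => ((hs i hi).ins (nbd i hi)).2.2.1
  have reg5 : ∀ i < N R, (d i).pos.reg = 5 ↔ 5 * 2 ^ R ≤ i := by
    intro i hi
    rw [Fin.ext_iff, hpos i hi, P.reg i hi, ← div_ge_iff hp]
    have : i / 2 ^ R < 6 := div_lt_six (by omega)
    change _ = 5 ↔ _
    omega
  have reg0 : ∀ i < N R, (d i).pos.reg ≠ 0 → 2 ^ R ≤ i := by
    intro i hi h
    rw [ne_eq, Fin.ext_iff, hpos i hi, P.reg i hi] at h
    have := (div_ge_iff hp 1 i).1 (Nat.pos_of_ne_zero h)
    omega
  obtain ⟨A, hA, pi, hpi, htr⟩ := tracks hp (fun k => (d (5 * 2 ^ R + k)).dat) (by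
      have h1 := (hs (5 * 2 ^ R - 1) (by omega)).trk
      rw [show 5 * 2 ^ R - 1 + 1 = 5 * 2 ^ R by omega] at h1
      have h2 := h1 ((reg5 _ (by omega)).2 le_rfl)
      rw [if_neg (by rw [reg5 _ (by omega)]; omega)] at h2
      exact h2)
    (fun k hk => by
      have h1 := (hs (5 * 2 ^ R + k) (by omega)).trk ((reg5 _ (by omega)).2 (by omega))
      rw [if_pos ((reg5 _ (by omega)).2 (by omega))] at h1
      exact h1)
    (fun k hk => (one _ (by omega)).mono)
  have hl : N R - 1 = 5 * 2 ^ R + (2 ^ R - 1) := by omega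
  have htl := htr (2 ^ R - 1) (by omega)
  rw [← hl] at htl
  refine ⟨⟨A, pi, (d 0).dat.b, fun i => if i < N R then (d i).u else false, t, al, be⟩, rfl, hA,
    hpi, ?_, ?_, hal, hbe, ⟨fun i hi => ?_, fun j => ?_⟩, fun i hi => ?_⟩
  · change (d 0).dat.b.lab = Tab pi
    rcases hpi.eq_or_lt with h | h
    · rw [← hbc (N R - 1) (by omega), last.2.1 (by rw [htl.2.2.1]; simp; omega),
        P.tab_none _ (by omega)]
    · obtain ⟨-, -, h1, h2⟩ := htr pi h
      have h3 := (one (5 * 2 ^ R + pi) (by omega)).mark (by rw [h2]; simp) (by rw [h1]; simp)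
      rw [← hbc (5 * 2 ^ R + pi) (by omega), ← h3, hpos _ (by omega)]
      change Tab (ptr R _) = _
      unfold ptr
      rw [if_pos (by omega), Nat.add_sub_cancel_left, P.tab_min]
  · change (d 0).dat.b.lst = true ↔ A + 1 = _
    rw [← hbc (N R - 1) (by omega), last.1, htl.1, htl.2.1, ← all_bits hA]
    simp only [Bool.and_eq_true, decide_eq_true_eq]
    rw [← Nat.forall_lt_succ_right (p := fun j => A.testBit j = true),
      show 2 ^ R - 1 + 1 = 2 ^ R by omega]
  · change (if i < N R then (d i).u else false) = true at hi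
    split_ifs at hi with h
    rcases (one i h).used hi with ⟨h1, h2⟩ | h1 | ⟨j, h1⟩
    · have := reg0 i h h1
      have := mt (reg5 i h).2 h2
      omega
    · rw [hpos i h, P.code i h] at h1
      omega
    · rw [hpos i h, P.spec i h] at h1
      have := j.isLt
      omega
  · change (if 5 * 2 ^ R + j < N R then (d (5 * 2 ^ R + j)).u else false) = pcode (d 0).dat.b j
    have := j.isLt
    have hj : 5 * 2 ^ R + j < N R := by omega
    rw [if_pos hj, (one _ hj).spec j (by rw [hpos _ hj, P.spec _ hj]), hbc _ hj]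
  · refine CC.ext (hpos i hi) ?_ rfl (hal' i hi) (hbe' i hi) (if_pos hi).symm
    change (d i).dat = Blk.dat _ i
    unfold Blk.dat
    split_ifs with h
    · obtain ⟨k, rfl⟩ : ∃ k, i = 5 * 2 ^ R + k := ⟨i - 5 * 2 ^ R, by omega⟩
      obtain ⟨h1, h2, h3, h4⟩ := htr k (by omega)
      rw [Nat.add_sub_cancel_left]
      exact Data.ext h1 h2 h3 h4 (hbc _ hi)
    · obtain ⟨h1, h2, h3, h4⟩ := (one i hi).out (mt (reg5 i hi).1 h)
      exact Data.ext h1 h2 h3 h4 (hbc _ hi)

theorem block (P : PosFacts R) (F : FermFacts R) (x₀ : Let R) (w : List (Let R))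
    (hb : x₀.σ.1.bd = true) (h : (lev R).NZ (x₀ :: w)) (hw : w.length = N R) :
    ∃ (B : Blk R) (hd : ℕ → HD), B.Valid ∧
      w = (List.range (N R)).map fun i => B.cell (hd i) i := by
  have h6 := six_le_N R
  have hp := Nat.two_pow_pos R
  have e := eq_range_map w x₀
  rw [hw] at e
  generalize (fun i => w.getD i x₀) = c at e
  subst e
  obtain ⟨h0, hs⟩ := chain h
  have hpos := fun i hi => pos_ind hb h0 hs i hi hi
  obtain ⟨d₀, d', e₀, e', -⟩ := (h0 (by omega)).can
  have hex : ∀ i, ∃ d : CC, i < N R → (c i).σ = mkC d := by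
    rintro (_ | i)
    · exact ⟨d', fun _ => e'⟩
    · by_cases hi : i + 1 < N R
      · obtain ⟨-, d, -, e, -⟩ := (hs i hi).can
        exact ⟨d, fun _ => e⟩
      · exact ⟨d', fun h => absurd h hi⟩
  choose d hd using hex
  obtain ⟨B, ht, h1, h2, h3, h4, h5, h6', h7, h8⟩ := cells P (d₀ := d₀) (d := d)
    (by rw [e₀] at hb; exact hb) ((h0 (by omega)).of_mk e₀ (hd 0 (by omega))).1
    (fun i hi => ((hs i hi).of_mk (hd i (by omega)) (hd _ hi)).1)
    (fun i hi => by rw [← (hpos i hi).2.2, hd i hi]; rfl)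
    (fun i => if i < N R then (c i).t else fun _ _ => false)
  have ht' : ∀ i < N R, B.t i = (c i).t := fun i hi => by rw [ht]; exact if_pos hi
  have inj : ∀ i i' j, i < i' → i' < N R → i / 2 ^ R = i' / 2 ^ R → (c i).t j ≠ (c i').t j := by
    intro i i' j hi hi' hq e
    refine F.zero (N R) c j i i' hi hi' (fun k hk hk' => ?_) e h.of_cons
    rw [(hpos k (by omega)).2.2]
    change decide _ = false
    have a1 : i / 2 ^ R ≤ k / 2 ^ R := Nat.div_le_div_right hk
    have a2 : (k + 1) / 2 ^ R ≤ i' / 2 ^ R := Nat.div_le_div_right hk'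
    have a3 := succ_dm hp k
    rw [decide_eq_false_iff_not]
    omega
  refine ⟨B, fun i => (d i).hd, ⟨h1, h2, h3, h4, h5, h6', h7, fun i hi i' hi' j hq e => ?_,
    fun i hi => ?_⟩, range_map_congr fun i hi => ?_⟩
  · rw [ht' i hi, ht' i' hi'] at e
    rcases Nat.lt_trichotomy i i' with h | h | h
    · exact absurd e (inj i i' j h hi' hq)
    · exact h
    · exact absurd e.symm (inj i' i j h hi hq.symm)
  · rw [ht]; exact if_neg (by omega)
  · refine Let.ext (Fin.ext (hpos i hi).1) (Fin.ext (hpos i hi).2.1) (ht' i hi).symm ?_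
    rw [hd i hi, Blk.cell_σ, ← h8 i hi]

theorem short (x₀ : Let R) (l : List (Let R)) (x : Let R) (hb : x₀.σ.1.bd = true)
    (h : (lev R).NZ (x₀ :: (l ++ [x]))) (hl : l.length < N R) : x.σ.1 = posAt R l.length := by
  have e := eq_range_map (l ++ [x]) x₀
  have hx : (l ++ [x]).getD l.length x₀ = x := by simp
  rw [e] at h
  obtain ⟨h0, hs⟩ := chain h
  have := (pos_ind hb h0 hs l.length (by simp) hl).2.2
  rwa [hx] at this

end BlockAux

theorem blockStmt : BlockStmt := fun _ P F =>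
  ⟨BlockAux.short, BlockAux.block P F, BlockAux.find⟩

end Crest.Agent.R176.Lv
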