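import Crest.Agent.R176.LvStmts

/-!
Row 176: the run invariant is preserved backwards, predecessors exist, the measure grows.
-/

set_option autoImplicit false
set_option synthInstance.maxSize 4096

namespace Crest.Agent.R176.Lv

variable {R : ℕ}

namespace Bwd

theorem gp_lt {s : PS R} (h : s.Bd) (κ : Pt) : s.gp κ < 2 * N R := by
  have := h.Lal; have := h.Lbe; have := h.Rbe
  cases κ <;> simp only [PS.gp] <;> omega

theorem k_pos {s : PS R} (h : s.RInv) : 0 < s.k ↔ s.m.first = false := by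
  unfold PS.k
  cases hf : s.m.first
  · have := h.first hf
    simp; omega
  · simp

theorem valid_of {B B' : Blk R} (h : B'.Valid) (hA : B.A = B'.A) (hp : B.pi = B'.pi)
    (hb : B.b = B'.b) (ht : B.t = B'.t) (ha : B.al < N R) (he : B.be < N R)
    (hu : Blk.UOk R B'.b B.u) : B.Valid :=
  ⟨hA ▸ h.A_lt, hp ▸ h.pi_le, by rw [hb, hp]; exact h.lab, by rw [hb, hA]; exact h.lst, ha, he,
    hb ▸ hu, ht ▸ h.inj, ht ▸ h.junk⟩

theorem uok_update {b : Pos} {u : ℕ → Bool} {i : ℕ} {v : Bool}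
    (h : Blk.UOk R b (Function.update u i v))
    (hi : u i = v ∨ (2 ^ R ≤ i ∧ i < 5 * 2 ^ R + Bc ∧ (i < 5 * 2 ^ R ∨ 5 * 2 ^ R + 14 ≤ i))) :
    Blk.UOk R b u := by
  rcases hi with rfl | ⟨h1, h2, h3⟩
  · rwa [Function.update_eq_self] at h
  · refine ⟨fun j hj => ?_, fun j => ?_⟩
    · by_cases e : j = i
      · exact e ▸ ⟨h1, h2⟩
      · exact h.used j (by rwa [Function.update_of_ne e])
    · have := h.spec j
      rwa [Function.update_of_ne (by have := j.2; omega)] at this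

/-- The written cell of a writing routine. -/
theorem wr_rule (hP : PosFacts R) {a k : ℕ} (ha : Start R .ruleW a) (hk : k + 1 ≤ len R .ruleW) :
    ((posAt R (a + (k + 1))).lab.t1 = (posAt R (a + (k + 1))).lab.t3 ∧
      (posAt R (a + (k + 1))).lab.t2 = (posAt R (a + (k + 1))).lab.t4) ∨
    (2 ^ R ≤ b0 R .ruleW + (k + 1) ∧ b0 R .ruleW + (k + 1) < 5 * 2 ^ R + Bc ∧
      (b0 R .ruleW + (k + 1) < 5 * 2 ^ R ∨ 5 * 2 ^ R + 14 ≤ b0 R .ruleW + (k + 1))) := by
  have h1 : len R .ruleW = Bc := by simp [len, Rt.isRule]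
  have h2 := (hP.b0_len .ruleW).2.2.2
  simp only [Rt.prev] at h2
  by_cases h : k < 14
  · left
    obtain ⟨e, he, hl⟩ := hP.ent .ruleW a rfl ha
    have h3 := (hP.good_spec e he).2.2 k h
    rw [show a + (k + 1) = a + 1 + k by omega, hl k (by omega)]
    exact ⟨h3.1.symm, h3.2.symm⟩
  · right; omega

theorem wr_swap (hP : PosFacts R) {j : Fin 4} {k : ℕ} (hk : k + 1 ≤ len R (.swapW j)) :
    2 ^ R ≤ b0 R (.swapW j) + (k + 1) ∧ b0 R (.swapW j) + (k + 1) < 5 * 2 ^ R + Bc ∧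
      (b0 R (.swapW j) + (k + 1) < 5 * 2 ^ R ∨ 5 * 2 ^ R + 14 ≤ b0 R (.swapW j) + (k + 1)) := by
  have h1 : len R (.swapW j) = 2 ^ R := by simp [len, Rt.isRule]
  have h2 := (hP.b0_len (.swapW j)).2.2.2
  simp only [Rt.prev] at h2
  have h3 : ((j : ℕ) + 1) * 2 ^ R ≤ 4 * 2 ^ R := Nat.mul_le_mul_right _ (by omega)
  have h4 : 1 * 2 ^ R ≤ ((j : ℕ) + 1) * 2 ^ R := Nat.mul_le_mul_right _ (by omega)
  omega

theorem nxt_eq {ρ ρ' : Rt} {y : Pos} {z : Data × Bool} (h : nxt ρ y z ρ') :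
    ρ'.prev = ρ.prev ∧ ρ'.isRule = ρ.isRule ∧ ∀ j, ρ = .eq j → ρ' = .eq j := by
  cases ρ <;> simp only [nxt] at h
  · split_ifs at h <;> subst h <;> simp [Rt.prev, Rt.isRule]
  · subst h; simp
  · split_ifs at h
    · obtain ⟨-, rfl⟩ := h; simp [Rt.prev, Rt.isRule]
    · subst h; simp
  · subst h; simp
  · subst h; simp
  · subst h; simp

theorem bwd (hP : PosFacts R) (s s' : PS R) (p : ℕ) (hp : s'.Pre) (hi : s'.RInv) (hb : s.Bd)
    (h : AF p s s') : s.Pre ∧ s.RInv := by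
  cases h with
  | mvR _ h1 h2 h3 =>
    exact ⟨⟨hb, hp.L, hp.Rb⟩, hi.first, hi.kA_le, hi.a, hi.a', hi.b, hi.b', hi.old, hi.w,
      hi.ruleL, hi.ruleR, hi.eq, Or.inl ⟨h3, h2.le⟩⟩
  | mvL _ _ h1 h2 h3 =>
    exact ⟨⟨hb, hp.L, hp.Rb⟩, hi.first, hi.kA_le, hi.a, hi.a', hi.b, hi.b', hi.old, hi.w,
      hi.ruleL, hi.ruleR, hi.eq, Or.inr ⟨by omega, by omega⟩⟩
  | evA _ h1 h2 h3 h4 h5 =>
    have hk := k_pos hi
    obtain ⟨f1, f2, f3, -, f5, f6, f7, f8, f9, f10, f11, -⟩ := hi
    set s' : PS R := { s with L := { s.L with al := s.h + 1 }, h := s.h + 1,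
                              m := { s.m with ph := .B, y := posAt R (s.h + 1) } } with hs'
    have e0 : s'.k = s.k := rfl
    have e1 : s'.kA = s.k + 1 := by simp [PS.kA, hs', e0.symm]
    have e2 : s.kA = s.k := by simp [PS.kA, h1]
    have e3 : s'.kB = s.kB := by simp [PS.kB, hs', h1, e0.symm]
    have e4 : s'.a0 = s.a0 := by
      simp only [PS.a0, e1, e2]; simp only [hs']; omega
    rw [e0] at hk
    rw [e1] at f2 f3
    rw [e3] at f5 f6 f9
    rw [e4] at f3 f9 f10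
    have f3' := f3 (by omega)
    refine ⟨⟨hb, valid_of hp.L rfl rfl rfl rfl hb.Lal hb.Lbe hp.L.uok, hp.Rb⟩, f1,
      by rw [e2]; exact le_trans (by omega) f2, fun h0 => ?_, fun h0 => ?_, f5, f6,
      fun h0 => absurd (f7 h0).1 (by simp [hs']), f8, f9, f10, f11, Or.inr ?_⟩
    · rw [e2] at h0 ⊢
      have hf : s.m.first = false := hk.1 h0
      rw [hf] at h4
      refine ⟨by have : s.k + 1 ≤ s.h + 1 := f3'.1; omega, f3'.2.1, h2 ▸ h4.1⟩
    · rw [e2] at h0
      have hf : s.m.first = true := by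
        by_contra hf
        have := hk.2 (by simpa using hf)
        omega
      rw [hf] at h4
      exact h4.2
    · simp only [Run.tgt, Run.src, h1]
      split_ifs <;> simp only [PS.gp] <;> omega
  | evB _ v o h1 h2 h3 h4 h5 h6 =>
    have hk := k_pos hi
    obtain ⟨f1, f2, f3, f4, f5, -, -, f8, f9, f10, f11, -⟩ := hi
    set s' : PS R := { s with
      L := { s.L with be := s.h + 1, u := Function.update s.L.u (s.h + 1) v },
      h := s.h + 1, m := { s.m with ph := .C, z := (s.L.dat (s.h + 1), v), old := o } } with hs'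
    have e0 : s'.k = s.k := rfl
    have e1 : s'.kA = s.k + 1 := by simp [PS.kA, hs', e0.symm]
    have e2 : s.kA = s.k + 1 := by simp [PS.kA, h1]
    have e3 : s'.kB = s.k + 1 := by simp [PS.kB, hs', e0.symm]
    have e3' : s.kB = s.k := by simp [PS.kB, h1]
    have e4 : s'.a0 = s.a0 := by simp only [PS.a0, e1, e2]; rfl
    rw [e0] at hk
    rw [e1] at f2 f3 f4
    rw [e3] at f5 f9
    rw [e4] at f3 f9 f10
    have f3' := f3 (by omega)
    have f5' : s.h + 1 = b0 R s.m.rt + (s.k + 1) := (f5 (by omega)).1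
    have hu : ∀ i ≤ s.k, s'.L.u (b0 R s.m.rt + i) = s.L.u (b0 R s.m.rt + i) := fun i hi =>
      Function.update_of_ne (by omega) _ _
    have hy : s.m.y = posAt R (s.a0 + (s.k + 1)) := by
      have h7 : s.m.y = posAt R s.L.al := f3'.2.2
      have h8 : s.k + 1 ≤ s.L.al := f3'.1
      rw [h7, PS.a0, e2, Nat.sub_add_cancel h8]
    have hst : Start R s.m.rt s.a0 := f3'.2.1
    have hlen : s.k + 1 ≤ len R s.m.rt := f2
    refine ⟨⟨hb, valid_of hp.L rfl rfl rfl rfl hb.Lal hb.Lbe (uok_update hp.L.uok ?_), hp.Rb⟩, f1,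
      e2 ▸ f2, e2 ▸ f3, e2 ▸ f4, fun h0 => ?_, fun h0 => ?_,
      fun h0 => absurd (h4 ▸ h0) (by simp), f8, fun h0 i h7 h8 => ?_, f10, fun h0 i h7 h8 => ?_, ?_⟩
    · rw [f5'] at h6 ⊢
      rw [hy] at h6
      generalize s.m.rt = ρ at h6 hst hlen
      cases ρ <;> simp only [wrB] at h6
      · exact (wr_rule hP hst hlen).imp_left fun h7 => by rw [h6.1, h6.2.1, h7.1]
      · exact Or.inl h6.2.1.symm
      · exact Or.inr (wr_swap hP hlen)
      all_goals exact Or.inl h6.1.symm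
    · rw [e3'] at h0 ⊢
      have hf : s.m.first = false := hk.1 h0
      rw [hf] at h5
      exact ⟨by omega, h2 ▸ h5⟩
    · rw [e3'] at h0
      have hf : s.m.first = true := by
        by_contra hf
        have := hk.2 (by simpa using hf)
        omega
      rw [hf] at h5
      exact h5.2
    · rw [e3'] at h8
      rw [← hu i h8]
      exact f9 h0 i h7 (by omega)
    · rw [← hu i h8]
      exact f11 h0 i h7 h8
    · simp only [Run.tgt, Run.src, h1, PS.gp]
      omega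
  | evC _ v ρ' h1 h2 h3 h4 h5 h6 =>
    obtain ⟨f1, f2, f3, -, f5, -, -, -, f9, f10, f11, -⟩ := hi
    set s' : PS R := { s with
      Rb := { s.Rb with be := s.Rb.be + 1, u := Function.update s.Rb.u (s.Rb.be + 1) v },
      h := s.h + 1, m := { s.m with rt := ρ', ph := .A, first := false, old := false } } with hs'
    obtain ⟨n1, n2, n3⟩ := nxt_eq h6
    have eb : b0 R ρ' = b0 R s.m.rt := by rw [b0, b0, n1]
    have el : len R ρ' = len R s.m.rt := by rw [len, len, n2]
    have es : ∀ a, Start R ρ' a ↔ Start R s.m.rt a := fun a => by rw [Start, Start, n2, eb]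
    rw [hP.preB _ _ hb.Rbe] at h4
    have f1' : b0 R s.m.rt < s.Rb.be + 1 := eb ▸ f1 rfl
    have g1 : s.m.first = false → b0 R s.m.rt < s.Rb.be := fun hf => by
      have : s.Rb.be ≠ b0 R s.m.rt := fun e => by simp [h4.2 e] at hf
      omega
    have ek : s.Rb.be = b0 R s.m.rt + s.k := by
      unfold PS.k
      split_ifs with hf
      · exact h4.1 hf
      · omega
    have e0 : s'.k = s.k + 1 := by
      have : s'.k = s.Rb.be + 1 - b0 R ρ' := by simp [PS.k, hs']
      omega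
    have e1 : s'.kA = s.k + 1 := by rw [← e0]; simp [PS.kA, hs']
    have e2 : s.kA = s.k + 1 := by simp [PS.kA, h1]
    have e3 : s'.kB = s.k + 1 := by rw [← e0]; simp [PS.kB, hs']
    have e3' : s.kB = s.k + 1 := by simp [PS.kB, h1]
    have e4 : s'.a0 = s.a0 := by simp only [PS.a0, e1, e2]; rfl
    rw [e0] at f10 f11
    rw [e1] at f2 f3
    rw [e3] at f5 f9
    rw [e4] at f3 f9 f10
    have f3' := f3 (by omega)
    have hu : ∀ i ≤ s.k, s'.Rb.u (b0 R s.m.rt + i) = s.Rb.u (b0 R s.m.rt + i) := fun i hi =>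
      Function.update_of_ne (by omega) _ _
    have h7 : s.m.y = posAt R s.L.al := f3'.2.2
    have h8 : s.k + 1 ≤ s.L.al := f3'.1
    have hy : s.m.y = posAt R (s.a0 + (s.k + 1)) := by
      rw [h7, PS.a0, e2, Nat.sub_add_cancel h8]
    have hst : Start R s.m.rt s.a0 := (es _).1 f3'.2.1
    have hlen : s.k + 1 ≤ len R s.m.rt := el ▸ f2
    refine ⟨⟨hb, hp.L, valid_of hp.Rb rfl rfl rfl rfl hb.Ral hb.Rbe (uok_update hp.Rb.uok ?_)⟩, g1,
      e2 ▸ hlen, fun _ => ⟨e2 ▸ h8, hst, h7⟩, fun h0 => by omega, fun _ => ?_, fun h0 => by omega,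
      fun h0 => ⟨h1, ?_⟩, fun _ => hlen, fun h0 i h9 h10 => ?_, fun h0 i h9 h10 => ?_,
      fun h0 i h9 h10 => ?_, Or.inl ?_⟩
    · rw [show s.Rb.be + 1 = b0 R s.m.rt + (s.k + 1) by omega] at h5 ⊢
      rw [hy] at h5
      generalize s.m.rt = ρ at h5 hst hlen
      cases ρ <;> simp only [wrC] at h5
      · exact (wr_rule hP hst hlen).imp_left fun h7 => by rw [h5.1, h5.2.1, h7.2]
      · exact Or.inl h5.2.1.symm
      · exact Or.inr (wr_swap hP hlen)
      · exact Or.inl h5.1.symm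
      · exact Or.inl h5.2.1.symm
      · exact Or.inl h5.1.symm
    · rw [e3', ← eb]
      exact f5 (by omega)
    · rw [h0] at h5
      generalize s.m.rt = ρ at h5
      cases ρ <;> simp [wrC] at h5 ⊢
    · rw [← eb]
      exact f9 (n2.trans h0) i h9 (e3' ▸ h10)
    · rw [← hu i h10, ← eb]
      exact f10 (n2.trans h0) i h9 (by omega)
    · rw [← hu i h10, ← eb]
      obtain ⟨j, hj⟩ := h0
      exact f11 ⟨j, n3 j hj⟩ i h9 (by omega)
    · have := hb.Lbe
      simp only [Run.tgt, Run.src, h1, PS.gp]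
      omega

theorem AF.congr {p p' : ℕ} {s s' s'' : PS R} (h : AF p s s') (hp : p = p') (e : s' = s'') :
    AF p' s s'' := hp ▸ e ▸ h

theorem prevB (hP : PosFacts R) (s : PS R) (p : ℕ) (hb : s.Bd) (hi : s.RInv) (h1 : s.m.ph = .B)
    (h2 : s.h = p + 1) (h3 : s.L.al = p + 1) : ∃ s₀ : PS R, s₀.Bd ∧ AF p s₀ s ∧ s₀.m.rt = s.m.rt := by
  have hal := hb.Lal
  have e2 : s.kA = s.k + 1 := by simp [PS.kA, h1]
  obtain ⟨a1, a2, a3⟩ := hi.a (by omega)
  have hlen := hi.kA_le
  have ha0 : s.a0 + s.k = p := by unfold PS.a0; omega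
  obtain ⟨-, hrun⟩ := hP.run _ _ a2
  refine ⟨{ s with L := { s.L with al := p }, h := p, m :=
    { s.m with ph := .A, y := if s.m.first then Pos.dflt else posAt R p } },
    ⟨by simp only; omega, hb.Lbe, hb.Ral, hb.Rbe, by simp only; omega, ?_⟩,
    AF.congr (AF.evA _ rfl rfl (by simp only; omega) ?_ ?_) rfl ?_, rfl⟩
  · simp only [hb.side, h2, decide_eq_decide]; omega
  · simp only
    split_ifs with hf
    · have hk : s.k = 0 := by simp [PS.k, hf]
      exact ⟨((hP.start _ p (by omega)).2 (by rwa [show s.a0 = p by omega] at a2)).1, rfl⟩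
    · have hk := (k_pos hi).2 (by simpa using hf)
      refine ⟨rfl, ?_⟩
      rw [← ha0, (hrun s.k hk (by omega)).2]
      omega
  · simp only
    rw [← ha0]
    exact (hrun (s.k + 1) (by omega) (by omega)).1
  · refine PS.ext (Blk.ext rfl rfl rfl rfl rfl h3.symm rfl) rfl h2.symm
      (Run.ext rfl h1.symm rfl rfl ?_ rfl rfl)
    rw [a3, h3]

theorem prevC (hP : PosFacts R) (s : PS R) (p : ℕ) (hb : s.Bd) (hi : s.RInv) (h1 : s.m.ph = .C)
    (h2 : s.h = p + 1) (h3 : s.L.be = p + 1) : ∃ s₀ : PS R, s₀.Bd ∧ AF p s₀ s ∧ s₀.m.rt = s.m.rt := by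
  have hbe := hb.Lbe
  have e2 : s.kA = s.k + 1 := by simp [PS.kA, h1]
  have e3 : s.kB = s.k + 1 := by simp [PS.kB, h1]
  obtain ⟨a1, a2, a3⟩ := hi.a (by omega)
  obtain ⟨b1, b2⟩ := hi.b (by omega)
  obtain ⟨u₀, hu₀⟩ : ∃ u₀, wrB s.m.rt s.m.y u₀ (s.L.u (p + 1)) s.m.old := by
    have hr : s.m.rt.isRule = true → s.L.u (p + 1) = s.m.y.lab.t3 := fun h => by
      have := hi.ruleL h s.kB (by omega) le_rfl
      rw [← b1, h3, PS.a0, e3, ← e2, Nat.sub_add_cancel a1, ← a3] at this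
      exact this
    have ho : (∀ j, s.m.rt ≠ .swapW j) → s.m.old = false := fun h => by
      by_contra h'
      obtain ⟨-, j, hj⟩ := hi.old (by simpa using h')
      exact h j hj
    generalize s.m.rt = ρ at hr ho
    cases ρ <;> simp only [wrB]
    · exact ⟨_, rfl, hr rfl, ho (by simp)⟩
    · exact ⟨_, rfl, hr rfl, ho (by simp)⟩
    · exact ⟨_, rfl⟩
    all_goals exact ⟨_, rfl, ho (by simp)⟩
  refine ⟨{ s with
      L := { s.L with be := p, u := Function.update s.L.u (p + 1) u₀ }, h := p,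
      m := { s.m with ph := .B, z := if s.m.first then zdflt else (s.L.dat p, s.L.u p),
                      old := false } },
    ⟨hb.Lal, by simp only; omega, hb.Ral, hb.Rbe, by simp only; omega, ?_⟩,
    AF.congr (AF.evB _ (s.L.u (p + 1)) s.m.old rfl rfl (by simp only; omega) rfl ?_ ?_) rfl ?_, rfl⟩
  · simp only [hb.side, h2, decide_eq_decide]; omega
  · simp only
    split_ifs with hf
    · have hk : s.k = 0 := by simp [PS.k, hf]
      exact ⟨(hP.preB _ p (by omega)).2 (by omega), rfl⟩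
    · rw [Function.update_of_ne (by omega)]
      rfl
  · simp only [Function.update_self]
    exact hu₀
  · refine PS.ext (Blk.ext rfl rfl rfl ?_ rfl rfl h3.symm) rfl h2.symm
      (Run.ext rfl h1.symm rfl rfl rfl ?_ rfl)
    · simp only [Function.update_idem, Function.update_eq_self]
    · rw [b2, h3]
      rfl

theorem prevA (hP : PosFacts R) (s : PS R) (p : ℕ) (hb : s.Bd) (hi : s.RInv) (h1 : s.m.ph = .A)
    (hf : s.m.first = false) (h2 : s.h = p + 1) (h3 : N R + s.Rb.be = p + 1) :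
    ∃ s₀ : PS R, s₀.Bd ∧ AF p s₀ s ∧ s₀.m.rt = s.m.rt := by
  have hbe := hb.Rbe
  have hlt := hi.first hf
  have e0 : s.k = s.Rb.be - b0 R s.m.rt := by simp [PS.k, hf]
  have e2 : s.kA = s.k := by simp [PS.kA, h1]
  have e3 : s.kB = s.k := by simp [PS.kB, h1]
  obtain ⟨a1, a2, a3⟩ := hi.a (by omega)
  obtain ⟨b1, b2⟩ := hi.b (by omega)
  have hlen := hi.kA_le
  have hy : s.m.y = posAt R (s.a0 + s.k) := by rw [a3, PS.a0, ← e2, Nat.sub_add_cancel a1]
  have hk : b0 R s.m.rt + s.k = s.Rb.be := by omega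
  have ho : s.m.old = false := by
    by_contra h'
    have := (hi.old (by simpa using h')).1
    rw [h1] at this
    cases this
  obtain ⟨c, hc⟩ : ∃ c, s.Rb.be = c + 1 := ⟨s.Rb.be - 1, by omega⟩
  obtain ⟨u₀, o₀, hu₀⟩ : ∃ u₀ o₀, wrC s.m.rt s.m.y s.m.z o₀ u₀ (s.Rb.u (c + 1)) := by
    have hr : s.m.rt.isRule = true → s.Rb.u (c + 1) = s.m.y.lab.t4 := fun h => by
      have := hi.ruleR h s.k (by omega) le_rfl
      rwa [hk, hc, ← hy] at this
    have he : (∃ j, s.m.rt = .eq j) → s.Rb.u (c + 1) = s.m.z.2 := fun h => by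
      have := hi.eq h s.k (by omega) le_rfl
      rw [b2, b1, e3, this, hk, hc]
    generalize s.m.rt = ρ at hr he
    cases ρ <;> simp only [wrC]
    · exact ⟨_, _, rfl, hr rfl, rfl⟩
    · exact ⟨_, _, rfl, hr rfl, rfl⟩
    · exact ⟨_, _, rfl, rfl⟩
    · exact ⟨_, _, rfl, rfl⟩
    · exact ⟨_, _, rfl, he ⟨_, rfl⟩, rfl⟩
    · exact ⟨_, _, rfl, rfl⟩
  have hn : nxt s.m.rt s.m.y s.m.z s.m.rt := by
    have hw : s.m.rt.isW = true → ¬ fin s.m.rt s.m.y := fun h => by
      have := hi.w h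
      rw [hy, ((hP.run _ _ a2).2 s.k (by omega) (by omega)).2]
      omega
    generalize s.m.rt = ρ at hw
    cases ρ <;> simp only [nxt]
    · have := hw rfl
      simp only [fin, Rt.isRule, if_true] at this
      rw [if_neg this]
    · have := hw rfl
      simp only [fin, Rt.isRule, Bool.false_eq_true, if_false] at this
      rw [if_neg this]
      trivial
  refine ⟨{ s with
      Rb := { s.Rb with be := c, u := Function.update s.Rb.u (c + 1) u₀ }, h := p,
      m := { s.m with ph := .C, first := decide (s.k = 1), old := o₀ } },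
    ⟨hb.Lal, hb.Lbe, hb.Ral, by simp only; omega, by simp only; omega, ?_⟩,
    AF.congr (AF.evC _ (s.Rb.u (c + 1)) s.m.rt rfl (by simp only; omega) (by simp only; omega) ?_ ?_
      hn) rfl ?_, rfl⟩
  · simp only [hb.side, h2, decide_eq_decide]; omega
  · simp only [decide_eq_true_eq]
    rw [hP.preB _ c (by omega)]
    omega
  · simp only [Function.update_self]
    exact hu₀
  · refine PS.ext rfl (Blk.ext rfl rfl rfl ?_ rfl rfl hc.symm) h2.symm
      (Run.ext rfl h1.symm hf.symm rfl rfl rfl ho.symm)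
    simp only [Function.update_idem, Function.update_eq_self]

theorem prev (hP : PosFacts R) (s : PS R) (p : ℕ) (hp : s.Pre) (hi : s.RInv) (h : s.Need p) :
    (s.IsStart ∧ p = s.h) ∨ ∃ s₀ : PS R, s₀.Bd ∧ AF p s₀ s ∧ s₀.m.rt = s.m.rt := by
  have hb := hp.bd
  have hbt := hi.btw
  have hN := six_le_N R
  rcases h with ⟨h1, h2 | ⟨h2, h3⟩⟩ | ⟨h1, h2 | ⟨h2, h3⟩⟩
  · have := gp_lt hb s.m.src
    refine Or.inr ⟨{ s with h := p + 1, m := { s.m with side := decide (N R ≤ p + 1) } },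
      ⟨hb.Lal, hb.Lbe, hb.Ral, hb.Rbe, by simp only; omega, rfl⟩,
      AF.congr (AF.mvL _ p rfl (show s.gp s.m.tgt ≤ p by omega) h2) rfl ?_, rfl⟩
    exact PS.ext rfl rfl h1.symm (Run.ext rfl rfl rfl (by rw [hb.side, h1]) rfl rfl rfl)
  · rw [h2] at h3
    simp only [PS.gp] at h3
    have h4 : s.m.ph = .A ∧ s.m.first = true := by
      unfold Run.src at h2
      split at h2
      · split_ifs at h2 with hf
        exact ⟨by assumption, hf⟩
      · cases h2
      · cases h2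
    have hk : s.k = 0 := by simp [PS.k, h4.2]
    refine Or.inl ⟨⟨by omega, Run.ext rfl h4.1 h4.2 ?_ (hi.a' (by simp [PS.kA, h4.1, hk]))
      (hi.b' (by simp [PS.kB, h4.1, hk])) ?_⟩, h1.symm⟩
    · rw [hb.side]
      exact decide_eq_false (by omega)
    · by_contra h'
      have := (hi.old (by simpa [Run.start] using h')).1
      rw [h4.1] at this
      cases this
  · have := hb.h_lt
    refine Or.inr ⟨{ s with h := p, m := { s.m with side := decide (N R ≤ p) } },
      ⟨hb.Lal, hb.Lbe, hb.Ral, hb.Rbe, by simp only; omega, rfl⟩,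
      AF.congr (AF.mvR _ (by simp only; omega) (show p < s.gp s.m.tgt by omega)
        (show s.gp s.m.src ≤ p by omega)) rfl ?_, rfl⟩
    exact PS.ext rfl rfl h1.symm (Run.ext rfl rfl rfl (by rw [hb.side, h1]) rfl rfl rfl)
  · right
    cases hph : s.m.ph
    · cases hf : s.m.first
      · refine prevA hP s p hb hi hph hf h1 ?_
        simpa [Run.src, hph, hf, PS.gp] using h3.symm
      · exact absurd (by simp [Run.src, hph, hf]) h2
    · refine prevB hP s p hb hi hph h1 ?_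
      simpa [Run.src, hph, PS.gp] using h3.symm
    · refine prevC hP s p hb hi hph h1 ?_
      simpa [Run.src, hph, PS.gp] using h3.symm

theorem need_ex (s : PS R) (hb : s.Bd) : (∃ p, p + 1 < 2 * N R ∧ s.Need p) ∨
    (s.h = 0 ∧ s.gp s.m.src = 0 ∧ s.m.src ≠ .bd) := by
  have h1 := gp_lt hb s.m.src
  have h2 := hb.h_lt
  have hN := six_le_N R
  rcases lt_trichotomy s.h (s.gp s.m.src) with h | h | h
  · exact Or.inl ⟨s.h, by omega, Or.inl ⟨rfl, Or.inl h⟩⟩
  · by_cases h3 : s.m.src = .bd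
    · refine Or.inl ⟨s.h, ?_, Or.inl ⟨rfl, Or.inr ⟨h3, h⟩⟩⟩
      rw [h3] at h
      simp only [PS.gp] at h
      omega
    · by_cases h4 : s.h = 0
      · exact Or.inr ⟨h4, by omega, h3⟩
      · exact Or.inl ⟨s.h - 1, by omega, Or.inr ⟨by omega, Or.inr ⟨h3, by omega⟩⟩⟩
  · exact Or.inl ⟨s.h - 1, by omega, Or.inr ⟨by omega, Or.inl (by omega)⟩⟩

theorem src_pos (s : PS R) (hi : s.RInv) : 0 < s.gp s.m.src := by
  have hN := six_le_N R
  cases hph : s.m.ph
  · simp only [Run.src, hph]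
    split_ifs <;> simp only [PS.gp] <;> omega
  · have e2 : s.kA = s.k + 1 := by simp [PS.kA, hph]
    have := (hi.a (by omega)).1
    simp only [Run.src, hph, PS.gp]
    omega
  · have e3 : s.kB = s.k + 1 := by simp [PS.kB, hph]
    have := (hi.b (by omega)).1
    simp only [Run.src, hph, PS.gp]
    omega

theorem μ_lt (s s' : PS R) (p : ℕ) (hb : s.Bd) (h : AF p s s') : s.μ < s'.μ := by
  have h1 := gp_lt hb s.m.src
  have h2 := hb.h_lt
  have key : ∀ t : PS R, t.L.al + t.L.be + t.Rb.be = s.L.al + s.L.be + s.Rb.be + 1 →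
      s.μ < t.μ := fun t ht => by
    rw [PS.μ, PS.μ, ht, add_one_mul, Nat.dist]
    omega
  cases h with
  | mvR _ h3 h4 h5 =>
    change _ + Nat.dist s.h (s.gp s.m.src) < _ + Nat.dist (s.h + 1) (s.gp s.m.src)
    simp only [Nat.dist]
    omega
  | mvL _ _ h3 h4 h5 =>
    change _ + Nat.dist s.h (s.gp s.m.src) < _ + Nat.dist p (s.gp s.m.src)
    simp only [Nat.dist]
    omega
  | evA _ _ h3 => exact key _ (by simp only; omega)
  | evB _ _ _ _ h3 => exact key _ (by simp only; omega)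
  | evC => exact key _ rfl

end Bwd

theorem bwdStmt : BwdStmt := fun _ hP =>
  ⟨Bwd.bwd hP, Bwd.prev hP, Bwd.need_ex, Bwd.src_pos, Bwd.μ_lt⟩

end Crest.Agent.R176.Lv
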