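import Crest.Agent.R176.SimDefs

/-!
Row 176: the finite control of the self-simulating rewriting systems (cells, finite rules, table).
-/

set_option autoImplicit false
set_option synthInstance.maxSize 4096

namespace Crest.Agent.R176.Lv

/-- Position of a cell relative to a pointer. -/
inductive Arr | lt | eq | gt
  deriving DecidableEq, Fintype

inductive Kind | spec (j : Fin 14) | code | tab | non
  deriving DecidableEq, Fintype

/-- Table labels. -/
@[ext] structure Lab where
  t1 : Bool
  t2 : Bool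
  t3 : Bool
  t4 : Bool
  en : Bool
  zr : Bool
  kind : Kind
  deriving DecidableEq, Fintype

/-- The empty label. -/
def Lab.none : Lab := ⟨false, false, false, false, false, false, .non⟩

/-- The static data determined by the position in the block. -/
@[ext] structure Pos where
  reg : Fin 6
  lst : Bool
  lab : Lab
  deriving DecidableEq, Fintype

def Pos.dflt : Pos := ⟨0, false, Lab.none⟩

/-- Last cell of a block. -/
def Pos.bd (p : Pos) : Bool := p.reg == 5 && p.lst

/-- The static data determined by the simulated letter: address bit, carry, pointer tracks and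
the broadcast position of the simulated cell. -/
@[ext] structure Data where
  a : Bool
  c : Bool
  p : Bool
  q : Bool
  b : Pos
  deriving DecidableEq, Fintype

def zdflt : Data × Bool := (⟨false, false, false, false, Pos.dflt⟩, false)

/-- Routines. -/
inductive Rt | ruleW | ruleR | swapW (j : Fin 4) | swapR (j : Fin 4) | eq (j : Fin 4) | inc
  deriving DecidableEq, Fintype

inductive Phs | A | B | C
  deriving DecidableEq, Fintype

/-- Memory of a running head (`side = false`: left block). -/
@[ext] structure Run where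
  rt : Rt
  ph : Phs
  first : Bool
  side : Bool
  y : Pos
  z : Data × Bool
  old : Bool
  deriving DecidableEq, Fintype

def Run.start (ρ : Rt) : Run := ⟨ρ, .A, true, false, Pos.dflt, zdflt, false⟩

/-- Head track. -/
inductive HD | bef (s : Bool) | aft (s : Bool) | on (m : Option Run)
  deriving DecidableEq, Fintype

/-- Canonical cells. -/
@[ext] structure CC where
  pos : Pos
  dat : Data
  hd : HD
  al : Arr
  be : Arr
  u : Bool

abbrev Rest : Type := Data × HD × Arr × Arr × Bool

/-- Number of code bits of the non-positional part. -/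
noncomputable irreducible_def B1 : ℕ := Nat.card Rest

/-- Padded non-positional part. -/
abbrev Raw : Type := Rest ⊕ Fin (2 ^ B1 - B1)

/-- Cells. -/
abbrev Cell : Type := Pos × Raw

def mkC (c : CC) : Cell := (c.pos, .inl (c.dat, c.hd, c.al, c.be, c.u))

theorem mkC_injective : Function.Injective mkC := by
  rintro ⟨p, d, h, a, b, u⟩ ⟨p', d', h', a', b', u'⟩ e
  simp only [mkC, Prod.mk.injEq, Sum.inl.injEq] at e
  obtain ⟨rfl, rfl, rfl, rfl, rfl, rfl⟩ := e
  rfl

@[simp] theorem mkC_fst (c : CC) : (mkC c).1 = c.pos := rfl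

theorem one_le_B1 : 1 ≤ B1 := by
  rw [B1_def]
  have : Nonempty Rest := ⟨(zdflt.1, .bef false, .lt, .lt, false)⟩
  exact Nat.card_pos

theorem card_Raw : Fintype.card Raw = Fintype.card (Fin B1 → Bool) := by
  rw [Fintype.card_sum, Fintype.card_fin, ← Nat.card_eq_fintype_card, ← B1_def, Fintype.card_fun,
    Fintype.card_bool, Fintype.card_fin]
  have := (Nat.lt_two_pow_self (n := B1)).le
  omega

/-- Bijective code of the padded non-positional part. -/
noncomputable irreducible_def rcode : Raw ≃ (Fin B1 → Bool) := Fintype.equivOfCardEq card_Raw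

theorem card_Kind : Fintype.card Kind = 17 := rfl

def Pos.toProd (p : Pos) : Fin 6 × (Fin 7 → Bool) × Kind :=
  (p.reg, ![p.lst, p.lab.t1, p.lab.t2, p.lab.t3, p.lab.t4, p.lab.en, p.lab.zr], p.lab.kind)

theorem Pos.toProd_injective : Function.Injective Pos.toProd := by
  rintro ⟨r, l, a, b, c, d, e, f, k⟩ ⟨r', l', a', b', c', d', e', f', k'⟩ h
  simp only [Pos.toProd, Prod.mk.injEq, Matrix.vecCons_inj, and_true] at h
  obtain ⟨rfl, ⟨rfl, rfl, rfl, rfl, rfl, rfl, rfl⟩, rfl⟩ := h
  rfl

theorem card_Pos : Fintype.card Pos ≤ Fintype.card (Fin 14 → Bool) := by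
  refine (Fintype.card_le_of_injective _ Pos.toProd_injective).trans ?_
  simp [card_Kind]

/-- Injective code of positions. -/
noncomputable irreducible_def pcode : Pos ↪ (Fin 14 → Bool) :=
  (Function.Embedding.nonempty_of_card_le card_Pos).some

/-- Length of the code of a cell. -/
noncomputable def Bc : ℕ := 14 + B1

/-- The code of a cell. -/
noncomputable def code (σ : Cell) (i : ℕ) : Bool :=
  if h : i < 14 then pcode σ.1 ⟨i, h⟩
  else if h' : i - 14 < B1 then rcode σ.2 ⟨i - 14, h'⟩ else false

/-! ### Finite rules -/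

/-- Pointers: `α` and `β` of the left block, `β` of the right block, the block boundary. -/
inductive Pt | aL | bL | bR | bd
  deriving DecidableEq

def arrow (κ : Pt) (side : Bool) (c : CC) : Arr :=
  match κ, side with
  | .aL, false => c.al
  | .bL, false => c.be
  | .bR, false => .lt
  | .bd, false => if c.pos.bd then .eq else .lt
  | .bR, true => c.be
  | _, true => .gt

def Run.src (m : Run) : Pt :=
  match m.ph with
  | .A => if m.first then .bd else .bR
  | .B => .aL
  | .C => .bL

def Run.tgt (m : Run) : Pt :=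
  match m.ph with
  | .A => .aL
  | .B => .bL
  | .C => .bR

def Rt.isRule : Rt → Bool
  | .ruleW => true
  | .ruleR => true
  | _ => false

def Rt.isW : Rt → Bool
  | .ruleW => true
  | .swapW _ => true
  | _ => false

/-- The region preceding the one scanned by the `β` pointers. -/
def Rt.prev : Rt → ℕ
  | .swapW j => j
  | .swapR j => j
  | .eq j => j
  | _ => 4

def preB (ρ : Rt) (p : Pos) : Prop := p.lst = true ∧ p.reg.val = ρ.prev

def preA (ρ : Rt) (p : Pos) : Prop := if ρ.isRule then p.lab.en = true else preB ρ p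

def fin (ρ : Rt) (p : Pos) : Prop := if ρ.isRule then p.lab.en = true else p.lst = true

def okA (ρ : Rt) (p : Pos) : Prop := ρ.isRule = true → p.lab.kind = .tab

/-- Check and write in the left block (`u` old bit, `v` new bit, `o` remembered bit). -/
def wrB (ρ : Rt) (y : Pos) (u v o : Bool) : Prop :=
  match ρ with
  | .ruleW => u = y.lab.t1 ∧ v = y.lab.t3 ∧ o = false
  | .ruleR => u = y.lab.t3 ∧ v = u ∧ o = false
  | .swapW _ => o = u
  | _ => v = u ∧ o = false

/-- Check and write in the right block. -/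
def wrC (ρ : Rt) (y : Pos) (z : Data × Bool) (o u v : Bool) : Prop :=
  match ρ with
  | .ruleW => u = y.lab.t2 ∧ v = y.lab.t4 ∧ o = false
  | .ruleR => u = y.lab.t4 ∧ v = u ∧ o = false
  | .swapW _ => u = z.2 ∧ v = o
  | .eq _ => u = z.2 ∧ v = u ∧ o = false
  | _ => v = u ∧ o = false

/-- A completed writing routine turns into the corresponding reading routine. -/
def nxt (ρ : Rt) (y : Pos) (z : Data × Bool) (ρ' : Rt) : Prop :=
  match ρ with
  | .ruleW => ρ' = if y.lab.en then .ruleR else .ruleW
  | .swapW j => if y.lst then z.1.b.lst = false ∧ ρ' = .swapR j else ρ' = .swapW j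
  | _ => ρ' = ρ

/-- The oriented rules of running heads. -/
inductive Fwd : CC → CC → CC → CC → Prop
  | start (c₁ c₂ : CC) (ρ : Rt) : c₁.pos.bd = true → c₁.hd = .on none → c₂.hd = .on none →
      Fwd c₁ c₂ { c₁ with hd := .on (some (Run.start ρ)) } { c₂ with hd := .aft false }
  | mvR (c₁ c₂ : CC) (m : Run) : c₁.hd = .on (some m) → (c₁.pos.bd = true → m.side = false) →
      c₂.hd = .aft (!m.side && !c₁.pos.bd) → arrow m.tgt m.side c₁ = .lt →
      arrow m.src (m.side || c₁.pos.bd) c₂ = .gt →
      Fwd c₁ c₂ { c₁ with hd := .bef m.side }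
        { c₂ with hd := .on (some { m with side := m.side || c₁.pos.bd }) }
  | mvL (c₁ c₂ : CC) (m : Run) : c₁.hd = .bef m.side → (c₁.pos.bd = true → m.side = false) →
      c₂.hd = .on (some { m with side := m.side || c₁.pos.bd }) →
      arrow m.tgt (m.side || c₁.pos.bd) c₂ = .gt → arrow m.src m.side c₁ = .lt →
      Fwd c₁ c₂ { c₁ with hd := .on (some m) } { c₂ with hd := .aft (!m.side && !c₁.pos.bd) }
  | evA (c₁ c₂ : CC) (m : Run) : c₁.hd = .on (some m) → m.side = false → m.ph = .A →
      c₁.pos.bd = false → c₂.hd = .aft true → c₁.al = .eq → c₂.al = .gt →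
      (if m.first then preA m.rt c₁.pos ∧ m.y = Pos.dflt else m.y = c₁.pos ∧ ¬ fin m.rt c₁.pos) →
      okA m.rt c₂.pos →
      Fwd c₁ c₂ { c₁ with hd := .bef false, al := .lt }
        { c₂ with hd := .on (some { m with ph := .B, y := c₂.pos }), al := .eq }
  | evB (c₁ c₂ : CC) (m : Run) (v o : Bool) : c₁.hd = .on (some m) → m.side = false →
      m.ph = .B → c₁.pos.bd = false → c₂.hd = .aft true → c₁.be = .eq → c₂.be = .gt →
      m.old = false →
      (if m.first then preB m.rt c₁.pos ∧ m.z = zdflt else m.z = (c₁.dat, c₁.u)) →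
      wrB m.rt m.y c₂.u v o →
      Fwd c₁ c₂ { c₁ with hd := .bef false, be := .lt }
        { c₂ with hd := .on (some { m with ph := .C, z := (c₂.dat, v), old := o }), be := .eq,
                  u := v }
  | evC (c₁ c₂ : CC) (m : Run) (v : Bool) (ρ' : Rt) : c₁.hd = .on (some m) → m.side = true →
      m.ph = .C → c₁.pos.bd = false → c₂.hd = .aft false → c₁.be = .eq → c₂.be = .gt →
      (m.first = true ↔ preB m.rt c₁.pos) → wrC m.rt m.y m.z m.old c₂.u v →
      nxt m.rt m.y m.z ρ' →
      Fwd c₁ c₂ { c₁ with hd := .bef true, be := .lt }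
        { c₂ with hd := .on (some { m with rt := ρ', ph := .A, first := false, old := false }),
                  be := .eq, u := v }

/-- A pointer is left alone or dragged to the right. -/
def Drag (x y x' y' : Arr) : Prop :=
  (x' = x ∧ y' = y) ∨ (x = .eq ∧ y = .gt ∧ x' = .lt ∧ y' = .eq)

/-- The idle head moves to the right inside its block. -/
inductive Idle : CC → CC → CC → CC → Prop
  | go (c₁ c₂ : CC) (a₁ a₂ b₁ b₂ : Arr) : c₁.hd = .on none → c₂.hd = .aft false →
      c₁.pos.bd = false → Drag c₁.al c₂.al a₁ a₂ → Drag c₁.be c₂.be b₁ b₂ →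
      Idle c₁ c₂ { c₁ with hd := .bef false, al := a₁, be := b₁ }
        { c₂ with hd := .on none, al := a₂, be := b₂ }

/-- A running head in the left block. -/
def isL : Option Run → Bool
  | none => false
  | some m => !m.side

/-- A running head in the right block. -/
def isR : Option Run → Bool
  | none => false
  | some m => m.side

/-- Head tracks of neighbours in a block. -/
def okIn : HD → HD → Prop
  | .bef s, .bef s' => s = s'
  | .bef s, .on m => s = isR m
  | .on m, .aft s => s = isL m
  | .aft s, .aft s' => s = s'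
  | _, _ => False

/-- The head track of the last cell of a unit. -/
def HD.fin : HD → Prop
  | .bef _ => False
  | .aft s => s = false
  | .on m => isL m = false

/-- The head track of the first cell of a unit. -/
def HD.ini : HD → Prop
  | .bef s => s = false
  | .aft _ => False
  | .on m => isR m = false

/-- Head tracks across the middle boundary of a pair. -/
def linked : HD → HD → Prop
  | .bef s, .bef s' => s = false ∧ s' = true
  | .bef s, .on m => s = false ∧ isR m = true
  | .on m, .aft s => isL m = true ∧ s = false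
  | .aft s, .aft s' => s = true ∧ s' = false
  | _, _ => False

def okArr : Arr → Arr → Prop
  | .lt, .lt => True
  | .lt, .eq => True
  | .eq, .gt => True
  | .gt, .gt => True
  | _, _ => False

/-- Static constraints on one cell. -/
structure One (c : CC) : Prop where
  out : c.pos.reg ≠ 5 → c.dat.a = false ∧ c.dat.c = false ∧ c.dat.p = false ∧ c.dat.q = false
  mono : c.dat.p = true → c.dat.q = true
  mark : c.dat.q = true → c.dat.p = false → c.pos.lab = c.dat.b.lab
  last : c.pos.bd = true → c.dat.b.lst = (c.dat.c && c.dat.a) ∧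
    (c.dat.p = true → c.dat.b.lab = Lab.none) ∧ c.al ≠ .lt ∧ c.be ≠ .lt ∧ c.hd ≠ .bef true
  used : c.u = true → (c.pos.reg ≠ 0 ∧ c.pos.reg ≠ 5) ∨ c.pos.lab.kind = .code ∨
    ∃ j, c.pos.lab.kind = .spec j
  spec : ∀ j, c.pos.lab.kind = .spec j → c.u = pcode c.dat.b j

/-- Static constraints on neighbouring cells. -/
structure OkS (c₁ c₂ : CC) : Prop where
  one₁ : One c₁
  one₂ : One c₂
  reg : c₂.pos.reg = if c₁.pos.lst then c₁.pos.reg + 1 else c₁.pos.reg
  bd : c₁.pos.bd = true → (linked c₁.hd c₂.hd ∨ (c₁.hd.fin ∧ c₂.hd.ini)) ∧ c₂.al ≠ .gt ∧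
    c₂.be ≠ .gt
  ins : c₁.pos.bd = false → okIn c₁.hd c₂.hd ∧ okArr c₁.al c₂.al ∧ okArr c₁.be c₂.be ∧
    c₂.dat.b = c₁.dat.b
  trk : c₂.pos.reg = 5 → if c₁.pos.reg = 5 then
    c₂.dat.c = (c₁.dat.c && c₁.dat.a) ∧ c₂.dat.q = c₁.dat.p else c₂.dat.c = true ∧ c₂.dat.q = true

/-- The pair in which the last forward move of a running head must have happened. -/
def need (c₁ c₂ : CC) : Prop :=
  (∃ m, c₁.hd = .on (some m) ∧
    (arrow m.src m.side c₁ = .lt ∨ (m.src = .bd ∧ arrow m.src m.side c₁ = .eq))) ∨
  ∃ m, c₂.hd = .on (some m) ∧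
    (arrow m.src m.side c₂ = .gt ∨ (m.src ≠ .bd ∧ arrow m.src m.side c₂ = .eq))

def garbage (c₁ c₂ : CC) : Prop := need c₁ c₂ ∧ ¬ ∃ d₁ d₂, Fwd d₁ d₂ c₁ c₂

/-- A violation of the counter rules in one bit. -/
def mism (d d' : Data) : Prop :=
  d'.a ≠ xor d.a d.c ∨
    d'.p ≠ if d.b.lst = true ∧ d.b.reg = 4 then false
      else if d.b.lst = true ∧ d.b.reg = 5 then true else d.q

/-- The final test of a routine that ends in zero. -/
def fzc (ρ : Rt) (y : Pos) (z : Data × Bool) (d : Data) (u : Bool) : Prop :=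
  match ρ with
  | .ruleR => y.lab.en = true ∧ y.lab.zr = true ∧ u = y.lab.t4
  | .eq _ => y.lst = true ∧ z.1.b.lst = false ∧ u = z.2
  | .inc => mism z.1 d
  | _ => False

def fz (c₁ c₂ : CC) : Prop :=
  ∃ m, c₁.hd = .on (some m) ∧ m.side = true ∧ m.ph = .C ∧ c₁.pos.bd = false ∧ c₁.be = .eq ∧
    (m.first = true ↔ preB m.rt c₁.pos) ∧ fzc m.rt m.y m.z c₂.dat c₂.u

/-- The finite step rules. -/
def cstep (σ₁ σ₂ σ₃ σ₄ : Cell) : Prop :=
  ∃ c₁ c₂ c₃ c₄, σ₁ = mkC c₁ ∧ σ₂ = mkC c₂ ∧ σ₃ = mkC c₃ ∧ σ₄ = mkC c₄ ∧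
    (Fwd c₁ c₂ c₃ c₄ ∨ Idle c₁ c₂ c₃ c₄)

/-- The finite zero rules (non-canonical cells are zero as well). -/
def czero (σ₁ σ₂ : Cell) : Prop :=
  ∀ c₁ c₂, σ₁ = mkC c₁ → σ₂ = mkC c₂ → ¬ OkS c₁ c₂ ∨ garbage c₁ c₂ ∨ fz c₁ c₂

theorem Fwd.pos_eq {c₁ c₂ c₃ c₄ : CC} (h : Fwd c₁ c₂ c₃ c₄) : c₃.pos = c₁.pos ∧ c₄.pos = c₂.pos := by
  cases h <;> exact ⟨rfl, rfl⟩

theorem cstep.pos_eq {σ₁ σ₂ σ₃ σ₄ : Cell} (h : cstep σ₁ σ₂ σ₃ σ₄) : σ₃.1 = σ₁.1 ∧ σ₄.1 = σ₂.1 := by
  obtain ⟨c₁, c₂, c₃, c₄, rfl, rfl, rfl, rfl, h | h⟩ := h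
  · exact h.pos_eq
  · cases h; exact ⟨rfl, rfl⟩

/-! ### The table -/

/-- Table entries. -/
structure Ent where
  v1 : Cell
  v2 : Cell
  v3 : Cell
  v4 : Cell
  zr : Bool

def Ent.good (e : Ent) : Prop :=
  if e.zr then czero e.v1 e.v2 ∧ e.v3 = e.v1 ∧ e.v4 = e.v2 else cstep e.v1 e.v2 e.v3 e.v4

instance : Finite Ent :=
  Finite.of_injective (fun e : Ent => (e.v1, e.v2, e.v3, e.v4, e.zr)) (by
    rintro ⟨a, b, c, d, e⟩ ⟨a', b', c', d', e'⟩ h
    simp only [Prod.mk.injEq] at h
    obtain ⟨rfl, rfl, rfl, rfl, rfl⟩ := h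
    rfl)

/-- The list of all good entries. -/
noncomputable irreducible_def ents : List Ent := (Set.toFinite {e : Ent | e.good}).toFinset.toList

theorem mem_ents {e : Ent} : e ∈ ents ↔ e.good := by
  rw [ents_def, Finset.mem_toList, Set.Finite.mem_toFinset]; rfl

/-- The labels of the first cells of the data region: `Bc` code cells, then the entries. -/
noncomputable def Tab (i : ℕ) : Lab :=
  if h : i < 14 then { Lab.none with kind := .spec ⟨i, h⟩ }
  else if i < Bc then { Lab.none with kind := .code, en := decide (i + 1 = Bc) }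
  else match ents[i / Bc - 1]? with
    | some e => ⟨code e.v1 (i % Bc), code e.v2 (i % Bc), code e.v3 (i % Bc), code e.v4 (i % Bc),
        decide (i % Bc + 1 = Bc), e.zr, .tab⟩
    | none => Lab.none

/-- Length of the table. -/
noncomputable def R0 : ℕ := Bc * (ents.length + 1)

/-- Realises the equation lemmas here, so that all importing modules share them. -/
theorem eqns_realised : True := by
  have := @Rt.isRule.eq_3
  have := @Rt.isW.eq_3
  have := @Rt.prev.eq_4
  have := @arrow.eq_6
  have := @linked.eq_5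
  have := @nxt.eq_3
  have := @wrB.eq_4
  have := @wrC.eq_5
  trivial

end Crest.Agent.R176.Lv
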