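import Crest.Agent.R176.LvStmts

/-!
Row 176: the static rules hold on rendered blocks.
-/

set_option autoImplicit false
set_option synthInstance.maxSize 4096

namespace Crest.Agent.R176.Lv

namespace CellF

variable {R : ℕ}

theorem succ_divmod {M : ℕ} (hM : 0 < M) (i : ℕ) :
    (i % M + 1 = M ∧ (i + 1) / M = i / M + 1 ∧ (i + 1) % M = 0) ∨
      (i % M + 1 < M ∧ (i + 1) / M = i / M ∧ (i + 1) % M = i % M + 1) := by
  have h1 := Nat.mod_add_div i M
  have h2 := Nat.mod_lt i hM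
  rcases (Nat.succ_le_of_lt h2).eq_or_lt with h | h
  · refine Or.inl ⟨h, (Nat.div_mod_unique hM).2 ⟨?_, hM⟩⟩
    rw [Nat.mul_succ]
    omega
  · exact Or.inr ⟨h, (Nat.div_mod_unique hM).2 ⟨by omega, h⟩⟩

theorem all_bits {M A : ℕ} (h : A < 2 ^ M) : (∀ j < M, A.testBit j = true) ↔ A + 1 = 2 ^ M := by
  constructor
  · intro hb
    have : A = 2 ^ M - 1 := Nat.eq_of_testBit_eq fun j => by
      rw [Nat.testBit_two_pow_sub_one]
      by_cases hj : j < M
      · rw [hb j hj, decide_eq_true hj]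
      · rw [decide_eq_false hj]
        exact Nat.testBit_lt_two_pow (h.trans_le (Nat.pow_le_pow_right two_pos (not_lt.1 hj)))
    omega
  · intro e j hj
    rw [show A = 2 ^ M - 1 by omega, Nat.testBit_two_pow_sub_one, decide_eq_true hj]

theorem lst_iff (i : ℕ) : (posAt R i).lst = true ↔ i % 2 ^ R + 1 = 2 ^ R := decide_eq_true_iff

theorem reg5 (P : PosFacts R) {i : ℕ} (hi : i < N R) : (posAt R i).reg = 5 ↔ 5 * 2 ^ R ≤ i := by
  have h1 := P.reg i hi
  have h2 := (posAt R i).reg.isLt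
  rw [← Nat.le_div_iff_mul_le (Nat.two_pow_pos R), Fin.ext_iff, ← h1]
  show _ = 5 ↔ _
  omega

theorem reg0 (P : PosFacts R) {i : ℕ} (hi : i < N R) : (posAt R i).reg = 0 ↔ i < 2 ^ R := by
  rw [Fin.ext_iff, P.reg i hi]
  exact Nat.div_eq_zero_iff_lt (Nat.two_pow_pos R)

theorem lst_reg (P : PosFacts R) {i : ℕ} (hi : i < N R) (k : Fin 6) :
    ((posAt R i).lst = true ∧ (posAt R i).reg = k) ↔ i + 1 = (k.val + 1) * 2 ^ R := by
  have hM := Nat.two_pow_pos R
  rw [lst_iff, Fin.ext_iff, P.reg i hi]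
  have h1 := Nat.mod_add_div i (2 ^ R)
  constructor
  · rintro ⟨h2, h3⟩
    rw [h3] at h1
    rw [Nat.succ_mul, mul_comm]
    omega
  · intro h
    have := (Nat.div_mod_unique (a := i) (d := k.val) (c := 2 ^ R - 1) hM).2 ⟨by
      rw [Nat.succ_mul, mul_comm] at h
      omega, by omega⟩
    omega

theorem dat_b (B : Blk R) (i : ℕ) : (B.dat i).b = B.b := by
  unfold Blk.dat
  split_ifs <;> rfl

theorem dat_pos (B : Blk R) {i : ℕ} (h : 5 * 2 ^ R ≤ i) : B.dat i =
    ⟨B.A.testBit (i - 5 * 2 ^ R), decide (∀ j < i - 5 * 2 ^ R, B.A.testBit j = true),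
      decide (i - 5 * 2 ^ R < B.pi), decide (i - 5 * 2 ^ R ≤ B.pi), B.b⟩ := if_pos h

theorem dat_neg (B : Blk R) {i : ℕ} (h : ¬ 5 * 2 ^ R ≤ i) :
    B.dat i = ⟨false, false, false, false, B.b⟩ := if_neg h

theorem arr_ne_lt {i a : ℕ} (h : a ≤ i) : arr i a ≠ .lt := by
  unfold arr
  rw [if_neg (not_lt.2 h)]
  split_ifs <;> simp

theorem arr_zero (a : ℕ) : arr 0 a ≠ .gt := by
  unfold arr
  split_ifs with h1 h2
  · simp
  · simp
  · omega

theorem okArr_arr (i a : ℕ) : okArr (arr i a) (arr (i + 1) a) := by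
  unfold arr
  split_ifs <;> first | trivial | omega

theorem eq_of_arr {a a' : ℕ} (h : arr a a = arr a a') : a = a' := by
  unfold arr at h
  rw [if_neg (lt_irrefl a), if_pos rfl] at h
  split_ifs at h with h1 h2
  exact h2

theorem dec_succ (A k : ℕ) : decide (∀ j < k + 1, A.testBit j = true) =
    (decide (∀ j < k, A.testBit j = true) && A.testBit k) := by
  rw [Bool.eq_iff_iff, Bool.and_eq_true, decide_eq_true_iff, decide_eq_true_iff]
  exact Nat.forall_lt_succ_right

theorem one (P : PosFacts R) (B : Blk R) (hB : B.Valid) (hd : HD) (i : ℕ) (hi : i < N R)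
    (hh : i + 1 = N R → hd ≠ .bef true) : One (B.cc hd i) := by
  obtain ⟨b1, b2, b3⟩ := P.Bc_le
  have hN : N R = 6 * 2 ^ R := rfl
  refine ⟨fun h => ?_, fun h => ?_, fun h h' => ?_, fun h => ?_, fun h => ?_, fun j h => ?_⟩
  · have := dat_neg B fun h' => h ((reg5 P hi).2 h')
    simp [Blk.cc, this]
  · by_cases h5 : 5 * 2 ^ R ≤ i
    · simp only [Blk.cc, dat_pos B h5, decide_eq_true_iff] at h ⊢
      exact h.le
    · simp [Blk.cc, dat_neg B h5] at h
  · by_cases h5 : 5 * 2 ^ R ≤ i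
    · simp only [Blk.cc, dat_pos B h5, decide_eq_true_iff, decide_eq_false_iff_not] at h h' ⊢
      show Tab (ptr R i) = B.b.lab
      rw [ptr, if_pos h5, P.tab_min, hB.lab, show i - 5 * 2 ^ R = B.pi by omega]
    · simp [Blk.cc, dat_neg B h5] at h
  · have e : i + 1 = N R := (P.bd i hi).1 h
    have h5 : 5 * 2 ^ R ≤ i := by omega
    have hal := hB.al_lt
    have hbe := hB.be_lt
    refine ⟨?_, fun hp => ?_, arr_ne_lt (by omega), arr_ne_lt (by omega), hh e⟩
    · simp only [Blk.cc, dat_pos B h5]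
      rw [← dec_succ, Bool.eq_iff_iff, decide_eq_true_iff, hB.lst,
        show i - 5 * 2 ^ R + 1 = 2 ^ R by omega, all_bits hB.A_lt]
    · simp only [Blk.cc, dat_pos B h5, decide_eq_true_iff] at hp ⊢
      rw [hB.lab, P.tab_none _ (by omega)]
  · obtain ⟨h1, h2⟩ := hB.uok.used i h
    by_cases h5 : 5 * 2 ^ R ≤ i
    · by_cases h6 : 5 * 2 ^ R + 14 ≤ i
      · exact Or.inr (Or.inl ((P.code i hi).2 ⟨h6, h2⟩))
      · exact Or.inr (Or.inr ⟨⟨i - 5 * 2 ^ R, by omega⟩, (P.spec i hi _).2 (by simp; omega)⟩)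
    · exact Or.inl ⟨fun h => absurd ((reg0 P hi).1 h) (by omega), fun h => h5 ((reg5 P hi).1 h)⟩
  · have e := (P.spec i hi j).1 h
    show B.u i = pcode (B.dat i).b j
    rw [dat_b, e, hB.uok.spec]

theorem okS_in (P : PosFacts R) (B : Blk R) (hB : B.Valid) (hd hd' : HD) (i : ℕ)
    (hi : i + 1 < N R) (hok : okIn hd hd') (hh : i + 2 = N R → hd' ≠ .bef true) :
    OkS (B.cc hd i) (B.cc hd' (i + 1)) := by
  have hi' : i < N R := by omega
  refine ⟨one P B hB hd i hi' fun h => absurd h hi.ne, one P B hB hd' (i + 1) hi hh, ?_,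
    fun h => absurd ((P.bd i hi').1 h) hi.ne,
    fun _ => ⟨hok, okArr_arr _ _, okArr_arr _ _, (dat_b B _).trans (dat_b B _).symm⟩, fun h => ?_⟩
  · show (posAt R (i + 1)).reg = if (posAt R i).lst = true then (posAt R i).reg + 1 else
      (posAt R i).reg
    have h1 := P.reg i hi'
    have h2 := P.reg (i + 1) hi
    have h3 := (posAt R (i + 1)).reg.isLt
    rcases succ_divmod (Nat.two_pow_pos R) i with ⟨e1, e2, -⟩ | ⟨e1, e2, -⟩
    · rw [if_pos ((lst_iff i).2 e1), Fin.ext_iff, Fin.val_add, h1, h2, e2]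
      exact (Nat.mod_eq_of_lt (by omega)).symm
    · rw [if_neg fun h => e1.ne ((lst_iff i).1 h), Fin.ext_iff, h1, h2, e2]
  · have h5 : 5 * 2 ^ R ≤ i + 1 := (reg5 P hi).1 h
    show if (posAt R i).reg = 5 then (B.dat (i + 1)).c = ((B.dat i).c && (B.dat i).a) ∧
      (B.dat (i + 1)).q = (B.dat i).p else (B.dat (i + 1)).c = true ∧ (B.dat (i + 1)).q = true
    split_ifs with h6
    · have h7 := (reg5 P hi').1 h6
      rw [dat_pos B h5, dat_pos B h7, show i + 1 - 5 * 2 ^ R = i - 5 * 2 ^ R + 1 by omega]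
      exact ⟨dec_succ _ _, rfl⟩
    · have h7 : ¬ 5 * 2 ^ R ≤ i := fun h => h6 ((reg5 P hi').2 h)
      rw [dat_pos B h5, show i + 1 - 5 * 2 ^ R = 0 by omega]
      simp

theorem last_pos (P : PosFacts R) :
    (posAt R (N R - 1)).lst = true ∧ (posAt R (N R - 1)).reg = 5 := by
  have := six_le_N R
  refine (lst_reg P (by omega) 5).2 ?_
  show _ = N R
  omega

theorem okS_bd (P : PosFacts R) (B B' : Blk R) (hB : B.Valid) (hB' : B'.Valid) (hd hd' : HD)
    (h : linked hd hd' ∨ (hd.fin ∧ hd'.ini)) : OkS (B.cc hd (N R - 1)) (B'.cc hd' 0) := by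
  have h6 := six_le_N R
  obtain ⟨l1, l2⟩ := last_pos P
  have h0 : (posAt R 0).reg = 0 := (reg0 P (by omega)).2 (Nat.two_pow_pos R)
  refine ⟨one P B hB hd _ (by omega) fun _ => ?_, one P B' hB' hd' 0 (by omega) fun h => by omega,
    ?_, fun _ => ⟨h, arr_zero _, arr_zero _⟩, fun h' => ?_, fun h' => ?_⟩
  · rintro rfl
    rcases h with h | h
    · cases hd' <;> simp [linked] at h
    · exact h.1
  · show (posAt R 0).reg = if (posAt R (N R - 1)).lst = true then (posAt R (N R - 1)).reg + 1 else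
      (posAt R (N R - 1)).reg
    rw [if_pos l1, l2, h0]
    rfl
  · have := (P.bd (N R - 1) (by omega)).2 (by omega)
    exact absurd (this.symm.trans h') (by simp)
  · exact absurd (h0.symm.trans h') (by decide)

theorem inc_in (P : PosFacts R) (B : Blk R) (hd hd' : HD) (i : ℕ) (hi : i + 1 < N R) :
    (B.cell hd i).inc (B.cell hd' (i + 1)) := by
  have hi' : i < N R := by omega
  have hN : N R = 6 * 2 ^ R := rfl
  refine ⟨(Nat.mod_add_mod _ _ _).symm, ?_⟩
  show ptr R (i + 1) = if (posAt R i).lst = true ∧ (posAt R i).reg = 4 then 0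
    else if (posAt R i).lst = true ∧ (posAt R i).reg = 5 then R else min (ptr R i + 1) R
  have h4 : ((posAt R i).lst = true ∧ (posAt R i).reg = 4) ↔ i + 1 = 5 * 2 ^ R := lst_reg P hi' 4
  have h5 : ((posAt R i).lst = true ∧ (posAt R i).reg = 5) ↔ i + 1 = 6 * 2 ^ R := lst_reg P hi' 5
  simp only [h4, h5, ptr]
  split_ifs <;> omega

theorem inc_bd (P : PosFacts R) (B B' : Blk R) (hd hd' : HD) :
    (B.cell hd (N R - 1)).inc (B'.cell hd' 0) := by
  obtain ⟨l1, l2⟩ := last_pos P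
  have hM := Nat.two_pow_pos R
  constructor
  · show 0 % 2 ^ R = ((N R - 1) % 2 ^ R + 1) % 2 ^ R
    rw [(lst_iff _).1 l1, Nat.mod_self, Nat.zero_mod]
  · show ptr R 0 = if (posAt R (N R - 1)).lst = true ∧ (posAt R (N R - 1)).reg = 4 then 0
      else if (posAt R (N R - 1)).lst = true ∧ (posAt R (N R - 1)).reg = 5 then R
      else min (ptr R (N R - 1) + 1) R
    rw [if_neg fun h => absurd (l2.symm.trans h.2) (by decide), if_pos ⟨l1, l2⟩, ptr,
      if_neg (by omega)]

theorem div_succ {i : ℕ} (h : (posAt R i).lst = false) : (i + 1) / 2 ^ R = i / 2 ^ R := by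
  rcases succ_divmod (Nat.two_pow_pos R) i with ⟨e1, -, -⟩ | ⟨-, e2, -⟩
  · exact absurd (((lst_iff i).2 e1).symm.trans h) (by simp)
  · exact e2

theorem uok (P : PosFacts R) (B : Blk R) (hd : ℕ → HD) (h : ∀ i < N R, One (B.cc (hd i) i))
    (hu : ∀ i, N R ≤ i → B.u i = false) : Blk.UOk R B.b B.u := by
  obtain ⟨b1, b2, b3⟩ := P.Bc_le
  have hN : N R = 6 * 2 ^ R := rfl
  refine ⟨fun i hi => ?_, fun j => ?_⟩
  · have hi' : i < N R := by
      by_contra h'
      exact absurd (hi.symm.trans (hu i (not_lt.1 h'))) (by simp)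
    rcases (h i hi').used hi with ⟨h1, h2⟩ | h1 | ⟨j, h1⟩
    · have h3 : ¬ i < 2 ^ R := fun h => h1 ((reg0 P hi').2 h)
      have h4 : ¬ 5 * 2 ^ R ≤ i := fun h => h2 ((reg5 P hi').2 h)
      omega
    · have := (P.code i hi').1 h1
      omega
    · have := (P.spec i hi' j).1 h1
      have := j.isLt
      omega
  · have := j.isLt
    have hi : 5 * 2 ^ R + j < N R := by omega
    have := (h _ hi).spec j ((P.spec _ hi j).2 rfl)
    rwa [Blk.cc, dat_b] at this

theorem inj (P : PosFacts R) (B B' : Blk R) (hd hd' : ℕ → HD) (hB : B.Valid) (hB' : B'.Valid)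
    (h : ∀ i < N R, B.cell (hd i) i = B'.cell (hd' i) i) : B = B' ∧ ∀ i < N R, hd i = hd' i := by
  obtain ⟨b1, b2, b3⟩ := P.Bc_le
  have hN : N R = 6 * 2 ^ R := rfl
  have hc : ∀ i < N R, B.cc (hd i) i = B'.cc (hd' i) i := fun i hi =>
    mkC_injective (congrArg Let.σ (h i hi))
  have hdat : ∀ k < 2 ^ R, B.A.testBit k = B'.A.testBit k ∧ (k < B.pi ↔ k < B'.pi) := by
    intro k hk
    have e : B.dat (5 * 2 ^ R + k) = B'.dat (5 * 2 ^ R + k) := congrArg CC.dat (hc _ (by omega))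
    rw [dat_pos B (by omega), dat_pos B' (by omega), Nat.add_sub_cancel_left] at e
    exact ⟨congrArg Data.a e, decide_eq_decide.1 (congrArg Data.p e)⟩
  refine ⟨Blk.ext (Nat.eq_of_testBit_eq fun k => ?_) ?_ ?_ (funext fun i => ?_) (funext fun i => ?_)
    (eq_of_arr (congrArg CC.al (hc _ hB.al_lt))) (eq_of_arr (congrArg CC.be (hc _ hB.be_lt))),
    fun i hi => congrArg CC.hd (hc i hi)⟩
  · by_cases hk : k < 2 ^ R
    · exact (hdat k hk).1
    · have := Nat.pow_le_pow_right two_pos (not_lt.1 hk)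
      rw [Nat.testBit_lt_two_pow (hB.A_lt.trans_le this),
        Nat.testBit_lt_two_pow (hB'.A_lt.trans_le this)]
  · have h1 := hB.pi_le
    have h2 := hB'.pi_le
    rcases lt_trichotomy B.pi B'.pi with h3 | h3 | h3
    · exact absurd ((hdat B.pi (by omega)).2.2 h3) (lt_irrefl _)
    · exact h3
    · exact absurd ((hdat B'.pi (by omega)).2.1 h3) (lt_irrefl _)
  · have e : B.dat 0 = B'.dat 0 := congrArg CC.dat (hc 0 (by omega))
    rw [← dat_b B 0, e, dat_b]
  · by_cases hi : i < N R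
    · exact congrArg CC.u (hc i hi)
    · rw [Bool.eq_iff_iff]
      exact ⟨fun h => absurd (hB.uok.used i h).2 (by omega),
        fun h => absurd (hB'.uok.used i h).2 (by omega)⟩
  · by_cases hi : i < N R
    · exact congrArg Let.t (h i hi)
    · rw [hB.junk i (not_lt.1 hi), hB'.junk i (not_lt.1 hi)]

theorem swap (B : Blk R) (i : ℕ) (j : Fin 4) (hB : B.Valid) (hi : i + 1 < N R)
    (hl : (posAt R i).lst = false) :
    ∃ t, ({ B with t := t } : Blk R).Valid ∧ t i = Function.update (B.t i) j (B.t (i + 1) j) ∧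
      t (i + 1) = Function.update (B.t (i + 1)) j (B.t i j) ∧
      ∀ i', i' ≠ i → i' ≠ i + 1 → t i' = B.t i' := by
  have hs : ∀ a < N R, Equiv.swap i (i + 1) a < N R ∧ Equiv.swap i (i + 1) a / 2 ^ R = a / 2 ^ R := by
    intro a ha
    rw [Equiv.swap_apply_def]
    split_ifs with h1 h2
    · exact ⟨hi, by rw [h1, div_succ hl]⟩
    · exact ⟨by omega, by rw [h2, div_succ hl]⟩
    · exact ⟨ha, rfl⟩
  have ho : ∀ i', i' ≠ i → i' ≠ i + 1 →
      Function.update (B.t i') j (B.t (Equiv.swap i (i + 1) i') j) = B.t i' := fun i' h1 h2 => by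
    rw [Equiv.swap_apply_of_ne_of_ne h1 h2, Function.update_eq_self]
  refine ⟨fun i' => Function.update (B.t i') j (B.t (Equiv.swap i (i + 1) i') j),
    ⟨hB.A_lt, hB.pi_le, hB.lab, hB.lst, hB.al_lt, hB.be_lt, hB.uok, fun a ha a' ha' j' e e' => ?_,
      fun a ha => (ho a (by omega) (by omega)).trans (hB.junk a ha)⟩,
    by simp only [Equiv.swap_apply_left], by simp only [Equiv.swap_apply_right], ho⟩
  by_cases hj : j' = j
  · subst hj
    simp only [Function.update_self] at e'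
    exact (Equiv.swap i (i + 1)).injective (hB.inj _ (hs a ha).1 _ (hs a' ha').1 j'
      ((hs a ha).2.trans (e.trans (hs a' ha').2.symm)) e')
  · simp only [Function.update_of_ne hj] at e'
    exact hB.inj a ha a' ha' j' e e'

end CellF

theorem cellStmt : CellStmt := fun R P =>
  { valid := fun _ _ i => ⟨rfl, CellF.lst_iff i⟩
    one := CellF.one P
    okS_in := CellF.okS_in P
    okS_bd := CellF.okS_bd P
    inc_in := CellF.inc_in P
    inc_bd := CellF.inc_bd P
    ne := fun B hB i hi hl j e =>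
      absurd (hB.inj i (by omega) (i + 1) hi j (CellF.div_succ hl).symm e) (by omega)
    uok := CellF.uok P
    inj := CellF.inj P
    swap := CellF.swap }

end Crest.Agent.R176.Lv
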