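import Crest.Agent.R176.LvStmts

/-!
Row 176: coding and decoding of blocks, the binary counter.
-/

set_option autoImplicit false
set_option synthInstance.maxSize 4096

namespace Crest.Agent.R176.Lv

namespace Code

theorem testBit_succ' (i : ℕ) : ∀ A : ℕ,
    (A + 1).testBit i = xor (A.testBit i) (decide (∀ j < i, A.testBit j = true)) := by
  induction i with
  | zero =>
    intro A
    rcases Nat.mod_two_eq_zero_or_one A with h | h
    · have : (A + 1) % 2 = 1 := by omega
      simp [Nat.testBit_zero, h, this]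
    · have : (A + 1) % 2 = 0 := by omega
      simp [Nat.testBit_zero, h, this]
  | succ i ih =>
    intro A
    rw [Nat.testBit_succ, Nat.testBit_succ]
    have key : (∀ j < i + 1, A.testBit j = true) ↔
        A % 2 = 1 ∧ ∀ j < i, (A / 2).testBit j = true := by
      rw [Nat.forall_lt_succ_left']
      simp [Nat.testBit_zero, Nat.testBit_succ]
    rcases Nat.mod_two_eq_zero_or_one A with h | h
    · have e : (A + 1) / 2 = A / 2 := by omega
      have : ¬ ∀ j < i + 1, A.testBit j = true := by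
        rw [key]; omega
      rw [e, decide_eq_false this, Bool.xor_false]
    · have e : (A + 1) / 2 = A / 2 + 1 := by omega
      rw [e, ih]
      congr 1
      simp only [key, h, true_and]

theorem eq_of_bits {a b n : ℕ} (ha : a < 2 ^ n) (hb : b < 2 ^ n)
    (h : ∀ i < n, a.testBit i = b.testBit i) : a = b := by
  apply Nat.eq_of_testBit_eq
  intro i
  by_cases hi : i < n
  · exact h i hi
  · have : 2 ^ n ≤ 2 ^ i := Nat.pow_le_pow_right (by norm_num) (not_lt.1 hi)
    rw [Nat.testBit_lt_two_pow (ha.trans_le this), Nat.testBit_lt_two_pow (hb.trans_le this)]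

theorem all_bits {a n : ℕ} (ha : a < 2 ^ n) :
    (∀ i < n, a.testBit i = true) ↔ a + 1 = 2 ^ n := by
  have hp := Nat.two_pow_pos n
  constructor
  · intro h
    have : a = 2 ^ n - 1 := eq_of_bits ha (by omega) (fun i hi => by
      rw [h i hi, Nat.testBit_two_pow_sub_one, decide_eq_true hi])
    omega
  · intro h i hi
    have : a = 2 ^ n - 1 := by omega
    rw [this, Nat.testBit_two_pow_sub_one, decide_eq_true hi]

theorem inc_iff {a b n : ℕ} (hb : b < 2 ^ n) : b = (a + 1) % 2 ^ n ↔
    ∀ i < n, b.testBit i = xor (a.testBit i) (decide (∀ j < i, a.testBit j = true)) := by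
  constructor
  · rintro rfl i hi
    rw [Nat.testBit_mod_two_pow, testBit_succ', decide_eq_true hi, Bool.true_and]
  · intro h
    refine eq_of_bits hb (Nat.mod_lt _ (Nat.two_pow_pos n)) (fun i hi => ?_)
    rw [h i hi, Nat.testBit_mod_two_pow, testBit_succ', decide_eq_true hi, Bool.true_and]

theorem eq_iff_lt {a b n : ℕ} (ha : a ≤ n) (hb : b ≤ n) : a = b ↔ ∀ i < n, (i < a ↔ i < b) := by
  constructor
  · rintro rfl i _
    rfl
  · intro h
    by_contra hne
    rcases Nat.lt_or_gt_of_ne hne with h' | h'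
    · have := h a (by omega)
      omega
    · have := h b (by omega)
      omega

theorem code_lt (σ : Cell) (j : Fin 14) : code σ j = pcode σ.1 j := by
  unfold code
  rw [dif_pos j.isLt]

theorem code_add (σ : Cell) (j : Fin B1) : code σ (14 + j) = rcode σ.2 j := by
  unfold code
  rw [dif_neg (by omega), dif_pos (by have := j.isLt; omega)]
  exact congrArg _ (Fin.ext (by simp))

theorem code_ge (σ : Cell) {i : ℕ} (h : Bc ≤ i) : code σ i = false := by
  unfold Bc at h
  unfold code
  rw [dif_neg (by omega), dif_neg (by omega)]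

theorem cases_Bc {i : ℕ} (h : i < Bc) : (∃ j : Fin 14, i = j) ∨ ∃ j : Fin B1, i = 14 + j := by
  unfold Bc at h
  by_cases h' : i < 14
  · exact Or.inl ⟨⟨i, h'⟩, rfl⟩
  · exact Or.inr ⟨⟨i - 14, by omega⟩, by simp only; omega⟩

variable {R : ℕ}

theorem code_of (B : Blk R) (h : Blk.UOk R B.b B.u) :
    ∀ i < Bc, B.u (5 * 2 ^ R + i) = code B.dec.σ i := by
  intro i hi
  rcases cases_Bc hi with ⟨j, rfl⟩ | ⟨j, rfl⟩
  · rw [code_lt, h.spec]
    rfl
  · rw [code_add, ← Nat.add_assoc]
    simp [Blk.dec]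

theorem dec_σ (B : Blk R) (v : Cell) (hb : B.b = v.1)
    (h : ∀ i < Bc, B.u (5 * 2 ^ R + i) = code v i) : B.dec.σ = v := by
  refine Prod.ext hb ?_
  change rcode.symm (fun i => B.u (5 * 2 ^ R + 14 + i)) = v.2
  rw [Equiv.symm_apply_eq]
  funext j
  rw [Nat.add_assoc, h _ (by have := j.isLt; unfold Bc; omega), code_add]

theorem b_of (b : Pos) (u : ℕ → Bool) (v : Cell) (h : Blk.UOk R b u)
    (h' : ∀ i < 14, u (5 * 2 ^ R + i) = code v i) : b = v.1 := by
  apply pcode.injective
  funext j
  rw [← h.spec, h' _ j.isLt, code_lt]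

theorem dat_add (B : Blk R) (i : ℕ) : B.dat (5 * 2 ^ R + i) =
    ⟨B.A.testBit i, decide (∀ j < i, B.A.testBit j = true), decide (i < B.pi),
      decide (i ≤ B.pi), B.b⟩ := by
  unfold Blk.dat
  rw [if_pos (Nat.le_add_right _ _), Nat.add_sub_cancel_left]

theorem inc (L Rb : Blk R) (hL : L.Valid) (hR : Rb.Valid) :
    L.dec.inc Rb.dec ↔ ∀ i < 2 ^ R, ¬ mism (L.dat (5 * 2 ^ R + i)) (Rb.dat (5 * 2 ^ R + i)) := by
  have e : L.dec.inc Rb.dec ↔ Rb.A = (L.A + 1) % 2 ^ 2 ^ R ∧
      Rb.pi = if L.b.lst = true ∧ L.b.reg = 4 then 0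
        else if L.b.lst = true ∧ L.b.reg = 5 then 2 ^ R else min (L.pi + 1) (2 ^ R) := by
    unfold Let.inc
    simp only [Blk.dec, Nat.mod_eq_of_lt hL.A_lt, Nat.mod_eq_of_lt hR.A_lt, min_eq_left hL.pi_le,
      min_eq_left hR.pi_le]
  rw [e, inc_iff hR.A_lt, eq_iff_lt hR.pi_le
    (by split_ifs; exacts [Nat.zero_le _, le_rfl, min_le_right _ _]), ← forall₂_and]
  refine forall₂_congr (fun i hi => ?_)
  simp only [mism, dat_add, not_or, not_not]
  refine and_congr Iff.rfl ?_
  split_ifs
  · simp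
  · simp [hi]
  · rw [decide_eq_decide]
    constructor
    · intro h; omega
    · intro h; omega

theorem dec_valid (B : Blk R) (h : B.Valid) : B.dec.valid := by
  unfold Let.valid
  simp only [Blk.dec, Nat.mod_eq_of_lt h.A_lt, min_eq_left h.pi_le]
  exact ⟨h.lab, h.lst⟩

theorem dec_congr (P : PosFacts R) (B : Blk R) (u u' : ℕ → Bool) (h : ∀ i < N R, u i = u' i) :
    ({ B with u := u } : Blk R).dec = ({ B with u := u' } : Blk R).dec := by
  obtain ⟨-, h1, h2⟩ := P.Bc_le
  unfold Bc at h1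
  unfold N at h
  refine Let.ext rfl rfl ?_ ?_
  · funext j i
    refine h _ ?_
    have := i.isLt
    have : (j.val + 1) * 2 ^ R ≤ 4 * 2 ^ R := Nat.mul_le_mul_right _ (by have := j.isLt; omega)
    omega
  · refine Prod.ext rfl ?_
    change rcode.symm (fun i => u (5 * 2 ^ R + 14 + i)) =
      rcode.symm (fun i => u' (5 * 2 ^ R + 14 + i))
    congr 1
    funext i
    exact h _ (by have := i.isLt; omega)

theorem encU_add (W : Let (2 ^ R)) (i : ℕ) : encU W (5 * 2 ^ R + i) = code W.σ i := by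
  unfold encU
  rw [if_pos (Nat.le_add_right _ _), Nat.add_sub_cancel_left]

theorem enc_uok (W : Let (2 ^ R)) : Blk.UOk R W.σ.1 (encU W) where
  used i hi := by
    unfold encU at hi
    split_ifs at hi with h1 h2
    · refine ⟨by omega, ?_⟩
      by_contra hc
      rw [code_ge _ (by omega)] at hi
      exact absurd hi (by simp)
    · exact ⟨h2, by omega⟩
  spec j := by rw [encU_add, code_lt]

theorem enc_valid (W : Let (2 ^ R)) (h : W.valid) : (encB W).Valid where
  A_lt := W.A.isLt
  pi_le := Nat.lt_succ_iff.1 W.π.isLt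
  lab := h.1
  lst := h.2
  al_lt := by have := six_le_N R; change 0 < N R; omega
  be_lt := by have := six_le_N R; change 0 < N R; omega
  uok := enc_uok W
  inj i hi i' hi' j hd ht := by
    change tcan R i j = tcan R i' j at ht
    unfold tcan at ht
    rw [if_pos hi, if_pos hi'] at ht
    have hm : i % 2 ^ R = i' % 2 ^ R :=
      eq_of_bits (Nat.mod_lt _ (Nat.two_pow_pos R)) (Nat.mod_lt _ (Nat.two_pow_pos R))
        (fun k hk => congrFun ht ⟨k, hk⟩)
    rw [← Nat.div_add_mod i (2 ^ R), ← Nat.div_add_mod i' (2 ^ R), hd, hm]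
  junk i hi := by
    change tcan R i = _
    unfold tcan
    rw [if_neg (by omega)]

theorem enc_dec (W : Let (2 ^ R)) : (encB W).dec = W := by
  refine Let.ext ?_ ?_ ?_ ?_
  · exact Fin.ext (Nat.mod_eq_of_lt W.A.isLt)
  · exact Fin.ext (min_eq_left (Nat.lt_succ_iff.1 W.π.isLt))
  · funext j i
    change encU W ((j.val + 1) * 2 ^ R + i) = W.t j i
    have hp := Nat.two_pow_pos R
    have hi := i.isLt
    have hj := j.isLt
    have h1 : (j.val + 1) * 2 ^ R ≤ 4 * 2 ^ R := Nat.mul_le_mul_right _ (by omega)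
    have h2 : 1 * 2 ^ R ≤ (j.val + 1) * 2 ^ R := Nat.mul_le_mul_right _ (by omega)
    have h3 : ((j.val + 1) * 2 ^ R + i) / 2 ^ R = j.val + 1 := by
      rw [Nat.add_comm, Nat.add_mul_div_right _ _ hp, Nat.div_eq_of_lt hi, Nat.zero_add]
    have h4 : ((j.val + 1) * 2 ^ R + i) % 2 ^ R = i := by
      rw [Nat.add_comm, Nat.add_mul_mod_self_right, Nat.mod_eq_of_lt hi]
    unfold encU
    rw [if_neg (by omega), dif_pos (by omega)]
    congr 1
    · ext
      simp only [h3]
      omega
    · ext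
      exact h4
  · exact dec_σ _ _ rfl (fun i _ => encU_add W i)

theorem dec_enc (B : Blk R) (h : B.Valid) :
    encB B.dec = { B with al := 0, be := 0, t := tcan R } := by
  refine Blk.ext (Nat.mod_eq_of_lt h.A_lt) (min_eq_left h.pi_le) rfl ?_ rfl rfl rfl
  funext i
  change encU B.dec i = B.u i
  have hu : ¬ (2 ^ R ≤ i ∧ i < 5 * 2 ^ R + Bc) → B.u i = false := fun hc => by
    by_contra hne
    exact hc (h.uok.used i (by simpa using hne))
  have hp := Nat.two_pow_pos R
  unfold encU
  split_ifs with h1 h2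
  · by_cases h3 : i - 5 * 2 ^ R < Bc
    · rw [← code_of B h.uok _ h3]
      congr 1
      omega
    · rw [code_ge _ (not_lt.1 h3), hu (by omega)]
  · change B.u (((i / 2 ^ R - 1) % 4 + 1) * 2 ^ R + i % 2 ^ R) = B.u i
    have a1 : 1 ≤ i / 2 ^ R := (Nat.le_div_iff_mul_le hp).2 (by omega)
    have a2 : i / 2 ^ R < 5 := (Nat.div_lt_iff_lt_mul hp).2 (by omega)
    have a3 : (i / 2 ^ R - 1) % 4 + 1 = i / 2 ^ R := by omega
    rw [a3, Nat.mul_comm, Nat.div_add_mod]
  · rw [hu (by omega)]

theorem invalid (P : PosFacts R) (W : Let (2 ^ R)) (hW : ¬ W.valid) : ¬ (lev R).NZ (enc W) := by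
  intro hNZ
  apply hW
  have hp := Nat.two_pow_pos R
  have one : ∀ i, 1 ≤ i → i < N R → One ((encB W).cc (hdS 0 i) i) := by
    intro i h1 h2
    obtain ⟨k, rfl⟩ : ∃ k, i = k + 1 := ⟨i - 1, by omega⟩
    have h3 := Rew.NZ.range_pair (S := lev R) (c := fun i => (encB W).cell (hdS 0 i) i) hNZ h2
    exact ((pairOk_of_NZ h3).of_mk rfl rfl).1.one₂
  have hlast := (one (5 * 2 ^ R + (2 ^ R - 1)) (by omega) (by unfold N; omega)).last
    ((P.bd _ (by unfold N; omega)).2 (by unfold N; omega))
  obtain ⟨l1, l2, -⟩ := hlast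
  simp only [Blk.cc, dat_add] at l1 l2
  refine ⟨?_, ?_⟩
  · by_cases hπ : (W.π : ℕ) < 2 ^ R
    · have hm := (one (5 * 2 ^ R + W.π) (by omega) (by unfold N; omega)).mark
      simp only [Blk.cc, dat_add] at hm
      have := hm (by simp [encB]) (by simp [encB])
      change Tab (ptr R (5 * 2 ^ R + W.π)) = W.σ.1.lab at this
      rw [← this, ptr, if_pos (Nat.le_add_right _ _), Nat.add_sub_cancel_left, P.tab_min]
    · have := l2 (by
        change decide (2 ^ R - 1 < (W.π : ℕ)) = true
        rw [decide_eq_true_iff]; omega)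
      change W.σ.1.lab = Lab.none at this
      rw [this, P.tab_none _ (by have := P.Bc_le.2.2; omega)]
  · change W.σ.1.lst = (decide (∀ j < 2 ^ R - 1, (W.A : ℕ).testBit j = true) &&
      (W.A : ℕ).testBit (2 ^ R - 1)) at l1
    rw [l1, ← all_bits W.A.isLt, Bool.and_eq_true, decide_eq_true_iff]
    constructor
    · rintro ⟨a, b⟩ i hi
      by_cases hc : i < 2 ^ R - 1
      · exact a i hc
      · have : i = 2 ^ R - 1 := by omega
        rw [this]; exact b
    · intro a
      exact ⟨fun j hj => a j (by omega), a _ (by omega)⟩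

end Code

theorem codeStmt : CodeStmt := fun _ P =>
  { code_of := Code.code_of
    dec_σ := Code.dec_σ
    b_of := Code.b_of
    inc := Code.inc
    dec_valid := Code.dec_valid
    dec_congr := Code.dec_congr P
    enc_uok := Code.enc_uok
    enc_valid := Code.enc_valid
    enc_dec := Code.enc_dec
    dec_enc := Code.dec_enc
    invalid := Code.invalid P }

end Crest.Agent.R176.Lv
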