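import Crest.Agent.R176.LvStmts

/-!
Row 176: completeness: the rules of level `2 ^ R` are simulated at level `R`.
-/

set_option autoImplicit false
set_option synthInstance.maxSize 4096

namespace Crest.Agent.R176.Lv

variable {R : ℕ}

namespace ComplAux

/-! ### The bits of canonical blocks -/

theorem code_ge (σ : Cell) {i : ℕ} (h : Bc ≤ i) : code σ i = false := by
  unfold Bc at h
  unfold code
  rw [dif_neg (by omega), dif_neg (by omega)]

theorem encU_hi (W : Let (2 ^ R)) {i : ℕ} (h : 5 * 2 ^ R ≤ i) :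
    encU W i = code W.σ (i - 5 * 2 ^ R) := by
  unfold encU
  rw [if_pos h]

theorem encU_lo (W : Let (2 ^ R)) (σ : Cell) {i : ℕ} (h : i < 5 * 2 ^ R) :
    encU { W with σ := σ } i = encU W i := by
  unfold encU
  rw [if_neg (by omega), if_neg (by omega)]

theorem div_eq {j i : ℕ} (h₁ : (j + 1) * 2 ^ R ≤ i) (h₂ : i < (j + 2) * 2 ^ R) :
    i / 2 ^ R = j + 1 := Nat.div_eq_of_lt_le h₁ h₂

theorem encU_in (W : Let (2 ^ R)) (j : Fin 4) {i : ℕ} (h₁ : (j.val + 1) * 2 ^ R ≤ i)
    (h₂ : i < (j.val + 2) * 2 ^ R) :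
    encU W i = W.t j ⟨i % 2 ^ R, Nat.mod_lt _ (Nat.two_pow_pos R)⟩ := by
  have hj := j.isLt
  have h₃ : (j.val + 2) * 2 ^ R ≤ 5 * 2 ^ R := Nat.mul_le_mul_right _ (by omega)
  have h₄ : 1 * 2 ^ R ≤ (j.val + 1) * 2 ^ R := Nat.mul_le_mul_right _ (by omega)
  unfold encU
  rw [if_neg (by omega), dif_pos (by omega)]
  congr 1
  apply Fin.ext
  simp only [div_eq h₁ h₂]
  omega

theorem encU_out (W : Let (2 ^ R)) (j : Fin 4) (v : Fin (2 ^ R) → Bool) {i : ℕ}
    (h : ¬ ((j.val + 1) * 2 ^ R ≤ i ∧ i < (j.val + 2) * 2 ^ R)) :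
    encU (W.setT j v) i = encU W i := by
  unfold encU
  split_ifs with h₁ h₂
  · rfl
  · simp only [Let.setT]
    rw [Function.update_of_ne]
    intro e
    apply h
    have e' := congrArg Fin.val e
    simp only at e'
    have hp := Nat.two_pow_pos R
    have h₃ : i / 2 ^ R < 5 := (Nat.div_lt_iff_lt_mul hp).2 (by omega)
    have h₄ : 1 ≤ i / 2 ^ R := (Nat.le_div_iff_mul_le hp).2 (by omega)
    have h₅ : i / 2 ^ R = j.val + 1 := by omega
    exact ⟨(Nat.le_div_iff_mul_le hp).1 h₅.ge, (Nat.div_lt_iff_lt_mul hp).1 (by omega)⟩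
  · rfl

theorem encU_setT (W V : Let (2 ^ R)) (j : Fin 4) {i : ℕ} (h₁ : (j.val + 1) * 2 ^ R ≤ i)
    (h₂ : i < (j.val + 2) * 2 ^ R) : encU (W.setT j (V.t j)) i = encU V i := by
  rw [encU_in _ j h₁ h₂, encU_in _ j h₁ h₂]
  simp [Let.setT]

theorem dec_of (Co : CodeFacts R) (B : Blk R) (W : Let (2 ^ R)) (hA : B.A = W.A)
    (hpi : B.pi = W.π) (hb : B.b = W.σ.1) (hu : B.u = encU W) : B.dec = W := by
  obtain ⟨A, pi, b, u, t, al, be⟩ := B
  simp only at hA hpi hb hu
  subst hA hpi hb hu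
  exact Co.enc_dec W

theorem dat_b (B : Blk R) (i : ℕ) : (B.dat i).b = B.b := by
  unfold Blk.dat
  split_ifs <;> rfl

theorem valid_update (P : PosFacts R) {B : Blk R} (h : B.Valid) {i : ℕ} (v : Bool)
    (h₁ : 2 ^ R ≤ i) (h₂ : i < 5 * 2 ^ R ∨ (5 * 2 ^ R + 14 ≤ i ∧ i < 5 * 2 ^ R + Bc)) :
    ({ B with u := Function.update B.u i v } : Blk R).Valid := by
  have := P.Bc_le
  refine ⟨h.A_lt, h.pi_le, h.lab, h.lst, h.al_lt, h.be_lt, ⟨fun i' hi => ?_, fun j => ?_⟩, h.inj,
    h.junk⟩
  · by_cases e : i' = i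
    · omega
    · simp only [Function.update_of_ne e] at hi
      exact h.uok.used i' hi
  · have hj := j.isLt
    simp only
    rw [Function.update_of_ne (by omega)]
    exact h.uok.spec j

/-! ### States before a `C` event -/

/-- The state just before the `C` event of round `k`. -/
noncomputable def stC (L Rb : Blk R) (ρ : Rt) (a k : ℕ) (old : Bool) : PS R where
  L := { L with al := a + k + 1, be := b0 R ρ + k + 1 }
  Rb := { Rb with be := b0 R ρ + k }
  h := N R + (b0 R ρ + k)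
  m := ⟨ρ, .C, decide (k = 0), true, posAt R (a + k + 1),
    (L.dat (b0 R ρ + k + 1), L.u (b0 R ρ + k + 1)), old⟩

section

variable {L Rb : Blk R} {ρ : Rt} {a k : ℕ} {old : Bool}

theorem stC_k : (stC L Rb ρ a k old).k = k := by
  unfold PS.k
  simp only [stC, decide_eq_true_eq]
  split_ifs <;> omega

theorem stC_kA : (stC L Rb ρ a k old).kA = k + 1 := by
  unfold PS.kA
  rw [stC_k]
  simp [stC]

theorem stC_kB : (stC L Rb ρ a k old).kB = k + 1 := by
  unfold PS.kB
  rw [stC_k]
  simp [stC]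

theorem stC_a0 : (stC L Rb ρ a k old).a0 = a := by
  unfold PS.a0
  rw [stC_kA]
  simp only [stC]
  omega

theorem stC_pre (P : PosFacts R) (hL : L.Valid) (hR : Rb.Valid) (ha : Start R ρ a)
    (hk : k < len R ρ) : (stC L Rb ρ a k old).Pre := by
  have h₁ := (P.run ρ a ha).1
  have h₂ := (P.b0_len ρ).2.1
  have h₃ : a + k + 1 < N R := by omega
  have h₄ : b0 R ρ + k + 1 < N R := by omega
  have h₅ : b0 R ρ + k < N R := by omega
  refine ⟨⟨h₃, h₄, hR.al_lt, h₅, ?_, ?_⟩,
    ⟨hL.A_lt, hL.pi_le, hL.lab, hL.lst, h₃, h₄, hL.uok, hL.inj, hL.junk⟩,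
    ⟨hR.A_lt, hR.pi_le, hR.lab, hR.lst, hR.al_lt, h₅, hR.uok, hR.inj, hR.junk⟩⟩
  · simp only [stC]
    omega
  · simp [stC]

theorem stC_rinv (ha : Start R ρ a) (hk : k < len R ρ) (ho : old = true → ∃ j, ρ = .swapW j)
    (hL : ρ.isRule = true → ∀ i, 1 ≤ i → i ≤ k + 1 →
      L.u (b0 R ρ + i) = (posAt R (a + i)).lab.t3)
    (hR : ρ.isRule = true → ∀ i, 1 ≤ i → i ≤ k → Rb.u (b0 R ρ + i) = (posAt R (a + i)).lab.t4)
    (he : (∃ j, ρ = .eq j) → ∀ i, 1 ≤ i → i ≤ k → L.u (b0 R ρ + i) = Rb.u (b0 R ρ + i)) :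
    (stC L Rb ρ a k old).RInv := by
  have h6 := six_le_N R
  constructor
  · simp only [stC, decide_eq_false_iff_not]
    omega
  · rw [stC_kA]
    exact hk
  · rw [stC_kA, stC_a0]
    exact fun _ => ⟨by simp only [stC]; omega, ha, rfl⟩
  · rw [stC_kA]
    omega
  · rw [stC_kB]
    exact fun _ => ⟨rfl, rfl⟩
  · rw [stC_kB]
    omega
  · exact fun h => ⟨rfl, ho h⟩
  · rw [stC_k]
    exact fun _ => hk
  · rw [stC_kB, stC_a0]
    exact hL
  · rw [stC_k, stC_a0]
    exact hR
  · rw [stC_k]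
    exact he
  · left
    simp only [stC, Run.src, Run.tgt, PS.gp]
    omega

theorem stC_first (P : PosFacts R) (hk : k < len R ρ) :
    (stC L Rb ρ a k old).m.first = true ↔
      preB (stC L Rb ρ a k old).m.rt (posAt R (stC L Rb ρ a k old).Rb.be) := by
  have h₂ := (P.b0_len ρ).2.1
  simp only [stC, decide_eq_true_eq]
  rw [P.preB ρ _ (by omega)]
  omega

theorem stC_be (P : PosFacts R) (hk : k < len R ρ) : (stC L Rb ρ a k old).Rb.be + 1 < N R := by
  have h₂ := (P.b0_len ρ).2.1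
  simp only [stC]
  omega

end

theorem zero_of_AZ (Re : RendFacts R) (No : NormFacts R) {s : PS R} (h₁ : s.Pre) (h₂ : s.RInv)
    (h₃ : s.AZ) : ¬ (lev R).NZ (s.dec.flatMap enc) := by
  intro h
  have h₄ := h.of_eqv (No.pair s h₁ h₂).symm
  have hp : s.h + 1 < 2 * N R := by
    obtain ⟨-, e, e', -⟩ := h₃
    omega
  have h₅ := (Re.fz s s.h h₁.bd hp).2 ⟨rfl, h₃⟩
  exact ((pairOk_of_NZ (h₄.range_pair hp)).of_mk (s.cell_σ _) (s.cell_σ _)).2.2 h₅

theorem eqv_of_AF (Re : RendFacts R) (Fw : FwdFacts R) (No : NormFacts R) {s s' : PS R} {p : ℕ}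
    (h₁ : s.Pre) (h₂ : s.RInv) (h₃ : AF p s s') :
    (lev R).Eqv (s.dec.flatMap enc) (s'.dec.flatMap enc) := by
  obtain ⟨h₄, h₅⟩ := Fw.fwd s s' p h₁ h₂ h₃
  obtain ⟨-, hp, hf, hL, hR, hc⟩ := Re.r1 s s' p h₁.bd h₃
  refine (No.pair s h₁ h₂).symm.trans (Rew.Eqv.trans ?_ (No.pair s' h₄ h₅))
  refine eqv_range_of_step hp ?_ fun i _ => hc i
  rw [PS.cell_eq hL hR p, PS.cell_eq hL hR (p + 1)]
  exact LStep.fin _ _ _ _ ⟨_, _, _, _, s.cell_σ _, s.cell_σ _, rfl, rfl, Or.inl hf⟩

theorem not_NZ_of_invalid (Co : CodeFacts R) {x y : Let (2 ^ R)} (h : ¬ (x.valid ∧ y.valid)) :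
    ¬ (lev R).NZ ([x, y].flatMap enc) := by
  intro h'
  simp only [List.flatMap_cons, List.flatMap_nil, List.append_nil] at h'
  exact h ⟨not_not.1 fun hx => Co.invalid x hx h'.of_append_left,
    not_not.1 fun hy => Co.invalid y hy h'.of_append_right⟩

/-- The labels of an entry, indexed by rounds. -/
theorem ent_lab {e : Ent} {a : ℕ} (h : ∀ i < Bc, (posAt R (a + 1 + i)).lab = e.lab i) {i : ℕ}
    (h₁ : 1 ≤ i) (h₂ : i ≤ Bc) : (posAt R (a + i)).lab = e.lab (i - 1) := by
  rw [← h (i - 1) (by omega)]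
  congr 2
  omega

theorem encU_rule (P : PosFacts R) (W : Let (2 ^ R)) {ρ : Rt} (hρ : ρ.prev = 4) {i : ℕ}
    (h₁ : 1 ≤ i) : encU W (b0 R ρ + i) = code W.σ (i - 1) := by
  have h := (P.b0_len ρ).2.2.2
  rw [hρ] at h
  rw [encU_hi W (by omega)]
  congr 1
  omega

/-! ### Zero rules -/

section

variable (P : PosFacts R) (Co : CodeFacts R) (Re : RendFacts R) (Fw : FwdFacts R)
  (No : NormFacts R) {x y : Let (2 ^ R)}

include P Co Re No in
theorem zero_fin (hx : x.valid) (hy : y.valid) (h : czero x.σ y.σ) :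
    ¬ (lev R).NZ ([x, y].flatMap enc) := by
  have hB := P.Bc_le
  obtain ⟨a, ha, hl⟩ := P.ent' ⟨x.σ, y.σ, x.σ, y.σ, true⟩ (by simpa [Ent.good] using h)
  have hk : Bc - 1 < len R .ruleR := by
    simp only [len, Rt.isRule, if_true]
    omega
  have hs := ha .ruleR rfl
  have hd : (stC (encB x) (encB y) .ruleR a (Bc - 1) false).dec = [x, y] := by
    unfold PS.dec
    rw [dec_of Co _ x rfl rfl rfl rfl, dec_of Co _ y rfl rfl rfl rfl]
  rw [← hd]
  refine zero_of_AZ Re No (stC_pre P (Co.enc_valid x hx) (Co.enc_valid y hy) hs hk)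
    (stC_rinv hs hk (by simp) (fun _ i h₁ h₂ => ?_) (fun _ i h₁ h₂ => ?_) (by simp))
    ⟨rfl, rfl, stC_be P hk, stC_first P hk, ?_⟩
  · rw [ent_lab hl h₁ (by omega)]
    exact encU_rule P x rfl h₁
  · rw [ent_lab hl h₁ (by omega)]
    exact encU_rule P y rfl h₁
  · simp only [stC, fzc, add_assoc]
    rw [ent_lab hl (by omega) (by omega)]
    refine ⟨?_, rfl, encU_rule P y rfl (by omega)⟩
    simp only [Ent.lab, decide_eq_true_eq]
    omega

include P Co Re No in
theorem zero_inc (hx : x.valid) (hy : y.valid) (h : ¬ x.inc y) :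
    ¬ (lev R).NZ ([x, y].flatMap enc) := by
  have h₁ := Co.inc _ _ (Co.enc_valid x hx) (Co.enc_valid y hy)
  rw [Co.enc_dec, Co.enc_dec] at h₁
  obtain ⟨k, hk, hm⟩ : ∃ k < 2 ^ R,
      mism ((encB x).dat (5 * 2 ^ R + k)) ((encB y).dat (5 * 2 ^ R + k)) := by
    by_contra hc
    exact h (h₁.2 fun i hi hm => hc ⟨i, hi, hm⟩)
  have hk' : k < len R .inc := by simpa [len, Rt.isRule] using hk
  have hs : Start R .inc (b0 R .inc) := by simp [Start, Rt.isRule]
  have hd : (stC (encB x) (encB y) .inc (b0 R .inc) k false).dec = [x, y] := by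
    unfold PS.dec
    rw [dec_of Co _ x rfl rfl rfl rfl, dec_of Co _ y rfl rfl rfl rfl]
  rw [← hd]
  refine zero_of_AZ Re No (stC_pre P (Co.enc_valid x hx) (Co.enc_valid y hy) hs hk')
    (stC_rinv hs hk' (by simp) (by simp [Rt.isRule]) (by simp [Rt.isRule]) (by simp))
    ⟨rfl, rfl, stC_be P hk', stC_first P hk', ?_⟩
  have hb := (P.b0_len .inc).2.2.2
  have e : b0 R .inc + k + 1 = 5 * 2 ^ R + k := by
    simp only [Rt.prev] at hb
    omega
  simp only [stC, fzc]
  rw [e]
  exact hm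

include P Co Re No in
theorem zero_eq (hx : x.valid) (hy : y.valid) {j : Fin 4} (hl : x.σ.1.lst = false)
    (h : x.t j = y.t j) : ¬ (lev R).NZ ([x, y].flatMap enc) := by
  have hp := Nat.two_pow_pos R
  have hlen : len R (.eq j) = 2 ^ R := by simp [len, Rt.isRule]
  have hk : 2 ^ R - 1 < len R (.eq j) := by omega
  have hs : Start R (.eq j) (b0 R (.eq j)) := by simp [Start, Rt.isRule]
  have hb := (P.b0_len (.eq j)).2.2.2
  simp only [Rt.prev] at hb
  have hm : (j.val + 2) * 2 ^ R = (j.val + 1) * 2 ^ R + 2 ^ R := by ring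
  have hu : ∀ i, 1 ≤ i → i ≤ 2 ^ R → encU x (b0 R (.eq j) + i) = encU y (b0 R (.eq j) + i) := by
    intro i h₁ h₂
    rw [encU_in x j (by omega) (by omega), encU_in y j (by omega) (by omega), h]
  have hd : (stC (encB x) (encB y) (.eq j) (b0 R (.eq j)) (2 ^ R - 1) false).dec = [x, y] := by
    unfold PS.dec
    rw [dec_of Co _ x rfl rfl rfl rfl, dec_of Co _ y rfl rfl rfl rfl]
  rw [← hd]
  refine zero_of_AZ Re No (stC_pre P (Co.enc_valid x hx) (Co.enc_valid y hy) hs hk)
    (stC_rinv hs hk (by simp) (by simp [Rt.isRule]) (by simp [Rt.isRule])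
      fun _ i h₁ h₂ => hu i h₁ (by omega))
    ⟨rfl, rfl, stC_be P hk, stC_first P hk, ?_⟩
  simp only [stC, fzc, add_assoc]
  refine ⟨?_, by rw [dat_b]; exact hl, (hu _ (by omega) (by omega)).symm⟩
  have := ((P.run _ _ hs).2 (2 ^ R - 1 + 1) (by omega) (by omega)).2.2 (by omega)
  simpa [fin, Rt.isRule] using this

/-! ### Step rules -/

include P Co Re Fw No in
theorem step_fin (hx : x.valid) (hy : y.valid) {σ₃ σ₄ : Cell} (h : cstep x.σ y.σ σ₃ σ₄) :
    (lev R).Eqv ([x, y].flatMap enc)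
      ([({ x with σ := σ₃ } : Let (2 ^ R)), { y with σ := σ₄ }].flatMap enc) := by
  have hB := P.Bc_le
  obtain ⟨e₃, e₄⟩ := h.pos_eq
  obtain ⟨a, ha, hl⟩ := P.ent' ⟨x.σ, y.σ, σ₃, σ₄, false⟩ (by simpa [Ent.good] using h)
  have hk : Bc - 1 < len R .ruleW := by
    simp only [len, Rt.isRule, if_true]
    omega
  have hs := ha .ruleW rfl
  have hb := (P.b0_len .ruleW).2.2.2
  simp only [Rt.prev] at hb
  set x' : Let (2 ^ R) := { x with σ := σ₃ } with hx'
  set y' : Let (2 ^ R) := { y with σ := σ₄ } with hy'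
  have vx : x'.valid := by
    unfold Let.valid at hx ⊢
    simpa only [hx', e₃] using hx
  have vy : y'.valid := by
    unfold Let.valid at hy ⊢
    simpa only [hy', e₄] using hy
  let Rb : Blk R := { encB y' with
    u := Function.update (encB y').u (b0 R .ruleW + (Bc - 1) + 1) (code y.σ (Bc - 1)) }
  have vR : Rb.Valid := valid_update P (Co.enc_valid y' vy) _ (by omega) (by omega)
  have hpre : (stC (encB x') Rb .ruleW a (Bc - 1) false).Pre :=
    stC_pre P (Co.enc_valid x' vx) vR hs hk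
  have hinv : (stC (encB x') Rb .ruleW a (Bc - 1) false).RInv := by
    refine stC_rinv hs hk (by simp) (fun _ i h₁ h₂ => ?_) (fun _ i h₁ h₂ => ?_) (by simp)
    · rw [ent_lab hl h₁ (by omega)]
      exact encU_rule P x' rfl h₁
    · rw [ent_lab hl h₁ (by omega)]
      simp only [Rb]
      rw [Function.update_of_ne (by omega)]
      exact encU_rule P y' rfl h₁
  have hlab : (posAt R (a + (Bc - 1) + 1)).lab =
      (⟨x.σ, y.σ, σ₃, σ₄, false⟩ : Ent).lab (Bc - 1) := by
    rw [add_assoc, ent_lab hl (by omega) (by omega)]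
    congr 1
  have hAF := AF.evC (stC (encB x') Rb .ruleW a (Bc - 1) false) (code σ₄ (Bc - 1)) .ruleR rfl rfl
    (stC_be P hk) (stC_first P hk)
    (by simp only [stC, wrC, hlab, Rb, Function.update_self, Ent.lab, and_self])
    (by
      simp only [stC, nxt, hlab, Ent.lab]
      rw [if_pos (by simp only [decide_eq_true_eq]; omega)])
  have hE := eqv_of_AF Re Fw No hpre hinv hAF
  have hd : (stC (encB x') Rb .ruleW a (Bc - 1) false).dec = [x, y] := by
    unfold PS.dec
    rw [dec_of Co _ x rfl rfl e₃, dec_of Co _ y rfl rfl e₄]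
    · funext i
      simp only [PS.uR0, stC_k, stC_a0]
      simp only [stC]
      split_ifs with hi
      · rw [ent_lab hl (by omega) (by omega), encU_hi y (by omega)]
        simp only [Ent.lab]
        congr 1
        omega
      · simp only [Rb]
        by_cases e : i = b0 R .ruleW + (Bc - 1) + 1
        · rw [e, Function.update_self, add_assoc, encU_rule P y rfl (by omega)]
          congr 1
        · rw [Function.update_of_ne e]
          simp only [encB]
          rcases lt_or_ge i (5 * 2 ^ R) with h₅ | h₅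
          · exact encU_lo y σ₄ h₅
          · rw [encU_hi _ h₅, encU_hi _ h₅, code_ge _ (by omega), code_ge _ (by omega)]
    · funext i
      simp only [PS.uL0, stC_kB, stC_a0]
      simp only [stC]
      split_ifs with hi
      · rw [ent_lab hl (by omega) (by omega), encU_hi x (by omega)]
        simp only [Ent.lab]
        congr 1
        omega
      · simp only [encB]
        rcases lt_or_ge i (5 * 2 ^ R) with h₅ | h₅
        · exact encU_lo x σ₃ h₅
        · rw [encU_hi _ h₅, encU_hi _ h₅, code_ge _ (by omega), code_ge _ (by omega)]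
  rw [hd] at hE
  convert hE using 2
  unfold PS.dec
  rw [dec_of Co _ x' rfl rfl rfl rfl, dec_of Co _ y' rfl rfl rfl]
  funext i
  simp only [PS.uR0, stC, Rb, Function.update_idem]
  by_cases e : i = b0 R .ruleW + (Bc - 1) + 1
  · rw [e, Function.update_self, add_assoc, encU_rule P y' rfl (by omega)]
    congr 1
  · rw [Function.update_of_ne e]
    rfl

include P Co Re Fw No in
theorem step_swap (hx : x.valid) (hy : y.valid) (j : Fin 4) (hl : x.σ.1.lst = false) :
    (lev R).Eqv ([x, y].flatMap enc) ([x.setT j (y.t j), y.setT j (x.t j)].flatMap enc) := by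
  have hp := Nat.two_pow_pos R
  have hj := j.isLt
  have hlen : len R (.swapW j) = 2 ^ R := by simp [len, Rt.isRule]
  have hk : 2 ^ R - 1 < len R (.swapW j) := by omega
  have hs : Start R (.swapW j) (b0 R (.swapW j)) := by simp [Start, Rt.isRule]
  have hb := (P.b0_len (.swapW j)).2.2.2
  simp only [Rt.prev] at hb
  have hm : (j.val + 2) * 2 ^ R = (j.val + 1) * 2 ^ R + 2 ^ R := by ring
  have h₃ : (j.val + 2) * 2 ^ R ≤ 5 * 2 ^ R := Nat.mul_le_mul_right _ (by omega)
  have h₄ : 1 * 2 ^ R ≤ (j.val + 1) * 2 ^ R := Nat.mul_le_mul_right _ (by omega)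
  set x' := x.setT j (y.t j) with hx'
  set y' := y.setT j (x.t j) with hy'
  have vx : x'.valid := hx
  have vy : y'.valid := hy
  generalize hb0 : b0 R (.swapW j) = b at hb hs
  let Rb : Blk R := { encB y' with
    u := Function.update (encB y').u (b + (2 ^ R - 1) + 1) (encU y (b + (2 ^ R - 1) + 1)) }
  have vR : Rb.Valid := valid_update P (Co.enc_valid y' vy) _ (by omega) (by omega)
  have hpre : (stC (encB x') Rb (.swapW j) b (2 ^ R - 1) (encU x (b + (2 ^ R - 1) + 1))).Pre :=
    stC_pre P (Co.enc_valid x' vx) vR hs hk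
  have hinv : (stC (encB x') Rb (.swapW j) b (2 ^ R - 1) (encU x (b + (2 ^ R - 1) + 1))).RInv :=
    stC_rinv hs hk (fun _ => ⟨j, rfl⟩) (by simp [Rt.isRule]) (by simp [Rt.isRule]) (by simp)
  have hlst : (posAt R (b + (2 ^ R - 1) + 1)).lst = true := by
    have := ((P.run _ _ hs).2 (2 ^ R - 1 + 1) (by omega) (by omega)).2.2 (by omega)
    simpa [fin, Rt.isRule, add_assoc] using this
  have hAF := AF.evC (stC (encB x') Rb (.swapW j) b (2 ^ R - 1) (encU x (b + (2 ^ R - 1) + 1)))
    (encU x (b + (2 ^ R - 1) + 1)) (.swapR j) rfl rfl (stC_be P hk) (stC_first P hk)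
    (by
      simp only [stC, wrC, hb0, Rb, Function.update_self, and_true]
      exact (encU_setT x y j (by omega) (by omega)).symm)
    (by
      simp only [stC, nxt, hlst, if_true, dat_b, and_true]
      exact hl)
  have hE := eqv_of_AF Re Fw No hpre hinv hAF
  have hd : (stC (encB x') Rb (.swapW j) b (2 ^ R - 1) (encU x (b + (2 ^ R - 1) + 1))).dec =
      [x, y] := by
    unfold PS.dec
    rw [dec_of Co _ x rfl rfl rfl, dec_of Co _ y rfl rfl rfl]
    · funext i
      simp only [PS.uR0, stC_k]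
      simp only [stC, hb0]
      split_ifs with hi
      · exact encU_setT x y j (by omega) (by omega)
      · simp only [Rb]
        by_cases e : i = b + (2 ^ R - 1) + 1
        · rw [e, Function.update_self]
        · rw [Function.update_of_ne e]
          exact encU_out y j _ (by omega)
    · funext i
      simp only [PS.uL0, stC_k]
      simp only [stC, hb0, true_and]
      split_ifs with hi hi'
      · simp only [Rb]
        rw [Function.update_of_ne (by omega)]
        exact encU_setT y x j (by omega) (by omega)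
      · rw [hi']
      · exact encU_out x j _ (by omega)
  rw [hd] at hE
  convert hE using 2
  unfold PS.dec
  rw [dec_of Co _ x' rfl rfl rfl rfl, dec_of Co _ y' rfl rfl rfl]
  funext i
  simp only [PS.uR0, stC, Rb, hb0, Function.update_idem]
  by_cases e : i = b + (2 ^ R - 1) + 1
  · rw [e, Function.update_self]
    exact (encU_setT y x j (by omega) (by omega)).symm
  · rw [Function.update_of_ne e]
    rfl

end

end ComplAux

open ComplAux in
theorem complStmt : ComplStmt := by
  intro R P Co Re Fw No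
  constructor
  · intro a b h
    cases h with
    | fin x y σ₃ σ₄ h =>
      by_cases hv : x.valid ∧ y.valid
      · exact step_fin P Co Re Fw No hv.1 hv.2 h
      · refine Rew.Eqv.of_not_NZ (not_NZ_of_invalid Co hv) (not_NZ_of_invalid Co ?_)
        obtain ⟨e₃, e₄⟩ := h.pos_eq
        unfold Let.valid at hv ⊢
        simpa only [e₃, e₄] using hv
    | swap x y j h =>
      by_cases hv : x.valid ∧ y.valid
      · exact step_swap P Co Re Fw No hv.1 hv.2 j h
      · exact Rew.Eqv.of_not_NZ (not_NZ_of_invalid Co hv) (not_NZ_of_invalid Co hv)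
  · intro a h
    cases h with
    | invalid x h => simpa using Co.invalid x h
    | fin x y h =>
      by_cases hv : x.valid ∧ y.valid
      · exact zero_fin P Co Re No hv.1 hv.2 h
      · exact not_NZ_of_invalid Co hv
    | inc x y h =>
      by_cases hv : x.valid ∧ y.valid
      · exact zero_inc P Co Re No hv.1 hv.2 h
      · exact not_NZ_of_invalid Co hv
    | eq x y j hl h =>
      by_cases hv : x.valid ∧ y.valid
      · exact zero_eq P Co Re No hv.1 hv.2 hl h
      · exact not_NZ_of_invalid Co hv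

end Crest.Agent.R176.Lv
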