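import Crest.Agent.R176.LvCell

/-!
Row 176: the rewriting system of level `R`, blocks, pair states and the run invariant.
-/

set_option autoImplicit false
set_option synthInstance.maxSize 4096

namespace Crest.Agent.R176.Lv

/-- Letters of level `R`: address, table pointer, four registers, cell. -/
@[ext] structure Let (R : ℕ) where
  A : Fin (2 ^ R)
  π : Fin (R + 1)
  t : Fin 4 → Fin R → Bool
  σ : Cell

def Let.equivProd (R : ℕ) : Let R ≃ Fin (2 ^ R) × Fin (R + 1) × (Fin 4 → Fin R → Bool) × Cell where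
  toFun x := (x.A, x.π, x.t, x.σ)
  invFun p := ⟨p.1, p.2.1, p.2.2.1, p.2.2.2⟩
  left_inv _ := rfl
  right_inv _ := rfl

noncomputable instance (R : ℕ) : Fintype (Let R) := Fintype.ofEquiv _ (Let.equivProd R).symm

variable {R : ℕ}

def Let.valid (x : Let R) : Prop :=
  x.σ.1.lab = Tab x.π ∧ (x.σ.1.lst = true ↔ x.A.val + 1 = 2 ^ R)

/-- The counter rules. -/
def Let.inc (x y : Let R) : Prop :=
  y.A.val = (x.A.val + 1) % 2 ^ R ∧
    y.π.val = if x.σ.1.lst = true ∧ x.σ.1.reg = 4 then 0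
      else if x.σ.1.lst = true ∧ x.σ.1.reg = 5 then R else min (x.π.val + 1) R

/-- Replacing register `j`. -/
def Let.setT (x : Let R) (j : Fin 4) (v : Fin R → Bool) : Let R :=
  { x with t := Function.update x.t j v }

inductive LStep : List (Let R) → List (Let R) → Prop
  | fin (x y : Let R) (σ₃ σ₄ : Cell) : cstep x.σ y.σ σ₃ σ₄ →
      LStep [x, y] [{ x with σ := σ₃ }, { y with σ := σ₄ }]
  | swap (x y : Let R) (j : Fin 4) : x.σ.1.lst = false →
      LStep [x, y] [x.setT j (y.t j), y.setT j (x.t j)]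

inductive LZero : List (Let R) → Prop
  | invalid (x : Let R) : ¬ x.valid → LZero [x]
  | fin (x y : Let R) : czero x.σ y.σ → LZero [x, y]
  | inc (x y : Let R) : ¬ x.inc y → LZero [x, y]
  | eq (x y : Let R) (j : Fin 4) : x.σ.1.lst = false → x.t j = y.t j → LZero [x, y]

/-- The system of level `R`. -/
def lev (R : ℕ) : Rew (Let R) := ⟨LStep, LZero⟩

/-- Cut letters: last letters of units. -/
def cut (x : Let R) : Prop := ∃ c, x.σ = mkC c ∧ c.pos.bd = true ∧ c.hd.fin

/-! ### Blocks -/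

/-- Length of a block. -/
def N (R : ℕ) : ℕ := 6 * 2 ^ R

def ptr (R i : ℕ) : ℕ := if 5 * 2 ^ R ≤ i then min (i - 5 * 2 ^ R) R else R

theorem ptr_lt (R i : ℕ) : ptr R i < R + 1 := by unfold ptr; split_ifs <;> omega

/-- The positional part of cell `i` of a block. -/
noncomputable def posAt (R i : ℕ) : Pos :=
  ⟨⟨i / 2 ^ R % 6, Nat.mod_lt _ (by norm_num)⟩, decide (i % 2 ^ R + 1 = 2 ^ R), Tab (ptr R i)⟩

def arr (i a : ℕ) : Arr := if i < a then .lt else if i = a then .eq else .gt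

/-- The data of a block (all but the head). -/
@[ext] structure Blk (R : ℕ) where
  A : ℕ
  pi : ℕ
  b : Pos
  u : ℕ → Bool
  t : ℕ → Fin 4 → Fin R → Bool
  al : ℕ
  be : ℕ

namespace Blk

def dat (B : Blk R) (i : ℕ) : Data :=
  if 5 * 2 ^ R ≤ i then
    ⟨B.A.testBit (i - 5 * 2 ^ R), decide (∀ j < i - 5 * 2 ^ R, B.A.testBit j = true),
      decide (i - 5 * 2 ^ R < B.pi), decide (i - 5 * 2 ^ R ≤ B.pi), B.b⟩
  else ⟨false, false, false, false, B.b⟩

noncomputable def cc (B : Blk R) (hd : HD) (i : ℕ) : CC :=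
  ⟨posAt R i, B.dat i, hd, arr i B.al, arr i B.be, B.u i⟩

noncomputable def cell (B : Blk R) (hd : HD) (i : ℕ) : Let R :=
  ⟨⟨i % 2 ^ R, Nat.mod_lt _ (Nat.two_pow_pos R)⟩, ⟨ptr R i, ptr_lt R i⟩, B.t i, mkC (B.cc hd i)⟩

/-- The constraints on the bits `u`. -/
structure UOk (R : ℕ) (b : Pos) (u : ℕ → Bool) : Prop where
  used : ∀ i, u i = true → 2 ^ R ≤ i ∧ i < 5 * 2 ^ R + Bc
  spec : ∀ j : Fin 14, u (5 * 2 ^ R + j) = pcode b j

structure Valid (B : Blk R) : Prop where
  A_lt : B.A < 2 ^ 2 ^ R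
  pi_le : B.pi ≤ 2 ^ R
  lab : B.b.lab = Tab B.pi
  lst : B.b.lst = true ↔ B.A + 1 = 2 ^ 2 ^ R
  al_lt : B.al < N R
  be_lt : B.be < N R
  uok : UOk R B.b B.u
  inj : ∀ i < N R, ∀ i' < N R, ∀ j, i / 2 ^ R = i' / 2 ^ R → B.t i j = B.t i' j → i = i'
  junk : ∀ i, N R ≤ i → B.t i = fun _ _ => false

/-- The simulated letter. -/
noncomputable def dec (B : Blk R) : Let (2 ^ R) :=
  ⟨⟨B.A % 2 ^ 2 ^ R, Nat.mod_lt _ (Nat.two_pow_pos _)⟩, ⟨min B.pi (2 ^ R), by omega⟩,
    fun j i => B.u ((j.val + 1) * 2 ^ R + i), (B.b, rcode.symm fun i => B.u (5 * 2 ^ R + 14 + i))⟩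

end Blk

/-- The canonical registers. -/
def tcan (R i : ℕ) : Fin 4 → Fin R → Bool :=
  if i < N R then fun _ k => (i % 2 ^ R).testBit k else fun _ _ => false

/-- The bits `u` of the block of a letter. -/
noncomputable def encU (W : Let (2 ^ R)) (i : ℕ) : Bool :=
  if 5 * 2 ^ R ≤ i then code W.σ (i - 5 * 2 ^ R)
  else if h : 2 ^ R ≤ i then
    W.t ⟨(i / 2 ^ R - 1) % 4, Nat.mod_lt _ (by norm_num)⟩ ⟨i % 2 ^ R, Nat.mod_lt _ (Nat.two_pow_pos R)⟩
  else false

/-- The canonical block of a letter. -/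
noncomputable def encB (W : Let (2 ^ R)) : Blk R := ⟨W.A, W.π, W.σ.1, encU W, tcan R, 0, 0⟩

/-- Head track of a single block with an idle head at `h`. -/
def hdS (h i : ℕ) : HD := if i < h then .bef false else if i = h then .on none else .aft false

noncomputable def wordS (B : Blk R) (h : ℕ) : List (Let R) :=
  (List.range (N R)).map fun i => B.cell (hdS h i) i

noncomputable def enc (W : Let (2 ^ R)) : List (Let R) := wordS (encB W) 0

/-! ### Pair states -/

/-- Two blocks with a running head at the global position `h`. -/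
@[ext] structure PS (R : ℕ) where
  L : Blk R
  Rb : Blk R
  h : ℕ
  m : Run

/-- The cell before the region scanned by the `β` pointers. -/
def b0 (R : ℕ) (ρ : Rt) : ℕ := (ρ.prev + 1) * 2 ^ R - 1

/-- Number of rounds of a routine. -/
noncomputable def len (R : ℕ) (ρ : Rt) : ℕ := if ρ.isRule then Bc else 2 ^ R

/-- Starting positions of `α`. -/
def Start (R : ℕ) (ρ : Rt) (a : ℕ) : Prop :=
  if ρ.isRule then ∃ e < ents.length, a + 1 = 5 * 2 ^ R + Bc * (e + 1) else a = b0 R ρ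

namespace PS

variable (s : PS R)

def hd (i : ℕ) : HD :=
  if i < s.h then .bef (decide (N R ≤ i)) else if i = s.h then .on (some s.m)
  else .aft (decide (i < N R))

noncomputable def cc (i : ℕ) : CC :=
  if i < N R then s.L.cc (s.hd i) i else s.Rb.cc (s.hd i) (i - N R)

noncomputable def cell (i : ℕ) : Let R :=
  if i < N R then s.L.cell (s.hd i) i else s.Rb.cell (s.hd i) (i - N R)

noncomputable def word : List (Let R) := (List.range (2 * N R)).map s.cell

/-- Global position of a pointer. -/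
def gp : Pt → ℕ
  | .aL => s.L.al
  | .bL => s.L.be
  | .bR => N R + s.Rb.be
  | .bd => N R - 1

/-- Bounds. -/
structure Bd : Prop where
  Lal : s.L.al < N R
  Lbe : s.L.be < N R
  Ral : s.Rb.al < N R
  Rbe : s.Rb.be < N R
  h_lt : s.h < 2 * N R
  side : s.m.side = decide (N R ≤ s.h)

structure Pre : Prop where
  bd : s.Bd
  L : s.L.Valid
  Rb : s.Rb.Valid

/-- Number of completed rounds. -/
def k : ℕ := if s.m.first then 0 else s.Rb.be - b0 R s.m.rt

def kA : ℕ := if s.m.ph = .A then s.k else s.k + 1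

def kB : ℕ := if s.m.ph = .C then s.k + 1 else s.k

def a0 : ℕ := s.L.al - s.kA

/-- The invariant of states reachable from the start of a routine. -/
structure RInv : Prop where
  first : s.m.first = false → b0 R s.m.rt < s.Rb.be
  kA_le : s.kA ≤ len R s.m.rt
  a : 0 < s.kA → s.kA ≤ s.L.al ∧ Start R s.m.rt s.a0 ∧ s.m.y = posAt R s.L.al
  a' : s.kA = 0 → s.m.y = Pos.dflt
  b : 0 < s.kB → s.L.be = b0 R s.m.rt + s.kB ∧ s.m.z = (s.L.dat s.L.be, s.L.u s.L.be)
  b' : s.kB = 0 → s.m.z = zdflt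
  old : s.m.old = true → s.m.ph = .C ∧ ∃ j, s.m.rt = .swapW j
  w : s.m.rt.isW = true → s.k < len R s.m.rt
  ruleL : s.m.rt.isRule = true → ∀ i, 1 ≤ i → i ≤ s.kB →
    s.L.u (b0 R s.m.rt + i) = (posAt R (s.a0 + i)).lab.t3
  ruleR : s.m.rt.isRule = true → ∀ i, 1 ≤ i → i ≤ s.k →
    s.Rb.u (b0 R s.m.rt + i) = (posAt R (s.a0 + i)).lab.t4
  eq : (∃ j, s.m.rt = .eq j) → ∀ i, 1 ≤ i → i ≤ s.k →
    s.L.u (b0 R s.m.rt + i) = s.Rb.u (b0 R s.m.rt + i)
  btw : (s.gp s.m.src ≤ s.h ∧ s.h ≤ s.gp s.m.tgt) ∨ (s.gp s.m.tgt ≤ s.h ∧ s.h ≤ s.gp s.m.src)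

/-- The bits of the left block before the routine. -/
noncomputable def uL0 (i : ℕ) : Bool :=
  match s.m.rt with
  | .ruleW => if b0 R s.m.rt < i ∧ i ≤ b0 R s.m.rt + s.kB then
      (posAt R (s.a0 + (i - b0 R s.m.rt))).lab.t1 else s.L.u i
  | .swapW _ => if b0 R s.m.rt < i ∧ i ≤ b0 R s.m.rt + s.k then s.Rb.u i
      else if s.m.ph = .C ∧ i = b0 R s.m.rt + s.k + 1 then s.m.old else s.L.u i
  | _ => s.L.u i

/-- The bits of the right block before the routine. -/
noncomputable def uR0 (i : ℕ) : Bool :=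
  match s.m.rt with
  | .ruleW => if b0 R s.m.rt < i ∧ i ≤ b0 R s.m.rt + s.k then
      (posAt R (s.a0 + (i - b0 R s.m.rt))).lab.t2 else s.Rb.u i
  | .swapW _ => if b0 R s.m.rt < i ∧ i ≤ b0 R s.m.rt + s.k then s.L.u i else s.Rb.u i
  | _ => s.Rb.u i

noncomputable def dec : List (Let (2 ^ R)) :=
  [({ s.L with u := s.uL0 } : Blk R).dec, ({ s.Rb with u := s.uR0 } : Blk R).dec]

/-- The pair in which the last forward move must have happened. -/
def Need (p : ℕ) : Prop :=
  (s.h = p ∧ (p < s.gp s.m.src ∨ (s.m.src = .bd ∧ p = s.gp s.m.src))) ∨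
    (s.h = p + 1 ∧ (s.gp s.m.src < p + 1 ∨ (s.m.src ≠ .bd ∧ p + 1 = s.gp s.m.src)))

/-- The state just after a start. -/
def IsStart : Prop := s.h + 1 = N R ∧ s.m = Run.start s.m.rt

/-- The final test fires at the pair `(s.h, s.h + 1)`. -/
def AZ : Prop :=
  s.m.ph = .C ∧ s.h = N R + s.Rb.be ∧ s.Rb.be + 1 < N R ∧
    (s.m.first = true ↔ preB s.m.rt (posAt R s.Rb.be)) ∧
    fzc s.m.rt s.m.y s.m.z (s.Rb.dat (s.Rb.be + 1)) (s.Rb.u (s.Rb.be + 1))

/-- Termination measure of backward runs. -/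
def μ : ℕ := (s.L.al + s.L.be + s.Rb.be) * (2 * N R) + Nat.dist s.h (s.gp s.m.src)

end PS

/-- Forward moves of pair states at the cells `p`, `p + 1`. -/
inductive AF : ℕ → PS R → PS R → Prop
  | mvR (s : PS R) : s.h + 1 < 2 * N R → s.h < s.gp s.m.tgt → s.gp s.m.src ≤ s.h →
      AF s.h s { s with h := s.h + 1, m := { s.m with side := decide (N R ≤ s.h + 1) } }
  | mvL (s : PS R) (p : ℕ) : s.h = p + 1 → s.gp s.m.tgt ≤ p → p < s.gp s.m.src →
      AF p s { s with h := p, m := { s.m with side := decide (N R ≤ p) } }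
  | evA (s : PS R) : s.m.ph = .A → s.h = s.L.al → s.h + 1 < N R →
      (if s.m.first then preA s.m.rt (posAt R s.h) ∧ s.m.y = Pos.dflt
        else s.m.y = posAt R s.h ∧ ¬ fin s.m.rt (posAt R s.h)) →
      okA s.m.rt (posAt R (s.h + 1)) →
      AF s.h s { s with L := { s.L with al := s.h + 1 }, h := s.h + 1,
                        m := { s.m with ph := .B, y := posAt R (s.h + 1) } }
  | evB (s : PS R) (v o : Bool) : s.m.ph = .B → s.h = s.L.be → s.h + 1 < N R → s.m.old = false →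
      (if s.m.first then preB s.m.rt (posAt R s.h) ∧ s.m.z = zdflt
        else s.m.z = (s.L.dat s.h, s.L.u s.h)) →
      wrB s.m.rt s.m.y (s.L.u (s.h + 1)) v o →
      AF s.h s { s with L := { s.L with be := s.h + 1, u := Function.update s.L.u (s.h + 1) v },
                        h := s.h + 1,
                        m := { s.m with ph := .C, z := (s.L.dat (s.h + 1), v), old := o } }
  | evC (s : PS R) (v : Bool) (ρ' : Rt) : s.m.ph = .C → s.h = N R + s.Rb.be → s.Rb.be + 1 < N R →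
      (s.m.first = true ↔ preB s.m.rt (posAt R s.Rb.be)) →
      wrC s.m.rt s.m.y s.m.z s.m.old (s.Rb.u (s.Rb.be + 1)) v → nxt s.m.rt s.m.y s.m.z ρ' →
      AF s.h s { s with
        Rb := { s.Rb with be := s.Rb.be + 1, u := Function.update s.Rb.u (s.Rb.be + 1) v },
        h := s.h + 1, m := { s.m with rt := ρ', ph := .A, first := false, old := false } }

/-- Units. -/
def Unit (M : List (Let R)) (W : List (Let (2 ^ R))) : Prop :=
  (∃ (B : Blk R) (h : ℕ), B.Valid ∧ h < N R ∧ M = wordS B h ∧ W = [B.dec]) ∨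
    ∃ s : PS R, s.Pre ∧ s.RInv ∧ M = s.word ∧ W = s.dec

end Crest.Agent.R176.Lv
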