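import Crest.Agent.R176.LvStmts

/-!
Row 176: registers behave like fermions along a region.
-/

set_option autoImplicit false

namespace Crest.Agent.R176.Lv

variable {R : ℕ}

namespace Ferm

/-- Permuting register `j`. -/
def permT (c : ℕ → Let R) (j : Fin 4) (e : ℕ → ℕ) (i : ℕ) : Let R := (c i).setT j ((c (e i)).t j)

theorem permT_σ (c : ℕ → Let R) (j : Fin 4) (e : ℕ → ℕ) (i : ℕ) : (permT c j e i).σ = (c i).σ := rfl

theorem permT_t (c : ℕ → Let R) (j : Fin 4) (e : ℕ → ℕ) (i : ℕ) :
    (permT c j e i).t j = (c (e i)).t j := by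
  simp [permT, Let.setT]

theorem permT_permT (c : ℕ → Let R) (j : Fin 4) (e e' : ℕ → ℕ) :
    permT (permT c j e) j e' = permT c j fun i => e (e' i) := by
  funext i
  simp [permT, Let.setT]

theorem permT_fix (c : ℕ → Let R) (j : Fin 4) (e : ℕ → ℕ) (i : ℕ) (h : e i = i) :
    permT c j e i = c i := by
  simp [permT, Let.setT, h]

theorem adj (n : ℕ) (c : ℕ → Let R) (j : Fin 4) (p : ℕ) (hp : p + 1 < n)
    (h : (c p).σ.1.lst = false) :
    (lev R).Eqv ((List.range n).map c) ((List.range n).map (permT c j (Equiv.swap p (p + 1)))) := by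
  refine eqv_range_of_step hp ?_ fun i _ h1 h2 =>
    permT_fix c j _ i (Equiv.swap_apply_of_ne_of_ne h1 h2)
  have := LStep.swap (c p) (c (p + 1)) j h
  simpa [permT, lstep_iff] using this

theorem swap (n : ℕ) (j : Fin 4) (k d : ℕ) : ∀ c : ℕ → Let R, k + d + 1 < n →
    (∀ i, k ≤ i → i < k + d + 1 → (c i).σ.1.lst = false) →
    (lev R).Eqv ((List.range n).map c)
      ((List.range n).map (permT c j (Equiv.swap k (k + d + 1)))) := by
  induction d with
  | zero => exact fun c hn h => adj n c j k hn (h k le_rfl (by omega))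
  | succ d ih =>
    intro c hn h
    have h1 := adj n c j (k + d + 1) hn (h _ (by omega) (by omega))
    have h2 := ih (permT c j (Equiv.swap (k + d + 1) (k + d + 1 + 1))) (by omega)
      fun i a b => h i a (by omega)
    have h3 := adj n (permT (permT c j (Equiv.swap (k + d + 1) (k + d + 1 + 1))) j
      (Equiv.swap k (k + d + 1))) j (k + d + 1) hn (h _ (by omega) (by omega))
    refine (h1.trans (h2.trans h3)).trans (Rew.Eqv.of_eq ?_)
    rw [permT_permT, permT_permT]
    congr 2
    funext i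
    simp only [Equiv.swap_apply_def]
    split_ifs <;> omega

theorem zero (n : ℕ) (c : ℕ → Let R) (j : Fin 4) (k k' : ℕ) (hk : k < k') (hn : k' < n)
    (h : ∀ i, k ≤ i → i < k' → (c i).σ.1.lst = false) (e : (c k).t j = (c k').t j) :
    ¬ (lev R).NZ ((List.range n).map c) := by
  intro hnz
  rcases Nat.lt_or_ge (k + 1) k' with hk' | hk'
  · obtain ⟨d, rfl⟩ : ∃ d, k' = k + 1 + d + 1 := ⟨k' - (k + 2), by omega⟩
    have h1 := hnz.of_eqv (swap n j (k + 1) d c hn fun i a b => h i (by omega) b)
    have h2 := pairOk_of_NZ (h1.range_pair (p := k) (by omega))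
    refine h2.ne (h k le_rfl hk) j ?_
    rw [permT_t, permT_t, Equiv.swap_apply_left,
      Equiv.swap_apply_of_ne_of_ne (by omega) (by omega), e]
  · obtain rfl : k' = k + 1 := by omega
    exact (pairOk_of_NZ (hnz.range_pair hn)).ne (h k le_rfl hk) j e

theorem window (n m : ℕ) (c : ℕ → Let R) (hnz : (lev R).NZ ((List.range n).map c))
    (hn : 2 * m + 1 ≤ n) (hR : 2 * m + 1 ≤ 2 ^ R) :
    ∃ k, k + m ≤ n ∧ ∀ i, k ≤ i → i < k + m → (c i).σ.1.lst = false := by
  by_cases h0 : ∀ i < m, (c i).σ.1.lst = false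
  · exact ⟨0, by omega, fun i _ hi => h0 i (by omega)⟩
  push Not at h0
  obtain ⟨i0, hi0, hl⟩ := h0
  have hl' : (c i0).σ.1.lst = true := by simpa using hl
  have hp : ∀ p, p + 1 < n → PairOk (c p) (c (p + 1)) := fun p hp =>
    pairOk_of_NZ (hnz.range_pair hp)
  have hA : ∀ d, d < m → (c (i0 + d + 1)).A.val = d := by
    intro d
    induction d with
    | zero =>
      intro _
      have h1 := hp i0 (by omega)
      rw [Nat.add_zero, h1.inc.1, h1.vx.2.1 hl', Nat.mod_self]
    | succ d ih =>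
      intro hd
      have h1 := hp (i0 + d + 1) (by omega)
      have h2 := h1.inc.1
      rw [ih (by omega), Nat.mod_eq_of_lt (by omega)] at h2
      exact h2
  refine ⟨i0 + 1, by omega, fun i a b => ?_⟩
  obtain ⟨d, rfl⟩ : ∃ d, i = i0 + d + 1 := ⟨i - (i0 + 1), by omega⟩
  have h1 := (hp (i0 + d) (by omega)).vy.2
  rw [hA d (by omega)] at h1
  by_contra h
  have := h1.1 (by simpa using h)
  omega

end Ferm

theorem fermStmt : FermStmt := fun _ =>
  { swap := fun n c j k k' hk hn h => by
      obtain ⟨d, rfl⟩ : ∃ d, k' = k + d + 1 := ⟨k' - (k + 1), by omega⟩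
      exact Ferm.swap n j k d c hn h
    zero := Ferm.zero
    window := Ferm.window }

end Crest.Agent.R176.Lv
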