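import Crest.Agent.R176.LvStmts

/-!
Row 176: the run invariant is preserved by forward moves.
-/

set_option autoImplicit false
set_option synthInstance.maxSize 4096

namespace Crest.Agent.R176.Lv

namespace LvFwd

variable {R : ℕ}

theorem uok_update (P : PosFacts R) {b : Pos} {u : ℕ → Bool} (hu : Blk.UOk R b u) {i : ℕ}
    {v : Bool} (h : v = u i ∨ (2 ^ R ≤ i ∧ i < 5 * 2 ^ R) ∨
      (5 * 2 ^ R + 14 ≤ i ∧ i < 5 * 2 ^ R + Bc)) : Blk.UOk R b (Function.update u i v) := by
  rcases h with rfl | h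
  · rwa [Function.update_eq_self]
  have hB := P.Bc_le.1
  refine ⟨fun i' hi' => ?_, fun j => ?_⟩
  · by_cases e : i' = i
    · subst e; omega
    · rw [Function.update_of_ne e] at hi'
      exact hu.used i' hi'
  · have := j.2
    rw [Function.update_of_ne (by omega)]
    exact hu.spec j

/-- The cell written in round `k + 1` may be overwritten. -/
theorem write_ok (P : PosFacts R) {ρ : Rt} {a k : ℕ} (hs : Start R ρ a) (hk : k + 1 ≤ len R ρ)
    {u v : Bool}
    (h : v = u ∨ (∃ j, ρ = .swapW j) ∨ (ρ = .ruleW ∧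
      ((u = (posAt R (a + (k + 1))).lab.t1 ∧ v = (posAt R (a + (k + 1))).lab.t3) ∨
        (u = (posAt R (a + (k + 1))).lab.t2 ∧ v = (posAt R (a + (k + 1))).lab.t4)))) :
    v = u ∨ (2 ^ R ≤ b0 R ρ + k + 1 ∧ b0 R ρ + k + 1 < 5 * 2 ^ R) ∨
      (5 * 2 ^ R + 14 ≤ b0 R ρ + k + 1 ∧ b0 R ρ + k + 1 < 5 * 2 ^ R + Bc) := by
  have hb := (P.b0_len ρ).2.2.2
  rcases h with h | ⟨j, rfl⟩ | ⟨rfl, h⟩
  · exact Or.inl h
  · have h1 : len R (.swapW j) = 2 ^ R := rfl
    have h2 : (Rt.swapW j).prev = j := rfl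
    have h3 : (j.val + 1) * 2 ^ R ≤ 4 * 2 ^ R := Nat.mul_le_mul_right _ j.2
    have h4 : 2 ^ R ≤ (j.val + 1) * 2 ^ R := Nat.le_mul_of_pos_left _ (Nat.succ_pos _)
    rw [h2] at hb
    exact Or.inr (Or.inl (by omega))
  · have h1 : len R .ruleW = Bc := rfl
    have h2 : Rt.ruleW.prev = 4 := rfl
    rw [h2] at hb
    by_cases h14 : k < 14
    · obtain ⟨e, he, hl⟩ := P.ent .ruleW a rfl hs
      have h3 := hl k (by omega)
      have h4 := (P.good_spec e he).2.2 k h14
      rw [show a + (k + 1) = a + 1 + k by omega, h3] at h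
      left
      rcases h with ⟨rfl, rfl⟩ | ⟨rfl, rfl⟩
      exacts [h4.1, h4.2]
    · exact Or.inr (Or.inr (by omega))

theorem k_pos {s : PS R} (h : s.RInv) (hf : s.m.first = false) :
    0 < s.k ∧ s.Rb.be = b0 R s.m.rt + s.k := by
  have := h.first hf
  unfold PS.k
  rw [hf]
  simp only [Bool.false_eq_true, if_false]
  omega

theorem k_zero {s : PS R} (hf : s.m.first = true) : s.k = 0 := by
  unfold PS.k
  rw [if_pos hf]

theorem evA (P : PosFacts R) {s : PS R} (hp : s.Pre) (h : s.RInv) (hph : s.m.ph = .A)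
    (hh : s.h = s.L.al) (hN : s.h + 1 < N R)
    (hc : if s.m.first then preA s.m.rt (posAt R s.h) ∧ s.m.y = Pos.dflt
      else s.m.y = posAt R s.h ∧ ¬ fin s.m.rt (posAt R s.h))
    (hok : okA s.m.rt (posAt R (s.h + 1))) {s' : PS R}
    (e : s' = { s with L := { s.L with al := s.h + 1 }, h := s.h + 1,
                       m := { s.m with ph := .B, y := posAt R (s.h + 1) } }) :
    s'.Pre ∧ s'.RInv := by
  have eA : s.kA = s.k := if_pos hph
  have eB : s.kB = s.k := if_neg (by rw [hph]; decide)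
  have k' : s'.k = s.k := by subst e; rfl
  have kA' : s'.kA = s.k + 1 := by subst e; rfl
  have kB' : s'.kB = s.kB := by rw [eB]; subst e; rfl
  have a' : s'.a0 = s.a0 := by
    unfold PS.a0
    rw [kA', eA, ← hh]
    subst e
    exact Nat.succ_sub_succ _ _
  have key : s.k + 1 ≤ len R s.m.rt ∧ s.k ≤ s.h ∧ Start R s.m.rt s.a0 := by
    cases hf : s.m.first
    · rw [hf] at hc
      have h1 := (k_pos h hf).1
      obtain ⟨h2, h3, -⟩ := h.a (by omega)
      have h4 := h.kA_le
      have h5 := ((P.run _ _ h3).2 s.k h1 (by omega)).2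
      have h6 : s.a0 + s.k = s.h := by unfold PS.a0; omega
      rw [h6] at h5
      have h7 : s.k ≠ len R s.m.rt := fun e => hc.2 (h5.2 e)
      exact ⟨by omega, by omega, h3⟩
    · rw [hf] at hc
      have h1 := k_zero hf
      have h2 := (P.b0_len s.m.rt).2.2.1
      have h3 : s.a0 = s.h := by unfold PS.a0; omega
      exact ⟨by omega, by omega, h3 ▸ (P.start _ _ hN).1 ⟨hc.1, hok⟩⟩
  have hs := hp.bd.side
  refine ⟨?_, ⟨?_, ?_, fun _ => ?_, fun h0 => ?_, ?_, ?_, fun ho => ?_, ?_, ?_, ?_, ?_, ?_⟩⟩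
  · subst e
    exact ⟨⟨hN, hp.bd.Lbe, hp.bd.Ral, hp.bd.Rbe, by simp only; omega,
      hs.trans (decide_eq_decide.2 (by simp only; omega))⟩, { hp.L with al_lt := hN }, hp.Rb⟩
  · subst e; exact h.first
  · rw [kA']; subst e; exact key.1
  · rw [kA', a']; subst e; exact ⟨Nat.succ_le_succ key.2.1, key.2.2, rfl⟩
  · omega
  · rw [kB']; subst e; exact h.b
  · rw [kB']; subst e; exact h.b'
  · subst e
    have := (h.old ho).1
    rw [hph] at this
    cases this
  · rw [k']; subst e; exact h.w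
  · rw [kB', a']; subst e; exact h.ruleL
  · rw [k', a']; subst e; exact h.ruleR
  · rw [k']; subst e; exact h.eq
  · subst e
    exact (le_total _ _).imp (fun h => ⟨le_rfl, h⟩) fun h => ⟨h, le_rfl⟩

theorem evB (P : PosFacts R) {s : PS R} (hp : s.Pre) (h : s.RInv) {v o : Bool} (hph : s.m.ph = .B)
    (hh : s.h = s.L.be) (hN : s.h + 1 < N R)
    (hc : if s.m.first then preB s.m.rt (posAt R s.h) ∧ s.m.z = zdflt
      else s.m.z = (s.L.dat s.h, s.L.u s.h))
    (hw : wrB s.m.rt s.m.y (s.L.u (s.h + 1)) v o) {s' : PS R}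
    (e : s' = { s with L := { s.L with be := s.h + 1, u := Function.update s.L.u (s.h + 1) v },
                       h := s.h + 1,
                       m := { s.m with ph := .C, z := (s.L.dat (s.h + 1), v), old := o } }) :
    s'.Pre ∧ s'.RInv := by
  have eA : s.kA = s.k + 1 := if_neg (by rw [hph]; decide)
  have eB : s.kB = s.k := if_neg (by rw [hph]; decide)
  have k' : s'.k = s.k := by subst e; rfl
  have kA' : s'.kA = s.kA := by rw [eA]; subst e; rfl
  have kB' : s'.kB = s.k + 1 := by subst e; rfl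
  have a' : s'.a0 = s.a0 := by
    unfold PS.a0
    rw [kA']
    subst e
    rfl
  have hb : s.h = b0 R s.m.rt + s.k := by
    cases hf : s.m.first
    · have h1 := (k_pos h hf).1
      have h2 := (h.b (by omega)).1
      omega
    · rw [hf] at hc
      have h1 := k_zero hf
      have h2 := (P.preB _ _ (by omega)).1 hc.1
      omega
  obtain ⟨h1, h2, h3⟩ := h.a (by omega)
  have h4 := h.kA_le
  have hy : s.m.y = posAt R (s.a0 + (s.k + 1)) := by
    rw [h3]; congr 1; unfold PS.a0; omega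
  rw [hy] at hw
  have hu : Blk.UOk R s.L.b (Function.update s.L.u (s.h + 1) v) := by
    refine uok_update P hp.L.uok ?_
    have := write_ok P h2 (k := s.k) (by omega) (u := s.L.u (s.h + 1)) (v := v) (by
      revert hw
      cases s.m.rt <;> simp only [wrB] <;> tauto)
    rwa [← hb] at this
  have hs := hp.bd.side
  refine ⟨?_, ⟨?_, ?_, ?_, ?_, fun _ => ?_, fun h0 => ?_, fun ho => ?_, ?_, ?_, ?_, ?_, ?_⟩⟩
  · subst e
    exact ⟨⟨hp.bd.Lal, hN, hp.bd.Ral, hp.bd.Rbe, by simp only; omega,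
      hs.trans (decide_eq_decide.2 (by simp only; omega))⟩,
      { hp.L with be_lt := hN, uok := hu }, hp.Rb⟩
  · subst e; exact h.first
  · rw [kA']; subst e; exact h.kA_le
  · rw [kA', a']; subst e; exact h.a
  · rw [kA']; subst e; exact h.a'
  · rw [kB']; subst e
    exact ⟨by simp only; omega, Prod.ext rfl (Function.update_self (s.h + 1) v s.L.u).symm⟩
  · omega
  · subst e
    refine ⟨rfl, ?_⟩
    change o = true at ho
    change ∃ j, s.m.rt = .swapW j
    revert hw
    cases s.m.rt <;> simp [wrB, ho]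
  · rw [k']; subst e; exact h.w
  · rw [kB', a']; subst e
    intro hr i hi hi'
    change Function.update s.L.u (s.h + 1) v (b0 R s.m.rt + i) = _
    change s.m.rt.isRule = true at hr
    by_cases hik : i = s.k + 1
    · rw [show b0 R s.m.rt + i = s.h + 1 by omega, Function.update_self, hik]
      revert hw hr
      cases s.m.rt <;> simp only [wrB, Rt.isRule] <;> grind
    · rw [Function.update_of_ne (by omega)]
      exact h.ruleL hr i hi (by omega)
  · rw [k', a']; subst e; exact h.ruleR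
  · rw [k']; subst e
    intro hr i hi hi'
    change Function.update s.L.u (s.h + 1) v (b0 R s.m.rt + i) = _
    rw [Function.update_of_ne (by omega)]
    exact h.eq hr i hi hi'
  · subst e
    exact (le_total _ _).imp (fun h => ⟨le_rfl, h⟩) fun h => ⟨h, le_rfl⟩

theorem nxt_spec {ρ ρ' : Rt} {y : Pos} {z : Data × Bool} (h : nxt ρ y z ρ') :
    ρ'.prev = ρ.prev ∧ ρ'.isRule = ρ.isRule ∧ (ρ'.isW = true → ¬ fin ρ y) ∧
      ∀ j, ρ' = .eq j → ρ = .eq j := by
  cases ρ <;> simp only [nxt] at h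
  case ruleW =>
    split_ifs at h with h1 <;> subst h <;> simp [Rt.prev, Rt.isRule, Rt.isW, fin, h1]
  case swapW j =>
    split_ifs at h with h1
    · rw [h.2]; simp [Rt.prev, Rt.isRule, Rt.isW]
    · rw [h]; simp [Rt.isRule, fin, h1]
  all_goals subst h; simp [Rt.isW]

theorem evC (P : PosFacts R) {s : PS R} (hp : s.Pre) (h : s.RInv) {v : Bool} {ρ' : Rt}
    (hph : s.m.ph = .C) (hh : s.h = N R + s.Rb.be) (hN : s.Rb.be + 1 < N R)
    (hc : s.m.first = true ↔ preB s.m.rt (posAt R s.Rb.be))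
    (hw : wrC s.m.rt s.m.y s.m.z s.m.old (s.Rb.u (s.Rb.be + 1)) v)
    (hn : nxt s.m.rt s.m.y s.m.z ρ') {s' : PS R}
    (e : s' = { s with
      Rb := { s.Rb with be := s.Rb.be + 1, u := Function.update s.Rb.u (s.Rb.be + 1) v },
      h := s.h + 1, m := { s.m with rt := ρ', ph := .A, first := false, old := false } }) :
    s'.Pre ∧ s'.RInv := by
  obtain ⟨n1, n2, n3, n4⟩ := nxt_spec hn
  have eb : b0 R ρ' = b0 R s.m.rt := by unfold b0; rw [n1]
  have el : len R ρ' = len R s.m.rt := by unfold len; rw [n2]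
  have es : ∀ a, Start R ρ' a = Start R s.m.rt a := fun a => by unfold Start; rw [n2, eb]
  have eA : s.kA = s.k + 1 := if_neg (by rw [hph]; decide)
  have eB : s.kB = s.k + 1 := if_pos hph
  have hb : s.Rb.be = b0 R s.m.rt + s.k := by
    cases hf : s.m.first
    · exact (k_pos h hf).2
    · have h1 := k_zero hf
      have h2 := (P.preB _ _ (by omega)).1 (hc.1 hf)
      omega
  have r' : s'.m.rt = ρ' := by subst e; rfl
  have k' : s'.k = s.k + 1 := by
    have : s'.k = s.Rb.be + 1 - b0 R ρ' := by subst e; rfl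
    omega
  have kA' : s'.kA = s.kA := by
    have : s'.kA = s'.k := by subst e; rfl
    omega
  have kB' : s'.kB = s.kB := by
    have : s'.kB = s'.k := by subst e; rfl
    omega
  have a' : s'.a0 = s.a0 := by
    unfold PS.a0
    rw [kA']
    subst e
    rfl
  obtain ⟨h1, h2, h3⟩ := h.a (by omega)
  have h4 := h.kA_le
  obtain ⟨h5, h6⟩ := h.b (by omega)
  have hy : s.m.y = posAt R (s.a0 + (s.k + 1)) := by
    rw [h3]; congr 1; unfold PS.a0; omega
  rw [hy] at hw n3
  have hu : Blk.UOk R s.Rb.b (Function.update s.Rb.u (s.Rb.be + 1) v) := by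
    refine uok_update P hp.Rb.uok ?_
    have := write_ok P h2 (k := s.k) (by omega) (u := s.Rb.u (s.Rb.be + 1)) (v := v) (by
      revert hw
      cases s.m.rt <;> simp only [wrC] <;> tauto)
    rwa [← hb] at this
  have hs := hp.bd.side
  refine ⟨?_, ⟨fun _ => ?_, ?_, ?_, ?_, ?_, ?_, fun ho => ?_, fun hW => ?_, ?_, ?_, ?_, ?_⟩⟩
  · subst e
    exact ⟨⟨hp.bd.Lal, hp.bd.Lbe, hp.bd.Ral, hN, by simp only; omega,
      hs.trans (decide_eq_decide.2 (by simp only; omega))⟩, hp.L,
      { hp.Rb with be_lt := hN, uok := hu }⟩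
  · rw [r', eb]; subst e
    simp only
    omega
  · rw [kA', r', el]; exact h.kA_le
  · rw [kA', a', r', es]; subst e; exact h.a
  · rw [kA']; subst e; exact h.a'
  · rw [kB', r', eb]; subst e; exact h.b
  · rw [kB']; subst e; exact h.b'
  · subst e; cases ho
  · rw [r'] at hW
    rw [k', r', el]
    have h7 := ((P.run _ _ h2).2 (s.k + 1) (by omega) (by omega)).2
    have h8 : s.k + 1 ≠ len R s.m.rt := fun e => n3 hW (h7.2 e)
    omega
  · rw [kB', a', r', eb, n2]; subst e; exact h.ruleL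
  · rw [k', a', r', eb, n2]; subst e
    intro hr i hi hi'
    change Function.update s.Rb.u (s.Rb.be + 1) v (b0 R s.m.rt + i) = _
    by_cases hik : i = s.k + 1
    · rw [show b0 R s.m.rt + i = s.Rb.be + 1 by omega, Function.update_self, hik]
      revert hw hr
      cases s.m.rt <;> simp only [wrC, Rt.isRule] <;> grind
    · rw [Function.update_of_ne (by omega)]
      exact h.ruleR hr i hi (by omega)
  · rw [k', r', eb]; subst e
    rintro ⟨j, hj⟩ i hi hi'
    have hr := n4 j hj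
    change s.L.u _ = Function.update s.Rb.u (s.Rb.be + 1) v (b0 R s.m.rt + i)
    by_cases hik : i = s.k + 1
    · rw [show b0 R s.m.rt + i = s.Rb.be + 1 by omega, Function.update_self,
        show s.Rb.be + 1 = s.L.be by omega]
      rw [hr] at hw
      rw [hw.2.1, hw.1, h6]
    · rw [Function.update_of_ne (by omega)]
      exact h.eq ⟨j, hr⟩ i hi (by omega)
  · subst e
    have e1 : N R + (s.Rb.be + 1) = s.h + 1 := by omega
    exact (le_total _ _).imp (fun h => ⟨e1.le, h⟩) fun h => ⟨h, e1.ge⟩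

theorem start (P : PosFacts R) (s : PS R) (h : s.IsStart) :
    s.RInv ∧ s.dec = [s.L.dec, s.Rb.dec] := by
  obtain ⟨hh, hm⟩ := h
  have hf : s.m.first = true := by rw [hm]; rfl
  have hph : s.m.ph = .A := by rw [hm]; rfl
  have hk := k_zero hf
  have eA : s.kA = 0 := (if_pos hph).trans hk
  have eB : s.kB = 0 := (if_neg (by rw [hph]; decide)).trans hk
  have hl := (P.b0_len s.m.rt).2.2.1
  refine ⟨⟨fun h0 => ?_, by omega, by omega, fun _ => by rw [hm]; rfl, by omega,
    fun _ => by rw [hm]; rfl, fun h0 => ?_, fun _ => by omega, fun _ i _ _ => by omega,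
    fun _ i _ _ => by omega, fun _ i _ _ => by omega, ?_⟩, ?_⟩
  · rw [hf] at h0; cases h0
  · rw [hm] at h0; cases h0
  · have e1 : s.gp s.m.src = s.h := by
      have : s.m.src = .bd := by rw [hm]; rfl
      rw [this]
      change N R - 1 = _
      omega
    omega
  · have e1 : s.uL0 = s.L.u := by
      funext i
      unfold PS.uL0
      split
      · rw [if_neg (by omega)]
      · rw [if_neg (by omega), if_neg (by rw [hph]; simp)]
      · rfl
    have e2 : s.uR0 = s.Rb.u := by
      funext i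
      unfold PS.uR0
      split
      · rw [if_neg (by omega)]
      · rw [if_neg (by omega)]
      · rfl
    unfold PS.dec
    rw [e1, e2]

end LvFwd

theorem fwdStmt : FwdStmt := by
  refine fun R P => ⟨fun s s' p hp h hAF => ?_, LvFwd.start P⟩
  cases hAF with
  | mvR _ h1 h2 h3 =>
    exact ⟨⟨⟨hp.bd.Lal, hp.bd.Lbe, hp.bd.Ral, hp.bd.Rbe, h1, rfl⟩, hp.L, hp.Rb⟩,
      { h with btw := Or.inl ⟨h3.trans (Nat.le_succ _), h2⟩ }⟩
  | mvL _ _ h1 h2 h3 =>
    exact ⟨⟨⟨hp.bd.Lal, hp.bd.Lbe, hp.bd.Ral, hp.bd.Rbe,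
      Nat.lt_of_succ_lt (h1.ge.trans_lt hp.bd.h_lt), rfl⟩, hp.L, hp.Rb⟩, { h with btw := Or.inr ⟨h2, h3.le⟩ }⟩
  | evA _ h1 h2 h3 h4 h5 => exact LvFwd.evA P hp h h1 h2 h3 h4 h5 rfl
  | evB _ v o h1 h2 h3 _ h5 h6 => exact LvFwd.evB P hp h h1 h2 h3 h5 h6 rfl
  | evC _ v ρ' h1 h2 h3 h4 h5 h6 => exact LvFwd.evC P hp h h1 h2 h3 h4 h5 h6 rfl

end Crest.Agent.R176.Lv
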