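import Crest.Agent.R176.LvStmts

/-!
Row 176: normalisation of pair states (backward runs).
-/

set_option autoImplicit false
set_option synthInstance.maxSize 4096

namespace Crest.Agent.R176.Lv

variable {R : ℕ}

theorem eqv_of_AF (Re : RendFacts R) {s s' : PS R} {p : ℕ} (hb : s.Bd) (h : AF p s s') :
    (lev R).Eqv s.word s'.word := by
  obtain ⟨-, hp, hf, hL, hR, hc⟩ := Re.r1 s s' p hb h
  unfold PS.word
  refine eqv_range_of_step hp ?_ fun i _ h₁ h₂ => hc i h₁ h₂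
  rw [PS.cell_eq hL hR p, PS.cell_eq hL hR (p + 1)]
  exact LStep.fin _ _ _ _ ⟨_, _, _, _, PS.cell_σ s p, PS.cell_σ s (p + 1), rfl, rfl, Or.inl hf⟩

theorem eqv_of_start (Re : RendFacts R) {s : PS R} (hs : s.IsStart) :
    (lev R).Eqv (wordS s.L s.h ++ wordS s.Rb 0) s.word := by
  obtain ⟨hf, l, r, -, h₁, h₂, h₃⟩ := Re.start s hs
  have hh : s.h + 1 = N R := hs.1
  have e₁ : s.cell s.h = { s.L.cell (.on none) s.h with σ := mkC (s.cc s.h) } := by
    unfold PS.cell PS.cc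
    rw [if_pos (by omega), if_pos (by omega)]
    rfl
  have e₂ : s.cell (s.h + 1) = { s.Rb.cell (.on none) 0 with σ := mkC (s.cc (s.h + 1)) } := by
    unfold PS.cell PS.cc
    rw [if_neg (by omega), if_neg (by omega), show s.h + 1 - N R = 0 by omega]
    rfl
  have hstep : (lev R).step [s.L.cell (.on none) s.h, s.Rb.cell (.on none) 0]
      [s.cell s.h, s.cell (s.h + 1)] := by
    rw [e₁, e₂]
    exact LStep.fin _ _ _ _ ⟨_, _, _, _, rfl, rfl, rfl, rfl, Or.inl hf⟩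
  have := (Rew.Eqv.of_step hstep).ctx l r
  rw [h₁, h₂, h₃]
  simpa using this

theorem norm_pair (Re : RendFacts R) (Fw : FwdFacts R) (Bw : BwdFacts R) (Se : SemFacts R)
    (NS : NormS R) (s : PS R) (hP : s.Pre) (hI : s.RInv) :
    (lev R).Eqv s.word (s.dec.flatMap enc) := by
  induction hμ : s.μ using Nat.strong_induction_on generalizing s with
  | _ n ih =>
  rcases Bw.need_ex s hP.bd with ⟨p, -, hn⟩ | ⟨-, h0, -⟩
  · rcases Bw.prev s p hP hI hn with ⟨hs, -⟩ | ⟨s₀, hb, ha, hrt⟩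
    · have hh : s.h + 1 = N R := hs.1
      rw [(Fw.start s hs).2]
      refine (eqv_of_start Re hs).symm.trans ?_
      have := (NS s.L s.h hP.L (by omega)).append (NS s.Rb 0 hP.Rb (by omega))
      simpa using this
    · obtain ⟨hP₀, hI₀⟩ := Bw.bwd s₀ s p hP hI hb ha
      rw [Se.dec_eq s₀ s p hP₀ hI₀ ha hrt.symm]
      exact (eqv_of_AF Re hb ha).symm.trans
        (ih s₀.μ (hμ ▸ Bw.μ_lt s₀ s p hb ha) s₀ hP₀ hI₀ rfl)
  · have := Bw.src_pos s hI
    omega

theorem Fwd.not_fin_on {d₁ d₂ c₃ c₄ : CC} (h : Fwd d₁ d₂ c₃ c₄) (hf : c₃.hd.fin)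
    (m : Option Run) : c₄.hd ≠ .on m := by
  cases h <;> simp_all [HD.fin]

theorem okS_of_NZ {s : PS R} (h : (lev R).NZ s.word) {p : ℕ} (hp : p + 1 < 2 * N R) :
    OkS (s.cc p) (s.cc (p + 1)) ∧ ¬ garbage (s.cc p) (s.cc (p + 1)) ∧
      ¬ fz (s.cc p) (s.cc (p + 1)) :=
  (pairOk_of_NZ (Rew.NZ.range_pair h hp)).of_mk (PS.cell_σ s p) (PS.cell_σ s (p + 1))

theorem uokL_of_NZ (Ce : CellFacts R) {s : PS R} (h : (lev R).NZ s.word)
    (hj : ∀ i, N R ≤ i → s.L.u i = false) : Blk.UOk R s.L.b s.L.u := by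
  refine Ce.uok s.L s.hd (fun i hi => ?_) hj
  have := (okS_of_NZ h (p := i) (by omega)).1.one₁
  unfold PS.cc at this
  rwa [if_pos hi] at this

theorem uokR_of_NZ (Ce : CellFacts R) {s : PS R} (h : (lev R).NZ s.word)
    (hj : ∀ i, N R ≤ i → s.Rb.u i = false) : Blk.UOk R s.Rb.b s.Rb.u := by
  refine Ce.uok s.Rb (fun i => s.hd (N R + i)) (fun i hi => ?_) hj
  have := (okS_of_NZ h (p := N R + i - 1) (by omega)).1.one₂
  rw [show N R + i - 1 + 1 = N R + i by omega] at this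
  unfold PS.cc at this
  rwa [if_neg (by omega), Nat.add_sub_cancel_left] at this

theorem junk_of_update (P : PosFacts R) {b : Pos} {u : ℕ → Bool} {k : ℕ} {v : Bool}
    (hk : k < N R) (h : Blk.UOk R b (Function.update u k v)) (i : ℕ) (hi : N R ≤ i) :
    u i = false := by
  by_contra hu
  have h₁ : Function.update u k v i = true := by
    rw [Function.update_of_ne (by omega)]
    simpa using hu
  have h₂ := (h.used i h₁).2
  have h₃ := P.Bc_le
  unfold N at hi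
  omega

theorem pre_of_NZ (P : PosFacts R) (Ce : CellFacts R) {s s' : PS R} {p : ℕ} (hb : s.Bd)
    (ha : AF p s s') (hP : s'.Pre) (h : (lev R).NZ s.word) : s.Pre := by
  obtain ⟨-, hL, hR⟩ := hP
  cases ha with
  | mvR => exact ⟨hb, hL, hR⟩
  | mvL => exact ⟨hb, hL, hR⟩
  | evA =>
    exact ⟨hb, ⟨hL.A_lt, hL.pi_le, hL.lab, hL.lst, hb.Lal, hb.Lbe, hL.uok, hL.inj, hL.junk⟩, hR⟩
  | evB _ v o _ _ hk =>
    exact ⟨hb, ⟨hL.A_lt, hL.pi_le, hL.lab, hL.lst, hb.Lal, hb.Lbe,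
      uokL_of_NZ Ce h (junk_of_update P hk hL.uok), hL.inj, hL.junk⟩, hR⟩
  | evC _ v ρ' _ _ hk =>
    exact ⟨hb, hL, ⟨hR.A_lt, hR.pi_le, hR.lab, hR.lst, hb.Ral, hb.Rbe,
      uokR_of_NZ Ce h (junk_of_update P hk hR.uok), hR.inj, hR.junk⟩⟩

theorem not_NZ_of_src_zero {x₀ : Let R} {s : PS R} (hx : cut x₀) (hb : s.Bd) (h0 : s.h = 0)
    (hg : s.gp s.m.src = 0) (hs : s.m.src ≠ .bd) : ¬ (lev R).NZ (x₀ :: s.word) := by
  intro h
  obtain ⟨c, hc, -, hfin⟩ := hx
  have hN := six_le_N R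
  have hw : x₀ :: s.word = [x₀, s.cell 0] ++
      (List.range (2 * N R - 1)).map fun i => s.cell (1 + i) := by
    unfold PS.word
    rw [show 2 * N R = 1 + (2 * N R - 1) by omega, range_map_add]
    simp
  rw [hw] at h
  obtain ⟨-, hg', -⟩ := (pairOk_of_NZ h.of_append_left).of_mk hc (PS.cell_σ s 0)
  have hcc : s.cc 0 = s.L.cc (.on (some s.m)) 0 := by
    unfold PS.cc PS.hd
    rw [if_pos (by omega), if_neg (by omega), if_pos h0.symm]
  have hside : s.m.side = false := by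
    rw [hb.side, h0]
    simp only [decide_eq_false_iff_not]
    omega
  apply hg'
  refine ⟨Or.inr ⟨s.m, by rw [hcc]; rfl, Or.inr ⟨hs, ?_⟩⟩, ?_⟩
  · rw [hcc, hside]
    generalize s.m.src = κ at hg hs
    cases κ with
    | aL =>
      have : s.L.al = 0 := hg
      simp [arrow, Blk.cc, arr, this]
    | bL =>
      have : s.L.be = 0 := hg
      simp [arrow, Blk.cc, arr, this]
    | bR =>
      have : N R + s.Rb.be = 0 := hg
      omega
    | bd => exact absurd rfl hs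
  · rintro ⟨d₁, d₂, hf⟩
    exact hf.not_fin_on hfin (some s.m) (by rw [hcc]; rfl)

theorem norm_inv (P : PosFacts R) (Ce : CellFacts R) (Re : RendFacts R) (Fw : FwdFacts R)
    (Bw : BwdFacts R) (x₀ : Let R) (s : PS R) (hx : cut x₀) (hP : s.Pre)
    (h : (lev R).NZ (x₀ :: s.word)) : s.RInv := by
  induction hμ : s.μ using Nat.strong_induction_on generalizing s with
  | _ n ih =>
  rcases Bw.need_ex s hP.bd with ⟨p, hp, hn⟩ | ⟨h0, hg, hs⟩
  · have hg := (okS_of_NZ h.of_cons hp).2.1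
    have hex : ∃ d₁ d₂, Fwd d₁ d₂ (s.cc p) (s.cc (p + 1)) := by
      by_contra hne
      exact hg ⟨(Re.need s p hP.bd hp).2 hn, hne⟩
    obtain ⟨d₁, d₂, hf⟩ := hex
    rcases Re.r2b s p d₁ d₂ hP.bd hp hf with ⟨hs, -⟩ | ⟨s₀, hb, ha, -⟩
    · exact (Fw.start s hs).1
    · have he := (eqv_of_AF Re hb ha).symm
      have h₀ : (lev R).NZ (x₀ :: s₀.word) := by
        have := he.ctx [x₀] []
        simp only [List.append_nil, List.singleton_append] at this
        exact h.of_eqv this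
      have hP₀ := pre_of_NZ P Ce hb ha hP h₀.of_cons
      exact (Fw.fwd s₀ s p hP₀ (ih s₀.μ (hμ ▸ Bw.μ_lt s₀ s p hb ha) s₀ hP₀ h₀ rfl) ha).2
  · exact absurd h (not_NZ_of_src_zero hx hP.bd h0 hg hs)

theorem normStmt : NormStmt := fun _ P Ce Re Fw Bw Se NS =>
  ⟨norm_pair Re Fw Bw Se NS, norm_inv P Ce Re Fw Bw⟩

end Crest.Agent.R176.Lv
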