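import Crest.Agent.R176.LvStmts

/-!
Row 176: normalising a single block.
-/

set_option autoImplicit false
set_option synthInstance.maxSize 4096

namespace Crest.Agent.R176.Lv

variable {R : ℕ}

namespace NormSAux

theorem drag {a a' p : ℕ} (h : a' = a ∨ (a = p ∧ a' = p + 1)) :
    Drag (arr p a) (arr (p + 1) a) (arr p a') (arr (p + 1) a') := by
  rcases h with rfl | ⟨rfl, rfl⟩
  · exact Or.inl ⟨rfl, rfl⟩
  · exact Or.inr (by simp [arr])

theorem arr_eq {a a' p i : ℕ} (h : a' = a ∨ (a = p ∧ a' = p + 1)) (h₁ : i ≠ p) (h₂ : i ≠ p + 1) :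
    arr i a' = arr i a := by
  rcases h with rfl | ⟨rfl, rfl⟩
  · rfl
  · unfold arr
    split_ifs <;> first | rfl | omega

/-- One idle step. -/
theorem idle (P : PosFacts R) (B : Blk R) {p a b : ℕ} (hp : p + 1 < N R)
    (ha : a = B.al ∨ (B.al = p ∧ a = p + 1)) (hb : b = B.be ∨ (B.be = p ∧ b = p + 1)) :
    (lev R).Eqv (wordS B p) (wordS { B with al := a, be := b } (p + 1)) := by
  refine eqv_range_of_step hp ?_ fun i _ h₁ h₂ => ?_
  · have e₁ : hdS p p = .on none := by simp [hdS]
    have e₂ : hdS p (p + 1) = .aft false := by simp [hdS]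
    have e₃ : hdS (p + 1) p = .bef false := by simp [hdS]
    have e₄ : hdS (p + 1) (p + 1) = .on none := by simp [hdS]
    rw [e₁, e₂, e₃, e₄]
    have hbd : (posAt R p).bd = false := by
      have := P.bd p (by omega)
      rw [← Bool.not_eq_true, this]
      omega
    exact LStep.fin (B.cell (.on none) p) (B.cell (.aft false) (p + 1)) _ _
      ⟨_, _, _, _, rfl, rfl, rfl, rfl, Or.inr
        (Idle.go (B.cc (.on none) p) (B.cc (.aft false) (p + 1)) _ _ _ _ rfl rfl hbd
          (drag ha) (drag hb))⟩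
  · have e : hdS (p + 1) i = hdS p i := by
      unfold hdS
      split_ifs <;> first | rfl | omega
    simp only [Blk.cell, Blk.cc, e, arr_eq ha h₁ h₂, arr_eq hb h₁ h₂]
    rfl

theorem head (P : PosFacts R) (B : Blk R) {p : ℕ} (hp : p < N R) :
    (lev R).Eqv (wordS B p) (wordS B 0) := by
  induction p with
  | zero => exact Rew.Eqv.refl _
  | succ p ih => exact (idle P B hp (Or.inl rfl) (Or.inl rfl)).symm.trans (ih (by omega))

theorem al_zero (P : PosFacts R) (B : Blk R) {a : ℕ} (ha : a < N R) :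
    (lev R).Eqv (wordS { B with al := a } 0) (wordS { B with al := 0 } 0) := by
  induction a with
  | zero => exact Rew.Eqv.refl _
  | succ a ih =>
    exact (head P _ ha).symm.trans
      ((idle P { B with al := a } ha (Or.inr ⟨rfl, rfl⟩) (Or.inl rfl)).symm.trans
        ((head P _ (by omega)).trans (ih (by omega))))

theorem be_zero (P : PosFacts R) (B : Blk R) {b : ℕ} (hb : b < N R) :
    (lev R).Eqv (wordS { B with be := b } 0) (wordS { B with be := 0 } 0) := by
  induction b with
  | zero => exact Rew.Eqv.refl _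
  | succ b ih =>
    exact (head P _ hb).symm.trans
      ((idle P { B with be := b } hb (Or.inl rfl) (Or.inr ⟨rfl, rfl⟩)).symm.trans
        ((head P _ (by omega)).trans (ih (by omega))))

/-- Valid registers. -/
structure TOk (t : ℕ → Fin 4 → Fin R → Bool) : Prop where
  inj : ∀ i < N R, ∀ i' < N R, ∀ j, i / 2 ^ R = i' / 2 ^ R → t i j = t i' j → i = i'
  junk : ∀ i, N R ≤ i → t i = fun _ _ => false

/-- Exchange of register `j` of the cells `k` and `k'`. -/
def sw (t : ℕ → Fin 4 → Fin R → Bool) (j : Fin 4) (k k' : ℕ) (i : ℕ) : Fin 4 → Fin R → Bool :=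
  Function.update (t i) j (t (Equiv.swap k k' i) j)

theorem sw_comm (t : ℕ → Fin 4 → Fin R → Bool) (j : Fin 4) (k k' : ℕ) :
    sw t j k k' = sw t j k' k := by
  funext i
  rw [sw, sw, Equiv.swap_comm]

theorem eqv_sw_lt (F : FermFacts R) (B : Blk R) (h : ℕ) (j : Fin 4) {k k' : ℕ} (hk : k < k')
    (hk' : k' < N R) (hr : k / 2 ^ R = k' / 2 ^ R) :
    (lev R).Eqv (wordS B h) (wordS { B with t := sw B.t j k k' } h) := by
  refine F.swap (N R) (fun i => B.cell (hdS h i) i) j k k' hk hk' fun m h₁ h₂ => ?_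
  show decide (m % 2 ^ R + 1 = 2 ^ R) = false
  rw [decide_eq_false_iff_not]
  have a₁ : k / 2 ^ R ≤ m / 2 ^ R := Nat.div_le_div_right h₁
  have a₂ : m / 2 ^ R ≤ k' / 2 ^ R := Nat.div_le_div_right h₂.le
  have a₃ : m / 2 ^ R = k' / 2 ^ R := by omega
  have a₄ := Nat.div_add_mod m (2 ^ R)
  have a₅ := Nat.div_add_mod k' (2 ^ R)
  have a₆ := Nat.mod_lt k' (Nat.two_pow_pos R)
  rw [a₃] at a₄
  omega

theorem eqv_sw (F : FermFacts R) (B : Blk R) (h : ℕ) (j : Fin 4) {k k' : ℕ} (hne : k ≠ k')
    (hk : k < N R) (hk' : k' < N R) (hr : k / 2 ^ R = k' / 2 ^ R) :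
    (lev R).Eqv (wordS B h) (wordS { B with t := sw B.t j k k' } h) := by
  rcases lt_or_gt_of_ne hne with h₁ | h₁
  · exact eqv_sw_lt F B h j h₁ hk' hr
  · rw [sw_comm]
    exact eqv_sw_lt F B h j h₁ hk hr.symm

theorem TOk.sw {t : ℕ → Fin 4 → Fin R → Bool} (ht : TOk t) (j : Fin 4) {k k' : ℕ}
    (hk : k < N R) (hk' : k' < N R) (hr : k / 2 ^ R = k' / 2 ^ R) : TOk (sw t j k k') where
  inj i hi i' hi' j' e h := by
    have key : ∀ m < N R, Equiv.swap k k' m < N R ∧ Equiv.swap k k' m / 2 ^ R = m / 2 ^ R := by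
      intro m hm
      rw [Equiv.swap_apply_def]
      split_ifs with h₁ h₂
      · exact ⟨hk', by rw [h₁, hr]⟩
      · exact ⟨hk, by rw [h₂, hr]⟩
      · exact ⟨hm, rfl⟩
    by_cases hj : j' = j
    · subst hj
      simp only [NormSAux.sw, Function.update_self] at h
      exact (Equiv.swap k k').injective (ht.inj _ (key i hi).1 _ (key i' hi').1 j'
        (by rw [(key i hi).2, (key i' hi').2, e]) h)
    · simp only [NormSAux.sw, Function.update_of_ne hj] at h
      exact ht.inj i hi i' hi' j' e h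
  junk i hi := by
    rw [NormSAux.sw, Equiv.swap_apply_of_ne_of_ne (by omega) (by omega), Function.update_eq_self]
    exact ht.junk i hi

theorem tok_tcan : TOk (tcan R) where
  inj i hi i' hi' j e h := by
    simp only [tcan, if_pos hi, if_pos hi'] at h
    have h₁ : i % 2 ^ R = i' % 2 ^ R := by
      refine Nat.eq_of_testBit_eq fun k => ?_
      by_cases hk : k < R
      · exact congrFun h ⟨k, hk⟩
      · have hp : 2 ^ R ≤ 2 ^ k := Nat.pow_le_pow_right (by norm_num) (by omega)
        rw [Nat.testBit_lt_two_pow ((Nat.mod_lt _ (Nat.two_pow_pos R)).trans_le hp),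
          Nat.testBit_lt_two_pow ((Nat.mod_lt _ (Nat.two_pow_pos R)).trans_le hp)]
    rw [← Nat.div_add_mod i (2 ^ R), ← Nat.div_add_mod i' (2 ^ R), e, h₁]
  junk i hi := by rw [tcan, if_neg (by omega)]

theorem TOk.surj {t : ℕ → Fin 4 → Fin R → Bool} (ht : TOk t) {i : ℕ} (hi : i < N R) (j : Fin 4)
    (v : Fin R → Bool) : ∃ i' < N R, i / 2 ^ R = i' / 2 ^ R ∧ t i' j = v := by
  have h₀ := Nat.two_pow_pos R
  have hg : i / 2 ^ R < 6 := (Nat.div_lt_iff_lt_mul h₀).2 hi
  have h₁ : ∀ m : Fin (2 ^ R), 2 ^ R * (i / 2 ^ R) + m < N R ∧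
      (2 ^ R * (i / 2 ^ R) + m) / 2 ^ R = i / 2 ^ R := by
    intro m
    refine ⟨?_, by rw [Nat.mul_add_div h₀, Nat.div_eq_of_lt m.2, add_zero]⟩
    have := Nat.mul_le_mul_left (2 ^ R) (show i / 2 ^ R ≤ 5 by omega)
    have := m.2
    unfold N
    omega
  have hb : Function.Bijective fun m : Fin (2 ^ R) => t (2 ^ R * (i / 2 ^ R) + m) j := by
    rw [Fintype.bijective_iff_injective_and_card]
    refine ⟨fun m m' h => ?_, by simp⟩
    have := ht.inj _ (h₁ m).1 _ (h₁ m').1 j ((h₁ m).2.trans (h₁ m').2.symm) h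
    exact Fin.ext (by omega)
  obtain ⟨m, hm⟩ := hb.2 v
  exact ⟨_, (h₁ m).1, (h₁ m).2.symm, hm⟩

/-- The registers which are not yet canonical. -/
def wrong (t : ℕ → Fin 4 → Fin R → Bool) : Finset (ℕ × Fin 4) :=
  (Finset.range (N R) ×ˢ Finset.univ).filter fun x => t x.1 x.2 ≠ tcan R x.1 x.2

theorem mem_wrong {t : ℕ → Fin 4 → Fin R → Bool} {x : ℕ × Fin 4} :
    x ∈ wrong t ↔ x.1 < N R ∧ t x.1 x.2 ≠ tcan R x.1 x.2 := by
  simp [wrong]

theorem sort (F : FermFacts R) (h : ℕ) (n : ℕ) : ∀ B : Blk R, TOk B.t → (wrong B.t).card = n →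
    (lev R).Eqv (wordS B h) (wordS { B with t := tcan R } h) := by
  induction n using Nat.strong_induction_on with
  | _ n ih =>
    intro B hB hn
    rcases (wrong B.t).eq_empty_or_nonempty with h₀ | ⟨⟨i, j⟩, hx⟩
    · have : B.t = tcan R := by
        funext i
        by_cases hi : i < N R
        · funext j
          by_contra hne
          exact Finset.notMem_empty (i, j) (h₀ ▸ mem_wrong.2 ⟨hi, hne⟩)
        · rw [hB.junk i (by omega), tok_tcan.junk i (by omega)]
      rw [← this]
      exact Rew.Eqv.refl _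
    · obtain ⟨hi, hne⟩ := mem_wrong.1 hx
      obtain ⟨i', hi', hr, he⟩ := hB.surj hi j (tcan R i j)
      have hii : i ≠ i' := by
        rintro rfl
        exact hne he
      have hlt : (wrong (sw B.t j i i')).card < n := by
        rw [← hn]
        refine Finset.card_lt_card ⟨fun x hx' => ?_, fun hsub => ?_⟩
        · obtain ⟨m, j'⟩ := x
          obtain ⟨a₁, a₂⟩ := mem_wrong.1 hx'
          refine mem_wrong.2 ⟨a₁, ?_⟩
          dsimp only at a₁ a₂ ⊢
          by_cases hj : j' = j
          · subst hj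
            by_cases h₁ : m = i
            · rw [h₁]; exact hne
            by_cases h₂ : m = i'
            · rw [h₂, he]
              exact fun e => hii (tok_tcan.inj i hi i' hi' j' hr e)
            rwa [sw, Function.update_self, Equiv.swap_apply_of_ne_of_ne h₁ h₂] at a₂
          · rwa [sw, Function.update_of_ne hj] at a₂
        · refine (mem_wrong.1 (hsub hx)).2 ?_
          show sw B.t j i i' i j = _
          rw [sw, Function.update_self, Equiv.swap_apply_left, he]
      exact (eqv_sw F B h j hii hi hi' hr).trans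
        (ih _ hlt { B with t := sw B.t j i i' } (hB.sw j hi hi' hr) rfl)

end NormSAux

open NormSAux in
theorem normSStmt : NormSStmt := by
  intro R P C F B h hB hh
  rw [enc, C.dec_enc B hB]
  exact (head P B hh).trans ((al_zero P B hB.al_lt).trans
    ((be_zero P { B with al := 0 } hB.be_lt).trans
      (sort F 0 _ { B with al := 0, be := 0 } ⟨hB.inj, hB.junk⟩ rfl)))

end Crest.Agent.R176.Lv
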