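import Crest.Agent.R176.LvStmts

/-!
Row 176: the words between two cuts are single blocks or pairs of blocks; cuts are frequent.
-/

set_option autoImplicit false
set_option synthInstance.maxSize 4096

namespace Crest.Agent.R176.Lv

namespace Parse

variable {R : ℕ}

/-- Head track of a block containing a head. -/
def hdF (m : Option Run) (h i : ℕ) : HD :=
  if i < h then .bef (isR m) else if i = h then .on m else .aft (isL m)

/-- The head automaton. -/
theorem chain (hd : ℕ → HD) (n : ℕ) (H : ∀ i, i + 1 < n + 1 → okIn (hd i) (hd (i + 1))) :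
    (∃ s, ∀ i < n + 1, hd i = .bef s) ∨ (∃ s, ∀ i < n + 1, hd i = .aft s) ∨
      ∃ h < n + 1, ∃ m, ∀ i < n + 1, hd i = hdF m h i := by
  induction n with
  | zero =>
    rcases e : hd 0 with s | s | m
    · exact Or.inl ⟨s, fun i hi => by obtain rfl : i = 0 := by omega
                                      exact e⟩
    · exact Or.inr (Or.inl ⟨s, fun i hi => by obtain rfl : i = 0 := by omega
                                              exact e⟩)
    · exact Or.inr (Or.inr ⟨0, by omega, m, fun i hi => by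
        obtain rfl : i = 0 := by omega
        simp [hdF, e]⟩)
  | succ n ih =>
    have hl := H n (by omega)
    rcases ih (fun i hi => H i (by omega)) with ⟨s, hs⟩ | ⟨s, hs⟩ | ⟨h, hh, m, hs⟩
    · rw [hs n (by omega)] at hl
      rcases e : hd (n + 1) with s' | s' | m
      · rw [e] at hl
        obtain rfl : s = s' := hl
        refine Or.inl ⟨s, fun i hi => ?_⟩
        rcases Nat.lt_succ_iff_lt_or_eq.1 hi with hi | rfl
        · exact hs i hi
        · exact e
      · rw [e] at hl
        exact hl.elim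
      · rw [e] at hl
        obtain rfl : s = isR m := hl
        refine Or.inr (Or.inr ⟨n + 1, by omega, m, fun i hi => ?_⟩)
        rcases Nat.lt_succ_iff_lt_or_eq.1 hi with hi | rfl
        · rw [hs i hi, hdF, if_pos hi]
        · simp [hdF, e]
    · rw [hs n (by omega)] at hl
      rcases e : hd (n + 1) with s' | s' | m
      · rw [e] at hl
        exact hl.elim
      · rw [e] at hl
        obtain rfl : s = s' := hl
        refine Or.inr (Or.inl ⟨s, fun i hi => ?_⟩)
        rcases Nat.lt_succ_iff_lt_or_eq.1 hi with hi | rfl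
        · exact hs i hi
        · exact e
      · rw [e] at hl
        exact hl.elim
    · rw [hs n (by omega)] at hl
      have e : hd (n + 1) = .aft (isL m) := by
        unfold hdF at hl
        rw [if_neg (by omega)] at hl
        rcases e : hd (n + 1) with s' | s' | m' <;> rw [e] at hl <;> split_ifs at hl
        · exact hl.elim
        · exact hl.elim
        · obtain rfl : s' = isL m := hl
          rfl
        · obtain rfl : isL m = s' := hl
          rfl
        · exact hl.elim
        · exact hl.elim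
      refine Or.inr (Or.inr ⟨h, by omega, m, fun i hi => ?_⟩)
      rcases Nat.lt_succ_iff_lt_or_eq.1 hi with hi | rfl
      · exact hs i hi
      · rw [e, hdF, if_neg (by omega), if_neg (by omega)]

/-- The head track of a block after a cut. -/
theorem ini_chain (hd : ℕ → HD) (n : ℕ) (H : ∀ i, i + 1 < n + 1 → okIn (hd i) (hd (i + 1)))
    (h0 : (hd 0).ini) :
    (∀ i < n + 1, hd i = .bef false) ∨
      ∃ h < n + 1, ∃ m, isR m = false ∧ ∀ i < n + 1, hd i = hdF m h i := by
  rcases chain hd n H with ⟨s, hs⟩ | ⟨s, hs⟩ | ⟨h, hh, m, hs⟩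
  · rw [hs 0 (by omega)] at h0
    obtain rfl : s = false := h0
    exact Or.inl hs
  · rw [hs 0 (by omega)] at h0
    exact h0.elim
  · refine Or.inr ⟨h, hh, m, ?_, hs⟩
    rw [hs 0 (by omega), hdF] at h0
    split_ifs at h0
    · exact h0
    · exact h0
    · exact h0.elim

/-- The head track of a block after a linked block end. -/
theorem linked_chain (hd : ℕ → HD) (n : ℕ) (H : ∀ i, i + 1 < n + 1 → okIn (hd i) (hd (i + 1)))
    (a : HD) (h0 : linked a (hd 0)) (hn : hd n ≠ .bef true) :
    (a = .bef false ∧ ∃ h < n + 1, ∃ m : Run, m.side = true ∧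
        ∀ i < n + 1, hd i = hdF (some m) h i) ∨
      ((a = .aft true ∨ ∃ m, a = .on m ∧ isL m = true) ∧ ∀ i < n + 1, hd i = .aft false) := by
  rcases chain hd n H with ⟨s, hs⟩ | ⟨s, hs⟩ | ⟨h, hh, m, hs⟩
  · rw [hs 0 (by omega)] at h0
    rw [hs n (by omega)] at hn
    rcases a with s' | s' | m
    · obtain ⟨-, rfl⟩ := h0
      exact absurd rfl hn
    · exact h0.elim
    · exact h0.elim
  · rw [hs 0 (by omega)] at h0
    rcases a with s' | s' | m
    · exact h0.elim
    · obtain ⟨rfl, rfl⟩ := h0
      exact Or.inr ⟨Or.inl rfl, hs⟩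
    · obtain ⟨h1, rfl⟩ := h0
      exact Or.inr ⟨Or.inr ⟨m, rfl, h1⟩, hs⟩
  · rw [hs 0 (by omega), hdF] at h0
    have key : a = .bef false ∧ isR m = true := by
      split_ifs at h0 with h1 h2
      · rcases a with s' | s' | m'
        · obtain ⟨rfl, h⟩ := h0
          exact ⟨rfl, h⟩
        · exact h0.elim
        · exact h0.elim
      · rcases a with s' | s' | m'
        · obtain ⟨rfl, h⟩ := h0
          exact ⟨rfl, h⟩
        · exact h0.elim
        · exact h0.elim
      · omega
    rcases m with _ | m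
    · exact absurd key.2 (by simp [isR])
    · exact Or.inl ⟨key.1, h, hh, m, key.2, hs⟩

theorem not_linked_of_fin {a b : HD} (h : a.fin) : ¬ linked a b := by
  intro hl
  rcases a with s | s | m <;> rcases b with s' | s' | m'
  all_goals first
    | exact hl.elim
    | exact h.elim
    | skip
  · obtain rfl : s = false := h
    exact absurd hl.1 (by simp)
  · have h' : isL m = false := h
    rw [hl.1] at h'
    exact absurd h' (by simp)

theorem hdF_fin {m : Option Run} (hm : isL m = false) {h n : ℕ} (hh : h < n + 1) :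
    (hdF m h n).fin := by
  unfold hdF
  rw [if_neg (by omega)]
  split_ifs
  · exact hm
  · exact hm

theorem linked_fin (hd : ℕ → HD) (n : ℕ) (H : ∀ i, i + 1 < n + 1 → okIn (hd i) (hd (i + 1)))
    (a : HD) (h0 : linked a (hd 0)) (hn : hd n ≠ .bef true) : (hd n).fin := by
  rcases linked_chain hd n H a h0 hn with ⟨-, h, hh, m, hm, hs⟩ | ⟨-, hs⟩
  · rw [hs n (by omega)]
    exact hdF_fin (by simp [isL, hm]) hh
  · rw [hs n (by omega)]
    rfl

/-- The static parse of a block together with the constraints on its head track. -/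
theorem block (P : PosFacts R) (Bl : BlockFacts R) {n : ℕ} (hn : N R = n + 1) (x₀ : Let R)
    (c₀ : CC) (h₀ : x₀.σ = mkC c₀) (hb : c₀.pos.bd = true) (w : List (Let R))
    (hw : (lev R).NZ (x₀ :: w)) (hl : w.length = N R) :
    ∃ (B : Blk R) (hd : ℕ → HD), B.Valid ∧ w = ((List.range (N R)).map fun i => B.cell (hd i) i) ∧
      (linked c₀.hd (hd 0) ∨ (c₀.hd.fin ∧ (hd 0).ini)) ∧
      (∀ i, i + 1 < n + 1 → okIn (hd i) (hd (i + 1))) ∧ hd n ≠ .bef true := by
  obtain ⟨B, hd, hB, e⟩ := Bl.block x₀ w (by rw [h₀]; exact hb) hw hl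
  have h6 := six_le_N R
  have hin : ∀ i, i + 1 < N R → OkS (B.cc (hd i) i) (B.cc (hd (i + 1)) (i + 1)) := by
    intro i hi
    have h1 := hw.of_cons
    rw [e] at h1
    exact ((pairOk_of_NZ (h1.range_pair hi)).of_mk rfl rfl).1
  refine ⟨B, hd, hB, e, ?_, fun i hi => ?_, ?_⟩
  · have h1 : (lev R).NZ [x₀, B.cell (hd 0) 0] := by
      rw [e, hn, List.range_succ_eq_map, List.map_cons] at hw
      exact Rew.NZ.of_append_left (w := [x₀, B.cell (hd 0) 0]) hw
    exact ((((pairOk_of_NZ h1).of_mk h₀ rfl).1).bd hb).1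
  · refine ((hin i (by omega)).ins ?_).1
    have := P.bd i (by omega)
    show (posAt R i).bd = false
    rw [Bool.eq_false_iff]
    intro h
    have := this.1 h
    omega
  · obtain ⟨k, rfl⟩ : ∃ k, n = k + 1 := ⟨n - 1, by omega⟩
    exact ((hin k (by omega)).one₂.last ((P.bd (k + 1) (by omega)).2 hn.symm)).2.2.2.2

theorem len_ge (P : PosFacts R) (Bl : BlockFacts R) (x₀ : Let R) (hb : x₀.σ.1.bd = true)
    (l : List (Let R)) (x : Let R) (hx : cut x) (hw : (lev R).NZ (x₀ :: (l ++ [x]))) :
    N R ≤ (l ++ [x]).length := by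
  by_contra hlt
  simp only [List.length_append, List.length_singleton, not_le] at hlt
  have h1 := Bl.short x₀ l x hb hw (by omega)
  obtain ⟨c, e, hc, -⟩ := hx
  rw [e, mkC_fst] at h1
  rw [h1] at hc
  have := (P.bd _ (by omega)).1 hc
  omega

theorem cut_cell (P : PosFacts R) {n : ℕ} (hn : N R = n + 1) (B : Blk R) (hd : HD) :
    cut (B.cell hd n) ↔ hd.fin := by
  constructor
  · rintro ⟨c, e, -, h⟩
    rw [Blk.cell_σ] at e
    rw [← mkC_injective e] at h
    exact h
  · intro h
    exact ⟨B.cc hd n, rfl, (P.bd n (by omega)).2 hn.symm, h⟩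

theorem tail_nil {X : Type} {p : X → Prop} {M₀ w r : List X} {x y : X} (hM : ∀ z ∈ M₀, ¬ p z)
    (hy : p y) (e : M₀ ++ [x] = w ++ [y] ++ r) : r = [] := by
  rcases List.eq_nil_or_concat r with h | ⟨r₀, z, rfl⟩
  · exact h
  · rw [List.concat_eq_append, ← List.append_assoc] at e
    obtain ⟨h1, -⟩ := List.append_inj' e rfl
    exact absurd hy (hM y (by rw [h1]; simp))

theorem tail_concat {X : Type} {p : X → Prop} {M₀ w r : List X} {x y : X} (hx : p x)
    (hy : ¬ p y) (e : M₀ ++ [x] = w ++ [y] ++ r) : ∃ r₀, r = r₀ ++ [x] ∧ ∀ z ∈ r₀, z ∈ M₀ := by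
  rcases List.eq_nil_or_concat r with rfl | ⟨r₀, z, rfl⟩
  · rw [List.append_nil] at e
    obtain ⟨-, h1⟩ := List.append_inj' e rfl
    obtain rfl : x = y := by simpa using h1
    exact absurd hx hy
  · rw [List.concat_eq_append, ← List.append_assoc] at e
    obtain ⟨h1, h2⟩ := List.append_inj' e rfl
    obtain rfl : x = z := by simpa using h2
    exact ⟨r₀, List.concat_eq_append, fun z hz => by rw [h1]; simp [hz]⟩

theorem word_eq (s : PS R) : s.word = ((List.range (N R)).map fun i => s.L.cell (s.hd i) i) ++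
    (List.range (N R)).map fun i => s.Rb.cell (s.hd (N R + i)) i := by
  rw [PS.word, two_mul, range_map_add]
  congr 1
  · exact range_map_congr fun i hi => by rw [PS.cell, if_pos hi]
  · exact range_map_congr fun i hi => by
      rw [PS.cell, if_neg (by omega), Nat.add_sub_cancel_left]

theorem pre (P : PosFacts R) (Bl : BlockFacts R) (x₀ : Let R) (M₀ : List (Let R)) (x : Let R)
    (h₀ : cut x₀) (hx : cut x) (hM : ∀ y ∈ M₀, ¬ cut y) (hw : (lev R).NZ (x₀ :: (M₀ ++ [x]))) :
    (∃ (B : Blk R) (h : ℕ), B.Valid ∧ h < N R ∧ M₀ ++ [x] = wordS B h) ∨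
      ∃ s : PS R, s.Pre ∧ M₀ ++ [x] = s.word := by
  obtain ⟨n, hn⟩ : ∃ n, N R = n + 1 := ⟨N R - 1, by have := six_le_N R; omega⟩
  obtain ⟨c₀, e₀, hb₀, hf₀⟩ := h₀
  have hlen := len_ge P Bl x₀ (by rw [e₀]; exact hb₀) M₀ x hx hw
  obtain ⟨w, r, eM, hwl⟩ : ∃ w r, M₀ ++ [x] = w ++ r ∧ w.length = N R :=
    ⟨_, _, (List.take_append_drop (N R) _).symm, List.length_take_of_le hlen⟩
  rw [eM] at hw
  obtain ⟨B, hd, hB, ew, h1, h2, h3⟩ := block P Bl hn x₀ c₀ e₀ hb₀ w
    (Rew.NZ.of_append_left (w := x₀ :: w) hw) hwl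
  have hini : (hd 0).ini := (h1.resolve_left (not_linked_of_fin hf₀)).2
  have ew' : w = ((List.range n).map fun i => B.cell (hd i) i) ++ [B.cell (hd n) n] := by
    rw [ew, hn, List.range_succ, List.map_append, List.map_singleton]
  by_cases hf : (hd n).fin
  · left
    have hr : r = [] := tail_nil hM ((cut_cell P hn B _).2 hf) (by rw [eM, ew'])
    subst hr
    rcases ini_chain hd n h2 hini with hs | ⟨h, hh, m, hm, hs⟩
    · rw [hs n (by omega)] at hf
      exact hf.elim
    · have hm' : isL m = false := by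
        rw [hs n (by omega), hdF, if_neg (by omega)] at hf
        split_ifs at hf <;> exact hf
      obtain rfl : m = none := by
        rcases m with _ | m
        · rfl
        · simp [isL, isR] at hm hm'
          rw [hm] at hm'
          exact absurd hm' (by simp)
      refine ⟨B, h, hB, by omega, ?_⟩
      rw [eM, List.append_nil, ew, wordS]
      exact range_map_congr fun i hi => by rw [hs i (by omega)]; rfl
  · right
    obtain ⟨r₀, rfl, hr₀⟩ := tail_concat (p := cut) (M₀ := M₀) (r := r) hx
      (fun h => hf ((cut_cell P hn B _).1 h)) (by rw [eM, ew'])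
    have hw' : (lev R).NZ (B.cell (hd n) n :: (r₀ ++ [x])) := by
      rw [ew'] at hw
      exact Rew.NZ.of_append_right (l := x₀ :: (List.range n).map fun i => B.cell (hd i) i)
        (by simpa using hw)
    have hbn : (B.cc (hd n) n).pos.bd = true := (P.bd n (by omega)).2 hn.symm
    have hlen' := len_ge P Bl _ hbn r₀ x hx hw'
    obtain ⟨w', r', eM', hwl'⟩ : ∃ w' r', r₀ ++ [x] = w' ++ r' ∧ w'.length = N R :=
      ⟨_, _, (List.take_append_drop (N R) _).symm, List.length_take_of_le hlen'⟩
    rw [eM'] at hw'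
    obtain ⟨B', hd', hB', ew₂, h1', h2', h3'⟩ := block P Bl hn _ (B.cc (hd n) n) rfl hbn w'
      (Rew.NZ.of_append_left (w := B.cell (hd n) n :: w') hw') hwl'
    have hlk : linked (hd n) (hd' 0) := h1'.resolve_right fun h => hf h.1
    have ew₂' : w' = ((List.range n).map fun i => B'.cell (hd' i) i) ++ [B'.cell (hd' n) n] := by
      rw [ew₂, hn, List.range_succ, List.map_append, List.map_singleton]
    have hr' : r' = [] := tail_nil (fun z hz => hM z (hr₀ z hz))
      ((cut_cell P hn B' _).2 (linked_fin hd' n h2' _ hlk h3')) (by rw [eM', ew₂'])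
    subst hr'
    rw [List.append_nil] at eM'
    have fin : ∀ (h : ℕ) (m : Run), h < 2 * N R → m.side = decide (N R ≤ h) →
        (∀ i < N R, hd i = (⟨B, B', h, m⟩ : PS R).hd i) →
        (∀ i < N R, hd' i = (⟨B, B', h, m⟩ : PS R).hd (N R + i)) →
        ∃ s : PS R, s.Pre ∧ M₀ ++ [x] = s.word := by
      intro h m hh hm a1 a2
      refine ⟨⟨B, B', h, m⟩, ⟨⟨hB.al_lt, hB.be_lt, hB'.al_lt, hB'.be_lt, hh, hm⟩, hB, hB'⟩, ?_⟩
      rw [eM, eM', word_eq, ew, ew₂]
      congr 1
      · exact range_map_congr fun i hi => by rw [a1 i hi]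
      · exact range_map_congr fun i hi => by rw [a2 i hi]
    rcases linked_chain hd' n h2' _ hlk h3' with ⟨ea, h, hh, m, hm, hs'⟩ | ⟨ea, hs'⟩
    · rcases ini_chain hd n h2 hini with hs | ⟨h', hh', m', hm', hs⟩
      · refine fin (N R + h) m (by omega) (by rw [hm]; simp) (fun i hi => ?_) fun i hi => ?_
        · rw [hs i (by omega), PS.hd, if_pos (by show i < N R + h; omega),
            decide_eq_false (by omega)]
        · rw [hs' i (by omega), PS.hd, hdF]
          simp only [isL, isR, hm, Nat.add_lt_add_iff_left, Nat.add_left_cancel_iff,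
            Nat.le_add_right, decide_true, Bool.not_true]
          rw [decide_eq_false (by omega)]
      · rw [hs n (by omega), hdF, if_neg (by omega)] at ea
        split_ifs at ea
    · rcases ini_chain hd n h2 hini with hs | ⟨h, hh, m, hm, hs⟩
      · rw [hs n (by omega)] at ea
        rcases ea with ea | ⟨m, ea, -⟩ <;> cases ea
      · have hm' : isL m = true := by
          rw [hs n (by omega), hdF, if_neg (by omega)] at ea
          split_ifs at ea
          · rcases ea with ea | ⟨m', ea, h'⟩
            · cases ea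
            · cases ea
              exact h'
          · rcases ea with ea | ⟨m', ea, h'⟩
            · exact HD.aft.inj ea
            · cases ea
        rcases m with _ | m
        · simp [isL] at hm'
        · have hms : m.side = false := hm
          refine fin h m (by omega) (by rw [hms, decide_eq_false (by omega)])
            (fun i hi => ?_) fun i hi => ?_
          · rw [hs i (by omega), PS.hd, hdF, hm, hm', decide_eq_false (by omega : ¬ N R ≤ i),
              decide_eq_true hi]
          · rw [hs' i (by omega), PS.hd, if_neg (by show ¬ N R + i < h; omega),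
              if_neg (by show ¬ N R + i = h; omega), decide_eq_false (by omega)]

theorem freq (P : PosFacts R) (Bl : BlockFacts R) (w : List (Let R)) (hw : (lev R).NZ w)
    (hl : 2 * N R ≤ w.length) : ∃ x ∈ w, cut x := by
  obtain ⟨n, hn⟩ : ∃ n, N R = n + 1 := ⟨N R - 1, by have := six_le_N R; omega⟩
  obtain ⟨w₁, w₂, rfl, hwl⟩ : ∃ w₁ w₂, w = w₁ ++ w₂ ∧ w₁.length = N R :=
    ⟨_, _, (List.take_append_drop (N R) _).symm, List.length_take_of_le (by omega)⟩
  obtain ⟨y, hy, hb⟩ := Bl.find w₁ hw.of_append_left hwl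
  obtain ⟨l, r, rfl⟩ := List.append_of_mem hy
  have hw' : (lev R).NZ (y :: (r ++ w₂)) :=
    Rew.NZ.of_append_right (l := l) (by simpa using hw)
  obtain ⟨v, v', ev, hvl⟩ : ∃ v v', r ++ w₂ = v ++ v' ∧ v.length = N R :=
    ⟨_, _, (List.take_append_drop (N R) _).symm, List.length_take_of_le (by
      simp only [List.length_append, List.length_cons] at hl hwl ⊢; omega)⟩
  rw [ev] at hw'
  have hv : (lev R).NZ (y :: v) := Rew.NZ.of_append_left (w := y :: v) hw'
  obtain ⟨c, ec⟩ : ∃ c, y.σ = mkC c := by
    rcases v with _ | ⟨z, v⟩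
    · simp at hvl; omega
    · obtain ⟨c, -, ec, -⟩ := (pairOk_of_NZ (Rew.NZ.of_append_left (w := [y, z]) hv)).can
      exact ⟨c, ec⟩
  have hbc : c.pos.bd = true := by rw [ec] at hb; exact hb
  obtain ⟨B, hd, -, ew, h1, h2, h3⟩ := block P Bl hn y c ec hbc v hv hvl
  rcases h1 with h1 | h1
  · refine ⟨B.cell (hd n) n, ?_, (cut_cell P hn B _).2 (linked_fin hd n h2 _ h1 h3)⟩
    have : B.cell (hd n) n ∈ r ++ w₂ := by
      rw [ev, ew]
      exact List.mem_append_left _ (List.mem_map.2 ⟨n, List.mem_range.2 (by omega), rfl⟩)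
    simp only [List.mem_append, List.mem_cons] at this ⊢
    tauto
  · exact ⟨y, by simp, c, ec, hbc, h1.1⟩

end Parse

theorem parseStmt : ParseStmt := fun _ P Bl => ⟨Parse.pre P Bl, Parse.freq P Bl⟩

end Crest.Agent.R176.Lv
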