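import Crest.Agent.R176.LvStmts

/-!
Row 176: arithmetic of positions and of the table.
-/

set_option autoImplicit false
set_option synthInstance.maxSize 4096

namespace Crest.Agent.R176.Lv

namespace PosAux

theorem Bc_ge : 15 ≤ Bc := by
  have := one_le_B1
  unfold Bc; omega

theorem tab_spec {i : ℕ} (h : i < 14) : Tab i = { Lab.none with kind := .spec ⟨i, h⟩ } := by
  unfold Tab; rw [dif_pos h]

theorem tab_code {i : ℕ} (h : 14 ≤ i) (h' : i < Bc) :
    Tab i = { Lab.none with kind := .code, en := decide (i + 1 = Bc) } := by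
  unfold Tab; rw [dif_neg (by omega), if_pos h']

theorem tab_ent {e i : ℕ} (he : e < ents.length) (hi : i < Bc) :
    Tab (Bc * (e + 1) + i) = (ents[e]).lab i := by
  have hB := Bc_ge
  have h1 : Bc ≤ Bc * (e + 1) := Nat.le_mul_of_pos_right _ (Nat.succ_pos e)
  have h2 : (Bc * (e + 1) + i) / Bc = e + 1 := by
    rw [Nat.mul_add_div (by omega), Nat.div_eq_of_lt hi]
  have h3 : (Bc * (e + 1) + i) % Bc = i := by
    rw [Nat.mul_add_mod, Nat.mod_eq_of_lt hi]
  unfold Tab
  rw [dif_neg (by omega), if_neg (by omega), h2, h3, Nat.add_sub_cancel,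
    List.getElem?_eq_getElem he]
  rfl

theorem tab_big {i : ℕ} (h : R0 ≤ i) : Tab i = Lab.none := by
  have hB := Bc_ge
  unfold R0 at h
  have h1 : Bc ≤ Bc * (ents.length + 1) := Nat.le_mul_of_pos_right _ (Nat.succ_pos _)
  have h2 : ents.length + 1 ≤ i / Bc := by
    rw [Nat.le_div_iff_mul_le (by omega), mul_comm]; exact h
  unfold Tab
  rw [dif_neg (by omega), if_neg (by omega), List.getElem?_eq_none (by omega)]

theorem tab_cases (i : ℕ) : i < 14 ∨ (14 ≤ i ∧ i < Bc) ∨
    (∃ e < ents.length, ∃ r < Bc, i = Bc * (e + 1) + r) ∨ R0 ≤ i := by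
  have hB := Bc_ge
  by_cases h1 : i < Bc
  · omega
  by_cases h2 : R0 ≤ i
  · exact Or.inr (Or.inr (Or.inr h2))
  refine Or.inr (Or.inr (Or.inl ⟨i / Bc - 1, ?_, i % Bc, Nat.mod_lt _ (by omega), ?_⟩))
  · have h3 : i / Bc < ents.length + 1 := by
      rw [Nat.div_lt_iff_lt_mul (by omega), mul_comm]
      unfold R0 at h2; omega
    have h4 : 1 ≤ i / Bc := by
      rw [Nat.le_div_iff_mul_le (by omega)]; omega
    omega
  · have h4 : 1 ≤ i / Bc := by
      rw [Nat.le_div_iff_mul_le (by omega)]; omega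
    rw [Nat.sub_add_cancel h4, Nat.div_add_mod]

theorem prev_le (ρ : Rt) : ρ.prev ≤ 4 := by
  cases ρ <;> simp only [Rt.prev] <;> omega

theorem prev_rule {ρ : Rt} (h : ρ.isRule = true) : ρ.prev = 4 := by
  cases ρ <;> simp_all [Rt.isRule, Rt.prev]

variable {R : ℕ}

theorem tab_min (hR : R0 ≤ R) (i : ℕ) : Tab (min i R) = Tab i := by
  rcases le_total i R with h | h
  · rw [min_eq_left h]
  · rw [min_eq_right h, tab_big hR, tab_big (hR.trans h)]

theorem lab_add (hR : R0 ≤ R) (i : ℕ) : (posAt R (5 * 2 ^ R + i)).lab = Tab i := by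
  show Tab (ptr R (5 * 2 ^ R + i)) = Tab i
  unfold ptr
  rw [if_pos (by omega), Nat.add_sub_cancel_left, tab_min hR]

theorem lab_lt (hR : R0 ≤ R) {i : ℕ} (hi : i < 5 * 2 ^ R) : (posAt R i).lab = Lab.none := by
  show Tab (ptr R i) = Lab.none
  unfold ptr
  rw [if_neg (by omega), tab_big hR]

theorem lab_ent (hR : R0 ≤ R) {e i j : ℕ} (he : e < ents.length) (hi : i < Bc)
    (hj : j = 5 * 2 ^ R + (Bc * (e + 1) + i)) : (posAt R j).lab = (ents[e]).lab i := by
  rw [hj, lab_add hR, tab_ent he hi]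

theorem reg_eq {i : ℕ} (hi : i < N R) : (posAt R i).reg.val = i / 2 ^ R := by
  show i / 2 ^ R % 6 = i / 2 ^ R
  apply Nat.mod_eq_of_lt
  rw [Nat.div_lt_iff_lt_mul (Nat.two_pow_pos R)]
  exact hi

theorem lst_iff (i : ℕ) : (posAt R i).lst = true ↔ i % 2 ^ R + 1 = 2 ^ R := by
  simp [posAt]

theorem last_iff {P i k : ℕ} (hP : 0 < P) : (i % P + 1 = P ∧ i / P = k) ↔ i + 1 = (k + 1) * P := by
  constructor
  · rintro ⟨h1, rfl⟩
    have := Nat.div_add_mod i P
    rw [add_mul, one_mul, mul_comm]
    omega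
  · intro h
    have h1 : i = P * k + (P - 1) := by
      rw [add_mul, one_mul, mul_comm] at h
      omega
    have h2 : P - 1 < P := by omega
    rw [h1, Nat.mul_add_mod, Nat.mod_eq_of_lt h2, Nat.mul_add_div hP, Nat.div_eq_of_lt h2]
    omega

theorem preB_iff (ρ : Rt) {i : ℕ} (hi : i < N R) : preB ρ (posAt R i) ↔ i = b0 R ρ := by
  have hP := Nat.two_pow_pos R
  unfold preB b0
  rw [lst_iff, reg_eq hi, last_iff hP]
  have : 0 < (ρ.prev + 1) * 2 ^ R := Nat.mul_pos (Nat.succ_pos _) hP
  omega

end PosAux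

open PosAux in
theorem posStmt : PosStmt := by
  intro R hR
  have hB := Bc_ge
  have hP := Nat.two_pow_pos R
  have hRP : R < 2 ^ R := Nat.lt_two_pow_self
  have hR0 : Bc * (ents.length + 1) ≤ R := hR
  have hBR : Bc ≤ R := (Nat.le_mul_of_pos_right _ (Nat.succ_pos _)).trans hR0
  have hN : N R = 6 * 2 ^ R := rfl
  have hent : ∀ e < ents.length, Bc * (e + 1) + Bc ≤ R := by
    intro e he
    have : Bc * (e + 1 + 1) ≤ Bc * (ents.length + 1) := Nat.mul_le_mul_left _ (by omega)
    rw [mul_add Bc (e + 1) 1, mul_one] at this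
    omega
  have hb0 : ∀ ρ : Rt, b0 R ρ + 1 = (ρ.prev + 1) * 2 ^ R ∧ 2 ^ R ≤ b0 R ρ + 1 ∧
      b0 R ρ + 1 ≤ 5 * 2 ^ R := by
    intro ρ
    have h1 : 2 ^ R ≤ (ρ.prev + 1) * 2 ^ R := Nat.le_mul_of_pos_left _ (Nat.succ_pos _)
    have h2 : (ρ.prev + 1) * 2 ^ R ≤ 5 * 2 ^ R :=
      Nat.mul_le_mul_right _ (by have := prev_le ρ; omega)
    unfold b0
    omega
  refine
    { Bc_le := ⟨hB, hBR, hRP⟩
      tab_none := fun i hi => tab_big (hR.trans hi)
      tab_min := tab_min hR
      reg := fun i hi => reg_eq hi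
      bd := ?_
      preB := fun ρ i hi => preB_iff ρ hi
      start := ?_
      run := ?_
      b0_len := ?_
      ent := ?_
      ent' := ?_
      good_spec := ?_
      spec := ?_
      code := ?_
      lab_reg := fun i hi => lab_lt hR hi }
  · intro i hi
    unfold Pos.bd
    rw [Bool.and_eq_true, beq_iff_eq, lst_iff, Fin.ext_iff, reg_eq hi, and_comm]
    exact last_iff hP
  · intro ρ a ha
    unfold preA okA Start
    by_cases hρ : ρ.isRule = true
    · simp only [hρ, if_true, forall_const]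
      constructor
      · rintro ⟨h1, h2⟩
        by_cases h5 : a + 1 < 5 * 2 ^ R
        · rw [lab_lt hR h5] at h2
          cases h2
        obtain ⟨i, hi⟩ : ∃ i, a + 1 = 5 * 2 ^ R + i := ⟨a + 1 - 5 * 2 ^ R, by omega⟩
        rw [hi, lab_add hR] at h2
        rcases tab_cases i with h | ⟨h, h'⟩ | ⟨e, he, r, hr, rfl⟩ | h
        · rw [tab_spec h] at h2; cases h2
        · rw [tab_code h h'] at h2; cases h2
        · refine ⟨e, he, ?_⟩
          rcases Nat.eq_zero_or_pos r with rfl | hr0
          · omega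
          · rw [lab_ent hR he (i := r - 1) (by omega) (by omega)] at h1
            simp only [Ent.lab, decide_eq_true_eq] at h1
            omega
        · rw [tab_big h] at h2; cases h2
      · rintro ⟨e, he, h⟩
        refine ⟨?_, ?_⟩
        · rcases Nat.eq_zero_or_pos e with rfl | he0
          · have h1 : a = 5 * 2 ^ R + (Bc - 1) := by omega
            rw [h1, lab_add hR, tab_code (by omega) (by omega)]
            simp only [decide_eq_true_eq]
            omega
          · obtain ⟨e', rfl⟩ : ∃ e', e = e' + 1 := ⟨e - 1, by omega⟩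
            rw [mul_add Bc (e' + 1) 1, mul_one] at h
            rw [lab_ent hR (e := e') (i := Bc - 1) (by omega) (by omega) (by omega)]
            simp only [Ent.lab, decide_eq_true_eq]
            omega
        · rw [lab_ent hR he (i := 0) (by omega) (by omega)]
          rfl
    · simp only [hρ, if_false, Bool.false_eq_true, false_imp_iff, and_true]
      exact preB_iff ρ (by omega)
  · intro ρ a hs
    unfold okA fin len
    unfold Start at hs
    by_cases hρ : ρ.isRule = true
    · simp only [hρ, if_true, forall_const] at hs ⊢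
      obtain ⟨e, he, h⟩ := hs
      have := hent e he
      refine ⟨by omega, fun i hi hi' => ?_⟩
      rw [lab_ent hR he (i := i - 1) (by omega) (by omega)]
      refine ⟨rfl, ?_⟩
      simp only [Ent.lab, decide_eq_true_eq]
      omega
    · simp only [hρ, if_false, Bool.false_eq_true, false_imp_iff, true_and] at hs ⊢
      obtain ⟨h1, h2, h3⟩ := hb0 ρ
      refine ⟨by omega, fun i hi hi' => ?_⟩
      have h4 : a + i = 2 ^ R * (ρ.prev + 1) + (i - 1) := by
        rw [mul_comm]; omega
      rw [lst_iff, h4, Nat.mul_add_mod, Nat.mod_eq_of_lt (by omega)]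
      omega
  · intro ρ
    obtain ⟨h1, h2, h3⟩ := hb0 ρ
    have h4 : 1 ≤ len R ρ ∧ len R ρ ≤ 2 ^ R := by
      unfold len
      split_ifs <;> omega
    omega
  · intro ρ a hρ hs
    unfold Start at hs
    rw [if_pos hρ] at hs
    obtain ⟨e, he, h⟩ := hs
    exact ⟨ents[e], mem_ents.1 (List.getElem_mem he), fun i hi => lab_ent hR he hi (by omega)⟩
  · intro e he
    obtain ⟨k, hk, rfl⟩ := List.getElem_of_mem (mem_ents.2 he)
    refine ⟨5 * 2 ^ R + Bc * (k + 1) - 1, fun ρ hρ => ?_, fun i hi => lab_ent hR hk hi (by omega)⟩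
    unfold Start
    rw [if_pos hρ]
    exact ⟨k, hk, by omega⟩
  · intro e he
    have h : e.v3.1 = e.v1.1 ∧ e.v4.1 = e.v2.1 := by
      unfold Ent.good at he
      split_ifs at he
      · rw [he.2.1, he.2.2]; exact ⟨rfl, rfl⟩
      · exact he.pos_eq
    refine ⟨h.1, h.2, fun i hi => ?_⟩
    unfold code
    simp only [dif_pos hi, h.1, h.2, and_self]
  · intro i _ j
    have hj := j.isLt
    by_cases h5 : i < 5 * 2 ^ R
    · rw [lab_lt hR h5]
      constructor
      · intro h; cases h
      · intro h; omega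
    obtain ⟨k, rfl⟩ : ∃ k, i = 5 * 2 ^ R + k := ⟨i - 5 * 2 ^ R, by omega⟩
    rw [lab_add hR]
    rcases tab_cases k with h | ⟨h, h'⟩ | ⟨e, he, r, hr, rfl⟩ | h
    · rw [tab_spec h]
      simp only [Kind.spec.injEq, Fin.ext_iff]
      omega
    · rw [tab_code h h']
      constructor
      · intro h; cases h
      · intro h; omega
    · rw [tab_ent he hr]
      have h1 : Bc ≤ Bc * (e + 1) := Nat.le_mul_of_pos_right _ (Nat.succ_pos e)
      constructor
      · intro h; cases h
      · intro h; omega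
    · rw [tab_big h]
      have h1 : Bc ≤ R0 := Nat.le_mul_of_pos_right _ (Nat.succ_pos _)
      constructor
      · intro h; cases h
      · intro h; omega
  · intro i _
    by_cases h5 : i < 5 * 2 ^ R
    · rw [lab_lt hR h5]
      constructor
      · intro h; cases h
      · intro h; omega
    obtain ⟨k, rfl⟩ : ∃ k, i = 5 * 2 ^ R + k := ⟨i - 5 * 2 ^ R, by omega⟩
    rw [lab_add hR]
    rcases tab_cases k with h | ⟨h, h'⟩ | ⟨e, he, r, hr, rfl⟩ | h
    · rw [tab_spec h]
      constructor
      · intro h; cases h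
      · intro h; omega
    · rw [tab_code h h']
      constructor
      · intro _; omega
      · intro _; rfl
    · rw [tab_ent he hr]
      have h1 : Bc ≤ Bc * (e + 1) := Nat.le_mul_of_pos_right _ (Nat.succ_pos e)
      constructor
      · intro h; cases h
      · intro h; omega
    · rw [tab_big h]
      have h1 : Bc ≤ R0 := Nat.le_mul_of_pos_right _ (Nat.succ_pos _)
      constructor
      · intro h; cases h
      · intro h; omega

end Crest.Agent.R176.Lv
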