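import Crest.Agent.R176.LvStmts

/-!
Row 176: the concrete rules on rendered pair states are the abstract moves.
-/

set_option autoImplicit false

namespace Crest.Agent.R176.Lv

namespace Rend

variable {R : ℕ}

theorem arr_lt {i a : ℕ} : arr i a = .lt ↔ i < a := by
  unfold arr; split_ifs <;> simp <;> omega

theorem arr_eq {i a : ℕ} : arr i a = .eq ↔ i = a := by
  unfold arr; split_ifs <;> simp <;> omega

theorem arr_gt {i a : ℕ} : arr i a = .gt ↔ a < i := by
  unfold arr; split_ifs <;> simp <;> omega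

theorem arr_congr {i a j b : ℕ} (h₁ : i < a ↔ j < b) (h₂ : i = a ↔ j = b) : arr i a = arr j b := by
  unfold arr; simp only [h₁, h₂]

@[simp] theorem cc_hd (s : PS R) (i : ℕ) : (s.cc i).hd = s.hd i := by
  unfold PS.cc; split_ifs <;> rfl

theorem cc_L (s : PS R) {i : ℕ} (h : i < N R) : s.cc i = s.L.cc (s.hd i) i := if_pos h

theorem cc_R (s : PS R) {i : ℕ} (h : N R ≤ i) : s.cc i = s.Rb.cc (s.hd i) (i - N R) :=
  if_neg (by omega)

theorem hd_on {s : PS R} {i : ℕ} {m : Option Run} : s.hd i = .on m ↔ i = s.h ∧ m = some s.m := by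
  unfold PS.hd; split_ifs with h₁ h₂
  · simp; omega
  · simp [h₂, eq_comm]
  · simp [h₂]

theorem hd_bef {s : PS R} {i : ℕ} {b : Bool} :
    s.hd i = .bef b ↔ i < s.h ∧ b = decide (N R ≤ i) := by
  unfold PS.hd; split_ifs with h₁ h₂
  · simp [h₁, eq_comm]
  · simp [h₁]
  · simp [h₁]

theorem hd_aft {s : PS R} {i : ℕ} {b : Bool} :
    s.hd i = .aft b ↔ s.h < i ∧ b = decide (i < N R) := by
  unfold PS.hd; split_ifs with h₁ h₂
  · simp; omega
  · simp; omega
  · have : s.h < i := by omega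
    simp [this, eq_comm]

theorem cc_bd (P : PosFacts R) (s : PS R) {i : ℕ} (h : i + 1 < 2 * N R) :
    (s.cc i).pos.bd = decide (i + 1 = N R) := by
  by_cases hi : i < N R
  · rw [cc_L s hi, Bool.eq_iff_iff, decide_eq_true_iff]; exact P.bd i hi
  · rw [cc_R s (by omega), Bool.eq_iff_iff, decide_eq_true_iff]
    exact (P.bd (i - N R) (by omega)).trans (by omega)

theorem arrow_cc (P : PosFacts R) {s : PS R} (hs : s.Bd) (κ : Pt) (i : ℕ) :
    arrow κ (decide (N R ≤ i)) (s.cc i) = arr i (s.gp κ) := by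
  have h₁ := hs.Lal
  have h₂ := hs.Lbe
  have h₃ := hs.Rbe
  by_cases hi : i < N R
  · rw [decide_eq_false (by omega), cc_L s hi]
    cases κ
    · rfl
    · rfl
    · exact (arr_lt.2 (by simp only [PS.gp]; omega)).symm
    · simp only [arrow, PS.gp, Blk.cc]
      by_cases hb : i + 1 = N R
      · rw [if_pos ((P.bd i hi).2 hb)]; exact (arr_eq.2 (by omega)).symm
      · rw [if_neg (fun e => hb ((P.bd i hi).1 e))]; exact (arr_lt.2 (by omega)).symm
  · rw [decide_eq_true (by omega), cc_R s (by omega)]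
    cases κ
    · exact (arr_gt.2 (by simp only [PS.gp]; omega)).symm
    · exact (arr_gt.2 (by simp only [PS.gp]; omega)).symm
    · exact arr_congr (by simp only [PS.gp]; omega) (by simp only [PS.gp]; omega)
    · exact (arr_gt.2 (by simp only [PS.gp]; omega)).symm

@[simp] theorem src_side (m : Run) (b : Bool) : ({ m with side := b } : Run).src = m.src := rfl

@[simp] theorem tgt_side (m : Run) (b : Bool) : ({ m with side := b } : Run).tgt = m.tgt := rfl

theorem side_succ {p : ℕ} :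
    (decide (N R ≤ p) || decide (p + 1 = N R)) = decide (N R ≤ p + 1) := by
  rw [Bool.eq_iff_iff]; simp; omega

theorem side_aft {p : ℕ} :
    (!decide (N R ≤ p) && !decide (p + 1 = N R)) = decide (p + 1 < N R) := by
  rw [Bool.eq_iff_iff]; simp; omega

/-- Only the head changes. -/
theorem cc_head (s : PS R) (h : ℕ) (m : Run) (i : ℕ) :
    ({ s with h := h, m := m } : PS R).cc i =
      { s.cc i with hd := ({ s with h := h, m := m } : PS R).hd i } := by
  unfold PS.cc; split_ifs <;> rfl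

theorem cell_congr {s s' : PS R} (hL : s'.L.t = s.L.t) (hR : s'.Rb.t = s.Rb.t) {i : ℕ}
    (h : s'.cc i = s.cc i) : s'.cell i = s.cell i := by
  rw [PS.cell_eq hL hR, h, ← PS.cell_σ]

theorem hd_succ (s s' : PS R) (h : s'.h = s.h + 1) {i : ℕ} (h₁ : i ≠ s.h) (h₂ : i ≠ s.h + 1) :
    s'.hd i = s.hd i := by
  unfold PS.hd
  rw [h]
  by_cases hi : i < s.h
  · rw [if_pos (by omega), if_pos hi]
  · rw [if_neg (by omega), if_neg h₂, if_neg hi, if_neg h₁]

theorem hd_self (s : PS R) : s.hd s.h = .on (some s.m) := hd_on.2 ⟨rfl, rfl⟩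

theorem r1 (P : PosFacts R) (s s' : PS R) (p : ℕ) (hs : s.Bd) (h : AF p s s') :
    s'.Bd ∧ p + 1 < 2 * N R ∧
    Fwd (s.cc p) (s.cc (p + 1)) (s'.cc p) (s'.cc (p + 1)) ∧ s'.L.t = s.L.t ∧ s'.Rb.t = s.Rb.t ∧
    ∀ i, i ≠ p → i ≠ p + 1 → s'.cell i = s.cell i := by
  have hside := hs.side
  cases h with
  | mvR _ h₁ h₂ h₃ =>
    refine ⟨⟨hs.Lal, hs.Lbe, hs.Ral, hs.Rbe, h₁, rfl⟩, h₁, ?_, rfl, rfl, fun i hi hi' => ?_⟩
    · have := Fwd.mvR (s.cc s.h) (s.cc (s.h + 1)) s.m (by simp [hd_self])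
        (by rw [cc_bd P s h₁, hside]; simp; omega)
        (by rw [cc_hd, cc_bd P s h₁, hside, side_aft]; exact hd_aft.2 ⟨by omega, rfl⟩)
        (by rw [hside, arrow_cc P hs]; exact arr_lt.2 h₂)
        (by rw [cc_bd P s h₁, hside, side_succ, arrow_cc P hs]; exact arr_gt.2 (by omega))
      convert this using 1
      · exact (cc_head s _ _ _).trans (CC.ext rfl rfl (hd_bef.2 ⟨by simp, hside⟩) rfl rfl rfl)
      · refine (cc_head s _ _ _).trans (CC.ext rfl rfl ?_ rfl rfl rfl)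
        rw [cc_bd P s h₁, hside, side_succ]; exact hd_on.2 ⟨rfl, rfl⟩
    · refine cell_congr (by rfl) (by rfl) ((cc_head s _ _ _).trans (CC.ext rfl rfl ?_ rfl rfl rfl))
      exact (hd_succ s _ (by rfl) hi hi').trans (cc_hd s i).symm
  | mvL _ _ h₁ h₂ h₃ =>
    have hp : p + 1 < 2 * N R := h₁ ▸ hs.h_lt
    refine ⟨⟨hs.Lal, hs.Lbe, hs.Ral, hs.Rbe, by simp only; omega, rfl⟩, hp, ?_, rfl, rfl,
      fun i hi hi' => ?_⟩
    · have := Fwd.mvL (s.cc p) (s.cc (p + 1)) { s.m with side := decide (N R ≤ p) }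
        (by rw [cc_hd]; exact hd_bef.2 ⟨by omega, rfl⟩)
        (by rw [cc_bd P s hp]; simp; omega)
        (by
          rw [cc_hd, cc_bd P s hp]
          refine hd_on.2 ⟨h₁.symm, ?_⟩
          rw [side_succ, ← h₁, ← hside])
        (by rw [cc_bd P s hp, tgt_side, side_succ, arrow_cc P hs]; exact arr_gt.2 (by omega))
        (by rw [src_side, arrow_cc P hs]; exact arr_lt.2 h₃)
      convert this using 1
      · exact (cc_head s _ _ _).trans (CC.ext rfl rfl (hd_on.2 ⟨rfl, rfl⟩) rfl rfl rfl)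
      · refine (cc_head s _ _ _).trans (CC.ext rfl rfl ?_ rfl rfl rfl)
        rw [cc_bd P s hp, side_aft]; exact hd_aft.2 ⟨by simp, rfl⟩
    · refine cell_congr (by rfl) (by rfl) ((cc_head s _ _ _).trans (CC.ext rfl rfl ?_ rfl rfl rfl))
      refine Eq.trans ?_ (cc_hd s i).symm
      exact (hd_succ { s with h := p, m := { s.m with side := decide (N R ≤ p) } } s h₁ hi hi').symm
  | evA _ h₁ h₂ h₃ h₄ h₅ =>
    have hf : s.m.side = false := by rw [hside]; simp; omega
    refine ⟨⟨h₃, hs.Lbe, hs.Ral, hs.Rbe, by simp only; omega, by simp [hf]; omega⟩, by omega, ?_,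
      rfl, rfl, fun i hi hi' => ?_⟩
    · have := Fwd.evA (s.cc s.h) (s.cc (s.h + 1)) s.m (by simp [hd_self]) hf h₁
        (by rw [cc_bd P s (by omega)]; simp; omega)
        (by rw [cc_hd]; exact hd_aft.2 ⟨by omega, by simp; omega⟩)
        (by rw [cc_L s (by omega)]; exact arr_eq.2 h₂)
        (by rw [cc_L s h₃]; exact arr_gt.2 (by omega))
        (by rw [cc_L s (by omega)]; exact h₄) (by rw [cc_L s h₃]; exact h₅)
      convert this using 1
      · rw [cc_L _ (by omega), cc_L s (by omega)]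
        refine CC.ext rfl rfl (hd_bef.2 ⟨by simp, by simp; omega⟩) (arr_lt.2 (by simp)) rfl rfl
      · rw [cc_L _ h₃, cc_L s h₃]
        exact CC.ext rfl rfl (hd_on.2 ⟨rfl, rfl⟩) (arr_eq.2 rfl) rfl rfl
    · refine cell_congr (by rfl) (by rfl) ?_
      unfold PS.cc
      rw [hd_succ s _ rfl hi hi']
      split_ifs
      · exact CC.ext rfl rfl rfl (arr_congr (by simp only; omega) (by simp only; omega)) rfl rfl
      · rfl
  | evB _ v o h₁ h₂ h₃ h₄ h₅ h₆ =>
    have hf : s.m.side = false := by rw [hside]; simp; omega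
    refine ⟨⟨hs.Lal, h₃, hs.Ral, hs.Rbe, by simp only; omega, by simp [hf]; omega⟩, by omega, ?_,
      rfl, rfl, fun i hi hi' => ?_⟩
    · have := Fwd.evB (s.cc s.h) (s.cc (s.h + 1)) s.m v o (by simp [hd_self]) hf h₁
        (by rw [cc_bd P s (by omega)]; simp; omega)
        (by rw [cc_hd]; exact hd_aft.2 ⟨by omega, by simp; omega⟩)
        (by rw [cc_L s (by omega)]; exact arr_eq.2 h₂)
        (by rw [cc_L s h₃]; exact arr_gt.2 (by omega)) h₄
        (by rw [cc_L s (by omega)]; exact h₅) (by rw [cc_L s h₃]; exact h₆)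
      convert this using 1
      · rw [cc_L _ (by omega), cc_L s (by omega)]
        refine CC.ext rfl rfl (hd_bef.2 ⟨by simp, by simp; omega⟩) rfl (arr_lt.2 (by simp)) ?_
        exact Function.update_of_ne (by omega) _ _
      · rw [cc_L _ h₃, cc_L s h₃]
        exact CC.ext rfl rfl (hd_on.2 ⟨rfl, rfl⟩) rfl (arr_eq.2 rfl) (Function.update_self _ _ _)
    · refine cell_congr (by rfl) (by rfl) ?_
      unfold PS.cc
      rw [hd_succ s _ rfl hi hi']
      split_ifs
      · exact CC.ext rfl rfl rfl rfl (arr_congr (by simp only; omega) (by simp only; omega))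
          (Function.update_of_ne hi' _ _)
      · rfl
  | evC _ v ρ' h₁ h₂ h₃ h₄ h₅ h₆ =>
    have hf : s.m.side = true := by rw [hside]; simp; omega
    have e₁ : s.h - N R = s.Rb.be := by omega
    have e₂ : s.h + 1 - N R = s.Rb.be + 1 := by omega
    refine ⟨⟨hs.Lal, hs.Lbe, hs.Ral, h₃, by simp only; omega, by simp [hf]; omega⟩, by omega, ?_,
      rfl, rfl, fun i hi hi' => ?_⟩
    · have := Fwd.evC (s.cc s.h) (s.cc (s.h + 1)) s.m v ρ' (by simp [hd_self]) hf h₁
        (by rw [cc_bd P s (by omega)]; simp; omega)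
        (by rw [cc_hd]; exact hd_aft.2 ⟨by omega, by simp; omega⟩)
        (by rw [cc_R s (by omega)]; exact arr_eq.2 e₁)
        (by rw [cc_R s (by omega)]; exact arr_gt.2 (by omega))
        (by rw [cc_R s (by omega), e₁]; exact h₄) (by rw [cc_R s (by omega), e₂]; exact h₅) h₆
      convert this using 1
      · rw [cc_R _ (by omega), cc_R s (by omega), e₁]
        refine CC.ext rfl rfl (hd_bef.2 ⟨by simp, by simp; omega⟩) rfl (arr_lt.2 (by simp)) ?_
        exact Function.update_of_ne (by omega) _ _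
      · rw [cc_R _ (by omega), cc_R s (by omega), e₂]
        exact CC.ext rfl rfl (hd_on.2 ⟨rfl, rfl⟩) rfl (arr_eq.2 rfl) (Function.update_self _ _ _)
    · refine cell_congr (by rfl) (by rfl) ?_
      unfold PS.cc
      rw [hd_succ s _ rfl hi hi']
      split_ifs
      · rfl
      · exact CC.ext rfl rfl rfl rfl (arr_congr (by simp only; omega) (by simp only; omega))
          (Function.update_of_ne (by omega) _ _)

theorem r2f (P : PosFacts R) (s : PS R) (p : ℕ) (d₁ d₂ : CC) (hs : s.Bd) (hp : p + 1 < 2 * N R)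
    (h : Fwd (s.cc p) (s.cc (p + 1)) d₁ d₂) :
    ∃ s', AF p s s' ∧ d₁ = s'.cc p ∧ d₂ = s'.cc (p + 1) := by
  have hside := hs.side
  have hbd := cc_bd P s hp
  cases h with
  | start ρ h₁ h₂ h₃ => rw [cc_hd, hd_on] at h₂; exact absurd h₂.2 (by simp)
  | mvR m h₁ h₂ h₃ h₄ h₅ =>
    rw [cc_hd, hd_on, Option.some.injEq] at h₁
    obtain ⟨rfl, rfl⟩ := h₁
    rw [hside, arrow_cc P hs, arr_lt] at h₄
    rw [hbd, hside, side_succ, arrow_cc P hs, arr_gt] at h₅
    refine ⟨_, AF.mvR s hp h₄ (by omega), ?_, ?_⟩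
    · symm
      exact (cc_head s _ _ _).trans (CC.ext rfl rfl (hd_bef.2 ⟨by simp, hside⟩) rfl rfl rfl)
    · symm
      refine (cc_head s _ _ _).trans (CC.ext rfl rfl ?_ rfl rfl rfl)
      rw [hbd, hside, side_succ]; exact hd_on.2 ⟨rfl, rfl⟩
  | mvL m h₁ h₂ h₃ h₄ h₅ =>
    rw [cc_hd, hd_bef] at h₁
    rw [cc_hd, hd_on, Option.some.injEq] at h₃
    have hm : m = { s.m with side := decide (N R ≤ p) } := by rw [← h₃.2, ← h₁.2]
    rw [hbd, h₁.2, side_succ, arrow_cc P hs, arr_gt, hm, tgt_side] at h₄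
    rw [h₁.2, arrow_cc P hs, arr_lt, hm, src_side] at h₅
    refine ⟨_, AF.mvL s p h₃.1.symm (by omega) h₅, ?_, ?_⟩
    · symm
      exact (cc_head s _ _ _).trans
        (CC.ext rfl rfl (hd_on.2 ⟨rfl, congrArg some hm⟩) rfl rfl rfl)
    · symm
      refine (cc_head s _ _ _).trans (CC.ext rfl rfl ?_ rfl rfl rfl)
      rw [hbd, h₁.2, side_aft]; exact hd_aft.2 ⟨by simp, rfl⟩
  | evA m h₁ h₂ h₃ h₄ h₅ h₆ h₇ h₈ h₉ =>
    rw [cc_hd, hd_on, Option.some.injEq] at h₁
    obtain ⟨rfl, rfl⟩ := h₁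
    have hl : s.h + 1 < N R := by simpa using (hd_aft.1 ((cc_hd _ _).symm.trans h₅)).2
    rw [cc_L s (by omega)] at h₆ h₈
    rw [cc_L s hl] at h₉
    refine ⟨_, AF.evA s h₃ (arr_eq.1 h₆) hl h₈ h₉, ?_, ?_⟩
    · symm
      rw [cc_L _ (by omega), cc_L s (by omega)]
      exact CC.ext rfl rfl (hd_bef.2 ⟨by simp, by simp; omega⟩) (arr_lt.2 (by simp))
        rfl rfl
    · symm
      rw [cc_L _ hl, cc_L s hl]
      exact CC.ext rfl rfl (hd_on.2 ⟨rfl, rfl⟩) (arr_eq.2 rfl) rfl rfl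
  | evB m v o h₁ h₂ h₃ h₄ h₅ h₆ h₇ h₈ h₉ h₁₀ =>
    rw [cc_hd, hd_on, Option.some.injEq] at h₁
    obtain ⟨rfl, rfl⟩ := h₁
    have hl : s.h + 1 < N R := by simpa using (hd_aft.1 ((cc_hd _ _).symm.trans h₅)).2
    rw [cc_L s (by omega)] at h₆ h₉
    rw [cc_L s hl] at h₁₀
    refine ⟨_, AF.evB s v o h₃ (arr_eq.1 h₆) hl h₈ h₉ h₁₀, ?_, ?_⟩
    · symm
      rw [cc_L _ (by omega), cc_L s (by omega)]
      refine CC.ext rfl rfl (hd_bef.2 ⟨by simp, by simp; omega⟩) rfl
        (arr_lt.2 (by simp)) ?_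
      exact Function.update_of_ne (by omega) _ _
    · symm
      rw [cc_L _ hl, cc_L s hl]
      exact CC.ext rfl rfl (hd_on.2 ⟨rfl, rfl⟩) rfl (arr_eq.2 rfl)
        (Function.update_self _ _ _)
  | evC m v ρ' h₁ h₂ h₃ h₄ h₅ h₆ h₇ h₈ h₉ h₁₀ =>
    rw [cc_hd, hd_on, Option.some.injEq] at h₁
    obtain ⟨rfl, rfl⟩ := h₁
    have hl : N R ≤ s.h := by simpa [h₂] using hside
    rw [cc_R s hl] at h₆ h₈
    rw [cc_R s (by omega)] at h₉
    have e₁ : s.h - N R = s.Rb.be := arr_eq.1 h₆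
    have e₂ : s.h + 1 - N R = s.Rb.be + 1 := by omega
    rw [e₁] at h₈
    rw [e₂] at h₉
    refine ⟨_, AF.evC s v ρ' h₃ (by omega) (by omega) h₈ h₉ h₁₀, ?_, ?_⟩
    · symm
      rw [cc_R _ hl, cc_R s hl, e₁]
      refine CC.ext rfl rfl (hd_bef.2 ⟨by simp, by simp; omega⟩) rfl
        (arr_lt.2 (by simp)) ?_
      exact Function.update_of_ne (by omega) _ _
    · symm
      rw [cc_R _ (by omega), cc_R s (by omega), e₂]
      exact CC.ext rfl rfl (hd_on.2 ⟨rfl, rfl⟩) rfl (arr_eq.2 rfl)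
        (Function.update_self _ _ _)

theorem r2b (P : PosFacts R) (s : PS R) (p : ℕ) (d₁ d₂ : CC) (hs : s.Bd) (hp : p + 1 < 2 * N R)
    (h : Fwd d₁ d₂ (s.cc p) (s.cc (p + 1))) :
    (s.IsStart ∧ p = s.h ∧ d₁ = s.L.cc (.on none) p ∧ d₂ = s.Rb.cc (.on none) 0) ∨
      ∃ s' : PS R, s'.Bd ∧ AF p s' s ∧ d₁ = s'.cc p ∧ d₂ = s'.cc (p + 1) := by
  have hside := hs.side
  have hbd := cc_bd P s hp
  have hd₁ := cc_hd s p
  have hd₂ := cc_hd s (p + 1)
  generalize e₁ : s.cc p = c₁ at h hbd hd₁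
  generalize e₂ : s.cc (p + 1) = c₂ at h hd₂
  cases h with
  | start ρ h₁ h₂ h₃ =>
    obtain ⟨rfl, hm⟩ := hd_on.1 hd₁.symm
    have hm' : s.m = Run.start ρ := (Option.some.inj hm).symm
    have hN : s.h + 1 = N R := by simpa [h₁] using hbd
    refine Or.inl ⟨⟨hN, by rw [hm']; rfl⟩, rfl, ?_, ?_⟩
    · rw [cc_L s (by omega)] at e₁
      simp only [Blk.cc, CC.mk.injEq] at e₁
      exact CC.ext e₁.1.symm e₁.2.1.symm h₂ e₁.2.2.2.1.symm e₁.2.2.2.2.1.symm e₁.2.2.2.2.2.symm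
    · rw [cc_R s (by omega), hN, Nat.sub_self] at e₂
      simp only [Blk.cc, CC.mk.injEq] at e₂
      exact CC.ext e₂.1.symm e₂.2.1.symm h₃ e₂.2.2.2.1.symm e₂.2.2.2.2.1.symm e₂.2.2.2.2.2.symm
  | mvR m h₁ h₂ h₃ h₄ h₅ =>
    obtain ⟨hh, hm⟩ := hd_on.1 hd₂.symm
    have hm' := (Option.some.inj hm).symm
    have hsd := (hd_bef.1 hd₁.symm).2
    simp only at hbd
    have hb : ({ s with h := p, m := m } : PS R).Bd :=
      ⟨hs.Lal, hs.Lbe, hs.Ral, hs.Rbe, by simp only; omega, hsd⟩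
    have c₁ : d₁ = ({ s with h := p, m := m } : PS R).cc p := by
      rw [cc_head s, e₁]; exact CC.ext rfl rfl (h₁.trans (by symm; exact hd_on.2 ⟨rfl, rfl⟩)) rfl rfl rfl
    have c₂ : d₂ = ({ s with h := p, m := m } : PS R).cc (p + 1) := by
      rw [cc_head s, e₂]
      refine CC.ext rfl rfl (h₃.trans (hd_aft.2 ⟨by simp, ?_⟩).symm) rfl rfl rfl
      rw [hbd, hsd, side_aft]
    rw [c₁, hsd, arrow_cc P hb, arr_lt] at h₄
    rw [c₂, hbd, hsd, side_succ, arrow_cc P hb, arr_gt] at h₅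
    refine Or.inr ⟨_, hb, ?_, c₁, c₂⟩
    have := AF.mvR ({ s with h := p, m := m } : PS R) hp h₄ (Nat.lt_succ_iff.1 h₅)
    convert this using 1
    refine PS.ext rfl rfl hh.symm ?_
    rw [hm', hbd, hsd, side_succ]
  | mvL m h₁ h₂ h₃ h₄ h₅ =>
    obtain ⟨hh, hm⟩ := hd_on.1 hd₁.symm
    have hm' := Option.some.inj hm
    subst hm' hh
    simp only at hbd
    have hb : ({ s with h := s.h + 1, m := { s.m with side := decide (N R ≤ s.h + 1) } } :
        PS R).Bd := ⟨hs.Lal, hs.Lbe, hs.Ral, hs.Rbe, hp, rfl⟩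
    have c₁ : d₁ = ({ s with h := s.h + 1, m := { s.m with side := decide (N R ≤ s.h + 1) } } :
        PS R).cc s.h := by
      rw [cc_head s, e₁]
      exact CC.ext rfl rfl (h₁.trans (hd_bef.2 ⟨by simp, hside⟩).symm) rfl rfl rfl
    have c₂ : d₂ = ({ s with h := s.h + 1, m := { s.m with side := decide (N R ≤ s.h + 1) } } :
        PS R).cc (s.h + 1) := by
      rw [cc_head s, e₂]
      refine CC.ext rfl rfl (h₃.trans ?_) rfl rfl rfl
      rw [hbd, hside, side_succ]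
      symm; exact hd_on.2 ⟨rfl, rfl⟩
    rw [c₂, hbd, hside, side_succ, arrow_cc P hb, arr_gt] at h₄
    rw [c₁, hside, arrow_cc P hb, arr_lt] at h₅
    refine Or.inr ⟨_, hb, ?_, c₁, c₂⟩
    have := AF.mvL ({ s with h := s.h + 1, m := { s.m with side := decide (N R ≤ s.h + 1) } } :
      PS R) s.h rfl (Nat.lt_succ_iff.1 h₄) h₅
    convert this using 1
    exact PS.ext rfl rfl rfl (Run.ext rfl rfl rfl hside rfl rfl rfl)
  | evA m h₁ h₂ h₃ h₄ h₅ h₆ h₇ h₈ h₉ =>
    obtain ⟨hh, hm⟩ := hd_on.1 hd₂.symm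
    have hm' := (Option.some.inj hm).symm
    have hsd : p < N R := by simpa using (hd_bef.1 hd₁.symm).2
    have hl : p + 1 < N R := by
      have : p + 1 ≠ N R := by simpa [h₄] using hbd
      omega
    rw [cc_L s hsd] at e₁
    rw [cc_L s hl] at e₂
    simp only [Blk.cc, CC.mk.injEq] at e₁ e₂
    have ha : p + 1 = s.L.al := arr_eq.1 e₂.2.2.2.1
    refine Or.inr ⟨{ s with L := { s.L with al := p }, h := p, m := m },
      ⟨hsd, hs.Lbe, hs.Ral, hs.Rbe, by simp only; omega, by simp [h₂, hsd]⟩, ?_, ?_, ?_⟩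
    · have := AF.evA ({ s with L := { s.L with al := p }, h := p, m := m } : PS R) h₃ rfl hl
        (by simpa only [e₁.1] using h₈) (by simpa only [e₂.1] using h₉)
      convert this using 1
      refine PS.ext (Blk.ext rfl rfl rfl rfl rfl ha.symm rfl) rfl hh.symm ?_
      rw [hm', ← e₂.1]
    · rw [cc_L _ hsd]
      exact CC.ext e₁.1.symm e₁.2.1.symm (h₁.trans (by symm; exact hd_on.2 ⟨rfl, rfl⟩))
        (h₆.trans (arr_eq.2 rfl).symm) e₁.2.2.2.2.1.symm e₁.2.2.2.2.2.symm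
    · rw [cc_L _ hl]
      exact CC.ext e₂.1.symm e₂.2.1.symm (h₅.trans (hd_aft.2 ⟨by simp, by simp [hl]⟩).symm)
        (h₇.trans (arr_gt.2 (by simp)).symm) e₂.2.2.2.2.1.symm e₂.2.2.2.2.2.symm
  | evB m v o h₁ h₂ h₃ h₄ h₅ h₆ h₇ h₈ h₉ h₁₀ =>
    obtain ⟨hh, hm⟩ := hd_on.1 hd₂.symm
    have hm' := (Option.some.inj hm).symm
    have hsd : p < N R := by simpa using (hd_bef.1 hd₁.symm).2
    have hl : p + 1 < N R := by
      have : p + 1 ≠ N R := by simpa [h₄] using hbd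
      omega
    rw [cc_L s hsd] at e₁
    rw [cc_L s hl] at e₂
    simp only [Blk.cc, CC.mk.injEq] at e₁ e₂
    have ha : p + 1 = s.L.be := arr_eq.1 e₂.2.2.2.2.1
    have hu : Function.update s.L.u (p + 1) d₂.u p = d₁.u :=
      (Function.update_of_ne (by omega) _ _).trans e₁.2.2.2.2.2
    refine Or.inr ⟨{ s with
        L := { s.L with be := p, u := Function.update s.L.u (p + 1) d₂.u }, h := p, m := m },
      ⟨hs.Lal, hsd, hs.Ral, hs.Rbe, by simp only; omega, by simp [h₂, hsd]⟩, ?_, ?_, ?_⟩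
    · have := AF.evB ({ s with
          L := { s.L with be := p, u := Function.update s.L.u (p + 1) d₂.u }, h := p, m := m } :
          PS R) v o h₃ rfl hl h₈
        (by rw [← e₁.1, ← e₁.2.1, ← hu] at h₉; exact h₉)
        (by simpa only [Function.update_self] using h₁₀)
      convert this using 1
      refine PS.ext (Blk.ext rfl rfl rfl ?_ rfl rfl ha.symm) rfl hh.symm ?_
      · simp only [Function.update_idem, ← e₂.2.2.2.2.2, Function.update_eq_self]
      · rw [hm', ← e₂.2.1]; rfl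
    · rw [cc_L _ hsd]
      exact CC.ext e₁.1.symm e₁.2.1.symm (h₁.trans (by symm; exact hd_on.2 ⟨rfl, rfl⟩)) e₁.2.2.2.1.symm
        (h₆.trans (arr_eq.2 rfl).symm) hu.symm
    · rw [cc_L _ hl]
      exact CC.ext e₂.1.symm e₂.2.1.symm (h₅.trans (hd_aft.2 ⟨by simp, by simp [hl]⟩).symm)
        e₂.2.2.2.1.symm (h₇.trans (arr_gt.2 (by simp)).symm) (by symm; exact Function.update_self _ _ _)
  | evC m v ρ' h₁ h₂ h₃ h₄ h₅ h₆ h₇ h₈ h₉ h₁₀ =>
    obtain ⟨hh, hm⟩ := hd_on.1 hd₂.symm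
    have hm' := (Option.some.inj hm).symm
    have hsd : N R ≤ p := by simpa using (hd_bef.1 hd₁.symm).2
    have e₃ : p + 1 - N R = p - N R + 1 := by omega
    rw [cc_R s hsd] at e₁
    rw [cc_R s (by omega), e₃] at e₂
    simp only [Blk.cc, CC.mk.injEq] at e₁ e₂
    have ha : p - N R + 1 = s.Rb.be := arr_eq.1 e₂.2.2.2.2.1
    have hu : Function.update s.Rb.u (p - N R + 1) d₂.u (p - N R) = d₁.u :=
      (Function.update_of_ne (by omega) _ _).trans e₁.2.2.2.2.2
    refine Or.inr ⟨{ s with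
        Rb := { s.Rb with be := p - N R, u := Function.update s.Rb.u (p - N R + 1) d₂.u },
        h := p, m := m },
      ⟨hs.Lal, hs.Lbe, hs.Ral, by simp only; omega, by simp only; omega, by simp [h₂, hsd]⟩,
      ?_, ?_, ?_⟩
    · have := AF.evC ({ s with
          Rb := { s.Rb with be := p - N R, u := Function.update s.Rb.u (p - N R + 1) d₂.u },
          h := p, m := m } : PS R) v ρ' h₃ (by simp only; omega) (by simp only; omega)
        (by rw [← e₁.1] at h₈; exact h₈) (by simpa only [Function.update_self] using h₉) h₁₀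
      convert this using 1
      refine PS.ext rfl (Blk.ext rfl rfl rfl ?_ rfl rfl ha.symm) hh.symm hm'
      simp only [Function.update_idem, ← e₂.2.2.2.2.2, Function.update_eq_self]
    · rw [cc_R _ hsd]
      exact CC.ext e₁.1.symm e₁.2.1.symm (h₁.trans (by symm; exact hd_on.2 ⟨rfl, rfl⟩)) e₁.2.2.2.1.symm
        (h₆.trans (arr_eq.2 rfl).symm) hu.symm
    · rw [cc_R _ (by omega), e₃]
      exact CC.ext e₂.1.symm e₂.2.1.symm
        (h₅.trans (hd_aft.2 ⟨by simp, by simp; omega⟩).symm)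
        e₂.2.2.2.1.symm (h₇.trans (arr_gt.2 (by simp)).symm) (by symm; exact Function.update_self _ _ _)

theorem need_iff (P : PosFacts R) (s : PS R) (p : ℕ) (hs : s.Bd) :
    need (s.cc p) (s.cc (p + 1)) ↔ s.Need p := by
  have hside := hs.side
  unfold need PS.Need
  simp only [cc_hd, hd_on, Option.some.injEq]
  refine or_congr ⟨?_, ?_⟩ ⟨?_, ?_⟩
  · rintro ⟨m, ⟨rfl, rfl⟩, h⟩
    rw [hside, arrow_cc P hs, arr_lt, arr_eq] at h
    exact ⟨rfl, h⟩
  · rintro ⟨rfl, h⟩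
    refine ⟨_, ⟨rfl, rfl⟩, ?_⟩
    rw [hside, arrow_cc P hs, arr_lt, arr_eq]
    exact h
  · rintro ⟨m, ⟨e, rfl⟩, h⟩
    rw [hside, ← e, arrow_cc P hs, arr_gt, arr_eq] at h
    exact ⟨e.symm, h⟩
  · rintro ⟨e, h⟩
    refine ⟨_, ⟨e.symm, rfl⟩, ?_⟩
    rw [hside, e, arrow_cc P hs, arr_gt, arr_eq]
    exact h

theorem fz_iff (P : PosFacts R) (s : PS R) (p : ℕ) (hs : s.Bd) (hp : p + 1 < 2 * N R) :
    fz (s.cc p) (s.cc (p + 1)) ↔ p = s.h ∧ s.AZ := by
  have hside := hs.side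
  unfold fz PS.AZ
  simp only [cc_hd, hd_on, Option.some.injEq]
  constructor
  · rintro ⟨m, ⟨rfl, rfl⟩, h₁, h₂, -, h₄, h₅, h₆⟩
    have hl : N R ≤ s.h := by simpa [h₁] using hside
    rw [cc_R s hl] at h₄ h₅
    rw [cc_R s (by omega)] at h₆
    have e₁ : s.h - N R = s.Rb.be := arr_eq.1 h₄
    have e₂ : s.h + 1 - N R = s.Rb.be + 1 := by omega
    rw [e₁] at h₅
    rw [e₂] at h₆
    exact ⟨rfl, h₂, by omega, by omega, h₅, h₆⟩
  · rintro ⟨rfl, h₁, h₂, h₃, h₄, h₅⟩
    have e₁ : s.h - N R = s.Rb.be := by omega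
    have e₂ : s.h + 1 - N R = s.Rb.be + 1 := by omega
    refine ⟨_, ⟨rfl, rfl⟩, by rw [hside]; simp; omega, h₁, ?_, ?_, ?_, ?_⟩
    · rw [cc_bd P s hp]; simp; omega
    · rw [cc_R s (by omega)]; exact arr_eq.2 e₁
    · rw [cc_R s (by omega), e₁]; exact h₄
    · rw [cc_R s (by omega), e₂]; exact h₅

theorem start (P : PosFacts R) (s : PS R) (h : s.IsStart) :
    Fwd (s.L.cc (.on none) s.h) (s.Rb.cc (.on none) 0) (s.cc s.h) (s.cc (s.h + 1)) ∧
    ∃ l r, l.length = s.h ∧ wordS s.L s.h = l ++ [s.L.cell (.on none) s.h] ∧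
      wordS s.Rb 0 = s.Rb.cell (.on none) 0 :: r ∧
      s.word = l ++ [s.cell s.h, s.cell (s.h + 1)] ++ r := by
  obtain ⟨h₁, h₂⟩ := h
  have h6 := six_le_N R
  constructor
  · have := Fwd.start (s.L.cc (.on none) s.h) (s.Rb.cc (.on none) 0) s.m.rt
      ((P.bd _ (by omega)).2 h₁) rfl rfl
    convert this using 1
    · rw [cc_L s (by omega), hd_self, ← h₂]; rfl
    · rw [cc_R s (by omega), h₁, Nat.sub_self]
      exact CC.ext rfl rfl (hd_aft.2 ⟨by omega, by simp⟩) rfl rfl rfl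
  · refine ⟨(List.range s.h).map fun i => s.L.cell (.bef false) i,
      (List.range s.h).map fun i => s.Rb.cell (.aft false) (1 + i), by simp, ?_, ?_, ?_⟩
    · rw [wordS, ← h₁, List.range_succ, List.map_append]
      congr 1
      · exact range_map_congr fun i hi => by rw [hdS, if_pos hi]
      · simp [hdS]
    · rw [wordS, ← h₁, add_comm s.h 1, range_map_add]
      simp only [List.range_one, List.map_cons, List.map_nil, List.cons_append, List.nil_append]
      congr 1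
      exact range_map_congr fun i hi => by rw [hdS, if_neg (by omega), if_neg (by omega)]
    · rw [PS.word, range_map_split (p := s.h) (by omega)]
      congr 1
      · congr 1
        refine range_map_congr fun i hi => ?_
        rw [PS.cell, if_pos (by omega), hd_bef.2 ⟨hi, rfl⟩, decide_eq_false (by omega)]
      · rw [show 2 * N R - (s.h + 2) = s.h by omega]
        refine range_map_congr fun i hi => ?_
        rw [PS.cell, if_neg (by omega), hd_aft.2 ⟨by omega, rfl⟩, decide_eq_false (by omega),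
          show s.h + 2 + i - N R = 1 + i by omega]

end Rend

theorem rendStmt : RendStmt := fun _ P =>
  { r1 := Rend.r1 P
    r2f := Rend.r2f P
    r2b := Rend.r2b P
    need := fun s p hs _ => Rend.need_iff P s p hs
    fz := Rend.fz_iff P
    start := Rend.start P }

end Crest.Agent.R176.Lv
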