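import Crest.Agent.R176.LvStmts

/-!
Row 176: transplanting clean register regions.
-/

set_option autoImplicit false
set_option synthInstance.maxSize 4096

namespace Crest.Agent.R176.Lv

variable {R : ℕ}

namespace RepAux

/-! ### Lists -/

section lists

variable {X : Type}

theorem range_map_ofFn {n p m : ℕ} (h : p + m ≤ n) (c : ℕ → X) :
    (List.range n).map c = (List.range p).map c ++ List.ofFn (fun i : Fin m => c (p + i)) ++
      (List.range (n - (p + m))).map fun i => c (p + m + i) := by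
  obtain ⟨k, rfl⟩ : ∃ k, n = p + m + k := ⟨n - (p + m), by omega⟩
  rw [range_map_add, range_map_add, Nat.add_sub_cancel_left]
  congr 2
  apply List.ext_getElem <;> simp

theorem range_map_eq_ofFn {n m : ℕ} {c : ℕ → X} {l r : List X} {f : Fin m → X}
    (h : (List.range n).map c = l ++ List.ofFn f ++ r) :
    l.length + m ≤ n ∧ (∀ i : Fin m, c (l.length + i) = f i) ∧ l = (List.range l.length).map c ∧
      r = (List.range (n - (l.length + m))).map fun i => c (l.length + m + i) := by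
  have hn : l.length + m ≤ n := by
    have := congrArg List.length h
    simp at this; omega
  rw [range_map_ofFn hn, List.append_assoc, List.append_assoc] at h
  obtain ⟨h₁, h₂⟩ := List.append_inj h (by simp)
  obtain ⟨h₂, h₃⟩ := List.append_inj h₂ (by simp)
  exact ⟨hn, fun i => congrFun (List.ofFn_injective h₂) i, h₁.symm, h₃.symm⟩

theorem range_map_rep {n m : ℕ} {c c' : ℕ → X} {l r : List X} {f f' : Fin m → X}
    (h : (List.range n).map c = l ++ List.ofFn f ++ r)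
    (hin : ∀ i : Fin m, c' (l.length + i) = f' i)
    (hout : ∀ i < n, (i < l.length ∨ l.length + m ≤ i) → c' i = c i) :
    (List.range n).map c' = l ++ List.ofFn f' ++ r := by
  obtain ⟨hn, -, hl, hr⟩ := range_map_eq_ofFn h
  rw [range_map_ofFn hn c']
  congr 1
  · congr 1
    · exact (range_map_congr fun i hi => hout i (by omega) (Or.inl hi)).trans hl.symm
    · exact congrArg _ (funext hin)
  · exact (range_map_congr fun i hi => hout _ (by omega) (Or.inr (by omega))).trans hr.symm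

theorem dec_append {X' : Type} {U : List X → List X' → Prop} {M M' : List X} {W W' : List X'}
    (h : Dec U M W) (h' : Dec U M' W') : Dec U (M ++ M') (W ++ W') := by
  induction h with
  | nil => simpa using h'
  | cons hU _ ih => simpa only [List.append_assoc] using Dec.cons hU ih

theorem dec_one {X' : Type} {U : List X → List X' → Prop} {M : List X} {W : List X'}
    (h : U M W) : Dec U M W := by
  simpa using Dec.cons h Dec.nil

end lists

theorem unit_len {M : List (Let R)} {W : List (Let (2 ^ R))} (h : Unit M W) :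
    M.length = W.length * N R := by
  rcases h with ⟨B, h, -, -, rfl, rfl⟩ | ⟨s, -, -, rfl, rfl⟩
  · simp [wordS]
  · simp [PS.word, PS.dec]

/-- A factor that does not cross a block boundary lies inside one unit. -/
theorem locate {M : List (Let R)} {W : List (Let (2 ^ R))} (h : Dec Unit M W) :
    ∀ l a r : List (Let R), M = l ++ a ++ r → 0 < a.length →
      (∀ k, l.length < k * N R → l.length + a.length ≤ k * N R) →
      ∃ M₁ W₁ l' r' W₀ M₂ W₂, Dec Unit M₁ W₁ ∧ Unit (l' ++ a ++ r') W₀ ∧ Dec Unit M₂ W₂ ∧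
        l = M₁ ++ l' ∧ r = r' ++ M₂ ∧ W = W₁ ++ W₀ ++ W₂ ∧ M₁.length = W₁.length * N R := by
  induction h with
  | nil =>
    intro l a r e ha _
    have := congrArg List.length e
    simp at this; omega
  | @cons M W M' W' hU hD ih =>
    intro l a r e ha hk
    have hlen := unit_len hU
    by_cases hl : l.length < M.length
    · have h₁ : (l ++ a).length ≤ M.length := by
        rw [List.length_append, hlen]; exact hk _ (hlen ▸ hl)
      obtain ⟨r', hr⟩ : ∃ r', M = l ++ a ++ r' := by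
        have : l ++ a <+: M :=
          List.prefix_of_prefix_length_le (l₃ := M ++ M') ⟨r, e.symm⟩ (List.prefix_append _ _) h₁
        obtain ⟨r', hr⟩ := this
        exact ⟨r', hr.symm⟩
      subst hr
      refine ⟨[], [], l, r', W, M', W', Dec.nil, hU, hD, by simp, ?_, by simp, by simp⟩
      rw [List.append_assoc (l ++ a)] at e
      exact (List.append_cancel_left e).symm
    · obtain ⟨l', hl'⟩ : ∃ l', l = M ++ l' := by
        have : M <+: l :=
          List.prefix_of_prefix_length_le (l₃ := M ++ M') (List.prefix_append _ _)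
            ⟨a ++ r, by rw [e, List.append_assoc]⟩ (by omega)
        obtain ⟨l', hl'⟩ := this
        exact ⟨l', hl'.symm⟩
      subst hl'
      rw [List.append_assoc, List.append_assoc, ← List.append_assoc l'] at e
      obtain ⟨M₁, W₁, l'', r', W₀, M₂, W₂, h₁, h₂, h₃, rfl, rfl, rfl, h₄⟩ :=
        ih l' a r (List.append_cancel_left e) ha (fun k hk' => by
          have := hk (W.length + k) (by rw [List.length_append, hlen, Nat.add_mul]; omega)
          rw [List.length_append, hlen, Nat.add_mul] at this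
          omega)
      refine ⟨M ++ M₁, W ++ W₁, l'', r', W₀, M₂, W₂, Dec.cons hU h₁, h₂, h₃, by simp, rfl,
        by simp, ?_⟩
      rw [List.length_append, List.length_append, hlen, h₄, Nat.add_mul]

/-! ### Arithmetic -/

theorem div_eq_iff' {P i g : ℕ} (hP : 0 < P) : i / P = g ↔ g * P ≤ i ∧ i < g * P + P := by
  constructor
  · rintro rfl
    have := Nat.div_add_mod' i P
    have := Nat.mod_lt i hP
    omega
  · rintro ⟨h₁, h₂⟩
    exact Nat.div_eq_of_lt_le h₁ (by rw [Nat.add_mul, Nat.one_mul]; exact h₂)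

theorem reg_div (g : ℕ) (i : Fin (2 ^ R)) : (g * 2 ^ R + i) / 2 ^ R = g :=
  (div_eq_iff' (Nat.two_pow_pos R)).2 ⟨by omega, by have := i.2; omega⟩

theorem reg_mod (g : ℕ) (i : Fin (2 ^ R)) : (g * 2 ^ R + i) % 2 ^ R = i := by
  rw [Nat.mul_add_mod_of_lt i.2]

theorem reg_lt {g n : ℕ} (h : g < n) (i : Fin (2 ^ R)) : g * 2 ^ R + i < n * 2 ^ R := by
  have h₁ : (g + 1) * 2 ^ R ≤ n * 2 ^ R := Nat.mul_le_mul_right _ h
  have := i.2
  rw [Nat.add_mul, Nat.one_mul] at h₁
  omega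

theorem free_region (a b c : ℕ) : ∃ j : Fin 4, a ≠ j + 1 ∧ b ≠ j + 1 ∧ c ≠ j + 1 := by
  by_contra h
  push Not at h
  have h0 := h 0
  have h1 := h 1
  have h2 := h 2
  have h3 := h 3
  simp only [Fin.val_zero, Fin.val_one, Fin.val_two] at h0 h1 h2
  have : ((3 : Fin 4) : ℕ) = 3 := rfl
  omega

theorem arr_const {a g : ℕ} (h : a / 2 ^ R ≠ g) (i : Fin (2 ^ R)) :
    arr (g * 2 ^ R + i) a = arr (g * 2 ^ R) a ∧ arr (g * 2 ^ R) a ≠ .eq := by
  rw [Ne, div_eq_iff' (Nat.two_pow_pos R)] at h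
  have := i.2
  unfold arr
  refine ⟨?_, ?_⟩ <;> split_ifs <;> first | rfl | omega | simp

theorem arr_out {a g : ℕ} {x : Arr} (hx : x ≠ .eq)
    (h : ∀ i : Fin (2 ^ R), arr (g * 2 ^ R + i) a = x) : a / 2 ^ R ≠ g := by
  intro e
  have h₁ := h ⟨a % 2 ^ R, Nat.mod_lt _ (Nat.two_pow_pos R)⟩
  have h₂ : g * 2 ^ R + a % 2 ^ R = a := by rw [← e]; exact Nat.div_add_mod' a _
  simp only [h₂] at h₁
  apply hx
  rw [← h₁]
  simp [arr]

/-! ### Cells of a register region -/

theorem dat_b (B : Blk R) (i : ℕ) : (B.dat i).b = B.b := by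
  unfold Blk.dat; split_ifs <;> rfl

theorem upLst_cell (B : Blk R) (hd : HD) (i : ℕ) : upLst (B.cell hd i) = B.b.lst := by
  change (B.dat i).b.lst = _
  rw [dat_b]

theorem cell_eq_iff (P : PosFacts R) (B : Blk R) (hd : HD) {g : ℕ} (hg : g < 6) (κ : Cls)
    (u : Fin (2 ^ R) → Bool) (t : Fin (2 ^ R) → Fin 4 → Fin R → Bool) (i : Fin (2 ^ R)) :
    B.cell hd (g * 2 ^ R + i) = regLet κ u t i ↔
      g = κ.j + 1 ∧ B.b = κ.b ∧ hd = κ.hd ∧ arr (g * 2 ^ R + i) B.al = κ.al ∧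
        arr (g * 2 ^ R + i) B.be = κ.be ∧ B.u (g * 2 ^ R + i) = u i ∧
        B.t (g * 2 ^ R + i) = t i := by
  constructor
  · intro h
    have ht : B.t (g * 2 ^ R + i) = t i := congrArg Let.t h
    have hc := mkC_injective (congrArg Let.σ h)
    have h₁ : (posAt R (g * 2 ^ R + i)).reg.val = κ.j + 1 :=
      congrArg (fun c : CC => c.pos.reg.val) hc
    have h₂ : (B.dat (g * 2 ^ R + i)).b = κ.b := congrArg (fun c : CC => c.dat.b) hc
    rw [P.reg _ (reg_lt hg i), reg_div] at h₁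
    rw [dat_b] at h₂
    exact ⟨h₁, h₂, congrArg CC.hd hc, congrArg CC.al hc, congrArg CC.be hc, congrArg CC.u hc, ht⟩
  · rintro ⟨h₁, h₂, h₃, h₄, h₅, h₆, h₇⟩
    have hj := κ.j.2
    have h5 : g * 2 ^ R + i < 5 * 2 ^ R := reg_lt (by omega) i
    refine Let.ext (Fin.ext (reg_mod g i)) (Fin.ext ?_) h₇ (congrArg mkC ?_)
    · change ptr R _ = R
      unfold ptr
      rw [if_neg (by omega)]
    · refine CC.ext (Pos.ext (Fin.ext ?_) ?_ (P.lab_reg _ h5)) ?_ h₃ h₄ h₅ h₆
      · change (posAt R (g * 2 ^ R + i)).reg.val = κ.j + 1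
        rw [P.reg _ (reg_lt hg i), reg_div, h₁]
      · change decide ((g * 2 ^ R + i) % 2 ^ R + 1 = 2 ^ R) = _
        rw [reg_mod]
      · change B.dat _ = _
        unfold Blk.dat
        rw [if_neg (by omega), h₂]

theorem blk_clean (P : PosFacts R) (B : Blk R) (hB : B.Valid) (hd : ℕ → HD) (m : ℕ)
    (hhd : ∀ g < 5, m / 2 ^ R ≠ g + 1 →
      ∃ η : HD, (∀ x, η ≠ .on x) ∧ ∀ i : Fin (2 ^ R), hd ((g + 1) * 2 ^ R + i) = η) :
    ∃ (κ : Cls) (u : Fin (2 ^ R) → Bool) (t : Fin (2 ^ R) → Fin 4 → Fin R → Bool),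
      κ.ok ∧ TInj t ∧ ∀ i : Fin (2 ^ R),
        B.cell (hd ((κ.j + 1) * 2 ^ R + i)) ((κ.j + 1) * 2 ^ R + i) = regLet κ u t i := by
  obtain ⟨j, h₁, h₂, h₃⟩ := free_region (m / 2 ^ R) (B.al / 2 ^ R) (B.be / 2 ^ R)
  have hj := j.2
  obtain ⟨η, hη, hη'⟩ := hhd j (by omega) h₁
  have i₀ : Fin (2 ^ R) := ⟨0, Nat.two_pow_pos R⟩
  refine ⟨⟨j, B.b, η, arr ((j + 1) * 2 ^ R) B.al, arr ((j + 1) * 2 ^ R) B.be⟩,
    fun i => B.u ((j + 1) * 2 ^ R + i), fun i => B.t ((j + 1) * 2 ^ R + i),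
    ⟨hη, (arr_const h₂ i₀).2, (arr_const h₃ i₀).2⟩, fun k i i' e => ?_, fun i => ?_⟩
  · have := hB.inj _ (reg_lt (g := j + 1) (n := 6) (by omega) i) _
      (reg_lt (g := j + 1) (n := 6) (by omega) i') k (by rw [reg_div, reg_div]) e
    exact Fin.ext (by omega)
  · exact (cell_eq_iff P B _ (by simp only; omega) _ _ _ i).2
      ⟨rfl, rfl, hη' i, (arr_const h₂ i).1, (arr_const h₃ i).1, rfl, rfl⟩

/-! ### Replacing a region -/

/-- The block with region `g` replaced. -/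
def rep (B : Blk R) (g : ℕ) (u : Fin (2 ^ R) → Bool) (t : Fin (2 ^ R) → Fin 4 → Fin R → Bool) :
    Blk R :=
  { B with
    u := fun i => if i / 2 ^ R = g then u ⟨i % 2 ^ R, Nat.mod_lt _ (Nat.two_pow_pos R)⟩ else B.u i
    t := fun i => if i / 2 ^ R = g then t ⟨i % 2 ^ R, Nat.mod_lt _ (Nat.two_pow_pos R)⟩ else B.t i }

section rep

variable (B : Blk R) {g : ℕ} (u : Fin (2 ^ R) → Bool) (t : Fin (2 ^ R) → Fin 4 → Fin R → Bool)

theorem rep_u_out {i : ℕ} (h : i / 2 ^ R ≠ g) : (rep B g u t).u i = B.u i := if_neg h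

theorem rep_t_out {i : ℕ} (h : i / 2 ^ R ≠ g) : (rep B g u t).t i = B.t i := if_neg h

theorem rep_u_in (i : Fin (2 ^ R)) : (rep B g u t).u (g * 2 ^ R + i) = u i :=
  (if_pos (reg_div g i)).trans (congrArg u (Fin.ext (reg_mod g i)))

theorem rep_t_in (i : Fin (2 ^ R)) : (rep B g u t).t (g * 2 ^ R + i) = t i :=
  (if_pos (reg_div g i)).trans (congrArg t (Fin.ext (reg_mod g i)))

theorem rep_cell_out (hd : HD) {i : ℕ} (h : i / 2 ^ R ≠ g) :
    (rep B g u t).cell hd i = B.cell hd i :=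
  Let.ext rfl rfl (rep_t_out B u t h)
    (congrArg mkC (CC.ext rfl rfl rfl rfl rfl (rep_u_out B u t h)))

theorem rep_valid (hB : B.Valid) (h₁ : 1 ≤ g) (h₄ : g ≤ 4) (ht : TInj t) :
    (rep B g u t).Valid := by
  have hP := Nat.two_pow_pos R
  have hg : g * 2 ^ R + 2 ^ R ≤ 5 * 2 ^ R := by
    have : (g + 1) * 2 ^ R ≤ 5 * 2 ^ R := Nat.mul_le_mul_right _ (by omega)
    rwa [Nat.add_mul, Nat.one_mul] at this
  have hg' : 2 ^ R ≤ g * 2 ^ R := Nat.le_mul_of_pos_left _ h₁
  refine ⟨hB.A_lt, hB.pi_le, hB.lab, hB.lst, hB.al_lt, hB.be_lt, ⟨fun i hi => ?_, fun j => ?_⟩,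
    fun i hi i' hi' j e e' => ?_, fun i hi => ?_⟩
  · by_cases h : i / 2 ^ R = g
    · rw [div_eq_iff' hP] at h
      omega
    · exact hB.uok.used i (by rwa [rep_u_out B u t h] at hi)
  · rw [rep_u_out B u t (by rw [Ne, div_eq_iff' hP]; omega)]
    exact hB.uok.spec j
  · by_cases h : i / 2 ^ R = g
    · have h' : i' / 2 ^ R = g := e ▸ h
      have e₁ : (rep B g u t).t i = t ⟨i % 2 ^ R, Nat.mod_lt _ hP⟩ := if_pos h
      have e₂ : (rep B g u t).t i' = t ⟨i' % 2 ^ R, Nat.mod_lt _ hP⟩ := if_pos h'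
      rw [e₁, e₂] at e'
      have e₃ : i % 2 ^ R = i' % 2 ^ R := congrArg Fin.val (ht j e')
      rw [← Nat.div_add_mod i (2 ^ R), ← Nat.div_add_mod i' (2 ^ R), e, e₃]
    · rw [rep_t_out B u t h, rep_t_out B u t (e ▸ h)] at e'
      exact hB.inj i hi i' hi' j e e'
  · rw [rep_t_out B u t (by rw [Ne, div_eq_iff' hP]; unfold N at hi; omega)]
    exact hB.junk i hi

end rep

theorem dec_rep (B B' : Blk R) (j : Fin 4) (u : Fin (2 ^ R) → Bool) (hA : B'.A = B.A)
    (hpi : B'.pi = B.pi) (hb : B'.b = B.b)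
    (hin : ∀ i : Fin (2 ^ R), B'.u ((j + 1) * 2 ^ R + i) = u i)
    (hout : ∀ i : ℕ, i / 2 ^ R ≠ j.val + 1 → B'.u i = B.u i) : B'.dec = B.dec.setT j u := by
  have hP := Nat.two_pow_pos R
  have hj := j.2
  refine Let.ext (Fin.ext ?_) (Fin.ext ?_) (funext fun k => ?_) ?_
  · change B'.A % _ = B.A % _
    rw [hA]
  · change min B'.pi _ = min B.pi _
    rw [hpi]
  · change _ = Function.update B.dec.t j u k
    by_cases e : k = j
    · subst e
      rw [Function.update_self]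
      exact funext hin
    · rw [Function.update_of_ne e]
      refine funext fun i => hout _ ?_
      rw [reg_div]
      intro e'
      exact e (Fin.ext (by omega))
  · change (B'.b, _) = (B.b, _)
    rw [hb]
    congr 2
    refine funext fun i => hout _ ?_
    have : (j.val + 1 + 1) * 2 ^ R ≤ 5 * 2 ^ R := Nat.mul_le_mul_right _ (by omega)
    rw [Ne, div_eq_iff' hP]
    rw [Nat.add_mul (j.val + 1), Nat.one_mul] at this
    omega

/-- What a clean region tells about its block. -/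
structure Info (B : Blk R) (κ : Cls) (u : Fin (2 ^ R) → Bool) (g : ℕ) : Prop where
  idx : g = κ.j + 1
  al : B.al / 2 ^ R ≠ g
  be : B.be / 2 ^ R ≠ g
  u : ∀ i : Fin (2 ^ R), B.u (g * 2 ^ R + i) = u i

theorem info (P : PosFacts R) {B : Blk R} {hd : Fin (2 ^ R) → HD} {g : ℕ} (hg : g < 6) {κ : Cls}
    {u : Fin (2 ^ R) → Bool} {t : Fin (2 ^ R) → Fin 4 → Fin R → Bool} (hκ : κ.ok)
    (h : ∀ i : Fin (2 ^ R), B.cell (hd i) (g * 2 ^ R + i) = regLet κ u t i) : Info B κ u g := by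
  have h' := fun i => (cell_eq_iff P B (hd i) hg κ u t i).1 (h i)
  exact ⟨(h' ⟨0, Nat.two_pow_pos R⟩).1, arr_out hκ.2.1 fun i => (h' i).2.2.2.1,
    arr_out hκ.2.2 fun i => (h' i).2.2.2.2.1, fun i => (h' i).2.2.2.2.2.1⟩

theorem rep_cell_in (P : PosFacts R) {B : Blk R} {hd : HD} {g : ℕ} (hg : g < 6) {κ : Cls}
    {u : Fin (2 ^ R) → Bool} {t : Fin (2 ^ R) → Fin 4 → Fin R → Bool} {i : Fin (2 ^ R)}
    (h : B.cell hd (g * 2 ^ R + i) = regLet κ u t i) (u' : Fin (2 ^ R) → Bool)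
    (t' : Fin (2 ^ R) → Fin 4 → Fin R → Bool) :
    (rep B g u' t').cell hd (g * 2 ^ R + i) = regLet κ u' t' i := by
  obtain ⟨h₁, h₂, h₃, h₄, h₅, -, -⟩ := (cell_eq_iff P B hd hg κ u t i).1 h
  exact (cell_eq_iff P _ hd hg κ u' t' i).2
    ⟨h₁, h₂, h₃, h₄, h₅, rep_u_in B u' t' i, rep_t_in B u' t' i⟩

/-! ### Pair states -/

theorem k_le_kB (s : PS R) : s.k ≤ s.kB := by
  unfold PS.kB; split_ifs <;> omega

theorem kB_le_kA (s : PS R) : s.kB ≤ s.kA := by
  unfold PS.kB PS.kA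
  cases s.m.ph <;> simp

theorem len_le (P : PosFacts R) (ρ : Rt) : len R ρ ≤ 2 ^ R := by
  have := P.Bc_le
  unfold len; split_ifs <;> omega

theorem win_div (P : PosFacts R) (ρ : Rt) {i : ℕ} (h₁ : b0 R ρ < i) (h₂ : i ≤ b0 R ρ + 2 ^ R) :
    i / 2 ^ R = ρ.prev + 1 := by
  have := (P.b0_len ρ).2.2.2
  rw [div_eq_iff' (Nat.two_pow_pos R)]
  omega

/-- The window of the left block avoids a region without the pointer `β`. -/
theorem winL (P : PosFacts R) {s : PS R} (hs : s.RInv) {g : ℕ} (hg : s.L.be / 2 ^ R ≠ g) {i : ℕ}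
    (h₁ : b0 R s.m.rt < i) (h₂ : i ≤ b0 R s.m.rt + s.kB) : i / 2 ^ R ≠ g := by
  have h₃ := kB_le_kA s
  have h₄ := hs.kA_le
  have h₅ := len_le P s.m.rt
  have h₆ := (hs.b (by omega)).1
  rw [win_div P s.m.rt h₁ (by omega), ← win_div P s.m.rt (i := s.L.be) (by omega) (by omega)]
  exact hg

/-- The window of the right block avoids a region without the pointer `β`. -/
theorem winR (P : PosFacts R) {s : PS R} (hs : s.RInv) {g : ℕ} (hg : s.Rb.be / 2 ^ R ≠ g) {i : ℕ}
    (h₁ : b0 R s.m.rt < i) (h₂ : i ≤ b0 R s.m.rt + s.k) : i / 2 ^ R ≠ g := by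
  have h₃ := kB_le_kA s
  have h₃' := k_le_kB s
  have h₄ := hs.kA_le
  have h₅ := len_le P s.m.rt
  have h₆ : s.Rb.be = b0 R s.m.rt + s.k := by
    have hk : 0 < s.k := by omega
    unfold PS.k at hk ⊢
    split_ifs at hk ⊢ <;> omega
  rw [win_div P s.m.rt h₁ (by omega), ← win_div P s.m.rt (i := s.Rb.be) (by omega) (by omega)]
  exact hg

theorem uL0_out (s : PS R) {i : ℕ} (h : ¬ (b0 R s.m.rt < i ∧ i ≤ b0 R s.m.rt + s.kB)) :
    s.uL0 i = s.L.u i := by
  have h₃' := k_le_kB s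
  unfold PS.uL0
  split
  · rw [if_neg h]
  · rw [if_neg (by omega), if_neg]
    rintro ⟨h₁, h₂⟩
    have : s.kB = s.k + 1 := if_pos h₁
    omega
  · rfl

theorem uR0_out (s : PS R) {i : ℕ} (h : ¬ (b0 R s.m.rt < i ∧ i ≤ b0 R s.m.rt + s.k)) :
    s.uR0 i = s.Rb.u i := by
  unfold PS.uR0
  split
  · rw [if_neg h]
  · rw [if_neg h]
  · rfl

section pair

variable (s : PS R) (g : ℕ) (u : Fin (2 ^ R) → Bool) (t : Fin (2 ^ R) → Fin 4 → Fin R → Bool)

/-- Replacing a region of the left block. -/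
def repL : PS R := { s with L := rep s.L g u t }

/-- Replacing a region of the right block. -/
def repR : PS R := { s with Rb := rep s.Rb g u t }

variable {s g}

theorem repL_inv (P : PosFacts R) (hs : s.RInv) (hg : s.L.be / 2 ^ R ≠ g) :
    (repL s g u t).RInv := by
  refine ⟨hs.first, hs.kA_le, hs.a, hs.a', fun h => ⟨(hs.b h).1, ?_⟩, hs.b', hs.old, hs.w,
    fun h i h₁ h₂ => ?_, hs.ruleR, fun h i h₁ h₂ => ?_, hs.btw⟩
  · change s.m.z = (s.L.dat s.L.be, (rep s.L g u t).u s.L.be)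
    rw [rep_u_out _ _ _ hg]
    exact (hs.b h).2
  · change (rep s.L g u t).u (b0 R s.m.rt + i) = _
    change i ≤ s.kB at h₂
    rw [rep_u_out _ _ _ (winL P hs hg (by omega) (by omega))]
    exact hs.ruleL h i h₁ h₂
  · change (rep s.L g u t).u (b0 R s.m.rt + i) = _
    change i ≤ s.k at h₂
    have := k_le_kB s
    rw [rep_u_out _ _ _ (winL P hs hg (by omega) (by omega))]
    exact hs.eq h i h₁ h₂

theorem repR_inv (P : PosFacts R) (hs : s.RInv) (hg : s.Rb.be / 2 ^ R ≠ g) :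
    (repR s g u t).RInv := by
  refine ⟨hs.first, hs.kA_le, hs.a, hs.a', hs.b, hs.b', hs.old, hs.w, hs.ruleL,
    fun h i h₁ h₂ => ?_, fun h i h₁ h₂ => ?_, hs.btw⟩
  · change (rep s.Rb g u t).u (b0 R s.m.rt + i) = _
    change i ≤ s.k at h₂
    rw [rep_u_out _ _ _ (winR P hs hg (by omega) (by omega))]
    exact hs.ruleR h i h₁ h₂
  · change _ = (rep s.Rb g u t).u (b0 R s.m.rt + i)
    change i ≤ s.k at h₂
    rw [rep_u_out _ _ _ (winR P hs hg (by omega) (by omega))]
    exact hs.eq h i h₁ h₂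

theorem repL_uL0 {i : ℕ} (hi : i / 2 ^ R ≠ g) : (repL s g u t).uL0 i = s.uL0 i := by
  have e : (repL s g u t).L.u i = s.L.u i := rep_u_out _ _ _ hi
  unfold PS.uL0
  rw [e]
  rfl

theorem repR_uR0 {i : ℕ} (hi : i / 2 ^ R ≠ g) : (repR s g u t).uR0 i = s.uR0 i := by
  have e : (repR s g u t).Rb.u i = s.Rb.u i := rep_u_out _ _ _ hi
  unfold PS.uR0
  rw [e]
  rfl

theorem repL_uR0 (P : PosFacts R) (hs : s.RInv) (hg : s.L.be / 2 ^ R ≠ g) :
    (repL s g u t).uR0 = s.uR0 := by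
  funext i
  by_cases h : b0 R s.m.rt < i ∧ i ≤ b0 R s.m.rt + s.k
  · have := k_le_kB s
    have e : (repL s g u t).L.u i = s.L.u i := rep_u_out _ _ _ (winL P hs hg h.1 (by omega))
    unfold PS.uR0
    rw [e]
    rfl
  · exact (uR0_out (repL s g u t) h).trans (uR0_out s h).symm

theorem repR_uL0 (P : PosFacts R) (hs : s.RInv) (hg : s.Rb.be / 2 ^ R ≠ g) :
    (repR s g u t).uL0 = s.uL0 := by
  funext i
  by_cases h : b0 R s.m.rt < i ∧ i ≤ b0 R s.m.rt + s.k
  · have e : (repR s g u t).Rb.u i = s.Rb.u i := rep_u_out _ _ _ (winR P hs hg h.1 h.2)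
    unfold PS.uL0
    rw [e]
    rfl
  · unfold PS.uL0
    change (match s.m.rt with
      | .ruleW => _
      | .swapW _ => if b0 R s.m.rt < i ∧ i ≤ b0 R s.m.rt + s.k then _ else _
      | _ => _) = _
    rw [if_neg h, if_neg h]
    rfl

end pair

theorem cell_L (s : PS R) {i : ℕ} (h : i < N R) : s.cell i = s.L.cell (s.hd i) i := if_pos h

theorem cell_R (s : PS R) (i : ℕ) : s.cell (N R + i) = s.Rb.cell (s.hd (N R + i)) i := by
  unfold PS.cell
  rw [if_neg (by omega), Nat.add_sub_cancel_left]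

/-! ### Units -/

theorem unit_lst {l r : List (Let R)} {x : Let R} {W : List (Let (2 ^ R))}
    (h : Unit (l ++ [x] ++ r) W) :
    ∃ W₁ X W₂, W = W₁ ++ X :: W₂ ∧ W₁.length = l.length / N R ∧ upLst x = X.σ.1.lst := by
  rcases h with ⟨B, h, -, -, e, rfl⟩ | ⟨s, -, -, e, rfl⟩
  · obtain ⟨h₁, rfl, -⟩ := range_map_eq_one e.symm
    exact ⟨[], B.dec, [], rfl, (Nat.div_eq_of_lt h₁).symm, upLst_cell _ _ _⟩
  · obtain ⟨h₁, rfl, -⟩ := range_map_eq_one e.symm
    by_cases hl : l.length < N R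
    · refine ⟨[], _, [_], rfl, (Nat.div_eq_of_lt hl).symm, ?_⟩
      rw [cell_L s hl]
      exact upLst_cell _ _ _
    · refine ⟨[_], _, [], rfl, (Nat.div_eq_of_lt_le (by simp only [List.length_singleton]; omega)
        (by simp only [List.length_singleton]; omega)).symm, ?_⟩
      obtain ⟨i, hi⟩ : ∃ i, l.length = N R + i := ⟨l.length - N R, by omega⟩
      rw [hi, cell_R]
      exact upLst_cell _ _ _

theorem clean_of {n k : ℕ} (c : ℕ → Let R) (hn : (k + 1) * N R ≤ n) {κ : Cls}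
    {u : Fin (2 ^ R) → Bool} {t : Fin (2 ^ R) → Fin 4 → Fin R → Bool}
    (h : ∀ i : Fin (2 ^ R), c (k * N R + ((κ.j + 1) * 2 ^ R + i)) = regLet κ u t i) :
    ∃ l r : List (Let R), (List.range n).map c = l ++ List.ofFn (regLet κ u t) ++ r ∧
      l.length = (6 * k + κ.j + 1) * 2 ^ R := by
  have hj := κ.j.2
  have e : (6 * k + κ.j + 1) * 2 ^ R = k * N R + (κ.j + 1) * 2 ^ R := by unfold N; ring
  have h₁ : (6 * k + κ.j + 1) * 2 ^ R + 2 ^ R ≤ n := by
    have h₂ : (κ.j.val + 1 + 1) * 2 ^ R ≤ 6 * 2 ^ R := Nat.mul_le_mul_right _ (by omega)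
    rw [Nat.add_mul (κ.j.val + 1), Nat.one_mul] at h₂
    rw [Nat.add_mul, Nat.one_mul] at hn
    rw [e]
    unfold N at hn ⊢
    omega
  have e' : (fun i : Fin (2 ^ R) => c ((6 * k + κ.j + 1) * 2 ^ R + i)) = regLet κ u t := by
    funext i
    rw [e, Nat.add_assoc]
    exact h i
  exact ⟨_, _, e' ▸ range_map_ofFn h₁ c, by simp⟩

theorem unit_clean (P : PosFacts R) {M : List (Let R)} {W : List (Let (2 ^ R))} (h : Unit M W)
    {k : ℕ} (hk : k < W.length) :
    ∃ (κ : Cls) (u : _) (t : _) (l r : List (Let R)), κ.ok ∧ TInj t ∧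
      M = l ++ List.ofFn (regLet κ u t) ++ r ∧ l.length = (6 * k + κ.j + 1) * 2 ^ R := by
  have hP := Nat.two_pow_pos R
  rcases h with ⟨B, h, hB, -, rfl, rfl⟩ | ⟨s, hs, -, rfl, rfl⟩
  · obtain rfl : k = 0 := by simpa using hk
    obtain ⟨κ, u, t, h₁, h₂, h₃⟩ := blk_clean P B hB (hdS h) h fun g _ hg => by
      rw [Ne, div_eq_iff' hP] at hg
      by_cases h' : h < (g + 1) * 2 ^ R
      · exact ⟨.aft false, by simp, fun i => by
          unfold hdS; rw [if_neg (by omega), if_neg (by omega)]⟩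
      · exact ⟨.bef false, by simp, fun i => by
          have := i.2
          unfold hdS; rw [if_pos (by omega)]⟩
    obtain ⟨l, r, h₄, h₅⟩ := clean_of (k := 0) (n := N R) (fun i => B.cell (hdS h i) i)
      (by omega) (fun i => by rw [Nat.zero_mul, Nat.zero_add]; exact h₃ i)
    exact ⟨κ, u, t, l, r, h₁, h₂, h₄, h₅⟩
  · have hk' : k = 0 ∨ k = 1 := by
      have : k < 2 := hk
      omega
    rcases hk' with rfl | rfl
    · obtain ⟨κ, u, t, h₁, h₂, h₃⟩ := blk_clean P s.L hs.L s.hd s.h fun g hg5 hg => by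
        rw [Ne, div_eq_iff' hP] at hg
        have hN : ∀ i : Fin (2 ^ R), (g + 1) * 2 ^ R + i < N R := reg_lt (by omega)
        by_cases h' : s.h < (g + 1) * 2 ^ R
        · exact ⟨.aft true, by simp, fun i => by
            unfold PS.hd; rw [if_neg (by omega), if_neg (by omega), decide_eq_true (hN i)]⟩
        · exact ⟨.bef false, by simp, fun i => by
            have := i.2
            have := hN i
            unfold PS.hd; rw [if_pos (by omega), decide_eq_false (by omega)]⟩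
      have hj := κ.j.2
      obtain ⟨l, r, h₄, h₅⟩ := clean_of (k := 0) (n := 2 * N R) s.cell (by omega) (fun i => by
        rw [Nat.zero_mul, Nat.zero_add, cell_L s (reg_lt (by omega) i)]; exact h₃ i)
      exact ⟨κ, u, t, l, r, h₁, h₂, h₄, h₅⟩
    · obtain ⟨κ, u, t, h₁, h₂, h₃⟩ := blk_clean P s.Rb hs.Rb (fun i => s.hd (N R + i))
        (s.h - N R) fun g _ hg => by
        rw [Ne, div_eq_iff' hP] at hg
        by_cases h' : s.h - N R < (g + 1) * 2 ^ R
        · exact ⟨.aft false, by simp, fun i => by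
            unfold PS.hd
            rw [if_neg (by omega), if_neg (by omega), decide_eq_false (by omega)]⟩
        · exact ⟨.bef true, by simp, fun i => by
            have := i.2
            unfold PS.hd; rw [if_pos (by omega), decide_eq_true (by omega)]⟩
      obtain ⟨l, r, h₄, h₅⟩ := clean_of (k := 1) (n := 2 * N R) s.cell (by omega) (fun i => by
        rw [Nat.one_mul, cell_R]; exact h₃ i)
      exact ⟨κ, u, t, l, r, h₁, h₂, h₄, h₅⟩

theorem unit_rep (P : PosFacts R) {κ : Cls} {u : Fin (2 ^ R) → Bool} (u' : Fin (2 ^ R) → Bool)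
    {t t' : Fin (2 ^ R) → Fin 4 → Fin R → Bool} {l r : List (Let R)} {W : List (Let (2 ^ R))}
    {g : ℕ} (h : Unit (l ++ List.ofFn (regLet κ u t) ++ r) W) (hκ : κ.ok) (ht : TInj t')
    (hl : l.length = g * 2 ^ R) :
    ∃ W₁ X W₂, W = W₁ ++ X :: W₂ ∧ g = 6 * W₁.length + κ.j + 1 ∧ X.t κ.j = u ∧
      Unit (l ++ List.ofFn (regLet κ u' t') ++ r) (W₁ ++ X.setT κ.j u' :: W₂) := by
  have hP := Nat.two_pow_pos R
  have hj := κ.j.2
  rcases h with ⟨B, h, hB, hh, e, rfl⟩ | ⟨s, hs, hi, e, rfl⟩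
  · obtain ⟨h₁, h₂, -⟩ := range_map_eq_ofFn e.symm
    rw [hl] at h₁ h₂
    have hg : g < 6 := Nat.lt_of_mul_lt_mul_right (a := 2 ^ R) (by unfold N at h₁; omega)
    have I := info P hg hκ h₂
    have hgj := I.idx
    refine ⟨[], B.dec, [], rfl, by simpa using hgj, funext fun i => ?_,
      Or.inl ⟨rep B g u' t', h, rep_valid B u' t' hB (by omega) (by omega) ht, hh, ?_, ?_⟩⟩
    · rw [← I.u i, hgj]; rfl
    · refine (range_map_rep e.symm (fun i => ?_) fun i _ hi => ?_).symm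
      · rw [hl]; exact rep_cell_in P hg (h₂ i) u' t'
      · exact rep_cell_out B u' t' _ (by rw [Ne, div_eq_iff' hP]; omega)
    · rw [dec_rep B (rep B g u' t') κ.j u' rfl rfl rfl (fun i => hgj ▸ rep_u_in B u' t' i)
        fun i hi => rep_u_out B u' t' (hgj ▸ hi)]
      rfl
  · obtain ⟨h₁, h₂, -⟩ := range_map_eq_ofFn e.symm
    rw [hl] at h₁ h₂
    by_cases hg : g < 6
    · have h₃ : ∀ i : Fin (2 ^ R), s.L.cell (s.hd (g * 2 ^ R + i)) (g * 2 ^ R + i) =
          regLet κ u t i := fun i => (cell_L s (reg_lt hg i)).symm.trans (h₂ i)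
      have I := info P hg hκ h₃
      have hgj := I.idx
      have hw : ∀ i : Fin (2 ^ R), ¬ (b0 R s.m.rt < g * 2 ^ R + i ∧
          g * 2 ^ R + i ≤ b0 R s.m.rt + s.kB) := fun i hh =>
        winL P hi I.be hh.1 hh.2 (reg_div g i)
      refine ⟨[], _, [_], rfl, by simpa using hgj, funext fun i => ?_,
        Or.inr ⟨repL s g u' t', ⟨⟨hs.bd.Lal, hs.bd.Lbe, hs.bd.Ral, hs.bd.Rbe, hs.bd.h_lt,
          hs.bd.side⟩, rep_valid s.L u' t' hs.L (by omega) (by omega) ht, hs.Rb⟩,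
          repL_inv u' t' P hi I.be, ?_, ?_⟩⟩
      · rw [← I.u i, ← uL0_out s (hw i), hgj]; rfl
      · refine (range_map_rep e.symm (fun i => ?_) fun i _ hi => ?_).symm
        · rw [hl, cell_L _ (reg_lt hg i)]; exact rep_cell_in P hg (h₃ i) u' t'
        · by_cases hN : i < N R
          · rw [cell_L _ hN, cell_L _ hN]
            exact rep_cell_out s.L u' t' _ (by rw [Ne, div_eq_iff' hP]; omega)
          · obtain ⟨i', rfl⟩ : ∃ i', i = N R + i' := ⟨i - N R, by omega⟩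
            rw [cell_R, cell_R]; rfl
      · unfold PS.dec
        rw [repL_uR0 u' t' P hi I.be,
          dec_rep { s.L with u := s.uL0 } { (repL s g u' t').L with u := (repL s g u' t').uL0 }
            κ.j u' rfl rfl rfl (fun i => ?_) fun i hi => repL_uL0 u' t' (hgj ▸ hi)]
        · rfl
        · rw [← hgj]
          exact (uL0_out (repL s g u' t') (hw i)).trans (rep_u_in s.L u' t' i)
    · obtain ⟨g, rfl⟩ : ∃ g', g = 6 + g' := ⟨g - 6, by omega⟩
      have eN : (6 + g) * 2 ^ R = N R + g * 2 ^ R := by unfold N; ring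
      rw [eN] at h₁ h₂ hl
      have hg : g < 6 := Nat.lt_of_mul_lt_mul_right (a := 2 ^ R) (by unfold N at h₁; omega)
      have h₃ : ∀ i : Fin (2 ^ R), s.Rb.cell (s.hd (N R + (g * 2 ^ R + i))) (g * 2 ^ R + i) =
          regLet κ u t i := fun i => by rw [← cell_R, ← Nat.add_assoc]; exact h₂ i
      have I := info P hg hκ h₃
      have hgj := I.idx
      have hw : ∀ i : Fin (2 ^ R), ¬ (b0 R s.m.rt < g * 2 ^ R + i ∧
          g * 2 ^ R + i ≤ b0 R s.m.rt + s.k) := fun i hh =>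
        winR P hi I.be hh.1 hh.2 (reg_div g i)
      refine ⟨[_], _, [], rfl, by simp only [List.length_singleton]; omega, funext fun i => ?_,
        Or.inr ⟨repR s g u' t', ⟨⟨hs.bd.Lal, hs.bd.Lbe, hs.bd.Ral, hs.bd.Rbe, hs.bd.h_lt,
          hs.bd.side⟩, hs.L, rep_valid s.Rb u' t' hs.Rb (by omega) (by omega) ht⟩,
          repR_inv u' t' P hi I.be, ?_, ?_⟩⟩
      · rw [← I.u i, ← uR0_out s (hw i), hgj]; rfl
      · refine (range_map_rep e.symm (fun i => ?_) fun i _ hi => ?_).symm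
        · rw [hl, Nat.add_assoc, cell_R]; exact rep_cell_in P hg (h₃ i) u' t'
        · by_cases hN : i < N R
          · rw [cell_L _ hN, cell_L _ hN]; rfl
          · obtain ⟨i', rfl⟩ : ∃ i', i = N R + i' := ⟨i - N R, by omega⟩
            rw [cell_R, cell_R]
            exact rep_cell_out s.Rb u' t' _ (by rw [Ne, div_eq_iff' hP]; omega)
      · unfold PS.dec
        rw [repR_uL0 u' t' P hi I.be,
          dec_rep { s.Rb with u := s.uR0 } { (repR s g u' t').Rb with u := (repR s g u' t').uR0 }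
            κ.j u' rfl rfl rfl (fun i => ?_) fun i hi => repR_uR0 u' t' (hgj ▸ hi)]
        · rfl
        · rw [← hgj]
          exact (uR0_out (repR s g u' t') (hw i)).trans (rep_u_in s.Rb u' t' i)

theorem dec_clean (P : PosFacts R) {M : List (Let R)} {W : List (Let (2 ^ R))}
    (h : Dec Unit M W) : ∀ k < W.length,
    ∃ (κ : Cls) (u : _) (t : _) (l r : List (Let R)), κ.ok ∧ TInj t ∧
      M = l ++ List.ofFn (regLet κ u t) ++ r ∧ l.length = (6 * k + κ.j + 1) * 2 ^ R := by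
  induction h with
  | nil => intro k hk; simp at hk
  | @cons M W M' W' hU _ ih =>
    intro k hk
    by_cases h : k < W.length
    · obtain ⟨κ, u, t, l, r, h₁, h₂, rfl, h₃⟩ := unit_clean P hU h
      exact ⟨κ, u, t, l, r ++ M', h₁, h₂, by simp, h₃⟩
    · obtain ⟨k, rfl⟩ : ∃ k', k = W.length + k' := ⟨k - W.length, by omega⟩
      obtain ⟨κ, u, t, l, r, h₁, h₂, rfl, h₃⟩ := ih k (by simpa using hk)
      refine ⟨κ, u, t, M ++ l, r, h₁, h₂, by simp, ?_⟩
      rw [List.length_append, unit_len hU, h₃]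
      unfold N; ring

end RepAux

open RepAux in
theorem repStmt : RepStmt := fun R P => by
  have hP := Nat.two_pow_pos R
  refine ⟨fun l x r W h => ?_, fun M W h => dec_clean P h, fun κ u u' t t' l r W g h hκ ht hl => ?_⟩
  · obtain ⟨M₁, W₁, l', r', W₀, M₂, W₂, -, h₂, -, rfl, -, rfl, h₄⟩ :=
      locate h l [x] r (by simp) (by simp) fun k hk => hk
    obtain ⟨V₁, X, V₂, rfl, h₅, h₆⟩ := unit_lst h₂
    refine ⟨W₁ ++ V₁, X, V₂ ++ W₂, by simp, ?_, h₆⟩
    have := six_le_N R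
    rw [List.length_append, List.length_append, h₄, h₅, Nat.add_comm (W₁.length * N R),
      Nat.add_mul_div_right _ _ (by omega), Nat.add_comm]
  · obtain ⟨M₁, W₁, l', r', W₀, M₂, W₂, h₁, h₂, h₃, rfl, rfl, rfl, h₄⟩ :=
      locate h l _ r rfl (by simp) fun k hk => by
        rw [List.length_ofFn, hl]
        have e : k * N R = (6 * k) * 2 ^ R := by unfold N; ring
        rw [hl, e] at hk
        have h₅ : (g + 1) * 2 ^ R ≤ (6 * k) * 2 ^ R :=
          Nat.mul_le_mul_right _ (Nat.lt_of_mul_lt_mul_right hk)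
        rw [e]
        rwa [Nat.add_mul, Nat.one_mul] at h₅
    have e : W₁.length * N R = (6 * W₁.length) * 2 ^ R := by unfold N; ring
    rw [List.length_append, h₄, e] at hl
    obtain ⟨g', rfl⟩ : ∃ g', g = 6 * W₁.length + g' :=
      ⟨g - 6 * W₁.length, by
        have : 6 * W₁.length ≤ g := Nat.le_of_mul_le_mul_right (c := 2 ^ R) (by omega) hP
        omega⟩
    rw [Nat.add_mul] at hl
    obtain ⟨V₁, X, V₂, rfl, h₅, h₆, h₇⟩ := unit_rep P u' h₂ hκ ht (g := g') (by omega)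
    refine ⟨W₁ ++ V₁, X, V₂ ++ W₂, by simp, by rw [List.length_append]; omega, h₆, ?_⟩
    simpa only [List.append_assoc, List.cons_append] using
      dec_append h₁ (dec_append (dec_one h₇) h₃)

end Crest.Agent.R176.Lv
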