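import Crest.Agent.R176.LvStmts

/-!
Row 176: the meaning of the moves of pair states one level up.
-/

set_option autoImplicit false
set_option synthInstance.maxSize 4096

namespace Crest.Agent.R176.Lv

variable {R : ℕ}

namespace Sem

theorem dec_congr {B B' : Blk R} (h1 : B.A = B'.A) (h2 : B.pi = B'.pi) (h3 : B.b = B'.b)
    (h4 : B.u = B'.u) : B.dec = B'.dec := by
  simp only [Blk.dec, h1, h2, h3, h4]

theorem ps_dec {s s' : PS R} (h1 : s'.L.A = s.L.A) (h2 : s'.L.pi = s.L.pi) (h3 : s'.L.b = s.L.b)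
    (h4 : s'.Rb.A = s.Rb.A) (h5 : s'.Rb.pi = s.Rb.pi) (h6 : s'.Rb.b = s.Rb.b)
    (hL : s'.uL0 = s.uL0) (hR : s'.uR0 = s.uR0) : s'.dec = s.dec := by
  unfold PS.dec
  rw [dec_congr (B := { s'.L with u := s'.uL0 }) (B' := { s.L with u := s.uL0 }) h1 h2 h3 hL,
    dec_congr (B := { s'.Rb with u := s'.uR0 }) (B' := { s.Rb with u := s.uR0 }) h4 h5 h6 hR]

theorem dat_b (B : Blk R) (i : ℕ) : (B.dat i).b = B.b := by
  unfold Blk.dat; split_ifs <;> rfl

/-- Changing only the code region. -/
theorem dec_code {B B' : Blk R} (h1 : B'.A = B.A) (h2 : B'.pi = B.pi)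
    (h4 : ∀ i < 5 * 2 ^ R, B'.u i = B.u i) : B'.dec = { B.dec with σ := B'.dec.σ } := by
  refine Let.ext ?_ ?_ ?_ rfl
  · simp only [Blk.dec, h1]
  · simp only [Blk.dec, h2]
  · funext j i
    refine h4 _ ?_
    have a1 := i.2
    have a2 : (j.val + 1) * 2 ^ R ≤ 4 * 2 ^ R := Nat.mul_le_mul_right _ j.2
    omega

/-- Changing only the region of register `j`. -/
theorem dec_reg {B B' : Blk R} (j : Fin 4) (w : ℕ → Bool) (h1 : B'.A = B.A) (h2 : B'.pi = B.pi)
    (h3 : B'.b = B.b) (hin : ∀ i < 2 ^ R, B'.u ((j.val + 1) * 2 ^ R + i) = w ((j.val + 1) * 2 ^ R + i))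
    (hout : ∀ i, (i < (j.val + 1) * 2 ^ R ∨ (j.val + 1) * 2 ^ R + 2 ^ R ≤ i) → B'.u i = B.u i) :
    B'.dec = B.dec.setT j fun i => w ((j.val + 1) * 2 ^ R + i) := by
  have a2 : (j.val + 1) * 2 ^ R ≤ 4 * 2 ^ R := Nat.mul_le_mul_right _ j.2
  refine Let.ext ?_ ?_ ?_ ?_
  · simp only [Blk.dec, Let.setT, h1]
  · simp only [Blk.dec, Let.setT, h2]
  · funext j' i
    by_cases e : j' = j
    · subst e
      simp only [Let.setT, Function.update_self]
      exact hin i i.2
    · simp only [Let.setT, Function.update_of_ne e]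
      refine hout _ ?_
      have a1 := i.2
      rcases Nat.lt_or_gt_of_ne (Fin.val_ne_of_ne e) with h | h
      · have : (j'.val + 1 + 1) * 2 ^ R ≤ (j.val + 1) * 2 ^ R := Nat.mul_le_mul_right _ (by omega)
        rw [Nat.add_mul (j'.val + 1)] at this
        omega
      · have : (j.val + 1 + 1) * 2 ^ R ≤ (j'.val + 1) * 2 ^ R := Nat.mul_le_mul_right _ (by omega)
        rw [Nat.add_mul (j.val + 1)] at this
        omega
  · simp only [Blk.dec, Let.setT, h3]
    congr 2
    funext i
    exact hout _ (by omega)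

/-- What is known in phase `C` at the right pointer. -/
structure FC (s : PS R) : Prop where
  be : s.Rb.be = b0 R s.m.rt + s.k
  kA : s.kA = s.k + 1
  kB : s.kB = s.k + 1
  al : s.L.al = s.a0 + (s.k + 1)
  st : Start R s.m.rt s.a0
  y : s.m.y = posAt R (s.a0 + (s.k + 1))
  Lbe : s.L.be = b0 R s.m.rt + (s.k + 1)
  z : s.m.z = (s.L.dat (b0 R s.m.rt + (s.k + 1)), s.L.u (b0 R s.m.rt + (s.k + 1)))
  le : s.k + 1 ≤ len R s.m.rt
  fin : fin s.m.rt s.m.y → s.k + 1 = len R s.m.rt

theorem fc (P : PosFacts R) {s : PS R} (hI : s.RInv) (hph : s.m.ph = .C)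
    (hbe : s.Rb.be + 1 < N R) (hf : s.m.first = true ↔ preB s.m.rt (posAt R s.Rb.be)) : FC s := by
  have kA : s.kA = s.k + 1 := by simp [PS.kA, hph]
  have kB : s.kB = s.k + 1 := by simp [PS.kB, hph]
  obtain ⟨a1, a2, a3⟩ := hI.a (by omega)
  obtain ⟨b1, b2⟩ := hI.b (by omega)
  have al : s.L.al = s.a0 + (s.k + 1) := by unfold PS.a0; omega
  have le : s.k + 1 ≤ len R s.m.rt := kA ▸ hI.kA_le
  refine ⟨?_, kA, kB, al, a2, al ▸ a3, kB ▸ b1, by rw [b2, b1, kB], le, fun h => ?_⟩
  · cases h : s.m.first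
    · have := hI.first h
      simp only [PS.k, h, Bool.false_eq_true, if_false]
      omega
    · have := (P.preB _ _ (by omega)).1 (hf.1 h)
      simp only [PS.k, h, if_true]
      omega
  · rw [a3, al] at h
    exact (((P.run _ _ a2).2 _ (by omega) le).2).1 h

theorem dec_eq (P : PosFacts R) (s s' : PS R) (p : ℕ) (hI : s.RInv) (h : AF p s s')
    (hrt : s'.m.rt = s.m.rt) : s'.dec = s.dec := by
  cases h with
  | mvR => rfl
  | mvL => rfl
  | evA _ hph hh _ _ _ =>
    set s' : PS R := ⟨{ s.L with al := s.h + 1 }, s.Rb, s.h + 1,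
      { s.m with ph := .B, y := posAt R (s.h + 1) }⟩ with hs'
    have k' : s'.k = s.k := rfl
    have kB' : s'.kB = s.kB := by simp [PS.kB, hs', hph, PS.k]
    have a0' : s'.a0 = s.a0 := by
      simp only [PS.a0, PS.kA, k', hph, if_true]
      simp only [hs', hh, reduceCtorEq, if_false]
      omega
    refine ps_dec rfl rfl rfl rfl rfl rfl ?_ ?_
    · funext i
      unfold PS.uL0
      rw [k', kB', a0', hph]
      simp only [hs', reduceCtorEq]
    · funext i
      unfold PS.uR0
      rw [k', a0']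
  | evB _ v o hph hh hN _ hpre hw =>
    set s' : PS R := ⟨{ s.L with be := s.h + 1, u := Function.update s.L.u (s.h + 1) v }, s.Rb,
      s.h + 1, { s.m with ph := .C, z := (s.L.dat (s.h + 1), v), old := o }⟩ with hs'
    have k' : s'.k = s.k := rfl
    have kA : s.kA = s.k + 1 := by simp [PS.kA, hph]
    have kB : s.kB = s.k := by simp [PS.kB, hph]
    have kB' : s'.kB = s.k + 1 := by simp [PS.kB, hs', PS.k]
    have a0' : s'.a0 = s.a0 := by
      simp only [PS.a0, PS.kA, k', hph]
      simp only [hs', reduceCtorEq, if_false]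
    have hb : s.h = b0 R s.m.rt + s.k := by
      cases h : s.m.first
      · have h1 := hI.first h
        have h2 : s.k = s.Rb.be - b0 R s.m.rt := by simp [PS.k, h]
        rw [hh, (hI.b (by omega)).1, kB]
      · rw [h, if_pos rfl] at hpre
        have := (P.preB _ _ (by omega)).1 hpre.1
        simp only [PS.k, h, if_true]
        omega
    obtain ⟨a1, -, a3⟩ := hI.a (by omega)
    have al : s.L.al = s.a0 + (s.k + 1) := by unfold PS.a0; omega
    have hu : ∀ i, s'.L.u i = if i = s.h + 1 then v else s.L.u i := fun i => by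
      simp only [hs', Function.update_apply]
    refine ps_dec rfl rfl rfl rfl rfl rfl ?_ ?_
    · funext i
      unfold PS.uL0
      rw [k', kB', kB, a0', hu, hrt, hph]
      have e1 : s'.m.ph = .C := rfl
      have e2 : s'.m.old = o := rfl
      have e3 : s'.Rb = s.Rb := rfl
      rw [e1, e2, e3]
      generalize s.m.rt = ρ at hw hb
      cases ρ <;> simp only [wrB] at hw <;> simp only [reduceCtorEq, false_and, true_and, if_false]
      · by_cases c : i = s.h + 1
        · subst c
          rw [if_pos (by omega), if_neg (by omega), hw.1, a3, al]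
          congr 3
          omega
        · rw [if_neg c]
          exact if_congr (by omega) rfl rfl
      · split_ifs with c
        · rw [c, hw.2.1]
        · rfl
      · by_cases c : i = s.h + 1
        · subst c
          rw [if_neg (by omega), if_pos (by omega), if_neg (by omega), hw]
        · rw [if_neg c, if_neg (show ¬ i = _ + s.k + 1 by omega)]
      all_goals
        split_ifs with c
        · rw [c, hw.1]
        · rfl
    · funext i
      unfold PS.uR0
      rw [k', a0', hu, hrt]
      have e3 : s'.Rb = s.Rb := rfl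
      rw [e3]
      generalize s.m.rt = ρ at hb
      cases ρ <;> simp only
      split_ifs with c c'
      · omega
      · rfl
      · rfl
  | evC _ v ρ' hph _ hN hf hw _ =>
    have F := fc P hI hph hN hf
    obtain rfl : ρ' = s.m.rt := hrt
    set s' : PS R := ⟨s.L, { s.Rb with
      be := s.Rb.be + 1, u := Function.update s.Rb.u (s.Rb.be + 1) v }, s.h + 1,
      { s.m with rt := s.m.rt, ph := .A, first := false, old := false }⟩ with hs'
    have hbe := F.be
    have k' : s'.k = s.k + 1 := by
      have : s'.k = s.Rb.be + 1 - b0 R s.m.rt := rfl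
      omega
    have kB' : s'.kB = s.k + 1 := by rw [← k']; rfl
    have a0' : s'.a0 = s.a0 := by
      have : s'.a0 = s.L.al - s'.k := rfl
      rw [this, k', ← F.kA]; rfl
    have hu : ∀ i, s'.Rb.u i = if i = s.Rb.be + 1 then v else s.Rb.u i := fun i => by
      simp only [hs', Function.update_apply]
    have e0 : s'.m.rt = s.m.rt := rfl
    have e1 : s'.m.ph = .A := rfl
    have e3 : s'.L = s.L := rfl
    have hy := F.y
    have hz := F.z
    refine ps_dec rfl rfl rfl rfl rfl rfl ?_ ?_
    · funext i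
      unfold PS.uL0
      rw [k', kB', F.kB, a0', hu, e0, hph, e1, e3]
      generalize s.m.rt = ρ at hw hbe
      cases ρ <;> simp only [wrC] at hw <;> simp only [reduceCtorEq, false_and, true_and, if_false]
      by_cases c : i = s.Rb.be + 1
      · subst c
        rw [if_pos (by omega), if_pos rfl, if_neg (by omega), if_pos (by omega), hw.2]
      · rw [if_neg c, if_neg (show ¬ i = _ + s.k + 1 by omega)]
        exact if_congr (by omega) rfl rfl
    · funext i
      unfold PS.uR0
      rw [k', a0', hu, e0, e3]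
      generalize s.m.rt = ρ at hw hbe hz
      cases ρ <;> simp only [wrC] at hw <;> simp only
      · by_cases c : i = s.Rb.be + 1
        · subst c
          rw [if_pos (by omega), if_neg (by omega), hw.1, hy]
          congr 3
          omega
        · rw [if_neg c]
          exact if_congr (by omega) rfl rfl
      · split_ifs with c
        · rw [c, hw.2.1]
        · rfl
      · by_cases c : i = s.Rb.be + 1
        · subst c
          rw [if_pos (by omega), if_neg (by omega), hw.1, hz, hbe]
          rfl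
        · rw [if_neg c]
          exact if_congr (by omega) rfl rfl
      · split_ifs with c
        · rw [c, hw.1]
        · rfl
      · split_ifs with c
        · rw [c, hw.2.1]
        · rfl
      · split_ifs with c
        · rw [c, hw.1]
        · rfl

/-- The table entry read by a completed rule routine. -/
theorem rule_ent (P : PosFacts R) (Co : CodeFacts R) {s : PS R} (hP : s.Pre) (hI : s.RInv)
    (F : FC s) (hr : s.m.rt.isRule = true) (hen : s.m.y.lab.en = true) :
    s.k + 1 = Bc ∧ b0 R s.m.rt + 1 = 5 * 2 ^ R ∧ ∃ e : Ent, e.good ∧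
      (∀ i < Bc, (posAt R (s.a0 + (i + 1))).lab = e.lab i) ∧ s.m.y.lab = e.lab s.k ∧
      (∀ i < Bc, s.L.u (5 * 2 ^ R + i) = code e.v3 i) ∧
      (∀ i < s.k, s.Rb.u (5 * 2 ^ R + i) = code e.v4 i) ∧ s.L.b = e.v3.1 ∧ s.Rb.b = e.v4.1 := by
  have hk : s.k + 1 = Bc := by
    have := F.fin (by simp only [fin, hr, if_true]; exact hen)
    simpa only [len, hr, if_true] using this
  have hb : b0 R s.m.rt + 1 = 5 * 2 ^ R := by
    have h1 := (P.b0_len s.m.rt).2.2.2
    have h2 : s.m.rt.prev = 4 := by
      generalize s.m.rt = ρ at hr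
      cases ρ <;> first | rfl | simp [Rt.isRule] at hr
    rw [h1, h2]
  obtain ⟨e, he, hl⟩ := P.ent _ _ hr F.st
  have hl' : ∀ i < Bc, (posAt R (s.a0 + (i + 1))).lab = e.lab i := fun i hi => by
    rw [← hl i hi]; congr 2; omega
  have h15 := P.Bc_le.1
  have hL : ∀ i < Bc, s.L.u (5 * 2 ^ R + i) = code e.v3 i := fun i hi => by
    have := hI.ruleL hr (i + 1) (by omega) (by rw [F.kB]; omega)
    rw [hl' i hi] at this
    rw [← hb, Nat.add_right_comm, Nat.add_assoc]
    exact this
  have hR : ∀ i < s.k, s.Rb.u (5 * 2 ^ R + i) = code e.v4 i := fun i hi => by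
    have := hI.ruleR hr (i + 1) (by omega) (by omega)
    rw [hl' i (by omega)] at this
    rw [← hb, Nat.add_right_comm, Nat.add_assoc]
    exact this
  exact ⟨hk, hb, e, he, hl', by rw [F.y, hl' _ (by omega)], hL, hR,
    Co.b_of _ _ _ hP.L.uok (fun i hi => hL i (by omega)),
    Co.b_of _ _ _ hP.Rb.uok (fun i hi => hR i (by omega))⟩

theorem eqv (P : PosFacts R) (Co : CodeFacts R) (s s' : PS R) (p : ℕ) (hP : s.Pre) (hI : s.RInv)
    (h : AF p s s') : (lev (2 ^ R)).Eqv s.dec s'.dec := by
  by_cases hrt : s'.m.rt = s.m.rt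
  · exact Rew.Eqv.of_eq (dec_eq P s s' p hI h hrt).symm
  cases h with
  | mvR => exact absurd rfl hrt
  | mvL => exact absurd rfl hrt
  | evA => exact absurd rfl hrt
  | evB => exact absurd rfl hrt
  | evC _ v ρ' hph _ hN hf hw hn =>
    have F := fc P hI hph hN hf
    change ¬ ρ' = s.m.rt at hrt
    set s' : PS R := ⟨s.L, { s.Rb with
      be := s.Rb.be + 1, u := Function.update s.Rb.u (s.Rb.be + 1) v }, s.h + 1,
      { s.m with rt := ρ', ph := .A, first := false, old := false }⟩ with hs'
    have hbe := F.be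
    have hu : ∀ i, s'.Rb.u i = if i = s.Rb.be + 1 then v else s.Rb.u i := fun i => by
      simp only [hs', Function.update_apply]
    have e0 : s'.m.rt = ρ' := rfl
    have hcase : (s.m.rt = .ruleW ∧ ρ' = .ruleR ∧ s.m.y.lab.en = true) ∨
        ∃ j, s.m.rt = .swapW j ∧ ρ' = .swapR j ∧ s.m.y.lst = true ∧ s.m.z.1.b.lst = false := by
      generalize s.m.rt = ρ at hn hrt
      cases ρ <;> simp only [nxt] at hn
      · split_ifs at hn with c
        · exact Or.inl ⟨rfl, hn, c⟩
        · exact absurd hn hrt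
      · exact absurd hn hrt
      · split_ifs at hn with c
        · exact Or.inr ⟨_, rfl, hn.2, c, hn.1⟩
        · exact absurd hn hrt
      all_goals exact absurd hn hrt
    have hL' : s'.uL0 = s.L.u := by
      funext i
      unfold PS.uL0
      rw [e0]
      rcases hcase with ⟨-, h, -⟩ | ⟨j, -, h, -⟩ <;> rw [h]
    have hR' : s'.uR0 = s'.Rb.u := by
      funext i
      unfold PS.uR0
      rw [e0]
      rcases hcase with ⟨-, h, -⟩ | ⟨j, -, h, -⟩ <;> rw [h]
    have hd' : s'.dec = [s.L.dec, s'.Rb.dec] := by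
      unfold PS.dec
      rw [hL', hR']
    rw [hd']
    set X : Blk R := { s.L with u := s.uL0 } with hX
    set Y : Blk R := { s.Rb with u := s.uR0 } with hY
    have hd : s.dec = [X.dec, Y.dec] := rfl
    rw [hd]
    rcases hcase with ⟨hρ, -, hen⟩ | ⟨j, hρ, -, hl, hz⟩
    · obtain ⟨hk, hb, e, he, hl, hy, h3, h4, b3, b4⟩ :=
        rule_ent P Co hP hI F (by rw [hρ]; rfl) hen
      obtain ⟨g3, g4, -⟩ := P.good_spec e he
      have hXu : ∀ i, X.u i = if b0 R s.m.rt < i ∧ i ≤ b0 R s.m.rt + s.kB then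
          (posAt R (s.a0 + (i - b0 R s.m.rt))).lab.t1 else s.L.u i := fun i => by
        change s.uL0 i = _
        unfold PS.uL0
        rw [hρ]
      have hYu : ∀ i, Y.u i = if b0 R s.m.rt < i ∧ i ≤ b0 R s.m.rt + s.k then
          (posAt R (s.a0 + (i - b0 R s.m.rt))).lab.t2 else s.Rb.u i := fun i => by
        change s.uR0 i = _
        unfold PS.uR0
        rw [hρ]
      rw [hρ] at hw
      simp only [wrC] at hw
      have kB := F.kB
      have σ1 : X.dec.σ = e.v1 := Co.dec_σ X _ (b3.trans g3) (fun i hi => by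
        rw [hXu, if_pos (by omega), show 5 * 2 ^ R + i - b0 R s.m.rt = i + 1 by omega, hl i hi]
        rfl)
      have σ2 : Y.dec.σ = e.v2 := Co.dec_σ Y _ (b4.trans g4) (fun i hi => by
        rw [hYu]
        by_cases c : i < s.k
        · rw [if_pos (by omega), show 5 * 2 ^ R + i - b0 R s.m.rt = i + 1 by omega, hl i hi]
          rfl
        · rw [if_neg (by omega), show 5 * 2 ^ R + i = s.Rb.be + 1 by omega, hw.1, hy,
            show i = s.k by omega]
          rfl)
      have σ3 : s.L.dec.σ = e.v3 := Co.dec_σ s.L _ b3 h3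
      have σ4 : s'.Rb.dec.σ = e.v4 := Co.dec_σ s'.Rb _ b4 (fun i hi => by
        rw [hu]
        by_cases c : i < s.k
        · rw [if_neg (by omega), h4 i c]
        · rw [if_pos (by omega), hw.2.1, hy, show i = s.k by omega]
          rfl)
      have d3 : s.L.dec = { X.dec with σ := e.v3 } := by
        rw [← σ3]
        exact dec_code rfl rfl (fun i hi => by rw [hXu, if_neg (by omega)])
      have d4 : s'.Rb.dec = { Y.dec with σ := e.v4 } := by
        rw [← σ4]
        exact dec_code rfl rfl (fun i hi => by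
          have := P.Bc_le.1
          rw [hYu, if_neg (by omega), hu, if_neg (by omega)])
      rw [d3, d4]
      unfold Ent.good at he
      split_ifs at he with c
      · rw [he.2.1, he.2.2, ← σ1, ← σ2]
        exact Rew.Eqv.refl _
      · exact Rew.Eqv.of_step (LStep.fin _ _ _ _ (by rw [σ1, σ2]; exact he))
    · have hk : s.k + 1 = 2 ^ R := by
        have := F.fin (by rw [hρ]; exact hl)
        rw [hρ] at this
        exact this
      have hb : b0 R s.m.rt + 1 = (j.val + 1) * 2 ^ R := by
        have := (P.b0_len s.m.rt).2.2.2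
        rw [this, hρ]; rfl
      have hXu : ∀ i, X.u i = if b0 R s.m.rt < i ∧ i ≤ b0 R s.m.rt + s.k then s.Rb.u i
          else if i = b0 R s.m.rt + s.k + 1 then s.m.old else s.L.u i := fun i => by
        change s.uL0 i = _
        unfold PS.uL0
        rw [hρ, hph]
        simp only [true_and]
      have hYu : ∀ i, Y.u i = if b0 R s.m.rt < i ∧ i ≤ b0 R s.m.rt + s.k then s.L.u i
          else s.Rb.u i := fun i => by
        change s.uR0 i = _
        unfold PS.uR0
        rw [hρ]
      have hz' := F.z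
      rw [hz', dat_b] at hz
      have hw' : s.Rb.u (s.Rb.be + 1) = s.L.u (s.Rb.be + 1) ∧ v = s.m.old := by
        rw [hρ] at hw
        simp only [wrC] at hw
        rw [hw.1, hz', hbe]
        exact ⟨rfl, hw.2⟩
      have d3 : s.L.dec = X.dec.setT j (Y.dec.t j) :=
        dec_reg (B := X) (B' := s.L) j Y.u rfl rfl rfl (fun i hi => by
          rw [hYu]
          split_ifs with c
          · rfl
          · rw [show (j.val + 1) * 2 ^ R + i = s.Rb.be + 1 by omega, hw'.1])
          (fun i hi => by rw [hXu, if_neg (by omega), if_neg (by omega)])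
      have d4 : s'.Rb.dec = Y.dec.setT j (X.dec.t j) :=
        dec_reg (B := Y) (B' := s'.Rb) j X.u rfl rfl rfl (fun i hi => by
          rw [hXu, hu]
          by_cases c : i < s.k
          · rw [if_neg (by omega), if_pos (by omega)]
          · rw [if_pos (by omega), if_neg (by omega), if_pos (by omega), hw'.2])
          (fun i hi => by rw [hYu, if_neg (by omega), hu, if_neg (by omega)])
      rw [d3, d4]
      exact Rew.Eqv.of_step (LStep.swap _ _ j hz)

theorem az (P : PosFacts R) (Co : CodeFacts R) (s : PS R) (hP : s.Pre) (hI : s.RInv)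
    (h : s.AZ) : ¬ (lev (2 ^ R)).NZ s.dec := by
  obtain ⟨hph, -, hN, hf, hz⟩ := h
  have F := fc P hI hph hN hf
  have hbe := F.be
  have key : s.m.rt.isW = false → LZero [s.L.dec, s.Rb.dec] → ¬ (lev (2 ^ R)).NZ s.dec := by
    intro h1 h2
    have e1 : s.uL0 = s.L.u := by
      funext i
      unfold PS.uL0
      generalize s.m.rt = ρ at h1
      cases ρ <;> first | rfl | simp [Rt.isW] at h1
    have e2 : s.uR0 = s.Rb.u := by
      funext i
      unfold PS.uR0
      generalize s.m.rt = ρ at h1
      cases ρ <;> first | rfl | simp [Rt.isW] at h1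
    have e : s.dec = [] ++ [s.L.dec, s.Rb.dec] ++ [] := by
      unfold PS.dec
      rw [e1, e2]
      rfl
    rw [e]
    exact Rew.not_NZ_of_zero (S := lev (2 ^ R)) h2 [] []
  have hz' := F.z
  cases hρ : s.m.rt with
  | ruleW => rw [hρ] at hz; exact hz.elim
  | swapW j => rw [hρ] at hz; exact hz.elim
  | swapR j => rw [hρ] at hz; exact hz.elim
  | ruleR =>
    rw [hρ] at hz
    obtain ⟨hen, hzr, hu⟩ := hz
    obtain ⟨hk, hb, e, he, -, hy, h3, h4, b3, b4⟩ :=
      rule_ent P Co hP hI F (by rw [hρ]; rfl) hen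
    have σ3 : s.L.dec.σ = e.v3 := Co.dec_σ s.L _ b3 h3
    have σ4 : s.Rb.dec.σ = e.v4 := Co.dec_σ s.Rb _ b4 (fun i hi => by
      by_cases c : i < s.k
      · exact h4 i c
      · rw [show 5 * 2 ^ R + i = s.Rb.be + 1 by omega, hu, hy, show i = s.k by omega]
        rfl)
    rw [hy] at hzr
    unfold Ent.good at he
    rw [if_pos (show e.zr = true from hzr)] at he
    refine key (by rw [hρ]; rfl) (LZero.fin _ _ ?_)
    rw [σ3, σ4, he.2.1, he.2.2]
    exact he.1
  | eq j =>
    have hb : b0 R s.m.rt + 1 = (j.val + 1) * 2 ^ R := by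
      have := (P.b0_len s.m.rt).2.2.2
      rw [this, hρ]; rfl
    rw [hρ] at hz
    obtain ⟨hl, hb', hu⟩ := hz
    have hk : s.k + 1 = 2 ^ R := by
      have := F.fin (by rw [hρ]; exact hl)
      rw [hρ] at this
      exact this
    rw [hz', dat_b] at hb'
    refine key (by rw [hρ]; rfl) (LZero.eq _ _ j hb' ?_)
    funext i
    change s.L.u ((j.val + 1) * 2 ^ R + i) = s.Rb.u ((j.val + 1) * 2 ^ R + i)
    have hi := i.2
    by_cases c : i.val < s.k
    · rw [show (j.val + 1) * 2 ^ R + i = b0 R s.m.rt + (i + 1) by omega]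
      exact hI.eq ⟨j, hρ⟩ _ (by omega) (by omega)
    · rw [show (j.val + 1) * 2 ^ R + i = s.Rb.be + 1 by omega, hu, hz', hbe]
      rfl
  | inc =>
    have hb : b0 R s.m.rt + 1 = 5 * 2 ^ R := by
      have := (P.b0_len s.m.rt).2.2.2
      rw [this, hρ]; rfl
    have hk : s.k + 1 ≤ 2 ^ R := by
      have := F.le
      rw [hρ] at this
      exact this
    rw [hρ] at hz
    refine key (by rw [hρ]; rfl) (LZero.inc _ _ fun hinc => ?_)
    refine (Co.inc _ _ hP.L hP.Rb).1 hinc s.k (by omega) ?_
    have hz2 : mism s.m.z.1 (s.Rb.dat (s.Rb.be + 1)) := hz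
    rw [hz', show b0 R s.m.rt + (s.k + 1) = 5 * 2 ^ R + s.k by omega,
      show s.Rb.be + 1 = 5 * 2 ^ R + s.k by omega] at hz2
    exact hz2

end Sem

theorem semStmt : SemStmt := fun _ P Co =>
  ⟨fun s s' p _ hI h hrt => Sem.dec_eq P s s' p hI h hrt, Sem.eqv P Co, Sem.az P Co⟩

end Crest.Agent.R176.Lv
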