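import Crest.Agent.R176.LvStmts

/-!
Row 176: soundness of the simulation on pair states.
-/

set_option autoImplicit false
set_option synthInstance.maxSize 4096

namespace Crest.Agent.R176.Lv

variable {R : ℕ}

namespace SoundP

theorem one {M : List (Let R)} {W : List (Let (2 ^ R))} (h : Unit M W) : Dec Unit M W := by
  simpa using Dec.cons h Dec.nil

theorem cc_hd (s : PS R) (i : ℕ) : (s.cc i).hd = s.hd i := by
  unfold PS.cc; split_ifs <;> rfl

theorem hd_ne (s : PS R) (i : ℕ) : s.hd i ≠ .on none := by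
  unfold PS.hd; split_ifs <;> simp

theorem cell_L (s : PS R) {i : ℕ} (h : i < N R) : s.cell i = s.L.cell (s.hd i) i := if_pos h

theorem cell_R (s : PS R) {i : ℕ} (h : N R ≤ i) : s.cell i = s.Rb.cell (s.hd i) (i - N R) :=
  if_neg (not_lt.2 h)

theorem cc_L (s : PS R) {i : ℕ} (h : i < N R) : s.cc i = s.L.cc (s.hd i) i := if_pos h

theorem cc_R (s : PS R) {i : ℕ} (h : N R ≤ i) : s.cc i = s.Rb.cc (s.hd i) (i - N R) :=
  if_neg (not_lt.2 h)

theorem lst_last (P : PosFacts R) {i : ℕ} (h : i + 1 = N R) : (posAt R i).lst = true := by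
  have := (P.bd i (by omega)).2 h
  simp only [Pos.bd, Bool.and_eq_true] at this
  exact this.2

theorem setT_setT (x y : Let R) (j : Fin 4) :
    (x.setT j (y.t j)).setT j ((y.setT j (x.t j)).t j) = x := by
  ext1 <;> simp [Let.setT]

theorem setT_cell (B : Blk R) (t : ℕ → Fin 4 → Fin R → Bool) (hd : HD) (i : ℕ) (j : Fin 4)
    (v : Fin R → Bool) (h : t i = Function.update (B.t i) j v) :
    ({ B with t := t } : Blk R).cell hd i = (B.cell hd i).setT j v := by
  simp only [Blk.cell, Let.setT, h]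
  rfl

theorem same_cell (B : Blk R) (t : ℕ → Fin 4 → Fin R → Bool) (hd : HD) (i : ℕ)
    (h : t i = B.t i) : ({ B with t := t } : Blk R).cell hd i = B.cell hd i := by
  simp only [Blk.cell, h]
  rfl

theorem swap (P : PosFacts R) (Ce : CellFacts R) (s : PS R) {l r : List (Let R)} {x y : Let R}
    (j : Fin 4) (h₁ : s.Pre) (h₂ : s.RInv) (e : s.word = l ++ [x, y] ++ r)
    (hl : x.σ.1.lst = false) :
    Dec Unit (l ++ [x.setT j (y.t j), y.setT j (x.t j)] ++ r) s.dec := by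
  obtain ⟨hn, hx, hy, -, -⟩ := range_map_eq_pair e
  set p := l.length with hp
  rcases lt_trichotomy (p + 1) (N R) with hc | hc | hc
  · rw [cell_L s (by omega)] at hx
    rw [cell_L s hc] at hy
    obtain ⟨t, hV, ht₁, ht₂, ht₃⟩ := Ce.swap s.L p j h₁.L hc (by rw [hx] at hl; exact hl)
    let s' : PS R := { s with L := { s.L with t := t } }
    have hw : s'.word = l ++ [s'.cell p, s'.cell (p + 1)] ++ r := by
      refine range_map_update e fun i _ hi hi' => ?_
      by_cases hi'' : i < N R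
      · rw [cell_L s' hi'', cell_L s hi'']
        exact same_cell _ _ _ _ (ht₃ i hi hi')
      · rw [cell_R s' (not_lt.1 hi''), cell_R s (not_lt.1 hi'')]
        rfl
    refine one (Or.inr ⟨s', ⟨⟨h₁.bd.Lal, h₁.bd.Lbe, h₁.bd.Ral, h₁.bd.Rbe, h₁.bd.h_lt, h₁.bd.side⟩,
      hV, h₁.Rb⟩, ⟨h₂.first, h₂.kA_le, h₂.a, h₂.a', h₂.b, h₂.b', h₂.old, h₂.w, h₂.ruleL,
        h₂.ruleR, h₂.eq, h₂.btw⟩, ?_, rfl⟩)
    rw [hw, cell_L s' (by omega), cell_L s' hc, hx, hy]
    rw [setT_cell s.L t _ p j _ ht₁, setT_cell s.L t _ (p + 1) j _ ht₂]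
    rfl
  · rw [cell_L s (by omega)] at hx
    rw [hx] at hl
    have := lst_last P hc
    change (posAt R p).lst = false at hl
    rw [this] at hl
    exact absurd hl (by simp)
  · rw [cell_R s (by omega)] at hx
    rw [cell_R s (by omega), show p + 1 - N R = p - N R + 1 by omega] at hy
    obtain ⟨t, hV, ht₁, ht₂, ht₃⟩ := Ce.swap s.Rb (p - N R) j h₁.Rb (by omega)
      (by rw [hx] at hl; exact hl)
    let s' : PS R := { s with Rb := { s.Rb with t := t } }
    have hw : s'.word = l ++ [s'.cell p, s'.cell (p + 1)] ++ r := by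
      refine range_map_update e fun i _ hi hi' => ?_
      by_cases hi'' : i < N R
      · rw [cell_L s' hi'', cell_L s hi'']
        rfl
      · rw [cell_R s' (not_lt.1 hi''), cell_R s (not_lt.1 hi'')]
        exact same_cell _ _ _ _ (ht₃ _ (by omega) (by omega))
    refine one (Or.inr ⟨s', ⟨⟨h₁.bd.Lal, h₁.bd.Lbe, h₁.bd.Ral, h₁.bd.Rbe, h₁.bd.h_lt, h₁.bd.side⟩,
      h₁.L, hV⟩, ⟨h₂.first, h₂.kA_le, h₂.a, h₂.a', h₂.b, h₂.b', h₂.old, h₂.w, h₂.ruleL,
        h₂.ruleR, h₂.eq, h₂.btw⟩, ?_, rfl⟩)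
    rw [hw, cell_R s' (by omega), cell_R s' (by omega), show p + 1 - N R = p - N R + 1 by omega,
      hx, hy]
    rw [setT_cell s.Rb t _ (p - N R) j _ ht₁, setT_cell s.Rb t _ (p - N R + 1) j _ ht₂]
    rfl

theorem fwd (Re : RendFacts R) (Fw : FwdFacts R) (Se : SemFacts R) (s : PS R)
    {l r : List (Let R)} {x y : Let R} {σ₃ σ₄ : Cell} (h₁ : s.Pre) (h₂ : s.RInv)
    (e : s.word = l ++ [x, y] ++ r) (hc : cstep x.σ y.σ σ₃ σ₄) :
    ∃ W', Dec Unit (l ++ [{ x with σ := σ₃ }, { y with σ := σ₄ }] ++ r) W' ∧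
      (lev (2 ^ R)).Eqv s.dec W' := by
  obtain ⟨hn, rfl, rfl, -, -⟩ := range_map_eq_pair e
  obtain ⟨c₁, c₂, c₃, c₄, e₁, e₂, rfl, rfl, h⟩ := hc
  rw [PS.cell_σ] at e₁ e₂
  obtain rfl := mkC_injective e₁
  obtain rfl := mkC_injective e₂
  rcases h with h | h
  · obtain ⟨s', hA, rfl, rfl⟩ := Re.r2f s _ _ _ h₁.bd hn h
    obtain ⟨-, -, -, hL, hR, ho⟩ := Re.r1 s s' _ h₁.bd hA
    obtain ⟨h₁', h₂'⟩ := Fw.fwd s s' _ h₁ h₂ hA
    refine ⟨s'.dec, one (Or.inr ⟨s', h₁', h₂', ?_, rfl⟩), Se.eqv s s' _ h₁ h₂ hA⟩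
    rw [← PS.cell_eq hL hR, ← PS.cell_eq hL hR]
    exact (range_map_update e fun i _ hi hi' => ho i hi hi').symm
  · exfalso
    generalize hc₁ : s.cc l.length = c₁ at h
    generalize s.cc (l.length + 1) = c₂ at h
    cases h with
    | go _ _ _ _ hh => exact hd_ne s _ (by rw [← cc_hd, hc₁, hh])

theorem bwd (Re : RendFacts R) (Fw : FwdFacts R) (Bw : BwdFacts R) (Se : SemFacts R) (s : PS R)
    {l r : List (Let R)} {x y : Let R} {σ₃ σ₄ : Cell} (h₁ : s.Pre) (h₂ : s.RInv)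
    (e : s.word = l ++ [{ x with σ := σ₃ }, { y with σ := σ₄ }] ++ r)
    (hc : cstep x.σ y.σ σ₃ σ₄) :
    ∃ W', Dec Unit (l ++ [x, y] ++ r) W' ∧ (lev (2 ^ R)).Eqv s.dec W' := by
  obtain ⟨hn, hx, hy, -, -⟩ := range_map_eq_pair e
  obtain ⟨c₁, c₂, c₃, c₄, e₁, e₂, rfl, rfl, h⟩ := hc
  have e₃ : c₃ = s.cc l.length := mkC_injective (by rw [← PS.cell_σ, ← hx])
  have e₄ : c₄ = s.cc (l.length + 1) := mkC_injective (by rw [← PS.cell_σ, ← hy])
  have hx' : x = { s.cell l.length with σ := mkC c₁ } := by rw [← hx, ← e₁]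
  have hy' : y = { s.cell (l.length + 1) with σ := mkC c₂ } := by rw [← hy, ← e₂]
  rcases h with h | h
  · subst e₃ e₄
    rcases Re.r2b s _ _ _ h₁.bd hn h with ⟨hS, hp, rfl, rfl⟩ | ⟨s', hb, hA, rfl, rfl⟩
    · obtain ⟨-, l', r', hl', hwL, hwR, hw⟩ := Re.start s hS
      have hN := hS.1
      rw [e, List.append_assoc, List.append_assoc] at hw
      obtain ⟨rfl, hw'⟩ := List.append_inj hw (by omega)
      obtain ⟨-, rfl⟩ := List.append_inj hw' rfl
      have hx'' : x = s.L.cell (.on none) s.h := by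
        rw [hx', cell_L s (by omega), hp]; rfl
      have hy'' : y = s.Rb.cell (.on none) 0 := by
        rw [hy', cell_R s (by omega), show l.length + 1 - N R = 0 by omega]; rfl
      have hD : Dec Unit (wordS s.L s.h ++ wordS s.Rb 0) ([s.L.dec] ++ [s.Rb.dec]) :=
        Dec.cons (Or.inl ⟨s.L, s.h, h₁.L, by omega, rfl, rfl⟩)
          (one (Or.inl ⟨s.Rb, 0, h₁.Rb, by omega, rfl, rfl⟩))
      refine ⟨_, ?_, Rew.Eqv.of_eq (Fw.start s hS).2⟩
      rw [hwL, hwR, ← hx'', ← hy''] at hD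
      simpa using hD
    · obtain ⟨-, -, -, hL, hR, ho⟩ := Re.r1 s' s _ hb hA
      obtain ⟨h₁', h₂'⟩ := Bw.bwd s' s _ h₁ h₂ hb hA
      refine ⟨s'.dec, one (Or.inr ⟨s', h₁', h₂', ?_, rfl⟩), (Se.eqv s' s _ h₁' h₂' hA).symm⟩
      rw [hx', hy', ← PS.cell_eq hL.symm hR.symm, ← PS.cell_eq hL.symm hR.symm]
      exact (range_map_update e fun i _ hi hi' => (ho i hi hi').symm).symm
  · exfalso
    cases h with
    | go => exact hd_ne s _ (by rw [← cc_hd, ← e₄])

theorem okIn_hd (s : PS R) (hb : s.Bd) {p : ℕ} (hp : p + 1 ≠ N R) :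
    okIn (s.hd p) (s.hd (p + 1)) := by
  have hs := hb.side
  unfold PS.hd
  split_ifs <;> simp only [okIn, isL, isR, hs] <;>
    first
    | omega
    | (rw [Bool.eq_iff_iff]; simp only [decide_eq_true_eq, Bool.not_eq_true', decide_eq_false_iff_not]
       omega)

theorem linked_hd (s : PS R) (hb : s.Bd) {p : ℕ} (hp : p + 1 = N R) :
    linked (s.hd p) (s.hd (p + 1)) := by
  have hs := hb.side
  unfold PS.hd
  split_ifs <;> simp only [linked, isL, isR, hs, decide_eq_true_eq, Bool.not_eq_true',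
    decide_eq_false_iff_not] <;> omega

theorem okS (Ce : CellFacts R) (s : PS R) (h₁ : s.Pre) {p : ℕ} (hn : p + 1 < 2 * N R) :
    OkS (s.cc p) (s.cc (p + 1)) := by
  rcases lt_trichotomy (p + 1) (N R) with hc | hc | hc
  · rw [cc_L s (by omega), cc_L s hc]
    refine Ce.okS_in _ h₁.L _ _ _ hc (okIn_hd s h₁.bd hc.ne) fun _ => ?_
    unfold PS.hd
    split_ifs <;> simp
    omega
  · rw [cc_L s (by omega), cc_R s (by omega), show p + 1 - N R = 0 by omega]
    have := Ce.okS_bd _ _ h₁.L h₁.Rb _ _ (Or.inl (linked_hd s h₁.bd hc))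
    rwa [show N R - 1 = p by omega] at this
  · rw [cc_R s (by omega), cc_R s (by omega), show p + 1 - N R = p - N R + 1 by omega]
    refine Ce.okS_in _ h₁.Rb _ _ _ (by omega) (okIn_hd s h₁.bd hc.ne') fun _ => ?_
    have := h₁.bd.h_lt
    unfold PS.hd
    split_ifs <;> simp
    omega

theorem inc (Ce : CellFacts R) (s : PS R) {p : ℕ} (hn : p + 1 < 2 * N R) :
    (s.cell p).inc (s.cell (p + 1)) := by
  rcases lt_trichotomy (p + 1) (N R) with hc | hc | hc
  · rw [cell_L s (by omega), cell_L s hc]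
    exact Ce.inc_in _ _ _ _ hc
  · rw [cell_L s (by omega), cell_R s (by omega), show p + 1 - N R = 0 by omega]
    have := Ce.inc_bd s.L s.Rb (s.hd p) (s.hd (p + 1))
    rwa [show N R - 1 = p by omega] at this
  · rw [cell_R s (by omega), cell_R s (by omega), show p + 1 - N R = p - N R + 1 by omega]
    exact Ce.inc_in _ _ _ _ (by omega)

theorem ne (P : PosFacts R) (Ce : CellFacts R) (s : PS R) (h₁ : s.Pre) {p : ℕ}
    (hn : p + 1 < 2 * N R) (hl : (s.cell p).σ.1.lst = false) (j : Fin 4) :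
    (s.cell p).t j ≠ (s.cell (p + 1)).t j := by
  rcases lt_trichotomy (p + 1) (N R) with hc | hc | hc
  · rw [cell_L s (by omega)] at hl ⊢
    rw [cell_L s hc]
    exact Ce.ne _ h₁.L _ hc hl j
  · rw [cell_L s (by omega)] at hl
    have := lst_last P hc
    change (posAt R p).lst = false at hl
    rw [this] at hl
    exact absurd hl (by simp)
  · rw [cell_R s (by omega)] at hl ⊢
    rw [cell_R s (by omega), show p + 1 - N R = p - N R + 1 by omega]
    exact Ce.ne _ h₁.Rb _ (by omega) hl j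

end SoundP

open SoundP

theorem soundPStmt : SoundPStmt := by
  intro R P Ce Re Fw Bw Se
  refine ⟨fun s l a b r h₁ h₂ e hs => ?_, fun s l a r h₁ h₂ e hz => ?_⟩
  · rcases hs with hs | hs
    · cases hs with
      | fin x y σ₃ σ₄ hc => exact fwd Re Fw Se s h₁ h₂ e hc
      | swap x y j hl => exact ⟨_, swap P Ce s j h₁ h₂ e hl, Rew.Eqv.refl _⟩
    · cases hs with
      | fin x y σ₃ σ₄ hc => exact bwd Re Fw Bw Se s h₁ h₂ e hc
      | swap x y j hl =>
        have := swap P Ce s j h₁ h₂ e hl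
        rw [setT_setT, setT_setT] at this
        exact ⟨_, this, Rew.Eqv.refl _⟩
  · cases hz with
    | invalid x hx =>
      obtain ⟨-, rfl, -, -⟩ := range_map_eq_one e
      exfalso
      apply hx
      unfold PS.cell
      split_ifs <;> exact Ce.valid _ _ _
    | fin x y hc =>
      obtain ⟨hn, rfl, rfl, -, -⟩ := range_map_eq_pair e
      rcases hc _ _ (PS.cell_σ _ _) (PS.cell_σ _ _) with h | h | h
      · exact absurd (okS Ce s h₁ hn) h
      · exfalso
        refine h.2 ?_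
        rcases Bw.prev s _ h₁ h₂ ((Re.need s _ h₁.bd hn).1 h.1) with ⟨hS, hp⟩ | ⟨s₀, hb, hA, -⟩
        · rw [hp]
          exact ⟨_, _, (Re.start s hS).1⟩
        · exact ⟨_, _, (Re.r1 s₀ s _ hb hA).2.2.1⟩
      · exact Se.az s h₁ h₂ ((Re.fz s _ h₁.bd hn).1 h).2
    | inc x y hc =>
      obtain ⟨hn, rfl, rfl, -, -⟩ := range_map_eq_pair e
      exact absurd (inc Ce s hn) hc
    | eq x y j hl hc =>
      obtain ⟨hn, rfl, rfl, -, -⟩ := range_map_eq_pair e
      exact absurd hc (ne P Ce s h₁ hn hl j)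

end Crest.Agent.R176.Lv
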