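import Crest.Agent.R176.LvStmts

/-!
Row 176: soundness on single blocks and across units; the shape of units.
-/

set_option autoImplicit false
set_option synthInstance.maxSize 4096

namespace Crest.Agent.R176.Lv

namespace SoundS

variable {R : ℕ}

theorem hdS_ne (h i : ℕ) (m : Run) : hdS h i ≠ .on (some m) := by
  unfold hdS; split_ifs <;> simp

theorem hdS_on {h i : ℕ} (e : hdS h i = .on none) : i = h := by
  unfold hdS at e; split_ifs at e; assumption

theorem hdS_self (h : ℕ) : hdS h h = .on none := by simp [hdS]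

theorem hdS_lt {h i : ℕ} (e : i < h) : hdS h i = .bef false := if_pos e

theorem hdS_gt {h i : ℕ} (e : h < i) : hdS h i = .aft false := by
  unfold hdS; rw [if_neg (by omega), if_neg (by omega)]

theorem hdS_succ {p i : ℕ} (h1 : i ≠ p) (h2 : i ≠ p + 1) : hdS (p + 1) i = hdS p i := by
  unfold hdS; split_ifs <;> first | rfl | omega

theorem okIn_hdS (h i : ℕ) : okIn (hdS h i) (hdS h (i + 1)) := by
  unfold hdS; split_ifs <;> first | rfl | omega

theorem arr_eq {i a : ℕ} (e : arr i a = .eq) : i = a := by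
  unfold arr at e; split_ifs at e; assumption

theorem arr_lt {i a : ℕ} (e : arr i a = .lt) : i < a := by
  unfold arr at e; split_ifs at e; assumption

theorem arr_zero (a : ℕ) : arr 0 a ≠ .gt := by
  unfold arr
  split_ifs with h1 h2
  · simp
  · simp
  · omega

theorem arr_succ {p i : ℕ} (h1 : i ≠ p) (h2 : i ≠ p + 1) : arr i (p + 1) = arr i p := by
  unfold arr; split_ifs <;> first | rfl | omega

theorem drag_f {p a n : ℕ} {x y : Arr} (h : Drag (arr p a) (arr (p + 1) a) x y) (ha : a < n)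
    (hp : p + 1 < n) : ∃ a' < n, x = arr p a' ∧ y = arr (p + 1) a' ∧
      ∀ i, i ≠ p → i ≠ p + 1 → arr i a' = arr i a := by
  rcases h with ⟨rfl, rfl⟩ | ⟨h, -, rfl, rfl⟩
  · exact ⟨a, ha, rfl, rfl, fun _ _ _ => rfl⟩
  · obtain rfl := arr_eq h
    exact ⟨p + 1, hp, by simp [arr], by simp [arr], fun i => arr_succ⟩

theorem drag_b {p a n : ℕ} {x y : Arr} (h : Drag x y (arr p a) (arr (p + 1) a)) (ha : a < n)
    (hp : p + 1 < n) : ∃ a' < n, x = arr p a' ∧ y = arr (p + 1) a' ∧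
      ∀ i, i ≠ p → i ≠ p + 1 → arr i a' = arr i a := by
  rcases h with ⟨rfl, rfl⟩ | ⟨rfl, rfl, -, h⟩
  · exact ⟨a, ha, rfl, rfl, fun _ _ _ => rfl⟩
  · obtain rfl := arr_eq h
    exact ⟨p, by omega, by simp [arr], by simp [arr], fun i h1 h2 => (arr_succ h1 h2).symm⟩

theorem valid_ptr {B : Blk R} (hB : B.Valid) {a b : ℕ} (ha : a < N R) (hb : b < N R) :
    ({ B with al := a, be := b } : Blk R).Valid :=
  ⟨hB.A_lt, hB.pi_le, hB.lab, hB.lst, ha, hb, hB.uok, hB.inj, hB.junk⟩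

/-- The steps touching a two letter word. -/
theorem step_cases {x y : Let R} {b : List (Let R)} (h : LStep [x, y] b ∨ LStep b [x, y])
    {c₁ c₂ : CC} (hx : x.σ = mkC c₁) (hy : y.σ = mkC c₂) :
    (∃ c₃ c₄, b = [{ x with σ := mkC c₃ }, { y with σ := mkC c₄ }] ∧
      (Fwd c₁ c₂ c₃ c₄ ∨ Idle c₁ c₂ c₃ c₄ ∨ Fwd c₃ c₄ c₁ c₂ ∨ Idle c₃ c₄ c₁ c₂)) ∨
    ∃ j, c₁.pos.lst = false ∧ b = [x.setT j (y.t j), y.setT j (x.t j)] := by
  rcases h with h | h
  · cases h with
    | fin _ _ σ₃ σ₄ h =>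
      obtain ⟨d₁, d₂, c₃, c₄, e₁, e₂, rfl, rfl, h⟩ := h
      obtain rfl := mkC_injective (hx.symm.trans e₁)
      obtain rfl := mkC_injective (hy.symm.trans e₂)
      exact Or.inl ⟨c₃, c₄, rfl, by tauto⟩
    | swap _ _ j h => exact Or.inr ⟨j, by rwa [hx] at h, rfl⟩
  · generalize e : [x, y] = a at h
    cases h with
    | fin x' y' σ₃ σ₄ h =>
      obtain ⟨c₃, c₄, d₁, d₂, e₁, e₂, rfl, rfl, h⟩ := h
      simp only [List.cons.injEq, and_true] at e
      obtain ⟨rfl, rfl⟩ := e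
      obtain rfl := mkC_injective hx
      obtain rfl := mkC_injective hy
      exact Or.inl ⟨c₃, c₄, by rw [← e₁, ← e₂], by tauto⟩
    | swap x' y' j h =>
      simp only [List.cons.injEq, and_true] at e
      obtain ⟨rfl, rfl⟩ := e
      refine Or.inr ⟨j, ?_, by simp [Let.setT]⟩
      have : x'.σ = mkC c₁ := hx
      rwa [this] at h

theorem step_pair {a b : List (Let R)} (h : LStep a b ∨ LStep b a) : ∃ x y, a = [x, y] := by
  rcases h with h | h <;> cases h <;> exact ⟨_, _, rfl⟩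

theorem step (Ce : CellFacts R) (B : Blk R) (h : ℕ) (l a b r : List (Let R)) (hB : B.Valid)
    (hh : h < N R) (e : wordS B h = l ++ a ++ r) (hs : LStep a b ∨ LStep b a) :
    ∃ (B' : Blk R) (h' : ℕ), B'.Valid ∧ h' < N R ∧ wordS B' h' = l ++ b ++ r ∧ B'.dec = B.dec := by
  obtain ⟨x, y, rfl⟩ := step_pair hs
  obtain ⟨hp, hx, hy, -, -⟩ := range_map_eq_pair e
  set p := l.length with hpd
  rcases step_cases hs (c₁ := B.cc (hdS h p) p) (c₂ := B.cc (hdS h (p + 1)) (p + 1))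
    (by rw [hx]; rfl) (by rw [hy]; rfl) with ⟨c₃, c₄, rfl, H | H | H | H⟩ | ⟨j, hl, rfl⟩
  · exfalso
    cases H with
    | start ρ _ h₁ h₂ =>
      have := hdS_on h₁
      have := hdS_on h₂
      omega
    | mvR m h₁ => exact hdS_ne _ _ _ h₁
    | mvL m _ _ h₁ => exact hdS_ne _ _ _ h₁
    | evA m h₁ => exact hdS_ne _ _ _ h₁
    | evB m _ _ h₁ => exact hdS_ne _ _ _ h₁
    | evC m _ _ h₁ => exact hdS_ne _ _ _ h₁
  · cases H with
    | go a₁ a₂ b₁ b₂ h₁ _ _ ha hb =>
      obtain rfl : p = h := hdS_on h₁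
      obtain ⟨a', ha', rfl, rfl, ka⟩ := drag_f ha hB.al_lt hp
      obtain ⟨b', hb', rfl, rfl, kb⟩ := drag_f hb hB.be_lt hp
      refine ⟨{ B with al := a', be := b' }, p + 1, valid_ptr hB ha' hb', hp, ?_, rfl⟩
      rw [wordS, range_map_update e fun i _ h1 h2 => ?_, ← hpd, hx, hy, hdS_lt (Nat.lt_succ_self p),
        hdS_self]
      · rfl
      · simp only [Blk.cell, Blk.cc, hdS_succ (p := p) h1 h2, ka i h1 h2, kb i h1 h2]
        rfl
  · exfalso
    generalize e₁ : B.cc (hdS h p) p = c₁ at H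
    generalize e₂ : B.cc (hdS h (p + 1)) (p + 1) = c₂ at H
    have k₁ : ∀ m, c₁.hd ≠ .on (some m) := e₁ ▸ hdS_ne _ _
    have k₂ : ∀ m, c₂.hd ≠ .on (some m) := e₂ ▸ hdS_ne _ _
    cases H <;> first | exact k₁ _ rfl | exact k₂ _ rfl
  · generalize e₁ : B.cc (hdS h p) p = c₁ at H
    generalize e₂ : B.cc (hdS h (p + 1)) (p + 1) = c₂ at H
    cases H with
    | go a₁ a₂ b₁ b₂ h₁ h₂ _ ha hb =>
      obtain ⟨p₃, d₃, hd₃, al₃, be₃, u₃⟩ := c₃
      obtain ⟨p₄, d₄, hd₄, al₄, be₄, u₄⟩ := c₄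
      simp only [Blk.cc, CC.mk.injEq] at e₁ e₂ h₁ h₂ ha hb
      obtain ⟨rfl, rfl, -, rfl, rfl, rfl⟩ := e₁
      obtain ⟨rfl, rfl, e₂, rfl, rfl, rfl⟩ := e₂
      obtain rfl : p + 1 = h := hdS_on e₂
      subst h₁ h₂
      obtain ⟨a', ha', rfl, rfl, ka⟩ := drag_b ha hB.al_lt hp
      obtain ⟨b', hb', rfl, rfl, kb⟩ := drag_b hb hB.be_lt hp
      refine ⟨{ B with al := a', be := b' }, p, valid_ptr hB ha' hb', by omega, ?_, rfl⟩
      rw [wordS, range_map_update e fun i _ h1 h2 => ?_, ← hpd, hx, hy, hdS_gt (Nat.lt_succ_self p),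
        hdS_self]
      · rfl
      · simp only [Blk.cell, Blk.cc, hdS_succ (p := p) h1 h2, ka i h1 h2, kb i h1 h2]
        rfl
  · obtain ⟨t, ht, t1, t2, t3⟩ := Ce.swap B p j hB hp hl
    refine ⟨{ B with t := t }, h, ht, hh, ?_, rfl⟩
    rw [wordS, range_map_update e fun i _ h1 h2 => ?_, ← hpd, hx, hy]
    · simp only [Blk.cell, Let.setT, t1, t2]
      rfl
    · simp only [Blk.cell, t3 i h1 h2]
      rfl

theorem zero (Ce : CellFacts R) (B : Blk R) (h : ℕ) (l a r : List (Let R)) (hB : B.Valid)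
    (e : wordS B h = l ++ a ++ r) : ¬ LZero a := by
  intro hz
  cases hz with
  | invalid x hx =>
    obtain ⟨-, rfl, -⟩ := range_map_eq_one e
    exact hx (Ce.valid _ _ _)
  | fin x y hz =>
    obtain ⟨hp, rfl, rfl, -⟩ := range_map_eq_pair e
    refine not_czero (Ce.okS_in B hB _ _ _ hp (okIn_hdS _ _) fun _ => ?_) ?_ ?_ hz
    · unfold hdS; split_ifs <;> simp
    · rintro ⟨⟨m, hm, -⟩ | ⟨m, hm, -⟩, -⟩ <;> exact hdS_ne _ _ _ hm
    · rintro ⟨m, hm, -⟩
      exact hdS_ne _ _ _ hm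
  | inc x y hz =>
    obtain ⟨hp, rfl, rfl, -⟩ := range_map_eq_pair e
    exact hz (Ce.inc_in B _ _ _ hp)
  | eq x y j hl hz =>
    obtain ⟨hp, rfl, rfl, -⟩ := range_map_eq_pair e
    exact Ce.ne B hB _ hp hl j hz

theorem range_last {X : Type} {n : ℕ} (hn : 0 < n) (c : ℕ → X) :
    (List.range n).map c = (List.range (n - 1)).map c ++ [c (n - 1)] := by
  obtain ⟨n, rfl⟩ : ∃ k, n = k + 1 := ⟨n - 1, by omega⟩
  simp [List.range_succ]

theorem range_first {X : Type} {n : ℕ} (hn : 0 < n) (c : ℕ → X) :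
    ∃ r, (List.range n).map c = c 0 :: r := by
  obtain ⟨n, rfl⟩ : ∃ k, n = k + 1 := ⟨n - 1, by omega⟩
  exact ⟨_, by rw [List.range_succ_eq_map, List.map_cons]⟩

theorem cut_cell {B : Blk R} {hd : HD} {i : ℕ} :
    cut (B.cell hd i) ↔ (posAt R i).bd = true ∧ hd.fin := by
  constructor
  · rintro ⟨c, hc, h⟩
    obtain rfl := mkC_injective hc
    exact h
  · exact fun h => ⟨_, rfl, h⟩

theorem fin_S {h : ℕ} (hh : h < N R) : (hdS h (N R - 1)).fin := by
  unfold hdS; split_ifs <;> first | rfl | omega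

theorem fin_P {s : PS R} (hs : s.Bd) : (s.hd (2 * N R - 1)).fin := by
  have := six_le_N R
  have := hs.h_lt
  unfold PS.hd
  split_ifs with h1 h2
  · omega
  · simp [HD.fin, isL, hs.side]; omega
  · simp [HD.fin]; omega

theorem not_fin_P {s : PS R} (hs : s.Bd) : ¬ (s.hd (N R - 1)).fin := by
  have := six_le_N R
  unfold PS.hd
  split_ifs with h1 h2
  · exact id
  · simp [HD.fin, isL, hs.side]; omega
  · simp [HD.fin]; omega

theorem hd_ne (s : PS R) (i : ℕ) : s.hd i ≠ .on none := by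
  unfold PS.hd; split_ifs <;> simp

theorem cell_last (s : PS R) : s.cell (2 * N R - 1) = s.Rb.cell (s.hd (2 * N R - 1)) (N R - 1) := by
  have := six_le_N R
  rw [PS.cell, if_neg (by omega), show 2 * N R - 1 - N R = N R - 1 by omega]

theorem cutU (P : PosFacts R) (M : List (Let R)) (W : List (Let (2 ^ R))) (hU : Unit M W) :
    ∃ M₀ x, M = M₀ ++ [x] ∧ cut x ∧ ∀ y ∈ M₀, ¬ cut y := by
  have h6 := six_le_N R
  have hbd : (posAt R (N R - 1)).bd = true := (P.bd _ (by omega)).2 (by omega)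
  rcases hU with ⟨B, h, -, hh, rfl, -⟩ | ⟨s, hs, -, rfl, -⟩
  · refine ⟨_, _, range_last (by omega) _, cut_cell.2 ⟨hbd, fin_S hh⟩, fun y hy hc => ?_⟩
    obtain ⟨i, hi, rfl⟩ := List.mem_map.1 hy
    rw [List.mem_range] at hi
    have := (P.bd _ (by omega)).1 (cut_cell.1 hc).1
    omega
  · refine ⟨_, _, range_last (by omega) _, ?_, fun y hy hc => ?_⟩
    · rw [cell_last]
      exact cut_cell.2 ⟨hbd, fin_P hs.bd⟩
    · obtain ⟨i, hi, rfl⟩ := List.mem_map.1 hy
      rw [List.mem_range] at hi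
      unfold PS.cell at hc
      split_ifs at hc with h1
      · have := (P.bd _ h1).1 (cut_cell.1 hc).1
        obtain rfl : i = N R - 1 := by omega
        exact not_fin_P hs.bd (cut_cell.1 hc).2
      · have := (P.bd _ (by omega)).1 (cut_cell.1 hc).1
        omega

theorem func (Ce : CellFacts R) (M : List (Let R)) (W W' : List (Let (2 ^ R))) (hU : Unit M W)
    (hU' : Unit M W') : W = W' := by
  have h6 := six_le_N R
  rcases hU with ⟨B, h, hB, -, rfl, rfl⟩ | ⟨s, hs, -, rfl, rfl⟩ <;>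
    rcases hU' with ⟨B', h', hB', -, e, rfl⟩ | ⟨s', hs', -, e, rfl⟩
  · rw [(Ce.inj B B' _ _ hB hB' (range_map_inj e)).1]
  · have := congrArg List.length e
    simp [wordS, PS.word] at this
    omega
  · have := congrArg List.length e
    simp [wordS, PS.word] at this
    omega
  · have e' := range_map_inj e
    obtain ⟨eL, hL⟩ := Ce.inj s.L s'.L s.hd s'.hd hs.L hs'.L fun i hi => by
      simpa only [PS.cell, if_pos hi] using e' i (by omega)
    obtain ⟨eR, hR⟩ := Ce.inj s.Rb s'.Rb (fun i => s.hd (N R + i)) (fun i => s'.hd (N R + i))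
      hs.Rb hs'.Rb fun i hi => by
      simpa only [PS.cell, if_neg (show ¬ N R + i < N R by omega), Nat.add_sub_cancel_left]
        using e' (N R + i) (by omega)
    have k : s.hd s.h = s'.hd s.h := by
      have := hs.bd.h_lt
      by_cases h1 : s.h < N R
      · exact hL _ h1
      · simpa only [show N R + (s.h - N R) = s.h by omega] using hR (s.h - N R) (by omega)
    unfold PS.hd at k
    rw [if_neg (lt_irrefl _), if_pos rfl] at k
    split_ifs at k with h1 h2
    simp only [HD.on.injEq, Option.some.injEq] at k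
    rw [PS.ext eL eR h2 k]

theorem last {l : List (Let R)} {x : Let R} {W : List (Let (2 ^ R))} (hU : Unit (l ++ [x]) W) :
    ∃ (B : Blk R) (hd : HD), B.Valid ∧ hd.fin ∧ x = B.cell hd (N R - 1) ∧
      (hd = .on none → l ++ [x] = wordS B (N R - 1) ∧ W = [B.dec]) := by
  have h6 := six_le_N R
  rcases hU with ⟨B, h, hB, hh, e, rfl⟩ | ⟨s, hs, -, e, rfl⟩
  · refine ⟨B, _, hB, fin_S hh, ?_, fun k => ⟨by rw [e, hdS_on k], rfl⟩⟩
    rw [wordS, range_last (by omega)] at e
    simpa using (List.append_inj' e rfl).2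
  · refine ⟨s.Rb, _, hs.Rb, fin_P hs.bd, ?_, fun k => absurd k (hd_ne _ _)⟩
    rw [PS.word, range_last (by omega), cell_last] at e
    simpa using (List.append_inj' e rfl).2

theorem first (Bw : BwdFacts R) {r : List (Let R)} {y : Let R} {W : List (Let (2 ^ R))}
    (hU : Unit (y :: r) W) :
    ∃ (B : Blk R) (hd : HD), B.Valid ∧ hd.ini ∧ y = B.cell hd 0 ∧
      (hd = .on none → y :: r = wordS B 0 ∧ W = [B.dec]) ∧
      ∀ m, hd = .on (some m) → (m.src = .aL → 0 < B.al) ∧ (m.src = .bL → 0 < B.be) := by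
  have h6 := six_le_N R
  rcases hU with ⟨B, h, hB, hh, e, rfl⟩ | ⟨s, hs, hI, e, rfl⟩
  · refine ⟨B, hdS h 0, hB, ?_, ?_, fun k => ⟨by rw [e, ← hdS_on k], rfl⟩,
      fun m k => absurd k (hdS_ne _ _ _)⟩
    · unfold hdS; split_ifs <;> first | rfl | omega
    · obtain ⟨r', e'⟩ := range_first (show 0 < N R by omega) fun i => B.cell (hdS h i) i
      rw [wordS, e'] at e
      exact (List.cons.inj e).1
  · refine ⟨s.L, s.hd 0, hs.L, ?_, ?_, fun k => absurd k (hd_ne _ _), fun m k => ?_⟩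
    · unfold PS.hd
      split_ifs with h1 h2
      · simp [HD.ini]; omega
      · simp [HD.ini, isR, hs.bd.side]; omega
      · omega
    · obtain ⟨r', e'⟩ := range_first (show 0 < 2 * N R by omega) s.cell
      rw [PS.word, e', PS.cell, if_pos (by omega)] at e
      exact (List.cons.inj e).1
    · unfold PS.hd at k
      split_ifs at k
      simp only [HD.on.injEq, Option.some.injEq] at k
      subst k
      have := Bw.src_pos s hI
      constructor <;> intro h <;> rwa [h] at this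

theorem lst_of_bd {p : Pos} (h : p.bd = true) : p.lst = true := by
  simp only [Pos.bd, Bool.and_eq_true] at h
  exact h.2

theorem stepUU (P : PosFacts R) (Re : RendFacts R) (Fw : FwdFacts R) (Bw : BwdFacts R)
    (l : List (Let R)) (x y : Let R) (r b : List (Let R)) (W₁ W₂ : List (Let (2 ^ R)))
    (h₁ : Unit (l ++ [x]) W₁) (h₂ : Unit (y :: r) W₂) (hs : LStep [x, y] b ∨ LStep b [x, y]) :
    Unit (l ++ b ++ r) (W₁ ++ W₂) := by
  have h6 := six_le_N R
  have hbd : (posAt R (N R - 1)).bd = true := (P.bd _ (by omega)).2 (by omega)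
  obtain ⟨B₁, hd₁, hB₁, f₁, rfl, k₁⟩ := last h₁
  obtain ⟨B₂, hd₂, hB₂, f₂, rfl, k₂, -⟩ := first Bw h₂
  rcases step_cases hs (c₁ := B₁.cc hd₁ (N R - 1)) (c₂ := B₂.cc hd₂ 0) rfl rfl with
    ⟨c₃, c₄, rfl, H | H | H | H⟩ | ⟨j, hl, rfl⟩
  · cases H with
    | start ρ _ e₁ e₂ =>
      obtain ⟨u₁, rfl⟩ := k₁ e₁
      obtain ⟨u₂, rfl⟩ := k₂ e₂
      let s : PS R := ⟨B₁, B₂, N R - 1, Run.start ρ⟩
      have hst : s.IsStart := ⟨show N R - 1 + 1 = N R by omega, rfl⟩
      obtain ⟨-, l', r', -, v₁, v₂, v₃⟩ := Re.start s hst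
      obtain ⟨hI, hd⟩ := Fw.start s hst
      refine Or.inr ⟨s, ⟨⟨hB₁.al_lt, hB₁.be_lt, hB₂.al_lt, hB₂.be_lt,
        show N R - 1 < 2 * N R by omega, ?_⟩, hB₁, hB₂⟩, hI, ?_, hd.symm⟩
      · show false = decide (N R ≤ N R - 1)
        simp; omega
      · obtain rfl : l = l' := (List.append_inj' (u₁.trans v₁) rfl).1
        obtain rfl : r = r' := (List.cons.inj (u₂.trans v₂)).2
        rw [v₃]
        have a₁ : s.cell s.h = B₁.cell (.on (some (Run.start ρ))) (N R - 1) := by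
          rw [PS.cell, if_pos (show N R - 1 < N R by omega), PS.hd, if_neg (lt_irrefl _), if_pos rfl]
        have a₂ : s.cell (s.h + 1) = B₂.cell (.aft false) 0 := by
          rw [hst.1, PS.cell, if_neg (lt_irrefl _), PS.hd,
            if_neg (show ¬ N R < N R - 1 by omega), if_neg (show ¬ N R = N R - 1 by omega)]
          simp [s]
        rw [a₁, a₂]
        rfl
    | mvR m e₁ e₂ =>
      obtain rfl : hd₁ = _ := e₁
      simp [HD.fin, isL, e₂ hbd] at f₁
    | mvL m e₁ =>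
      obtain rfl : hd₁ = _ := e₁
      exact f₁.elim
    | evA m _ _ _ e => exact absurd (hbd.symm.trans e) (by simp)
    | evB m _ _ _ _ _ e => exact absurd (hbd.symm.trans e) (by simp)
    | evC m _ _ _ _ _ e => exact absurd (hbd.symm.trans e) (by simp)
  · cases H with
    | go _ _ _ _ _ _ e => exact absurd (hbd.symm.trans e) (by simp)
  · exfalso
    generalize e₁ : B₁.cc hd₁ (N R - 1) = c₁ at H
    generalize e₂ : B₂.cc hd₂ 0 = c₂ at H
    have g₁ : c₁.hd.fin := e₁ ▸ f₁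
    have g₂ : c₂.hd.ini := e₂ ▸ f₂
    cases H <;> first | exact g₁ | exact g₂
  · exfalso
    generalize e₁ : B₁.cc hd₁ (N R - 1) = c₁ at H
    generalize e₂ : B₂.cc hd₂ 0 = c₂ at H
    have g₁ : c₁.hd.fin := e₁ ▸ f₁
    cases H
    exact g₁
  · exact absurd ((lst_of_bd hbd).symm.trans hl) (by simp)

theorem zeroUU (P : PosFacts R) (Ce : CellFacts R) (Bw : BwdFacts R)
    (l : List (Let R)) (x y : Let R) (r : List (Let R)) (W₁ W₂ : List (Let (2 ^ R)))
    (h₁ : Unit (l ++ [x]) W₁) (h₂ : Unit (y :: r) W₂) : ¬ LZero [x, y] := by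
  have h6 := six_le_N R
  have hbd : (posAt R (N R - 1)).bd = true := (P.bd _ (by omega)).2 (by omega)
  obtain ⟨B₁, hd₁, hB₁, f₁, rfl, -⟩ := last h₁
  obtain ⟨B₂, hd₂, hB₂, f₂, rfl, -, k₂⟩ := first Bw h₂
  intro hz
  cases hz with
  | fin _ _ hz =>
    refine not_czero (Ce.okS_bd B₁ B₂ hB₁ hB₂ _ _ (Or.inr ⟨f₁, f₂⟩)) ?_ ?_ hz
    · rintro ⟨⟨m, hm, h⟩ | ⟨m, hm, h⟩, -⟩
      · obtain rfl : hd₁ = _ := hm
        have hs : m.side = true := by simpa [HD.fin, isL] using f₁
        have hb := hB₁.be_lt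
        rw [hs] at h
        generalize m.src = κ at h
        cases κ <;> simp [arrow] at h
        have := arr_lt h
        omega
      · obtain rfl : hd₂ = _ := hm
        have hs : m.side = false := f₂
        obtain ⟨ka, kb⟩ := k₂ m rfl
        rw [hs] at h
        generalize m.src = κ at h ka kb
        cases κ <;> simp only [arrow] at h
        · rcases h with h | ⟨-, h⟩
          · exact arr_zero _ h
          · exact (ka rfl).ne (arr_eq h)
        · rcases h with h | ⟨-, h⟩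
          · exact arr_zero _ h
          · exact (kb rfl).ne (arr_eq h)
        · simp at h
        · split_ifs at h <;> simp at h
    · rintro ⟨m, -, -, -, e, -⟩
      exact absurd (hbd.symm.trans e) (by simp)
  | inc _ _ hz => exact hz (Ce.inc_bd B₁ B₂ _ _)
  | eq _ _ j hl => exact absurd ((lst_of_bd hbd).symm.trans hl) (by simp)

end SoundS

theorem soundSStmt : SoundSStmt := fun _ P Ce Re Fw Bw =>
  { step := SoundS.step Ce
    zero := fun B h l a r hB _ => SoundS.zero Ce B h l a r hB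
    cutU := SoundS.cutU P
    func := SoundS.func Ce
    stepUU := SoundS.stepUU P Re Fw Bw
    zeroUU := SoundS.zeroUU P Ce Bw }

end Crest.Agent.R176.Lv
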