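import Crest.Agent.R176.RewDefs

/-!
Row 176: basic lemmas on admissible functionals and on words given by functions on `range n`.
-/

set_option autoImplicit false

namespace Crest.Agent.R176

namespace Rew

variable {X : Type} {S : Rew X}

theorem Adm.ctx {Z : Type} [Zero Z] {f : List X → Z} (h : S.Adm f) (l r : List X) :
    S.Adm fun w => f (l ++ w ++ r) where
  step l' a b r' hs := by simpa only [List.append_assoc] using h.step (l ++ l') a b (r' ++ r) hs
  zero l' a r' hz := by simpa only [List.append_assoc] using h.zero (l ++ l') a (r' ++ r) hz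

theorem Eqv.refl (w : List X) : S.Eqv w w := fun _ _ => rfl

theorem Eqv.of_eq {v w : List X} (h : v = w) : S.Eqv v w := fun _ _ => by rw [h]

theorem Eqv.symm {v w : List X} (h : S.Eqv v w) : S.Eqv w v := fun f hf => (h f hf).symm

theorem Eqv.trans {u v w : List X} (h : S.Eqv u v) (h' : S.Eqv v w) : S.Eqv u w :=
  fun f hf => (h f hf).trans (h' f hf)

theorem Eqv.ctx {v w : List X} (h : S.Eqv v w) (l r : List X) :
    S.Eqv (l ++ v ++ r) (l ++ w ++ r) := fun _ hf => h _ (hf.ctx l r)

theorem Eqv.append {v w v' w' : List X} (h : S.Eqv v w) (h' : S.Eqv v' w') :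
    S.Eqv (v ++ v') (w ++ w') := by
  have h₁ := h.ctx [] v'
  have h₂ := h'.ctx w []
  simp only [List.nil_append, List.append_nil] at h₁ h₂
  exact h₁.trans h₂

theorem Eqv.of_step {a b : List X} (h : S.step a b) : S.Eqv a b := fun f hf => by
  simpa using hf.step [] a b [] h

theorem Eqv.of_not_NZ {v w : List X} (hv : ¬ S.NZ v) (hw : ¬ S.NZ w) : S.Eqv v w := fun f hf => by
  rw [not_not.1 fun h => hv ⟨f, hf, h⟩, not_not.1 fun h => hw ⟨f, hf, h⟩]

theorem NZ.of_ctx {l w r : List X} (h : S.NZ (l ++ w ++ r)) : S.NZ w := by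
  obtain ⟨f, hf, h⟩ := h
  exact ⟨_, hf.ctx l r, h⟩

theorem NZ.of_append_left {w r : List X} (h : S.NZ (w ++ r)) : S.NZ w :=
  NZ.of_ctx (l := []) (by simpa using h)

theorem NZ.of_append_right {l w : List X} (h : S.NZ (l ++ w)) : S.NZ w :=
  NZ.of_ctx (l := l) (r := []) (by simpa using h)

theorem NZ.of_cons {x : X} {w : List X} (h : S.NZ (x :: w)) : S.NZ w :=
  NZ.of_append_right (l := [x]) h

theorem NZ.of_eqv {v w : List X} (h : S.NZ v) (e : S.Eqv v w) : S.NZ w := by
  obtain ⟨f, hf, h⟩ := h
  exact ⟨f, hf, e f hf ▸ h⟩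

theorem not_NZ_of_zero {a : List X} (h : S.zero a) (l r : List X) : ¬ S.NZ (l ++ a ++ r) :=
  fun ⟨_, hf, h'⟩ => h' (hf.zero l a r h)

theorem not_NZ_iff {w : List X} : ¬ S.NZ w ↔ ∀ f : List X → ZMod 2, S.Adm f → f w = 0 :=
  ⟨fun h f hf => not_not.1 fun h' => h ⟨f, hf, h'⟩, fun h ⟨f, hf, h'⟩ => h' (h f hf)⟩

end Rew

section range

variable {X : Type}

theorem range_map_congr {n : ℕ} {c c' : ℕ → X} (h : ∀ i < n, c i = c' i) :
    (List.range n).map c = (List.range n).map c' :=
  List.map_congr_left fun i hi => h i (List.mem_range.1 hi)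

theorem range_map_inj {n : ℕ} {c c' : ℕ → X} (h : (List.range n).map c = (List.range n).map c') :
    ∀ i < n, c i = c' i := fun i hi => List.map_inj_left.1 h i (List.mem_range.2 hi)

theorem range_map_add (m n : ℕ) (c : ℕ → X) :
    (List.range (m + n)).map c = (List.range m).map c ++ (List.range n).map fun i => c (m + i) := by
  rw [List.range_add, List.map_append, List.map_map]; rfl

theorem range_map_split {n p : ℕ} (h : p + 1 < n) (c : ℕ → X) :
    (List.range n).map c = (List.range p).map c ++ [c p, c (p + 1)] ++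
      (List.range (n - (p + 2))).map fun i => c (p + 2 + i) := by
  obtain ⟨k, rfl⟩ : ∃ k, n = p + 2 + k := ⟨n - (p + 2), by omega⟩
  rw [range_map_add, range_map_add, Nat.add_sub_cancel_left]
  rfl

theorem range_map_split_one {n p : ℕ} (h : p < n) (c : ℕ → X) :
    (List.range n).map c = (List.range p).map c ++ [c p] ++
      (List.range (n - (p + 1))).map fun i => c (p + 1 + i) := by
  obtain ⟨k, rfl⟩ : ∃ k, n = p + 1 + k := ⟨n - (p + 1), by omega⟩
  rw [range_map_add, range_map_add, Nat.add_sub_cancel_left]
  rfl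

/-- A two letter factor of a word given by a function. -/
theorem range_map_eq_pair {n : ℕ} {c : ℕ → X} {l r : List X} {x y : X}
    (h : (List.range n).map c = l ++ [x, y] ++ r) :
    l.length + 1 < n ∧ x = c l.length ∧ y = c (l.length + 1) ∧ l = (List.range l.length).map c ∧
      r = (List.range (n - (l.length + 2))).map fun i => c (l.length + 2 + i) := by
  have hn : l.length + 1 < n := by
    have := congrArg List.length h
    simp at this; omega
  rw [range_map_split hn, List.append_assoc, List.append_assoc] at h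
  obtain ⟨h₁, h₂⟩ := List.append_inj h (by simp)
  simp only [List.cons_append, List.nil_append, List.cons.injEq] at h₂
  exact ⟨hn, h₂.1.symm, h₂.2.1.symm, h₁.symm, h₂.2.2.symm⟩

theorem range_map_eq_one {n : ℕ} {c : ℕ → X} {l r : List X} {x : X}
    (h : (List.range n).map c = l ++ [x] ++ r) :
    l.length < n ∧ x = c l.length ∧ l = (List.range l.length).map c ∧
      r = (List.range (n - (l.length + 1))).map fun i => c (l.length + 1 + i) := by
  have hn : l.length < n := by
    have := congrArg List.length h
    simp at this; omega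
  rw [range_map_split_one hn, List.append_assoc, List.append_assoc] at h
  obtain ⟨h₁, h₂⟩ := List.append_inj h (by simp)
  simp only [List.cons_append, List.nil_append, List.cons.injEq] at h₂
  exact ⟨hn, h₂.1.symm, h₁.symm, h₂.2.symm⟩

/-- Changing two adjacent letters. -/
theorem range_map_update {n : ℕ} {c c' : ℕ → X} {l r : List X} {x y : X}
    (h : (List.range n).map c = l ++ [x, y] ++ r)
    (hc : ∀ i < n, i ≠ l.length → i ≠ l.length + 1 → c' i = c i) :
    (List.range n).map c' = l ++ [c' l.length, c' (l.length + 1)] ++ r := by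
  obtain ⟨hn, -, -, hl, hr⟩ := range_map_eq_pair h
  rw [range_map_split hn c']
  congr 1
  · congr 1
    rw [hl, List.length_map, List.length_range]
    exact range_map_congr fun i hi => hc i (by omega) (by omega) (by omega)
  · rw [hr]
    exact range_map_congr fun i hi => hc _ (by omega) (by omega) (by omega)

theorem eq_range_map (w : List X) (d : X) : w = (List.range w.length).map fun i => w.getD i d := by
  apply List.ext_getElem
  · simp
  · intro i h₁ h₂
    simp [List.getD_eq_getElem?_getD, List.getElem?_eq_getElem h₁]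

variable {S : Rew X}

theorem eqv_range_of_eqv {n p : ℕ} {c c' : ℕ → X} (hp : p + 1 < n)
    (hs : S.Eqv [c p, c (p + 1)] [c' p, c' (p + 1)])
    (hc : ∀ i < n, i ≠ p → i ≠ p + 1 → c' i = c i) :
    S.Eqv ((List.range n).map c) ((List.range n).map c') := by
  have h := range_map_split hp c
  have h' := range_map_update (c' := c') h (by simpa using hc)
  rw [h, h']
  simpa using hs.ctx _ _

theorem eqv_range_of_step {n p : ℕ} {c c' : ℕ → X} (hp : p + 1 < n)
    (hs : S.step [c p, c (p + 1)] [c' p, c' (p + 1)])
    (hc : ∀ i < n, i ≠ p → i ≠ p + 1 → c' i = c i) :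
    S.Eqv ((List.range n).map c) ((List.range n).map c') :=
  eqv_range_of_eqv hp (Rew.Eqv.of_step hs) hc

theorem Rew.NZ.range_pair {n p : ℕ} {c : ℕ → X} (h : S.NZ ((List.range n).map c))
    (hp : p + 1 < n) : S.NZ [c p, c (p + 1)] := by
  rw [range_map_split hp] at h
  exact h.of_ctx

end range

end Crest.Agent.R176
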