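import Crest.Agent.R176.LvDefs
import Crest.Agent.R176.RewBasic

/-!
Row 176: statements of the steps proving that level `R` simulates level `2 ^ R`, with a few basic
lemmas.
-/

set_option autoImplicit false
set_option synthInstance.maxSize 4096

namespace Crest.Agent.R176.Lv

variable {R : ℕ}

/-! ### Basic lemmas -/

theorem lev_short (R : ℕ) : (lev R).Short where
  step a b h := by cases h <;> simp
  zero a h := by cases h <;> simp

theorem six_le_N (R : ℕ) : 6 ≤ N R := by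
  have := Nat.two_pow_pos R
  unfold N; omega

/-- What a non-zero pair of letters satisfies. -/
structure PairOk (x y : Let R) : Prop where
  vx : x.valid
  vy : y.valid
  inc : x.inc y
  ne : x.σ.1.lst = false → ∀ j, x.t j ≠ y.t j
  can : ∃ c₁ c₂, x.σ = mkC c₁ ∧ y.σ = mkC c₂ ∧ OkS c₁ c₂ ∧ ¬ garbage c₁ c₂ ∧ ¬ fz c₁ c₂

theorem valid_of_NZ {x : Let R} (h : (lev R).NZ [x]) : x.valid :=
  not_not.1 fun h' => Rew.not_NZ_of_zero (S := lev R) (LZero.invalid x h') [] [] h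

theorem pairOk_of_NZ {x y : Let R} (h : (lev R).NZ [x, y]) : PairOk x y where
  vx := valid_of_NZ (Rew.NZ.of_append_left (r := [y]) h)
  vy := valid_of_NZ h.of_cons
  inc := not_not.1 fun h' => Rew.not_NZ_of_zero (S := lev R) (LZero.inc x y h') [] [] h
  ne hl j e := Rew.not_NZ_of_zero (S := lev R) (LZero.eq x y j hl e) [] [] h
  can := by
    have : ¬ czero x.σ y.σ := fun h' =>
      Rew.not_NZ_of_zero (S := lev R) (LZero.fin x y h') [] [] h
    simp only [czero, not_forall, not_or, not_not] at this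
    obtain ⟨c₁, c₂, h₁, h₂, h₃⟩ := this
    exact ⟨c₁, c₂, h₁, h₂, h₃⟩

theorem PairOk.of_mk {x y : Let R} (h : PairOk x y) {c₁ c₂ : CC} (h₁ : x.σ = mkC c₁)
    (h₂ : y.σ = mkC c₂) : OkS c₁ c₂ ∧ ¬ garbage c₁ c₂ ∧ ¬ fz c₁ c₂ := by
  obtain ⟨d₁, d₂, e₁, e₂, h⟩ := h.can
  rw [mkC_injective (h₁.symm.trans e₁), mkC_injective (h₂.symm.trans e₂)]
  exact h

theorem not_czero {c₁ c₂ : CC} (h₁ : OkS c₁ c₂) (h₂ : ¬ garbage c₁ c₂) (h₃ : ¬ fz c₁ c₂) :
    ¬ czero (mkC c₁) (mkC c₂) := fun h => by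
  rcases h c₁ c₂ rfl rfl with h | h | h <;> contradiction

theorem NZ_single {x : Let R} (h : x.valid) : (lev R).NZ [x] := by
  classical
  refine ⟨fun w => if w = [x] then 1 else 0, ⟨fun l a b r hs => ?_, fun l a r hz => ?_⟩, by simp⟩
  · have h₂ : a.length = 2 ∧ b.length = 2 := by cases hs <;> simp
    rw [if_neg, if_neg] <;> intro e <;> have := congrArg List.length e <;> simp at this <;> omega
  · rw [if_neg]
    intro e
    have hl := congrArg List.length e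
    cases hz with
    | invalid y hy =>
      have : y ∈ [x] := by rw [← e]; simp
      rw [List.mem_singleton] at this
      exact hy (this ▸ h)
    | fin => simp at hl; omega
    | inc => simp at hl; omega
    | eq => simp at hl; omega

@[simp] theorem Blk.cell_σ (B : Blk R) (hd : HD) (i : ℕ) : (B.cell hd i).σ = mkC (B.cc hd i) := rfl

@[simp] theorem PS.cell_σ (s : PS R) (i : ℕ) : (s.cell i).σ = mkC (s.cc i) := by
  unfold PS.cell PS.cc; split_ifs <;> rfl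

theorem PS.cell_eq {s s' : PS R} (hL : s'.L.t = s.L.t) (hR : s'.Rb.t = s.Rb.t) (i : ℕ) :
    s'.cell i = { s.cell i with σ := mkC (s'.cc i) } := by
  unfold PS.cell PS.cc; split_ifs <;> simp [Blk.cell, hL, hR]

theorem lstep_iff {a b : List (Let R)} : (lev R).step a b ↔ LStep a b := Iff.rfl

theorem lzero_iff {a : List (Let R)} : (lev R).zero a ↔ LZero a := Iff.rfl

/-! ### Registers -/

/-- Exchange of register `j` between the letters `k` and `k'`. -/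
def swapT (c : ℕ → Let R) (j : Fin 4) (k k' : ℕ) (i : ℕ) : Let R :=
  (c i).setT j ((c (Equiv.swap k k' i)).t j)

/-- Registers behave like fermions along a region; long words contain long pieces of regions. -/
structure FermFacts (R : ℕ) : Prop where
  swap : ∀ (n : ℕ) (c : ℕ → Let R) (j : Fin 4) (k k' : ℕ), k < k' → k' < n →
    (∀ i, k ≤ i → i < k' → (c i).σ.1.lst = false) →
    (lev R).Eqv ((List.range n).map c) ((List.range n).map (swapT c j k k'))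
  zero : ∀ (n : ℕ) (c : ℕ → Let R) (j : Fin 4) (k k' : ℕ), k < k' → k' < n →
    (∀ i, k ≤ i → i < k' → (c i).σ.1.lst = false) → (c k).t j = (c k').t j →
    ¬ (lev R).NZ ((List.range n).map c)
  window : ∀ (n m : ℕ) (c : ℕ → Let R), (lev R).NZ ((List.range n).map c) → 2 * m + 1 ≤ n →
    2 * m + 1 ≤ 2 ^ R → ∃ k, k + m ≤ n ∧ ∀ i, k ≤ i → i < k + m → (c i).σ.1.lst = false

def FermStmt : Prop := ∀ R, FermFacts R

/-! ### Positions and the table -/

/-- The label of cell `i` of an entry. -/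
noncomputable def Ent.lab (e : Ent) (i : ℕ) : Lab :=
  ⟨code e.v1 i, code e.v2 i, code e.v3 i, code e.v4 i, decide (i + 1 = Bc), e.zr, .tab⟩

structure PosFacts (R : ℕ) : Prop where
  Bc_le : 15 ≤ Bc ∧ Bc ≤ R ∧ R < 2 ^ R
  tab_none : ∀ i, R ≤ i → Tab i = Lab.none
  tab_min : ∀ i, Tab (min i R) = Tab i
  reg : ∀ i < N R, (posAt R i).reg.val = i / 2 ^ R
  bd : ∀ i < N R, (posAt R i).bd = true ↔ i + 1 = N R
  preB : ∀ ρ, ∀ i < N R, preB ρ (posAt R i) ↔ i = b0 R ρ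
  start : ∀ ρ a, a + 1 < N R →
    (preA ρ (posAt R a) ∧ okA ρ (posAt R (a + 1)) ↔ Start R ρ a)
  run : ∀ ρ a, Start R ρ a → a + len R ρ < N R ∧ ∀ i, 1 ≤ i → i ≤ len R ρ →
    okA ρ (posAt R (a + i)) ∧ (fin ρ (posAt R (a + i)) ↔ i = len R ρ)
  b0_len : ∀ ρ, 1 ≤ b0 R ρ ∧ b0 R ρ + len R ρ < N R ∧ 1 ≤ len R ρ ∧
    b0 R ρ + 1 = (ρ.prev + 1) * 2 ^ R
  ent : ∀ ρ a, ρ.isRule = true → Start R ρ a →
    ∃ e : Ent, e.good ∧ ∀ i < Bc, (posAt R (a + 1 + i)).lab = e.lab i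
  ent' : ∀ e : Ent, e.good → ∃ a, (∀ ρ, ρ.isRule = true → Start R ρ a) ∧
    ∀ i < Bc, (posAt R (a + 1 + i)).lab = e.lab i
  good_spec : ∀ e : Ent, e.good → e.v3.1 = e.v1.1 ∧ e.v4.1 = e.v2.1 ∧ ∀ i < 14,
    code e.v3 i = code e.v1 i ∧ code e.v4 i = code e.v2 i
  spec : ∀ i < N R, ∀ j, (posAt R i).lab.kind = .spec j ↔ i = 5 * 2 ^ R + j
  code : ∀ i < N R, (posAt R i).lab.kind = .code ↔ 5 * 2 ^ R + 14 ≤ i ∧ i < 5 * 2 ^ R + Bc
  lab_reg : ∀ i < 5 * 2 ^ R, (posAt R i).lab = Lab.none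

def PosStmt : Prop := ∀ R, R0 ≤ R → PosFacts R

/-- Coding and decoding of blocks. -/
structure CodeFacts (R : ℕ) : Prop where
  code_of : ∀ B : Blk R, Blk.UOk R B.b B.u → ∀ i < Bc, B.u (5 * 2 ^ R + i) = code B.dec.σ i
  dec_σ : ∀ (B : Blk R) (v : Cell), B.b = v.1 → (∀ i < Bc, B.u (5 * 2 ^ R + i) = code v i) →
    B.dec.σ = v
  b_of : ∀ (b : Pos) (u : ℕ → Bool) (v : Cell), Blk.UOk R b u →
    (∀ i < 14, u (5 * 2 ^ R + i) = code v i) → b = v.1
  inc : ∀ L Rb : Blk R, L.Valid → Rb.Valid →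
    (L.dec.inc Rb.dec ↔ ∀ i < 2 ^ R, ¬ mism (L.dat (5 * 2 ^ R + i)) (Rb.dat (5 * 2 ^ R + i)))
  dec_valid : ∀ B : Blk R, B.Valid → B.dec.valid
  dec_congr : ∀ (B : Blk R) (u u' : ℕ → Bool), (∀ i < N R, u i = u' i) →
    ({ B with u := u } : Blk R).dec = ({ B with u := u' } : Blk R).dec
  enc_uok : ∀ W : Let (2 ^ R), Blk.UOk R W.σ.1 (encU W)
  enc_valid : ∀ W : Let (2 ^ R), W.valid → (encB W).Valid
  enc_dec : ∀ W : Let (2 ^ R), (encB W).dec = W
  dec_enc : ∀ B : Blk R, B.Valid → encB B.dec = { B with al := 0, be := 0, t := tcan R }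
  invalid : ∀ W : Let (2 ^ R), ¬ W.valid → ¬ (lev R).NZ (enc W)

def CodeStmt : Prop := ∀ R, PosFacts R → CodeFacts R

/-- The static rules hold on rendered blocks. -/
structure CellFacts (R : ℕ) : Prop where
  valid : ∀ (B : Blk R) hd i, (B.cell hd i).valid
  one : ∀ B : Blk R, B.Valid → ∀ hd, ∀ i < N R, (i + 1 = N R → hd ≠ .bef true) → One (B.cc hd i)
  okS_in : ∀ B : Blk R, B.Valid → ∀ hd hd' i, i + 1 < N R → okIn hd hd' →
    (i + 2 = N R → hd' ≠ .bef true) → OkS (B.cc hd i) (B.cc hd' (i + 1))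
  okS_bd : ∀ B B' : Blk R, B.Valid → B'.Valid → ∀ hd hd', (linked hd hd' ∨ (hd.fin ∧ hd'.ini)) →
    OkS (B.cc hd (N R - 1)) (B'.cc hd' 0)
  inc_in : ∀ (B : Blk R) hd hd' i, i + 1 < N R → (B.cell hd i).inc (B.cell hd' (i + 1))
  inc_bd : ∀ (B B' : Blk R) hd hd', (B.cell hd (N R - 1)).inc (B'.cell hd' 0)
  ne : ∀ B : Blk R, B.Valid → ∀ i, i + 1 < N R → (posAt R i).lst = false →
    ∀ j, B.t i j ≠ B.t (i + 1) j
  uok : ∀ (B : Blk R) (hd : ℕ → HD), (∀ i < N R, One (B.cc (hd i) i)) →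
    (∀ i, N R ≤ i → B.u i = false) → Blk.UOk R B.b B.u
  inj : ∀ (B B' : Blk R) (hd hd' : ℕ → HD), B.Valid → B'.Valid →
    (∀ i < N R, B.cell (hd i) i = B'.cell (hd' i) i) → B = B' ∧ ∀ i < N R, hd i = hd' i
  swap : ∀ (B : Blk R) (i : ℕ) (j : Fin 4), B.Valid → i + 1 < N R → (posAt R i).lst = false →
    ∃ t, ({ B with t := t } : Blk R).Valid ∧ t i = Function.update (B.t i) j (B.t (i + 1) j) ∧
      t (i + 1) = Function.update (B.t (i + 1)) j (B.t i j) ∧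
      ∀ i', i' ≠ i → i' ≠ i + 1 → t i' = B.t i'

def CellStmt : Prop := ∀ R, PosFacts R → CellFacts R

/-! ### Pair states -/

/-- Concrete rules on rendered pair states are the abstract moves. -/
structure RendFacts (R : ℕ) : Prop where
  r1 : ∀ (s s' : PS R) p, s.Bd → AF p s s' → s'.Bd ∧ p + 1 < 2 * N R ∧
    Fwd (s.cc p) (s.cc (p + 1)) (s'.cc p) (s'.cc (p + 1)) ∧ s'.L.t = s.L.t ∧ s'.Rb.t = s.Rb.t ∧
    ∀ i, i ≠ p → i ≠ p + 1 → s'.cell i = s.cell i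
  r2f : ∀ (s : PS R) p d₁ d₂, s.Bd → p + 1 < 2 * N R → Fwd (s.cc p) (s.cc (p + 1)) d₁ d₂ →
    ∃ s', AF p s s' ∧ d₁ = s'.cc p ∧ d₂ = s'.cc (p + 1)
  r2b : ∀ (s : PS R) p d₁ d₂, s.Bd → p + 1 < 2 * N R → Fwd d₁ d₂ (s.cc p) (s.cc (p + 1)) →
    (s.IsStart ∧ p = s.h ∧ d₁ = s.L.cc (.on none) p ∧ d₂ = s.Rb.cc (.on none) 0) ∨
      ∃ s' : PS R, s'.Bd ∧ AF p s' s ∧ d₁ = s'.cc p ∧ d₂ = s'.cc (p + 1)
  need : ∀ (s : PS R) p, s.Bd → p + 1 < 2 * N R → (need (s.cc p) (s.cc (p + 1)) ↔ s.Need p)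
  fz : ∀ (s : PS R) p, s.Bd → p + 1 < 2 * N R → (fz (s.cc p) (s.cc (p + 1)) ↔ p = s.h ∧ s.AZ)
  start : ∀ s : PS R, s.IsStart →
    Fwd (s.L.cc (.on none) s.h) (s.Rb.cc (.on none) 0) (s.cc s.h) (s.cc (s.h + 1)) ∧
    ∃ l r, l.length = s.h ∧ wordS s.L s.h = l ++ [s.L.cell (.on none) s.h] ∧
      wordS s.Rb 0 = s.Rb.cell (.on none) 0 :: r ∧
      s.word = l ++ [s.cell s.h, s.cell (s.h + 1)] ++ r

def RendStmt : Prop := ∀ R, PosFacts R → RendFacts R

/-- The invariant is preserved by forward moves. -/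
structure FwdFacts (R : ℕ) : Prop where
  fwd : ∀ (s s' : PS R) p, s.Pre → s.RInv → AF p s s' → s'.Pre ∧ s'.RInv
  start : ∀ s : PS R, s.IsStart → s.RInv ∧ s.dec = [s.L.dec, s.Rb.dec]

def FwdStmt : Prop := ∀ R, PosFacts R → FwdFacts R

/-- The invariant is preserved by backward moves, and predecessors exist. -/
structure BwdFacts (R : ℕ) : Prop where
  bwd : ∀ (s s' : PS R) p, s'.Pre → s'.RInv → s.Bd → AF p s s' → s.Pre ∧ s.RInv
  prev : ∀ (s : PS R) p, s.Pre → s.RInv → s.Need p →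
    (s.IsStart ∧ p = s.h) ∨ ∃ s₀ : PS R, s₀.Bd ∧ AF p s₀ s ∧ s₀.m.rt = s.m.rt
  need_ex : ∀ s : PS R, s.Bd → (∃ p, p + 1 < 2 * N R ∧ s.Need p) ∨
    (s.h = 0 ∧ s.gp s.m.src = 0 ∧ s.m.src ≠ .bd)
  src_pos : ∀ s : PS R, s.RInv → 0 < s.gp s.m.src
  μ_lt : ∀ (s s' : PS R) p, s.Bd → AF p s s' → s.μ < s'.μ

def BwdStmt : Prop := ∀ R, PosFacts R → BwdFacts R

/-- The meaning of moves and of final tests one level up. -/
structure SemFacts (R : ℕ) : Prop where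
  dec_eq : ∀ (s s' : PS R) p, s.Pre → s.RInv → AF p s s' → s'.m.rt = s.m.rt → s'.dec = s.dec
  eqv : ∀ (s s' : PS R) p, s.Pre → s.RInv → AF p s s' → (lev (2 ^ R)).Eqv s.dec s'.dec
  az : ∀ s : PS R, s.Pre → s.RInv → s.AZ → ¬ (lev (2 ^ R)).NZ s.dec

def SemStmt : Prop := ∀ R, PosFacts R → CodeFacts R → SemFacts R

/-! ### Parsing -/

/-- The static structure after a block end. -/
structure BlockFacts (R : ℕ) : Prop where
  short : ∀ (x₀ : Let R) (l : List (Let R)) (x : Let R), x₀.σ.1.bd = true →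
    (lev R).NZ (x₀ :: (l ++ [x])) → l.length < N R → x.σ.1 = posAt R l.length
  block : ∀ (x₀ : Let R) (w : List (Let R)), x₀.σ.1.bd = true → (lev R).NZ (x₀ :: w) →
    w.length = N R → ∃ (B : Blk R) (hd : ℕ → HD), B.Valid ∧
      w = (List.range (N R)).map fun i => B.cell (hd i) i
  find : ∀ w : List (Let R), (lev R).NZ w → w.length = N R → ∃ x ∈ w, x.σ.1.bd = true

def BlockStmt : Prop := ∀ R, PosFacts R → FermFacts R → BlockFacts R

structure ParseFacts (R : ℕ) : Prop where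
  pre : ∀ (x₀ : Let R) M₀ x, cut x₀ → cut x → (∀ y ∈ M₀, ¬ cut y) →
    (lev R).NZ (x₀ :: (M₀ ++ [x])) →
    (∃ (B : Blk R) (h : ℕ), B.Valid ∧ h < N R ∧ M₀ ++ [x] = wordS B h) ∨
      ∃ s : PS R, s.Pre ∧ M₀ ++ [x] = s.word
  freq : ∀ w : List (Let R), (lev R).NZ w → 2 * N R ≤ w.length → ∃ x ∈ w, cut x

def ParseStmt : Prop := ∀ R, PosFacts R → BlockFacts R → ParseFacts R

/-! ### Normalisation, completeness, soundness -/

def NormS (R : ℕ) : Prop :=
  ∀ (B : Blk R) (h : ℕ), B.Valid → h < N R → (lev R).Eqv (wordS B h) (enc B.dec)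

def NormSStmt : Prop := ∀ R, PosFacts R → CodeFacts R → FermFacts R → NormS R

structure NormFacts (R : ℕ) : Prop where
  pair : ∀ s : PS R, s.Pre → s.RInv → (lev R).Eqv s.word (s.dec.flatMap enc)
  inv : ∀ (x₀ : Let R) (s : PS R), cut x₀ → s.Pre → (lev R).NZ (x₀ :: s.word) → s.RInv

def NormStmt : Prop := ∀ R, PosFacts R → CellFacts R → RendFacts R → FwdFacts R → BwdFacts R →
  SemFacts R → NormS R → NormFacts R

structure ComplFacts (R : ℕ) : Prop where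
  step : ∀ a b, (lev (2 ^ R)).step a b → (lev R).Eqv (a.flatMap enc) (b.flatMap enc)
  zero : ∀ a, (lev (2 ^ R)).zero a → ¬ (lev R).NZ (a.flatMap enc)

def ComplStmt : Prop := ∀ R, PosFacts R → CodeFacts R → RendFacts R → FwdFacts R → NormFacts R →
  ComplFacts R

/-- Soundness on single blocks and across units; shape of units. -/
structure SoundSFacts (R : ℕ) : Prop where
  step : ∀ (B : Blk R) h l a b r, B.Valid → h < N R → wordS B h = l ++ a ++ r →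
    ((lev R).step a b ∨ (lev R).step b a) →
    ∃ (B' : Blk R) (h' : ℕ), B'.Valid ∧ h' < N R ∧ wordS B' h' = l ++ b ++ r ∧ B'.dec = B.dec
  zero : ∀ (B : Blk R) h l a r, B.Valid → h < N R → wordS B h = l ++ a ++ r → ¬ (lev R).zero a
  cutU : ∀ (M : List (Let R)) W, Unit M W → ∃ M₀ x, M = M₀ ++ [x] ∧ cut x ∧ ∀ y ∈ M₀, ¬ cut y
  func : ∀ (M : List (Let R)) W W', Unit M W → Unit M W' → W = W'
  stepUU : ∀ (l : List (Let R)) x y r b W₁ W₂, Unit (l ++ [x]) W₁ → Unit (y :: r) W₂ →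
    ((lev R).step [x, y] b ∨ (lev R).step b [x, y]) → Unit (l ++ b ++ r) (W₁ ++ W₂)
  zeroUU : ∀ (l : List (Let R)) x y r W₁ W₂, Unit (l ++ [x]) W₁ → Unit (y :: r) W₂ →
    ¬ (lev R).zero [x, y]

def SoundSStmt : Prop := ∀ R, PosFacts R → CellFacts R → RendFacts R → FwdFacts R → BwdFacts R →
  SoundSFacts R

/-- Soundness on pairs. -/
structure SoundPFacts (R : ℕ) : Prop where
  step : ∀ (s : PS R) l a b r, s.Pre → s.RInv → s.word = l ++ a ++ r →
    ((lev R).step a b ∨ (lev R).step b a) →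
    ∃ W', Dec Unit (l ++ b ++ r) W' ∧ (lev (2 ^ R)).Eqv s.dec W'
  zero : ∀ (s : PS R) l a r, s.Pre → s.RInv → s.word = l ++ a ++ r → (lev R).zero a →
    ¬ (lev (2 ^ R)).NZ s.dec

def SoundPStmt : Prop := ∀ R, PosFacts R → CellFacts R → RendFacts R → FwdFacts R → BwdFacts R →
  SemFacts R → SoundPFacts R

/-- Level `R` simulates level `2 ^ R`. -/
def LevStmt : Prop := ∀ R, R0 ≤ R → ∃ T : Sim (lev R) (lev (2 ^ R)) (N R), T.U = Unit

/-! ### The exchange of register regions -/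

/-- The type of a register region without head and pointers. -/
structure Cls where
  j : Fin 4
  b : Pos
  hd : HD
  al : Arr
  be : Arr
  deriving DecidableEq, Fintype

def Cls.ok (κ : Cls) : Prop := (∀ m, κ.hd ≠ .on m) ∧ κ.al ≠ .eq ∧ κ.be ≠ .eq

/-- The letters of such a region. -/
def regLet (κ : Cls) (u : Fin (2 ^ R) → Bool) (t : Fin (2 ^ R) → Fin 4 → Fin R → Bool)
    (i : Fin (2 ^ R)) : Let R :=
  ⟨i, Fin.last R, t i, mkC ⟨⟨⟨κ.j + 1, by omega⟩, decide (i.val + 1 = 2 ^ R), Lab.none⟩,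
    ⟨false, false, false, false, κ.b⟩, κ.hd, κ.al, κ.be, u i⟩⟩

def TInj (t : Fin (2 ^ R) → Fin 4 → Fin R → Bool) : Prop := ∀ j, Function.Injective fun i => t i j

/-- The broadcast flag "the simulated cell ends its region". -/
def upLst (x : Let R) : Bool :=
  match x.σ.2 with
  | .inl r => r.1.b.lst
  | .inr _ => false

structure RepFacts (R : ℕ) : Prop where
  lst : ∀ (l : List (Let R)) x r W, Dec Unit (l ++ x :: r) W →
    ∃ W₁ X W₂, W = W₁ ++ X :: W₂ ∧ W₁.length = l.length / N R ∧ upLst x = X.σ.1.lst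
  clean : ∀ (M : List (Let R)) W, Dec Unit M W → ∀ k < W.length, ∃ (κ : Cls) (u : _) (t : _)
    (l r : List (Let R)), κ.ok ∧ TInj t ∧ M = l ++ List.ofFn (regLet κ u t) ++ r ∧
      l.length = (6 * k + κ.j + 1) * 2 ^ R
  rep : ∀ (κ : Cls) (u u' : Fin (2 ^ R) → Bool) t t' (l r : List (Let R)) W g,
    Dec Unit (l ++ List.ofFn (regLet κ u t) ++ r) W → κ.ok → TInj t' → l.length = g * 2 ^ R →
    ∃ W₁ X W₂, W = W₁ ++ X :: W₂ ∧ g = 6 * W₁.length + κ.j + 1 ∧ X.t κ.j = u ∧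
      Dec Unit (l ++ List.ofFn (regLet κ u' t') ++ r) (W₁ ++ X.setT κ.j u' :: W₂)

def RepStmt : Prop := ∀ R, PosFacts R → RepFacts R

/-- Nilpotence in dimensions small compared with the level. -/
def BaseStmt : Prop := ∃ C : ℕ, ∀ R, R0 ≤ R → ∀ n, 2 * (C * (n * n) + 1) + 1 ≤ 2 ^ 2 ^ R →
  (lev R).NilD n

def BaseOfStmt : Prop := PosStmt → RepStmt → FermStmt → LevStmt → SimFactsStmt → SimMainStmt →
  SwapNilStmt → BaseStmt

def TowerStmt : Prop := LevStmt → BaseStmt → SimFactsStmt → SimPhStmt → SimRedStmt → RewStmt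

/-! ### Assembly of the simulation -/

theorem levStmt_of (hF : FermStmt) (hP : PosStmt) (hCo : CodeStmt) (hCe : CellStmt)
    (hRe : RendStmt) (hFw : FwdStmt) (hBw : BwdStmt) (hSe : SemStmt) (hBl : BlockStmt)
    (hPa : ParseStmt) (hNS : NormSStmt) (hN : NormStmt) (hC : ComplStmt) (hSS : SoundSStmt)
    (hSP : SoundPStmt) : LevStmt := by
  intro R hR
  have P := hP R hR
  have F := hF R
  have Co := hCo R P
  have Ce := hCe R P
  have Re := hRe R P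
  have Fw := hFw R P
  have Bw := hBw R P
  have Se := hSe R P Co
  have Pa := hPa R P (hBl R P F)
  have NS := hNS R P Co F
  have No := hN R P Ce Re Fw Bw Se NS
  have C := hC R P Co Re Fw No
  have SS := hSS R P Ce Re Fw Bw
  have SP := hSP R P Ce Re Fw Bw Se
  have one : ∀ (M : List (Let R)) W, Unit M W → Dec Unit M W := fun M W h => by
    simpa using Dec.cons h Dec.nil
  refine ⟨{
    cut := cut
    U := Unit
    enc := enc
    pos := by have := six_le_N R; omega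
    short := lev_short R
    len := ?_
    cutU := SS.cutU
    func := SS.func
    stepU := ?_
    stepUU := fun l x y r b W₁ W₂ h₁ h₂ h =>
      ⟨_, one _ _ (SS.stepUU l x y r b W₁ W₂ h₁ h₂ h), Rew.Eqv.refl _⟩
    zeroU := ?_
    zeroUU := SS.zeroUU
    norm₁ := ?_
    norm₂ := ?_
    compl_step := C.step
    compl_zero := C.zero
    freq := Pa.freq
    encU := ?_ }, rfl⟩
  · rintro M W (⟨B, h, -, -, rfl, rfl⟩ | ⟨s, -, -, rfl, rfl⟩)
    · simp [wordS]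
    · simp [PS.word, PS.dec, mul_comm]
  · rintro l a b r W (⟨B, h, hB, hh, e, rfl⟩ | ⟨s, h₁, h₂, e, rfl⟩) hs
    · obtain ⟨B', h', hB', hh', e', hd⟩ := SS.step B h l a b r hB hh e.symm hs
      exact ⟨[B'.dec], one _ _ (Or.inl ⟨B', h', hB', hh', e'.symm, rfl⟩), by
        rw [hd]; exact Rew.Eqv.refl _⟩
    · exact SP.step s l a b r h₁ h₂ e.symm hs
  · rintro l a r W (⟨B, h, hB, hh, e, rfl⟩ | ⟨s, h₁, h₂, e, rfl⟩) hz
    · exact absurd hz (SS.zero B h l a r hB hh e.symm)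
    · exact SP.zero s l a r h₁ h₂ e.symm hz
  · intro x₀ M₀ x h₀ hx hM hNZ
    rcases Pa.pre x₀ M₀ x h₀ hx hM hNZ with ⟨B, h, hB, hh, e⟩ | ⟨s, hs, e⟩
    · exact ⟨_, Or.inl ⟨B, h, hB, hh, e, rfl⟩⟩
    · exact ⟨_, Or.inr ⟨s, hs, No.inv x₀ s h₀ hs (e ▸ hNZ), e, rfl⟩⟩
  · rintro M W (⟨B, h, hB, hh, rfl, rfl⟩ | ⟨s, h₁, h₂, rfl, rfl⟩)
    · simpa using NS B h hB hh
    · exact No.pair s h₁ h₂
  · intro W hW
    exact Or.inl ⟨encB W, 0, Co.enc_valid W (valid_of_NZ hW), by have := six_le_N R; omega, rfl,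
      by rw [Co.enc_dec]⟩

end Crest.Agent.R176.Lv
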