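import Crest.Agent.R176.LvStmts

/-!
Row 176: assembling the levels.
-/

set_option autoImplicit false
set_option synthInstance.maxSize 4096

namespace Crest.Agent.R176.Lv

namespace Tower

theorem Bc_le_R0 : Bc ≤ R0 := Nat.le_mul_of_pos_right _ (Nat.succ_pos _)

theorem le_R0 : 15 ≤ R0 := by
  have h1 := one_le_B1
  have h2 := Bc_le_R0
  unfold Bc at h2
  omega

theorem card_Cell : Fintype.card Cell ≤ 2 ^ Bc := by
  have h1 := card_Pos
  rw [Fintype.card_prod, card_Raw, Bc, pow_add]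
  simp only [Fintype.card_fun, Fintype.card_bool, Fintype.card_fin] at h1 ⊢
  exact Nat.mul_le_mul_right _ h1

theorem card_Let {R : ℕ} (hR : R0 ≤ R) : Fintype.card (Let R) + 1 ≤ 2 ^ (8 * R) := by
  have h1 : Fintype.card Cell ≤ 2 ^ R :=
    card_Cell.trans (Nat.pow_le_pow_right two_pos (Bc_le_R0.trans hR))
  have h2 : R + 1 ≤ 2 ^ R := Nat.lt_two_pow_self
  have h3 : 2 ≤ 2 ^ R := by have := le_R0; omega
  have h4 : Fintype.card (Let R) = 2 ^ R * ((R + 1) * ((2 ^ R) ^ 4 * Fintype.card Cell)) := by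
    rw [Fintype.card_congr (Let.equivProd R), Fintype.card_prod, Fintype.card_prod,
      Fintype.card_prod (Fin 4 → Fin R → Bool)]
    simp only [Fintype.card_fun, Fintype.card_bool, Fintype.card_fin]
  rw [h4, mul_comm 8, pow_mul]
  generalize Fintype.card Cell = c at h1
  generalize 2 ^ R = P at h1 h2 h3
  have h5 : P * ((R + 1) * (P ^ 4 * c)) ≤ P ^ 7 :=
    calc _ ≤ P * (P * (P ^ 4 * P)) := by gcongr
      _ = P ^ 7 := by ring
  have h6 : 1 ≤ P ^ 7 := Nat.one_le_pow _ _ (by omega)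
  calc _ ≤ P ^ 7 * 2 := by omega
    _ ≤ P ^ 7 * P := by gcongr
    _ = P ^ 8 := by ring

theorem le_two_pow {R : ℕ} (hR : R0 ≤ R) : R0 ≤ 2 ^ R := hR.trans Nat.lt_two_pow_self.le

theorem sq_le {R : ℕ} (hR : 10 ≤ R) : 3 * R ^ 2 ≤ 2 ^ R := by
  induction R, hR using Nat.le_induction with
  | base => norm_num
  | succ R hR ih => rw [pow_succ 2]; nlinarith

theorem exists_valid (R : ℕ) : ∃ x : Let R, x.valid :=
  ⟨⟨⟨0, Nat.two_pow_pos R⟩, 0, fun _ _ => false,
    (⟨0, decide (0 + 1 = 2 ^ R), Tab 0⟩, .inl (zdflt.1, .bef false, .lt, .lt, false))⟩,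
    rfl, by simp⟩

theorem long (hL : LevStmt) (hF : SimFactsStmt) (k : ℕ) :
    ∀ R, R0 ≤ R → ∃ w, (lev R).NZ w ∧ k < w.length := by
  induction k with
  | zero =>
    intro R _
    obtain ⟨x, hx⟩ := exists_valid R
    exact ⟨[x], NZ_single hx, by simp⟩
  | succ k ih =>
    intro R hR
    obtain ⟨T, -⟩ := hL R hR
    have F := hF _ _ _ _ _ T
    obtain ⟨W, hW, hk⟩ := ih _ (le_two_pow hR)
    have hD := F.enc W hW
    refine ⟨_, (F.nz_iff _ _ hD).2 hW, ?_⟩
    rw [F.len _ _ hD]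
    have := six_le_N R
    nlinarith

theorem phase (hL : LevStmt) (hF : SimFactsStmt) (hP : SimPhStmt) (k : ℕ) :
    ∀ R, R0 ≤ R → ∃ q, 0 < q ∧ 6 ^ k ∣ q ∧ (lev R).Ph q := by
  induction k with
  | zero => exact fun R _ => ⟨1, one_pos, by simp, hP.2.2 _ _⟩
  | succ k ih =>
    intro R hR
    obtain ⟨T, -⟩ := hL R hR
    obtain ⟨q, h0, h1, h2⟩ := ih _ (le_two_pow hR)
    refine ⟨N R * q, Nat.mul_pos T.pos h0, ?_, hP.1 _ _ _ _ _ T (hF _ _ _ _ _ T) q h0 h2⟩
    rw [pow_succ']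
    exact Nat.mul_dvd_mul (dvd_mul_right _ _) h1

theorem nil (hL : LevStmt) (hB : BaseStmt) (hF : SimFactsStmt) (hR : SimRedStmt) :
    (lev R0).Nil := by
  obtain ⟨C, hC⟩ := hB
  have key : ∀ a k R n, R0 ≤ R → C + 2 * a + 10 ≤ R + k → n ≤ 2 ^ (a + R ^ 2) →
      (lev R).NilD n := by
    intro a k
    induction k with
    | zero =>
      intro R n h0 h1 h2
      refine hC R h0 n ?_
      have h3 := sq_le (R := R) (by omega)
      have h4 : C ≤ 2 ^ C := Nat.lt_two_pow_self.le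
      have h5 : C * (n * n) ≤ 2 ^ (C + 2 * a + 2 * R ^ 2) :=
        calc _ ≤ 2 ^ C * (2 ^ (a + R ^ 2) * 2 ^ (a + R ^ 2)) := by gcongr
          _ = _ := by ring
      have h6 := Nat.two_pow_pos (C + 2 * a + 2 * R ^ 2)
      have h7 : R ≤ R ^ 2 := Nat.le_self_pow two_ne_zero R
      calc _ ≤ 2 ^ (C + 2 * a + 2 * R ^ 2) * 2 ^ 3 := by omega
        _ = 2 ^ (C + 2 * a + 2 * R ^ 2 + 3) := by rw [← pow_add]
        _ ≤ _ := Nat.pow_le_pow_right two_pos (by omega)
    | succ k ih =>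
      intro R n h0 h1 h2
      obtain ⟨T, -⟩ := hL R h0
      have h3 : R < 2 ^ R := Nat.lt_two_pow_self
      refine hR _ _ _ _ _ T (hF _ _ _ _ _ T) n (ih _ _ (le_two_pow h0) (by omega) ?_)
      have h4 := le_R0
      have h5 := sq_le (R := R) (by omega)
      calc _ ≤ 2 ^ (a + R ^ 2) * 2 ^ (8 * 2 ^ R) := Nat.mul_le_mul h2 (card_Let (le_two_pow h0))
        _ = 2 ^ (a + R ^ 2 + 8 * 2 ^ R) := by rw [← pow_add]
        _ ≤ _ := Nat.pow_le_pow_right two_pos (by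
          generalize 2 ^ R = P at h3 h5
          have h6 : 9 ≤ P := by omega
          nlinarith)
  exact fun n => key n (C + 2 * n + 10) R0 n le_rfl (by omega)
    (Nat.lt_two_pow_self.le.trans (Nat.pow_le_pow_right two_pos (Nat.le_add_right _ _)))

end Tower

open Tower in
theorem towerStmt : TowerStmt := by
  intro hL hB hF hP hR
  refine ⟨Let R0, inferInstance, lev R0, lev_short _, fun d => ?_, nil hL hB hF hR, fun s => ?_⟩
  · obtain ⟨w, hw, hd⟩ := long hL hF d R0 le_rfl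
    rw [← List.take_append_drop d w] at hw
    exact ⟨w.take d, by simp [hd.le], hw.of_append_left⟩
  · obtain ⟨q, -, h1, h2⟩ := phase hL hF hP s R0 le_rfl
    exact ⟨hP.2.1 _ _ _ _ ((pow_dvd_pow_of_dvd (by norm_num) s).trans h1) h2,
      hP.2.1 _ _ _ _ ((pow_dvd_pow_of_dvd (by norm_num) s).trans h1) h2⟩

end Crest.Agent.R176.Lv
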