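import Crest.Agent.R176.SimDefs

/-!
Row 176: cut decomposition of class sums.
-/

set_option autoImplicit false

namespace Crest.Agent.R176

namespace SimM

open Rew

variable {X : Type}

section wsum
variable [Fintype X] {M : Type} [AddCommMonoid M]

theorem wsum_cons (m : ℕ) (G : List X → M) :
    wsum (m + 1) G = ∑ x, wsum m fun v => G (x :: v) := by
  unfold wsum
  rw [← (Fin.consEquiv fun _ : Fin (m + 1) => X).sum_comp, Fintype.sum_prod_type]
  simp [Fin.consEquiv, List.ofFn_succ]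

theorem wsum_snoc (m : ℕ) (G : List X → M) :
    wsum (m + 1) G = ∑ x, wsum m fun v => G (v ++ [x]) := by
  unfold wsum
  rw [← (Fin.snocEquiv fun _ : Fin (m + 1) => X).sum_comp, Fintype.sum_prod_type]
  refine Finset.sum_congr rfl fun x _ => Finset.sum_congr rfl fun v _ => ?_
  rw [List.ofFn_succ']
  simp [Fin.snocEquiv]

theorem wsum_eq_zero {m : ℕ} {G : List X → M} (h : ∀ w, w.length = m → G w = 0) :
    wsum m G = 0 := Finset.sum_eq_zero fun w _ => h _ (by simp)

theorem wsum_left (cut : X → Prop) (m K : ℕ) : ∀ G : List X → M,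
    (∀ J v, (∀ y ∈ J, ¬ cut y) → J.length = K → G (J ++ v) = 0) →
    (∀ J x m', (∀ y ∈ J, ¬ cut y) → cut x → J.length < K → J.length + 1 + m' = m + K →
      wsum m' (fun v => G (J ++ x :: v)) = 0) → wsum (m + K) G = 0 := by
  induction K with
  | zero => exact fun G h _ => wsum_eq_zero fun w _ => h [] w (by simp) rfl
  | succ K ih =>
    intro G h1 h2
    rw [← add_assoc, wsum_cons]
    refine Finset.sum_eq_zero fun x _ => ?_
    by_cases hx : cut x
    · exact h2 [] x _ (by simp) hx (by simp) (by simp; omega)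
    · refine ih _ (fun J v hJ hl => h1 (x :: J) v (by simpa [hx] using hJ) (by simp [hl]))
        fun J y m' hJ hy hl hm => h2 (x :: J) y m' (by simpa [hx] using hJ) hy (by simpa using hl)
          (by simp; omega)

open Classical in
theorem wsum_right (cut : X → Prop) (m K : ℕ) : ∀ G : List X → M,
    (∀ J v, (∀ y ∈ J, ¬ cut y) → J.length = K → G (v ++ J) = 0) →
    (∀ J m', (∀ y ∈ J, ¬ cut y) → m ≤ m' → J.length + 1 + m' = m + K →
      ∑ x, wsum m' (fun v => if cut x then G (v ++ x :: J) else 0) = 0) → wsum (m + K) G = 0 := by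
  induction K with
  | zero => exact fun G h _ => wsum_eq_zero fun w _ => by simpa using h [] w (by simp) rfl
  | succ K ih =>
    intro G h1 h2
    rw [← add_assoc, wsum_snoc, ← h2 [] (m + K) (by simp) (by omega) (by simp; omega)]
    refine Finset.sum_congr rfl fun x _ => ?_
    by_cases hx : cut x
    · simp only [if_pos hx]
    · simp only [if_neg hx]
      have hJx : ∀ J : List X, (∀ y ∈ J, ¬ cut y) → ∀ y ∈ J ++ [x], ¬ cut y := fun J hJ y hy => by
        rcases List.mem_append.1 hy with hy | hy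
        · exact hJ y hy
        · rwa [List.mem_singleton.1 hy]
      rw [wsum_eq_zero (G := fun _ => (0 : M)) fun _ _ => rfl]
      refine ih _ (fun J v hJ hl => ?_) fun J m' hJ hl hm => ?_
      · simpa using h1 (J ++ [x]) v (hJx J hJ) (by simp [hl])
      · simpa using h2 (J ++ [x]) m' (hJx J hJ) hl (by simp; omega)

end wsum

theorem adm_ctx {S : Rew X} {f : List X → ZMod 2} (hf : S.Adm f) (J J' : List X) :
    S.Adm fun u => f (J ++ u ++ J') :=
  ⟨fun l a b r h => by simpa using hf.step (J ++ l) a b (r ++ J') h,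
    fun l a r h => by simpa using hf.zero (J ++ l) a (r ++ J') h⟩

variable {X' : Type} {S : Rew X} {S' : Rew X'} {N : ℕ} {T : Sim S S' N}

theorem free_zero {f : List X → ZMod 2} (hf : S.Adm f) {J : List X} (hJ : ∀ y ∈ J, ¬ T.cut y)
    (hl : J.length = 2 * N) (l r : List X) : f (l ++ J ++ r) = 0 := by
  by_contra h
  obtain ⟨x, hx, hc⟩ := T.freq J ⟨_, adm_ctx hf l r, h⟩ hl.ge
  exact hJ x hx hc

open Classical in
theorem eq_decF (hT : SimFacts T) {f : List X → ZMod 2} (hf : S.Adm f) (J J' v : List X) {x₀ : X}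
    (h₀ : T.cut x₀) (x : X) :
    (if T.cut x then f (J ++ x₀ :: (v ++ x :: J')) else 0) =
      decF T.U (fun W => f (J ++ [x₀] ++ W.flatMap T.enc ++ J')) (v ++ [x]) := by
  by_cases h : ∃ W, Dec T.U (v ++ [x]) W
  · obtain ⟨W, hW⟩ := h
    have hx : T.cut x := by
      rcases hT.last _ _ hW with h | ⟨M₀, y, h, hy⟩
      · simp at h
      · rwa [List.singleton_inj.1 (List.append_inj_right' h rfl)]
    rw [if_pos hx, hT.decF_eq _ _ _ hW, ← hT.norm _ _ hW _ (adm_ctx hf (J ++ [x₀]) J')]
    simp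
  · rw [decF, dif_neg h]
    split_ifs with hx
    · by_contra h'
      exact h (hT.parse x₀ _ h₀ (Or.inr ⟨v, x, rfl, hx⟩) ⟨_, adm_ctx hf J J', by simpa using h'⟩)
    · rfl

end SimM

open SimM Rew in
theorem simMain : SimMainStmt := by
  classical
  intro X X' _ S S' N T hT n ψ r₀ H
  refine ⟨N * r₀ + 2 * N + 2 * N, fun f hf => wsum_left T.cut _ _ _ (fun J v hJ hl => ?_)
    fun J x₀ m' _ h₀ hl hm => ?_⟩
  · rw [show f (J ++ v) = 0 from free_zero hf hJ hl [] v, zero_smul]
  obtain ⟨m, rfl⟩ : ∃ m, m' = m + 2 * N := ⟨m' - 2 * N, by omega⟩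
  refine wsum_right T.cut _ _ _ (fun J' v hJ' hl' => ?_) fun J' m' _ hl' hm' => ?_
  · rw [show f (J ++ x₀ :: (v ++ J')) = 0 by simpa using free_zero hf hJ' hl' (J ++ x₀ :: v) [],
      zero_smul]
  have hf' := hT.up f (J ++ [x₀]) J' hf
  set f' : List X' → ZMod 2 := fun W => f (J ++ [x₀] ++ W.flatMap T.enc ++ J') with hf'def
  have h1 : wsum (m' + 1) (fun M => decF T.U f' M • (M.map ψ).prod) = 0 := by
    by_cases h : ∃ r, m' + 1 = N * r
    · obtain ⟨r, hr⟩ := h
      rw [hr]
      exact H r (Nat.le_of_mul_le_mul_left (by omega : N * r₀ ≤ N * r) T.pos) f' hf'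
    · refine wsum_eq_zero fun M hM => ?_
      rw [decF, dif_neg fun ⟨W, hW⟩ => h ⟨_, hM ▸ hT.len _ _ hW⟩, zero_smul]
  have h2 := congrArg (fun A => ((J ++ [x₀]).map ψ).prod * A * (J'.map ψ).prod) h1
  simp only [mul_zero, zero_mul, wsum_snoc] at h2
  refine Eq.trans ?_ h2
  simp only [wsum, Finset.mul_sum, Finset.sum_mul]
  refine Finset.sum_congr rfl fun x _ => Finset.sum_congr rfl fun v _ => ?_
  rw [hf'def, ← eq_decF hT hf J J' _ h₀ x]
  split_ifs
  · simp [mul_assoc]
  · simp

end Crest.Agent.R176
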