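import Crest.Agent.R176.SimDefs

/-!
Row 176: phases pass down a simulation.
-/

set_option autoImplicit false

namespace Crest.Agent.R176

namespace SimPh

theorem nz_infix {X : Type} {S : Rew X} {l w r : List X} (h : S.NZ (l ++ w ++ r)) : S.NZ w := by
  obtain ⟨f, hf, h⟩ := h
  refine ⟨fun w => f (l ++ w ++ r), ⟨fun l' a b r' hs => ?_, fun l' a r' hz => ?_⟩, h⟩
  · simpa only [List.append_assoc] using hf.step (l ++ l') a b (r' ++ r) hs
  · simpa only [List.append_assoc] using hf.zero (l ++ l') a (r' ++ r) hz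

theorem nz_left {X : Type} {S : Rew X} {w r : List X} (h : S.NZ (w ++ r)) : S.NZ w :=
  nz_infix (l := []) h

theorem nz_right {X : Type} {S : Rew X} {l w : List X} (h : S.NZ (l ++ w)) : S.NZ w :=
  nz_infix (l := l) (r := []) (by rwa [List.append_nil])

theorem nz_step {X : Type} {S : Rew X} {l a b r : List X} (hs : S.step a b)
    (h : S.NZ (l ++ a ++ r)) : S.NZ (l ++ b ++ r) := by
  obtain ⟨f, hf, h⟩ := h
  exact ⟨f, hf, hf.step l a b r hs ▸ h⟩

theorem exists_hom (N q : ℕ) : ∃ g : ZMod q →+ ZMod (N * q), ∀ n : ℕ, g n = (N * n : ℕ) := by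
  refine ⟨ZMod.lift q ⟨zmultiplesHom _ (N : ZMod (N * q)), ?_⟩, fun n => ?_⟩
  · have : ((N * q : ℕ) : ZMod (N * q)) = 0 := ZMod.natCast_self _
    rw [zmultiplesHom_apply, natCast_zsmul, nsmul_eq_mul, ← Nat.cast_comm, ← Nat.cast_mul, this]
  · rw [← Int.cast_natCast (R := ZMod q), ZMod.lift_coe, zmultiplesHom_apply, natCast_zsmul,
      nsmul_eq_mul, ← Nat.cast_comm, ← Nat.cast_mul]

theorem iter_right {X : Type} {S : Rew X} {q ℓ : ℕ} {α : List X → ZMod q}
    (h : ∀ x w, ℓ ≤ w.length → S.NZ (w ++ [x]) → α (w ++ [x]) = α w) (V : List X) :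
    ∀ W, ℓ ≤ W.length → S.NZ (W ++ V) → α (W ++ V) = α W := by
  induction V with
  | nil => intro W _ _; rw [List.append_nil]
  | cons x V ih =>
    intro W hW hz
    rw [List.append_cons] at hz ⊢
    rw [ih _ (by rw [List.length_append]; omega) hz, h x W hW (nz_left hz)]

theorem iter_left {X : Type} {S : Rew X} {q ℓ : ℕ} {α : List X → ZMod q}
    (h : ∀ x w, ℓ ≤ w.length → S.NZ (x :: w) → α w = α (x :: w) + 1) {W : List X}
    (hW : ℓ ≤ W.length) (V : List X) : S.NZ (V ++ W) → α W = α (V ++ W) + (V.length : ℕ) := by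
  induction V with
  | nil => intro _; simp
  | cons x V ih =>
    intro hz
    rw [ih (nz_right (l := [x]) hz), h x (V ++ W) (by rw [List.length_append]; omega) hz,
      List.length_cons, List.cons_append]
    push_cast
    ring

section
variable {X X' : Type} {S : Rew X} {S' : Rew X'} {N : ℕ} (T : Sim S S' N)

/-- The word ends in a cut letter. -/
def Bd (J : List X) : Prop := ∃ J₀ x, J = J₀ ++ [x] ∧ T.cut x

variable {T}

theorem Bd.append {J : List X} (h : Bd T J) (l : List X) : Bd T (l ++ J) := by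
  obtain ⟨J₀, x, rfl, hx⟩ := h
  exact ⟨l ++ J₀, x, by rw [List.append_assoc], hx⟩

theorem Bd.dec (F : SimFacts T) {J M : List X} {W : List X'} (h : Bd T J) (hM : Dec T.U M W) :
    Bd T (J ++ M) := by
  rcases F.last M W hM with rfl | h'
  · rwa [List.append_nil]
  · exact Bd.append h' J

theorem parse (F : SimFacts T) {A M R : List X} (hz : S.NZ (A ++ M ++ R)) (hA : Bd T A)
    (hM : Bd T (A ++ M)) : ∃ W, Dec T.U M W := by
  obtain ⟨A₀, x, rfl, hx⟩ := hA
  refine F.parse x M hx ?_ (nz_infix (l := A₀) (r := R) (by simpa using hz))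
  rcases List.eq_nil_or_concat' M with rfl | ⟨M₀, y, rfl⟩
  · exact Or.inl rfl
  · obtain ⟨J₀, y', e, hy⟩ := hM
    rw [← List.append_assoc] at e
    have := List.append_inj_right' e rfl
    rw [List.cons.injEq] at this
    exact Or.inr ⟨M₀, y, rfl, this.1 ▸ hy⟩

variable (T) in
/-- A decomposition of `w` with value `v`. -/
def D {Z : Type} [AddCommGroupWithOne Z] (ℓ : ℕ) (β : List X' → Z) (w : List X) (v : Z) : Prop :=
  ∃ J M J' W, w = J ++ M ++ J' ∧ Bd T J ∧ Dec T.U M W ∧ ℓ ≤ W.length ∧ v = β W - (J.length : ℕ)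

variable {Z : Type} [AddCommGroupWithOne Z] {ℓ : ℕ} {β : List X' → Z}

theorem D.right {w : List X} {v : Z} (h : D T ℓ β w v) (r : List X) : D T ℓ β (w ++ r) v := by
  obtain ⟨J, M, J', W, rfl, h⟩ := h
  exact ⟨J, M, J' ++ r, W, by simp only [List.append_assoc], h⟩

theorem D.left {w : List X} {v : Z} (h : D T ℓ β w v) (l : List X) :
    D T ℓ β (l ++ w) (v - (l.length : ℕ)) := by
  obtain ⟨J, M, J', W, rfl, h1, h2, h3, rfl⟩ := h
  refine ⟨l ++ J, M, J', W, by simp only [List.append_assoc], h1.append l, h2, h3, ?_⟩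
  rw [List.length_append, Nat.cast_add]
  abel

theorem ext (F : SimFacts T)
    (hβ : ∀ W₁ W W₂, ℓ ≤ W.length → S'.NZ (W₁ ++ W ++ W₂) →
      β W = β (W₁ ++ W ++ W₂) + (N * W₁.length : ℕ))
    {w J M A C : List X} {W : List X'} (hz : S.NZ w) (hJ : Bd T J) (hM : Dec T.U M W)
    (hW : ℓ ≤ W.length) (hA : Bd T A) (hC : Bd T C) (h1 : A <+: J) (h2 : J ++ M <+: C)
    (h3 : C <+: w) :
    ∃ M' W', C = A ++ M' ∧ Dec T.U M' W' ∧ β W - (J.length : ℕ) = β W' - (A.length : ℕ) := by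
  obtain ⟨M₁, rfl⟩ := h1
  obtain ⟨M₂, rfl⟩ := h2
  obtain ⟨R, rfl⟩ := h3
  obtain ⟨W₁, hW₁⟩ := parse F (A := A) (M := M₁) (R := M ++ M₂ ++ R)
    (by simpa only [List.append_assoc] using hz) hA hJ
  obtain ⟨W₂, hW₂⟩ := parse F hz (hJ.dec F hM) hC
  have hD := F.append _ _ _ _ (F.append _ _ _ _ hW₁ hM) hW₂
  refine ⟨_, _, by simp only [List.append_assoc], hD, ?_⟩
  rw [hβ W₁ W W₂ hW ((F.nz_iff _ _ hD).1 (nz_infix (l := A) (r := R)
    (by simpa only [List.append_assoc] using hz))), List.length_append, F.len _ _ hW₁, Nat.cast_add]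
  abel

theorem D.unique (F : SimFacts T)
    (hβ : ∀ W₁ W W₂, ℓ ≤ W.length → S'.NZ (W₁ ++ W ++ W₂) →
      β W = β (W₁ ++ W ++ W₂) + (N * W₁.length : ℕ))
    {w : List X} {v v' : Z} (hz : S.NZ w) (h : D T ℓ β w v) (h' : D T ℓ β w v') : v = v' := by
  obtain ⟨J, M, J', W, e, h1, h2, h3, rfl⟩ := h
  obtain ⟨K, L, K', V, e', k1, k2, k3, rfl⟩ := h'
  have p1 : J ++ M <+: w := ⟨J', e.symm⟩
  have p2 : K ++ L <+: w := ⟨K', e'.symm⟩
  have p3 : J <+: w := (List.prefix_append J M).trans p1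
  have p4 : K <+: w := (List.prefix_append K L).trans p2
  obtain ⟨A, hA, a1, a2⟩ : ∃ A, Bd T A ∧ A <+: J ∧ A <+: K := by
    rcases List.prefix_or_prefix_of_prefix p3 p4 with h | h
    · exact ⟨J, h1, List.prefix_rfl, h⟩
    · exact ⟨K, k1, h, List.prefix_rfl⟩
  obtain ⟨C, hC, c1, c2, c3⟩ : ∃ C, Bd T C ∧ J ++ M <+: C ∧ K ++ L <+: C ∧ C <+: w := by
    rcases List.prefix_or_prefix_of_prefix p1 p2 with h | h
    · exact ⟨_, k1.dec F k2, h, List.prefix_rfl, p2⟩
    · exact ⟨_, h1.dec F h2, List.prefix_rfl, h, p1⟩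
  obtain ⟨M', W', e1, d1, r1⟩ := ext F hβ hz h1 h2 h3 hA hC a1 c1 c3
  obtain ⟨M'', W'', e2, d2, r2⟩ := ext F hβ hz k1 k2 k3 hA hC a2 c2 c3
  obtain rfl : M' = M'' := List.append_cancel_left (e1.symm.trans e2)
  rw [r1, r2, F.func _ _ _ d1 d2]

theorem D.exists (F : SimFacts T) {w : List X} (hz : S.NZ w) (hw : N * ℓ + 4 * N ≤ w.length) :
    ∃ v, D T ℓ β w v := by
  obtain ⟨P, Q, R, rfl, hP, hQ, hR⟩ : ∃ P Q R : List X, w = P ++ Q ++ R ∧ 2 * N ≤ P.length ∧
      N * ℓ ≤ Q.length ∧ 2 * N ≤ R.length := by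
    refine ⟨w.take (2 * N), (w.drop (2 * N)).take (N * ℓ), (w.drop (2 * N)).drop (N * ℓ),
      by rw [List.append_assoc, List.take_append_drop, List.take_append_drop], ?_, ?_, ?_⟩ <;>
      simp only [List.length_take, List.length_drop] <;> omega
  obtain ⟨x, hx, cx⟩ := T.freq P (nz_left (nz_left hz)) hP
  obtain ⟨y, hy, cy⟩ := T.freq R (nz_right hz) hR
  obtain ⟨P₀, P₁, rfl⟩ := List.append_of_mem hx
  obtain ⟨R₀, R₁, rfl⟩ := List.append_of_mem hy
  have e : P₀ ++ x :: P₁ ++ Q ++ (R₀ ++ y :: R₁) =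
      P₀ ++ [x] ++ (P₁ ++ Q ++ R₀ ++ [y]) ++ R₁ := by simp
  rw [e] at hz ⊢
  obtain ⟨W, hW⟩ := parse F hz ⟨P₀, x, rfl, cx⟩ (Bd.append ⟨_, y, rfl, cy⟩ _)
  refine ⟨_, _, _, _, W, rfl, ⟨P₀, x, rfl, cx⟩, hW, ?_, rfl⟩
  have h1 := F.len _ _ hW
  simp only [List.length_append] at h1
  exact Nat.le_of_mul_le_mul_left (by omega) T.pos

theorem down (F : SimFacts T) {q : ℕ} (h : S'.Ph q) : S.Ph (N * q) := by
  classical
  obtain ⟨ℓ, α', -, h2, h3⟩ := h
  obtain ⟨g, hg⟩ := exists_hom N q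
  have hβ : ∀ W₁ W W₂, ℓ ≤ W.length → S'.NZ (W₁ ++ W ++ W₂) →
      g (α' W) = g (α' (W₁ ++ W ++ W₂)) + (N * W₁.length : ℕ) := by
    intro W₁ W W₂ hW hz
    rw [iter_right h3 W₂ _ (by rw [List.length_append]; omega) hz,
      iter_left h2 hW W₁ (nz_left hz), map_add, hg]
  let α : List X → ZMod (N * q) := fun w =>
    if h : ∃ v, D T ℓ (fun W => g (α' W)) w v then h.choose else 0
  have hα : ∀ {w v}, S.NZ w → D T ℓ (fun W => g (α' W)) w v → α w = v := by
    intro w v hz hv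
    have h : ∃ v, D T ℓ (fun W => g (α' W)) w v := ⟨v, hv⟩
    exact (dif_pos h).trans (D.unique F hβ hz h.choose_spec hv)
  refine ⟨2 * (N * ℓ + 4 * N) + 2, α, fun l a b r hs hl hz => ?_, fun x w hl hz => ?_,
    fun x w hl hz => ?_⟩
  · have hz' := nz_step hs hz
    obtain ⟨e, -, h2⟩ := T.short.step a b hs
    simp only [List.length_append] at hl
    by_cases hc : N * ℓ + 4 * N ≤ l.length
    · obtain ⟨v, hv⟩ := D.exists (β := fun W => g (α' W)) F (nz_left (nz_left hz)) hc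
      rw [hα hz ((hv.right a).right r), hα hz' ((hv.right b).right r)]
    · obtain ⟨v, hv⟩ := D.exists (β := fun W => g (α' W)) (ℓ := ℓ) F (nz_right hz) (by omega)
      rw [hα hz (hv.left _), hα hz' (hv.left _), List.length_append, List.length_append, e]
  · have hz' : S.NZ w := nz_right (l := [x]) hz
    obtain ⟨v, hv⟩ := D.exists (β := fun W => g (α' W)) (ℓ := ℓ) F hz' (by omega)
    rw [hα hz' hv, hα hz (hv.left [x])]
    simp
  · have hz' : S.NZ w := nz_left hz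
    obtain ⟨v, hv⟩ := D.exists (β := fun W => g (α' W)) (ℓ := ℓ) F hz' (by omega)
    rw [hα hz' hv, hα hz (hv.right [x])]

end

end SimPh

theorem simPh : SimPhStmt := by
  refine ⟨fun X X' S S' N T F q _ h => SimPh.down F h, fun X S q q' hq h => ?_, fun X S => ?_⟩
  · obtain ⟨ℓ, α, h1, h2, h3⟩ := h
    refine ⟨ℓ, fun w => ZMod.castHom hq (ZMod q) (α w), fun l a b r hs hl hz => ?_,
      fun x w hl hz => ?_, fun x w hl hz => ?_⟩
    · simp only [h1 l a b r hs hl hz]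
    · simp only [h2 x w hl hz, map_add, map_one]
    · simp only [h3 x w hl hz]
  · exact ⟨0, fun _ => 0, fun _ _ _ _ _ _ _ => rfl, fun _ _ _ _ => Subsingleton.elim _ _,
      fun _ _ _ _ => rfl⟩

end Crest.Agent.R176
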