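import Crest.Agent.R176.SimDefs

/-!
Row 176: nilpotence passes down a simulation (transfer matrix).
-/

set_option autoImplicit false

namespace Crest.Agent.R176

open Classical

namespace SimRedAux

open Rew

section wsum

variable {X : Type} [Fintype X] {A : Type} [AddCommMonoid A]

theorem wsum_zero (F : List X → A) : wsum 0 F = F [] := by
  simp [wsum]

theorem wsum_add (a b : ℕ) (F : List X → A) :
    wsum (a + b) F = wsum a fun u => wsum b fun v => F (u ++ v) := by
  unfold wsum
  rw [← (Fin.appendEquiv a b).sum_comp, Fintype.sum_prod_type]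
  refine Finset.sum_congr rfl fun u _ => Finset.sum_congr rfl fun v _ => ?_
  exact congrArg F (List.ofFn_fin_append u v)

theorem wsum_congr {d : ℕ} {F G : List X → A} (h : ∀ w : List X, w.length = d → F w = G w) :
    wsum d F = wsum d G :=
  Finset.sum_congr rfl fun _ _ => h _ List.length_ofFn

theorem wsum_plus (d : ℕ) (F G : List X → A) :
    wsum d (fun w => F w + G w) = wsum d F + wsum d G :=
  Finset.sum_add_distrib

theorem wsum_eq_zero {d : ℕ} {F : List X → A} (h : ∀ w : List X, w.length = d → F w = 0) :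
    wsum d F = 0 :=
  Finset.sum_eq_zero fun _ _ => h _ List.length_ofFn

theorem wsum_single {d : ℕ} {F : List X → A} {w₀ : List X} (hd : w₀.length = d)
    (h : ∀ w : List X, w ≠ w₀ → F w = 0) : wsum d F = F w₀ := by
  subst hd
  unfold wsum
  rw [Finset.sum_eq_single w₀.get, List.ofFn_get]
  · intro w _ hw
    refine h _ fun e => hw (List.ofFn_injective ?_)
    rw [e, List.ofFn_get]
  · simp

theorem wsum_comm {X' : Type} [Fintype X'] (a b : ℕ) (F : List X → List X' → A) :
    wsum a (fun u => wsum b fun v => F u v) = wsum b fun v => wsum a fun u => F u v :=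
  Finset.sum_comm

end wsum

section transfer

variable {X X' : Type} [Fintype X] {S : Rew X} {S' : Rew X'} {N : ℕ} (T : Sim S S' N)
  {A : Type} [Ring A] (ψ : X → A)

/-- The sum over the lower words related to an upper word. -/
noncomputable def cs (V : List X → List X' → Prop) (N : ℕ) (W : List X') : A :=
  wsum (N * W.length) fun M => if V M W then (M.map ψ).prod else 0

omit [Fintype X] in
theorem prefix_eq {u u' v v' : List X} {W W' : List X'} (h : T.U u W) (h' : T.U u' W')
    (e : u ++ v = u' ++ v') : u.length = u'.length := by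
  obtain ⟨a, x, rfl, hx, ha⟩ := T.cutU _ _ h
  obtain ⟨a', x', rfl, hx', ha'⟩ := T.cutU _ _ h'
  rw [List.append_assoc, List.append_assoc] at e
  rcases List.append_eq_append_iff.1 e with ⟨c, rfl, e'⟩ | ⟨c, rfl, e'⟩
  · cases c with
    | nil => simp
    | cons y c =>
      simp only [List.cons_append, List.nil_append, List.cons.injEq] at e'
      exact absurd hx (ha' x (by simp [e'.1]))
  · cases c with
    | nil => simp
    | cons y c =>
      simp only [List.cons_append, List.nil_append, List.cons.injEq] at e'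
      exact absurd hx' (ha x' (by simp [e'.1]))

omit [Fintype X] in
theorem dec_inv {M : List X} {W : List X'} (h : Dec T.U M W) :
    W = [] ∨ ∃ u v W₁ W₂, M = u ++ v ∧ W = W₁ ++ W₂ ∧ T.U u W₁ ∧ Dec T.U v W₂ := by
  cases h with
  | nil => exact Or.inl rfl
  | cons h1 h2 => exact Or.inr ⟨_, _, _, _, rfl, rfl, h1, h2⟩

/-- The words starting with a unit over `W₁`. -/
def St (W₁ W₂ : List X') (M : List X) : Prop := ∃ u v, M = u ++ v ∧ T.U u W₁ ∧ Dec T.U v W₂

theorem st_sum (W₁ W₂ : List X') :
    (wsum (N * (W₁ ++ W₂).length) fun M => if St T W₁ W₂ M then (M.map ψ).prod else 0) =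
      cs ψ T.U N W₁ * cs ψ (Dec T.U) N W₂ := by
  rw [List.length_append, mul_add, wsum_add, cs, cs, wsum, wsum, wsum, Finset.sum_mul_sum]
  refine Finset.sum_congr rfl fun u _ => Finset.sum_congr rfl fun v _ => ?_
  have : St T W₁ W₂ (List.ofFn u ++ List.ofFn v) ↔
      T.U (List.ofFn u) W₁ ∧ Dec T.U (List.ofFn v) W₂ := by
    constructor
    · rintro ⟨u', v', e, h1, h2⟩
      obtain ⟨e1, e2⟩ := List.append_inj e (by rw [(T.len _ _ h1).1, List.length_ofFn])
      rw [e1, e2]
      exact ⟨h1, h2⟩
    · rintro ⟨h1, h2⟩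
      exact ⟨_, _, rfl, h1, h2⟩
  simp only [this, List.map_append, List.prod_append]
  by_cases h1 : T.U (List.ofFn u) W₁ <;> by_cases h2 : Dec T.U (List.ofFn v) W₂ <;> simp [h1, h2]

theorem cs_nil : cs ψ (Dec T.U) N [] = 1 := by
  simp [cs, wsum_zero, Dec.nil]

theorem cs_one (x : X') : cs ψ (Dec T.U) N [x] = cs ψ T.U N [x] * cs ψ (Dec T.U) N [] := by
  rw [← st_sum, cs]
  refine wsum_congr fun M _ => if_congr ⟨fun h => ?_, ?_⟩ rfl rfl
  · rcases dec_inv T h with h0 | ⟨u, v, W₁, W₂, rfl, e, h1, h2⟩
    · simp at h0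
    · have := (T.len _ _ h1).2
      rcases W₁ with _ | ⟨a, _ | ⟨b, W₁⟩⟩
      · simp at this
      · simp only [List.cons_append, List.nil_append, List.cons.injEq] at e
        obtain ⟨rfl, rfl⟩ := e
        exact ⟨u, v, rfl, h1, h2⟩
      · simp at e
  · rintro ⟨u, v, rfl, h1, h2⟩
    exact Dec.cons h1 h2

theorem cs_two (x y : X') (W : List X') : cs ψ (Dec T.U) N (x :: y :: W) =
    cs ψ T.U N [x] * cs ψ (Dec T.U) N (y :: W) + cs ψ T.U N [x, y] * cs ψ (Dec T.U) N W := by
  rw [← st_sum, ← st_sum, cs]
  refine Eq.trans (wsum_congr fun M _ => ?_) (wsum_plus _ _ _)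
  by_cases h1 : St T [x] (y :: W) M
  · have h2 : ¬ St T [x, y] W M := by
      obtain ⟨u, v, rfl, h1, -⟩ := h1
      rintro ⟨u', v', e, h2, -⟩
      have h3 := prefix_eq T h1 h2 e
      rw [(T.len _ _ h1).1, (T.len _ _ h2).1] at h3
      have := T.pos
      simp only [List.length_cons, List.length_nil] at h3
      omega
    have h3 : Dec T.U M (x :: y :: W) := by
      obtain ⟨u, v, rfl, h1, h2⟩ := h1
      exact Dec.cons h1 h2
    rw [if_pos h1, if_neg h2, if_pos h3, add_zero]
  · rw [if_neg h1, zero_add]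
    refine if_congr ⟨fun h => ?_, ?_⟩ rfl rfl
    · rcases dec_inv T h with h0 | ⟨u, v, W₁, W₂, rfl, e, h2, h3⟩
      · simp at h0
      · have := (T.len _ _ h2).2
        rcases W₁ with _ | ⟨a, _ | ⟨b, _ | ⟨c, W₁⟩⟩⟩
        · simp at this
        · simp only [List.cons_append, List.nil_append, List.cons.injEq] at e
          obtain ⟨rfl, rfl⟩ := e
          exact absurd ⟨u, v, rfl, h2, h3⟩ h1
        · simp only [List.cons_append, List.nil_append, List.cons.injEq] at e
          obtain ⟨rfl, rfl, rfl⟩ := e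
          exact ⟨u, v, rfl, h2, h3⟩
        · simp at this
    · rintro ⟨u, v, rfl, h1, h2⟩
      exact Dec.cons h1 h2

/-- The transfer matrix. -/
noncomputable def tr (x : X') : Matrix (Option X') (Option X') A :=
  Matrix.of fun i j =>
    match i, j with
    | none, none => cs ψ T.U N [x]
    | none, some y => if y = x then 1 else 0
    | some y, none => cs ψ T.U N [y, x]
    | some _, some _ => 0

variable [Fintype X']

theorem tr_none (x : X') (B : Matrix (Option X') (Option X') A) :
    (tr T ψ x * B) none none = cs ψ T.U N [x] * B none none + B (some x) none := by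
  simp [Matrix.mul_apply, tr]

theorem tr_some (x y : X') (B : Matrix (Option X') (Option X') A) :
    (tr T ψ y * B) (some x) none = cs ψ T.U N [x, y] * B none none := by
  simp [Matrix.mul_apply, tr]

theorem tr_prod (W : List X') : (W.map (tr T ψ)).prod none none = cs ψ (Dec T.U) N W := by
  induction W using List.twoStepInduction with
  | nil => simp [cs_nil]
  | singleton x =>
    rw [List.map_cons, List.prod_cons, tr_none, cs_one, cs_nil]
    simp
  | cons_cons x y W ih1 ih2 =>
    rw [List.map_cons, List.prod_cons, tr_none, ih2, List.map_cons, List.prod_cons, tr_some, ih1,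
      cs_two]

variable [Algebra (ZMod 2) A]

theorem down_eq (hT : SimFacts T) (r : ℕ) (f : List X' → ZMod 2) :
    wsum (N * r) (fun M => decF T.U f M • (M.map ψ).prod) =
      wsum r (fun W => f W • (W.map (tr T ψ)).prod) none none := by
  have h1 : wsum r (fun W => f W • (W.map (tr T ψ)).prod) none none =
      wsum r fun W => wsum (N * r) fun M => if Dec T.U M W then f W • (M.map ψ).prod else 0 := by
    rw [wsum, Matrix.sum_apply]
    refine Finset.sum_congr rfl fun w _ => ?_
    rw [Matrix.smul_apply, tr_prod, cs, List.length_ofFn, wsum, Finset.smul_sum]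
    refine Finset.sum_congr rfl fun M _ => ?_
    rw [smul_ite, smul_zero]
  rw [h1, wsum_comm]
  refine wsum_congr fun M hM => ?_
  by_cases h : ∃ W, Dec T.U M W
  · obtain ⟨W, hW⟩ := h
    have hl : W.length = r := Nat.eq_of_mul_eq_mul_left T.pos ((hT.len _ _ hW).symm.trans hM)
    rw [wsum_single hl fun W' hW' => if_neg fun h => hW' (hT.func _ _ _ h hW), if_pos hW,
      hT.decF_eq f M W hW]
  · rw [decF, dif_neg h, zero_smul, wsum_eq_zero fun W _ => if_neg fun h' => h ⟨W, h'⟩]

end transfer

theorem wsum_later {X : Type} [Fintype X] (S : Rew X) {A : Type} [Ring A] [Algebra (ZMod 2) A]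
    (ψ : X → A) {d : ℕ}
    (h : ∀ f : List X → ZMod 2, S.Adm f → wsum d (fun w => f w • (w.map ψ).prod) = 0) {r : ℕ}
    (hr : d ≤ r) (f : List X → ZMod 2) (hf : S.Adm f) :
    wsum r (fun w => f w • (w.map ψ).prod) = 0 := by
  obtain ⟨k, rfl⟩ := Nat.exists_eq_add_of_le' hr
  rw [wsum_add]
  refine wsum_eq_zero fun u _ => ?_
  have h1 := h (fun v => f (u ++ v))
    ⟨fun l a b r hs => by simpa only [List.append_assoc] using hf.step (u ++ l) a b r hs,
     fun l a r hs => by simpa only [List.append_assoc] using hf.zero (u ++ l) a r hs⟩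
  have h2 := congrArg ((u.map ψ).prod * ·) h1
  simp only [wsum, Finset.mul_sum, mul_zero, mul_smul_comm] at h2
  simpa only [wsum, List.map_append, List.prod_append] using h2

end SimRedAux

open SimRedAux in
theorem simRed (h : SimMainStmt) : SimRedStmt := by
  intro X X' _ _ S S' N T hT n hN ψ
  let e : Matrix (Option X') (Option X') (Matrix (Fin n) (Fin n) (Polynomial (ZMod 2))) ≃ₐ[ZMod 2]
      Matrix (Fin (n * (Fintype.card X' + 1))) (Fin (n * (Fintype.card X' + 1)))
        (Polynomial (ZMod 2)) :=
    (Matrix.compAlgEquiv _ _ _ _).trans (Matrix.reindexAlgEquiv _ _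
      (Fintype.equivFinOfCardEq (by simp [mul_comm])))
  obtain ⟨d, hd⟩ := hN (e ∘ tr T ψ)
  have h1 : ∀ f : List X' → ZMod 2, S'.Adm f →
      Rew.wsum d (fun w => f w • (w.map (tr T ψ)).prod) = 0 := fun f hf => by
    have := hd f hf
    apply e.injective
    rw [map_zero, ← this, Rew.wsum, Rew.wsum, map_sum]
    refine Finset.sum_congr rfl fun w _ => ?_
    rw [map_smul, map_list_prod, List.map_map]
  refine h X X' S S' N T hT n ψ d fun r hr f hf => ?_
  rw [down_eq T ψ hT, wsum_later S' _ h1 hr f hf]
  rfl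

end Crest.Agent.R176
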