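import Crest.Agent.R176.SimDefs

/-!
Row 176: the exchange argument.
-/

set_option autoImplicit false

namespace Crest.Agent.R176

open Finset

namespace SwapNil

/-- the involution argument for a fixed colouring `c` of the slots -/
lemma inner {Y T κ : Type} [Fintype Y] [Fintype κ] (cls : Y → T) (d : ℕ)
    (F : (Fin d → Y) → ZMod 2) (Sw : (Fin d → T) → Fin d → Fin d → Prop)
    (co : Y → κ → Polynomial (ZMod 2)) (c : Fin d → κ)
    (h1 : ∀ y, F y ≠ 0 → ∃ s : Finset (Fin d), Fintype.card κ < s.card ∧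
      ∀ i ∈ s, ∀ i' ∈ s, i ≠ i' → Sw (cls ∘ y) i i')
    (h2 : ∀ y i i', i ≠ i' → Sw (cls ∘ y) i i' → cls (y i) = cls (y i') ∧
      F (y ∘ Equiv.swap i i') = F y ∧ (y i = y i' → F y = 0)) :
    ∑ y : Fin d → Y, F y • ∏ i, co (y i) (c i) = 0 := by
  classical
  let P : (Fin d → T) → Fin d × Fin d → Prop := fun t x => x.1 ≠ x.2 ∧ Sw t x.1 x.2 ∧ c x.1 = c x.2
  let σ : (Fin d → T) → Equiv.Perm (Fin d) := fun t =>
    if h : ∃ x, P t x then Equiv.swap h.choose.1 h.choose.2 else 1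
  have hσ : ∀ t, (∃ x, P t x ∧ σ t = Equiv.swap x.1 x.2) ∨ ((¬ ∃ x, P t x) ∧ σ t = 1) := by
    intro t
    by_cases h : ∃ x, P t x
    · exact Or.inl ⟨h.choose, h.choose_spec, dif_pos h⟩
    · exact Or.inr ⟨h, dif_neg h⟩
  have hcls : ∀ y : Fin d → Y, cls ∘ (y ∘ σ (cls ∘ y)) = cls ∘ y := by
    intro y
    rcases hσ (cls ∘ y) with ⟨x, hx, e⟩ | ⟨_, e⟩
    · rw [e]
      funext i
      exact Equiv.apply_swap_eq_self (v := cls ∘ y) (h2 y _ _ hx.1 hx.2.1).1 i
    · rw [e]; rfl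
  have hzero : ∀ y : Fin d → Y, (¬ ∃ x, P (cls ∘ y) x) → F y = 0 := by
    intro y h
    by_contra hF
    obtain ⟨s, hs, hs'⟩ := h1 y hF
    obtain ⟨i, hi, i', hi', hne, hc⟩ := exists_ne_map_eq_of_card_lt_of_maps_to
      (s := s) (t := (univ : Finset κ)) (by simpa using hs) (f := c) (fun _ _ => mem_univ _)
    exact h ⟨(i, i'), hne, hs' i hi i' hi' hne, hc⟩
  refine sum_involution (fun y _ => y ∘ σ (cls ∘ y)) ?_ ?_ (fun _ _ => mem_univ _) ?_
  · intro y _
    rcases hσ (cls ∘ y) with ⟨x, hx, e⟩ | ⟨h, e⟩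
    · rw [e, (h2 y _ _ hx.1 hx.2.1).2.1]
      have : ∏ i, co ((y ∘ Equiv.swap x.1 x.2) i) (c i) = ∏ i, co (y i) (c i) := by
        rw [← Equiv.prod_comp (Equiv.swap x.1 x.2) (fun i => co (y i) (c i))]
        refine prod_congr rfl (fun i _ => ?_)
        rw [Equiv.apply_swap_eq_self (v := c) hx.2.2 i]
        rfl
      rw [this, ← add_smul, CharTwo.add_self_eq_zero, zero_smul]
    · rw [e]
      have : y ∘ (1 : Equiv.Perm (Fin d)) = y := rfl
      rw [this, hzero y h, zero_smul, add_zero]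
  · intro y _ hne heq
    apply hne
    rcases hσ (cls ∘ y) with ⟨x, hx, e⟩ | ⟨h, _⟩
    · rw [e] at heq
      have := congrFun heq x.1
      simp only [Function.comp, Equiv.swap_apply_left] at this
      rw [(h2 y _ _ hx.1 hx.2.1).2.2 this.symm, zero_smul]
    · rw [hzero y h, zero_smul]
  · intro y _
    rw [hcls y]
    funext i
    rcases hσ (cls ∘ y) with ⟨x, _, e⟩ | ⟨_, e⟩
    · rw [e]; simp
    · rw [e]; rfl

end SwapNil

theorem swapNil : SwapNilStmt := by
  classical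
  intro Y T _ cls d n F Sw ψ h1 h2
  let E : Fin n × Fin n → Matrix (Fin n) (Fin n) (Polynomial (ZMod 2)) :=
    fun c => Matrix.single c.1 c.2 1
  have hψ : ∀ y, ψ y = ∑ c : Fin n × Fin n, ψ y c.1 c.2 • E c := by
    intro y
    rw [Fintype.sum_prod_type]
    conv_lhs => rw [Matrix.matrix_eq_sum_single (ψ y)]
    simp [E]
  let Φ := MultilinearMap.mkPiAlgebraFin (Polynomial (ZMod 2)) d
    (Matrix (Fin n) (Fin n) (Polynomial (ZMod 2)))
  have hexp : ∀ y : Fin d → Y, (List.ofFn fun i => ψ (y i)).prod =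
      ∑ c : Fin d → Fin n × Fin n, (∏ i, ψ (y i) (c i).1 (c i).2) • Φ (fun i => E (c i)) := by
    intro y
    have e : (List.ofFn fun i => ψ (y i)).prod =
        Φ (fun i => ∑ c : Fin n × Fin n, ψ (y i) c.1 c.2 • E c) := by
      simp only [← hψ]
      rfl
    rw [e, MultilinearMap.map_sum]
    refine sum_congr rfl (fun c _ => ?_)
    exact Φ.map_smul_univ _ _
  simp only [hexp, smul_sum]
  rw [sum_comm]
  refine sum_eq_zero (fun c _ => ?_)
  simp only [← smul_assoc]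
  rw [← sum_smul, SwapNil.inner cls d F Sw (fun y c => ψ y c.1 c.2) c (by simpa using h1) h2,
    zero_smul]

end Crest.Agent.R176
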