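import Crest.Agent.R176.SimFacts
import Crest.Agent.R176.SimPh
import Crest.Agent.R176.SimMain
import Crest.Agent.R176.SimRed
import Crest.Agent.R176.SwapNil
import Crest.Agent.R176.LvFerm
import Crest.Agent.R176.LvPos
import Crest.Agent.R176.LvCode
import Crest.Agent.R176.LvCellF
import Crest.Agent.R176.LvRend
import Crest.Agent.R176.LvFwd
import Crest.Agent.R176.LvBwd
import Crest.Agent.R176.LvSem
import Crest.Agent.R176.LvBlock
import Crest.Agent.R176.LvParse
import Crest.Agent.R176.LvNormS
import Crest.Agent.R176.LvNorm
import Crest.Agent.R176.LvCompl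
import Crest.Agent.R176.LvSoundS
import Crest.Agent.R176.LvSoundP
import Crest.Agent.R176.LvRep
import Crest.Agent.R176.LvBase
import Crest.Agent.R176.LvTower

/-!
Row 176: the rewriting system exists.
-/

set_option autoImplicit false

namespace Crest.Agent.R176

open Lv

theorem levStmt : LevStmt :=
  levStmt_of fermStmt posStmt codeStmt cellStmt rendStmt fwdStmt bwdStmt semStmt blockStmt
    parseStmt normSStmt normStmt complStmt soundSStmt soundPStmt

theorem rewStmt : RewStmt :=
  towerStmt levStmt (baseOfStmt posStmt repStmt fermStmt levStmt simFacts simMain swapNil)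
    simFacts simPh (simRed simMain)

end Crest.Agent.R176
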