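import Crest.Agent.R176.RewDefs

/-!
Row 176: block simulation of one rewriting system by another (abstract interface) and the
statements of the generic steps.
-/

set_option autoImplicit false

namespace Crest.Agent.R176

/-- Concatenations of units. -/
inductive Dec {X X' : Type} (U : List X → List X' → Prop) : List X → List X' → Prop
  | nil : Dec U [] []
  | cons {M : List X} {W : List X'} {M' : List X} {W' : List X'} :
      U M W → Dec U M' W' → Dec U (M ++ M') (W ++ W')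

open Classical in
/-- Pushing a functional on upper words down to lower words. -/
noncomputable def decF {X X' : Type} (U : List X → List X' → Prop) (f : List X' → ZMod 2)
    (M : List X) : ZMod 2 :=
  if h : ∃ W, Dec U M W then f h.choose else 0

/-- The system `S` simulates `S'` by blocks of length `N`.  A unit is a word of one or two blocks
ending in its only cut letter. -/
structure Sim {X X' : Type} (S : Rew X) (S' : Rew X') (N : ℕ) where
  cut : X → Prop
  U : List X → List X' → Prop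
  enc : X' → List X
  pos : 0 < N
  short : S.Short
  len : ∀ M W, U M W → M.length = N * W.length ∧ (W.length = 1 ∨ W.length = 2)
  cutU : ∀ M W, U M W → ∃ M₀ x, M = M₀ ++ [x] ∧ cut x ∧ ∀ y ∈ M₀, ¬ cut y
  func : ∀ M W W', U M W → U M W' → W = W'
  stepU : ∀ l a b r W, U (l ++ a ++ r) W → (S.step a b ∨ S.step b a) →
    ∃ W', Dec U (l ++ b ++ r) W' ∧ S'.Eqv W W'
  stepUU : ∀ l x y r b W₁ W₂, U (l ++ [x]) W₁ → U (y :: r) W₂ →
    (S.step [x, y] b ∨ S.step b [x, y]) → ∃ W', Dec U (l ++ b ++ r) W' ∧ S'.Eqv (W₁ ++ W₂) W'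
  zeroU : ∀ l a r W, U (l ++ a ++ r) W → S.zero a → ¬ S'.NZ W
  zeroUU : ∀ l x y r W₁ W₂, U (l ++ [x]) W₁ → U (y :: r) W₂ → ¬ S.zero [x, y]
  norm₁ : ∀ x₀ M₀ x, cut x₀ → cut x → (∀ y ∈ M₀, ¬ cut y) → S.NZ (x₀ :: (M₀ ++ [x])) →
    ∃ W, U (M₀ ++ [x]) W
  norm₂ : ∀ M W, U M W → S.Eqv M (W.flatMap enc)
  compl_step : ∀ a b, S'.step a b → S.Eqv (a.flatMap enc) (b.flatMap enc)
  compl_zero : ∀ a, S'.zero a → ¬ S.NZ (a.flatMap enc)
  freq : ∀ w, S.NZ w → 2 * N ≤ w.length → ∃ x ∈ w, cut x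
  encU : ∀ W, S'.NZ [W] → U (enc W) [W]

/-- Basic consequences of a simulation. -/
structure SimFacts {X X' : Type} {S : Rew X} {S' : Rew X'} {N : ℕ} (T : Sim S S' N) : Prop where
  len : ∀ M W, Dec T.U M W → M.length = N * W.length
  func : ∀ M W W', Dec T.U M W → Dec T.U M W' → W = W'
  append : ∀ M W M' W', Dec T.U M W → Dec T.U M' W' → Dec T.U (M ++ M') (W ++ W')
  last : ∀ M W, Dec T.U M W → M = [] ∨ ∃ M₀ x, M = M₀ ++ [x] ∧ T.cut x
  decF_eq : ∀ f M W, Dec T.U M W → decF T.U f M = f W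
  down : ∀ f, S'.Adm f → S.Adm (decF T.U f)
  up : ∀ (f : List X → ZMod 2) (J J' : List X), S.Adm f →
    S'.Adm fun W => f (J ++ W.flatMap T.enc ++ J')
  parse : ∀ x₀ M, T.cut x₀ → (M = [] ∨ ∃ M₀ x, M = M₀ ++ [x] ∧ T.cut x) → S.NZ (x₀ :: M) →
    ∃ W, Dec T.U M W
  norm : ∀ M W, Dec T.U M W → S.Eqv M (W.flatMap T.enc)
  nz_iff : ∀ M W, Dec T.U M W → (S.NZ M ↔ S'.NZ W)
  enc : ∀ W, S'.NZ W → Dec T.U (W.flatMap T.enc) W

def SimFactsStmt : Prop :=
  ∀ (X X' : Type) (S : Rew X) (S' : Rew X') (N : ℕ) (T : Sim S S' N), SimFacts T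

/-- Phases pass down a simulation; divisors; the trivial modulus. -/
def SimPhStmt : Prop :=
  (∀ (X X' : Type) (S : Rew X) (S' : Rew X') (N : ℕ) (T : Sim S S' N), SimFacts T →
    ∀ q, 0 < q → S'.Ph q → S.Ph (N * q)) ∧
  (∀ (X : Type) (S : Rew X) (q q' : ℕ), q ∣ q' → S.Ph q' → S.Ph q) ∧
  ∀ (X : Type) (S : Rew X), S.Ph 1

/-- It suffices to kill the class sums of pushed-down functionals. -/
def SimMainStmt : Prop :=
  ∀ (X X' : Type) [Fintype X] (S : Rew X) (S' : Rew X') (N : ℕ) (T : Sim S S' N), SimFacts T →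
    ∀ (n : ℕ) (ψ : X → Matrix (Fin n) (Fin n) (Polynomial (ZMod 2))) (r₀ : ℕ),
      (∀ r, r₀ ≤ r → ∀ f : List X' → ZMod 2, S'.Adm f →
        Rew.wsum (N * r) (fun M => decF T.U f M • (M.map ψ).prod) = 0) →
      ∃ d, ∀ f : List X → ZMod 2, S.Adm f → Rew.wsum d (fun w => f w • (w.map ψ).prod) = 0

/-- Nilpotence passes down a simulation at the cost of a bounded factor in the dimension. -/
def SimRedStmt : Prop :=
  ∀ (X X' : Type) [Fintype X] [Fintype X'] (S : Rew X) (S' : Rew X') (N : ℕ) (T : Sim S S' N),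
    SimFacts T → ∀ n, S'.NilD (n * (Fintype.card X' + 1)) → S.NilD n

/-- The exchange argument: more than `n²` mutually exchangeable slots kill the sum. -/
def SwapNilStmt : Prop :=
  ∀ (Y T : Type) [Fintype Y] (cls : Y → T) (d n : ℕ) (F : (Fin d → Y) → ZMod 2)
    (Sw : (Fin d → T) → Fin d → Fin d → Prop)
    (ψ : Y → Matrix (Fin n) (Fin n) (Polynomial (ZMod 2))),
    (∀ y, F y ≠ 0 → ∃ s : Finset (Fin d), n * n < s.card ∧
      ∀ i ∈ s, ∀ i' ∈ s, i ≠ i' → Sw (cls ∘ y) i i') →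
    (∀ y i i', i ≠ i' → Sw (cls ∘ y) i i' → cls (y i) = cls (y i') ∧
      F (y ∘ Equiv.swap i i') = F y ∧ (y i = y i' → F y = 0)) →
    ∑ y, F y • (List.ofFn fun i => ψ (y i)).prod = 0

end Crest.Agent.R176
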