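import Crest.Agent.R176.SimDefs
import Crest.Agent.R176.RewBasic

/-!
Row 176: basic facts on rewriting systems and on block simulations.
-/

set_option autoImplicit false

namespace Crest.Agent.R176

namespace Rew

variable {X : Type} {S : Rew X}

theorem NZ.left {v w : List X} (h : S.NZ (v ++ w)) : S.NZ v :=
  NZ.of_ctx (l := []) (r := w) (by simpa using h)

theorem NZ.right {v w : List X} (h : S.NZ (v ++ w)) : S.NZ w :=
  NZ.of_ctx (l := v) (r := []) (by simpa using h)

end Rew

namespace SimF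

variable {X X' : Type} {U : List X → List X' → Prop}

theorem inv {M : List X} {W : List X'} (h : Dec U M W) : (M = [] ∧ W = []) ∨
    ∃ M₁ W₁ M₂ W₂, U M₁ W₁ ∧ Dec U M₂ W₂ ∧ M = M₁ ++ M₂ ∧ W = W₁ ++ W₂ := by
  cases h with
  | nil => exact Or.inl ⟨rfl, rfl⟩
  | cons h1 h2 => exact Or.inr ⟨_, _, _, _, h1, h2, rfl, rfl⟩

theorem append {M M' : List X} {W W' : List X'} (h : Dec U M W) (h' : Dec U M' W') :
    Dec U (M ++ M') (W ++ W') := by
  induction h with
  | nil => exact h'
  | cons h1 _ ih =>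
    rw [List.append_assoc, List.append_assoc]
    exact Dec.cons h1 ih

theorem single {M : List X} {W : List X'} (h : U M W) : Dec U M W := by
  simpa using Dec.cons h Dec.nil

theorem first_unique {p : X → Prop} {A B M M' : List X} {x y : X} (hA : ∀ z ∈ A, ¬ p z)
    (hB : ∀ z ∈ B, ¬ p z) (hx : p x) (hy : p y) (h : A ++ [x] ++ M = B ++ [y] ++ M') :
    A ++ [x] = B ++ [y] ∧ M = M' := by
  induction A generalizing B with
  | nil =>
    cases B with
    | nil => simpa using h
    | cons b B =>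
      simp only [List.nil_append, List.cons_append, List.cons.injEq] at h
      exact absurd hx (h.1 ▸ hB b (by simp))
  | cons a A ih =>
    cases B with
    | nil =>
      simp only [List.nil_append, List.cons_append, List.cons.injEq] at h
      exact absurd hy (h.1 ▸ hA a (by simp))
    | cons b B =>
      simp only [List.cons_append, List.cons.injEq] at h ⊢
      have := ih (fun z hz => hA z (by simp [hz])) (fun z hz => hB z (by simp [hz])) h.2
      exact ⟨⟨h.1, this.1⟩, this.2⟩

theorem exists_first {p : X → Prop} {M : List X} (h : ∃ y ∈ M, p y) :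
    ∃ M₀ x M', M = M₀ ++ x :: M' ∧ p x ∧ ∀ y ∈ M₀, ¬ p y := by
  induction M with
  | nil => simp at h
  | cons a M ih =>
    by_cases ha : p a
    · exact ⟨[], a, M, rfl, ha, by simp⟩
    · obtain ⟨y, hy, hp⟩ := h
      rcases List.mem_cons.mp hy with rfl | hy
      · exact absurd hp ha
      · obtain ⟨M₀, x, M', rfl, hx, h0⟩ := ih ⟨y, hy, hp⟩
        refine ⟨a :: M₀, x, M', rfl, hx, fun z hz => ?_⟩
        rcases List.mem_cons.mp hz with rfl | hz
        · exact ha
        · exact h0 z hz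

/-- A short factor lies inside one unit or straddles two units. -/
theorem locate (hne : ∀ M W, U M W → M ≠ []) {M : List X} {W : List X'} (h : Dec U M W)
    {a r : List X} (h1 : 1 ≤ a.length) (h2 : a.length ≤ 2) : ∀ l, M = l ++ a ++ r →
    (∃ M₁ W₁ l' r' W₀ M₂ W₂, Dec U M₁ W₁ ∧ U (l' ++ a ++ r') W₀ ∧ Dec U M₂ W₂ ∧ l = M₁ ++ l' ∧
      r = r' ++ M₂ ∧ W = W₁ ++ W₀ ++ W₂) ∨
    (∃ M₁ W₁ l' x y r' Wa Wb M₂ W₂, Dec U M₁ W₁ ∧ U (l' ++ [x]) Wa ∧ U (y :: r') Wb ∧
      Dec U M₂ W₂ ∧ a = [x, y] ∧ l = M₁ ++ l' ∧ r = r' ++ M₂ ∧ W = W₁ ++ (Wa ++ Wb) ++ W₂) := by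
  induction h with
  | nil =>
    intro l hl
    have := congrArg List.length hl
    simp only [List.length_nil, List.length_append] at this
    omega
  | @cons M₀ W₀ M' W' hU hD ih =>
    intro l hl
    have rec' : ∀ c, l = M₀ ++ c → M' = c ++ a ++ r →
        (∃ M₁ W₁ l' r' W₀' M₂ W₂, Dec U M₁ W₁ ∧ U (l' ++ a ++ r') W₀' ∧ Dec U M₂ W₂ ∧
          l = M₁ ++ l' ∧ r = r' ++ M₂ ∧ W₀ ++ W' = W₁ ++ W₀' ++ W₂) ∨
        (∃ M₁ W₁ l' x y r' Wa Wb M₂ W₂, Dec U M₁ W₁ ∧ U (l' ++ [x]) Wa ∧ U (y :: r') Wb ∧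
          Dec U M₂ W₂ ∧ a = [x, y] ∧ l = M₁ ++ l' ∧ r = r' ++ M₂ ∧
          W₀ ++ W' = W₁ ++ (Wa ++ Wb) ++ W₂) := by
      intro c hc hM
      rcases ih c hM with ⟨M₁, W₁, l', r', V, M₂, W₂, a1, a2, a3, a4, a5, a6⟩ |
        ⟨M₁, W₁, l', x, y, r', Wa, Wb, M₂, W₂, a1, a2, a3, a4, a5, a6, a7, a8⟩
      · exact Or.inl ⟨M₀ ++ M₁, W₀ ++ W₁, l', r', V, M₂, W₂, Dec.cons hU a1, a2, a3,
          by simp [hc, a4], a5, by simp [a6]⟩
      · exact Or.inr ⟨M₀ ++ M₁, W₀ ++ W₁, l', x, y, r', Wa, Wb, M₂, W₂, Dec.cons hU a1, a2, a3, a4,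
          a5, by simp [hc, a6], a7, by simp [a8]⟩
    rw [List.append_assoc] at hl
    rcases List.append_eq_append_iff.mp hl with ⟨c, hc, hM⟩ | ⟨c, hc, hM⟩
    · exact rec' c hc (by rw [hM, List.append_assoc])
    · rcases List.append_eq_append_iff.mp hM with ⟨c', hc', hr⟩ | ⟨c', hc', hr⟩
      · exact Or.inl ⟨[], [], l, c', W₀, M', W', Dec.nil,
          by rwa [List.append_assoc, ← hc', ← hc], hD, rfl, hr, rfl⟩
      · cases c with
        | nil => exact rec' [] (by simpa using hc.symm) (by simpa [hc'] using hr)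
        | cons x c =>
          cases c' with
          | nil =>
            refine Or.inl ⟨[], [], l, [], W₀, M', W', Dec.nil, ?_, hD, rfl, by simpa using hr.symm,
              rfl⟩
            rw [List.append_nil] at hc' ⊢
            rwa [hc', ← hc]
          | cons y c' =>
            have hlen := congrArg List.length hc'
            simp only [List.length_append, List.length_cons] at hlen
            obtain rfl : c = [] := List.eq_nil_of_length_eq_zero (by omega)
            obtain rfl : c' = [] := List.eq_nil_of_length_eq_zero (by omega)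
            rcases inv hD with ⟨e, -⟩ | ⟨M₁, W₁, M₂, W₂, b1, b2, b3, b4⟩
            · simp [e] at hr
            · cases M₁ with
              | nil => exact absurd rfl (hne _ _ b1)
              | cons y' r' =>
                rw [hr] at b3
                simp only [List.cons_append, List.nil_append, List.cons.injEq] at b3
                obtain ⟨rfl, b3⟩ := b3
                exact Or.inr ⟨[], [], l, x, y, r', W₀, W₁, M₂, W₂, Dec.nil, hc ▸ hU, b1, b2,
                  by simpa using hc', rfl, b3, by simp [b4]⟩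

variable {S : Rew X} {S' : Rew X'} {N : ℕ} (T : Sim S S' N)

theorem ne_nil (M : List X) (W : List X') (h : T.U M W) : M ≠ [] := by
  obtain ⟨M₀, x, rfl, -⟩ := T.cutU M W h
  simp

theorem func {M : List X} {W : List X'} (h : Dec T.U M W) : ∀ W', Dec T.U M W' → W = W' := by
  induction h with
  | nil =>
    intro W' h'
    rcases inv h' with ⟨-, e⟩ | ⟨M₁, W₁, M₂, W₂, b1, -, b3, -⟩
    · exact e.symm
    · exact absurd (List.append_eq_nil_iff.mp b3.symm).1 (ne_nil T _ _ b1)
  | @cons M₀ W₀ M' V hU hD ih =>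
    intro W' h'
    rcases inv h' with ⟨e, -⟩ | ⟨M₁, W₁, M₂, W₂, b1, b2, b3, rfl⟩
    · exact absurd (List.append_eq_nil_iff.mp e).1 (ne_nil T _ _ hU)
    · obtain ⟨A, x, rfl, hx, hA⟩ := T.cutU _ _ hU
      obtain ⟨B, y, rfl, hy, hB⟩ := T.cutU _ _ b1
      obtain ⟨e1, rfl⟩ := first_unique hA hB hx hy b3
      rw [← e1] at b1
      rw [T.func _ _ _ hU b1, ih _ b2]

theorem decF_eq (f : List X' → ZMod 2) {M : List X} {W : List X'} (h : Dec T.U M W) :
    decF T.U f M = f W := by
  have h' : ∃ W, Dec T.U M W := ⟨W, h⟩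
  rw [decF, dif_pos h', func T h _ h'.choose_spec]

theorem move {l a b r : List X} {W : List X'} (h : Dec T.U (l ++ a ++ r) W)
    (hs : S.step a b ∨ S.step b a) : ∃ W', Dec T.U (l ++ b ++ r) W' ∧ S'.Eqv W W' := by
  have hl : 1 ≤ a.length ∧ a.length ≤ 2 := by
    rcases hs with hs | hs
    · exact (T.short.step _ _ hs).2
    · have := T.short.step _ _ hs
      omega
  rcases locate (ne_nil T) h hl.1 hl.2 l rfl with
    ⟨M₁, W₁, l', r', V, M₂, W₂, a1, a2, a3, rfl, rfl, rfl⟩ |
    ⟨M₁, W₁, l', x, y, r', Wa, Wb, M₂, W₂, a1, a2, a3, a4, rfl, rfl, rfl, rfl⟩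
  · obtain ⟨V', b1, b2⟩ := T.stepU l' a b r' V a2 hs
    exact ⟨W₁ ++ V' ++ W₂, by simpa using append (append a1 b1) a3, b2.ctx _ _⟩
  · obtain ⟨V', b1, b2⟩ := T.stepUU l' x y r' b Wa Wb a2 a3 hs
    exact ⟨W₁ ++ V' ++ W₂, by simpa using append (append a1 b1) a4, b2.ctx _ _⟩

theorem down {f : List X' → ZMod 2} (hf : S'.Adm f) : S.Adm (decF T.U f) where
  step l a b r hs := by
    by_cases h : ∃ W, Dec T.U (l ++ a ++ r) W
    · obtain ⟨W, h⟩ := h
      obtain ⟨W', h', e⟩ := move T h (Or.inl hs)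
      rw [decF_eq T f h, decF_eq T f h', e f hf]
    · have h' : ¬ ∃ W, Dec T.U (l ++ b ++ r) W := fun ⟨W, hW⟩ =>
        let ⟨W', hW', _⟩ := move T hW (Or.inr hs)
        h ⟨W', hW'⟩
      rw [decF, decF, dif_neg h, dif_neg h']
  zero l a r hz := by
    by_cases h : ∃ W, Dec T.U (l ++ a ++ r) W
    · obtain ⟨W, h⟩ := h
      rw [decF_eq T f h]
      have hl := T.short.zero _ hz
      rcases locate (ne_nil T) h hl.1 hl.2 l rfl with
        ⟨M₁, W₁, l', r', V, M₂, W₂, -, a2, -, rfl, rfl, rfl⟩ |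
        ⟨M₁, W₁, l', x, y, r', Wa, Wb, M₂, W₂, -, a2, a3, -, rfl, rfl, rfl, rfl⟩
      · exact Rew.not_NZ_iff.mp (T.zeroU l' a r' V a2 hz) _ (hf.ctx W₁ W₂)
      · exact absurd hz (T.zeroUU l' x y r' Wa Wb a2 a3)
    · rw [decF, dif_neg h]

theorem up {f : List X → ZMod 2} (J J' : List X) (hf : S.Adm f) :
    S'.Adm fun W => f (J ++ W.flatMap T.enc ++ J') where
  step l a b r hs := by
    have := T.compl_step a b hs _ (hf.ctx (J ++ l.flatMap T.enc) (r.flatMap T.enc ++ J'))
    simpa only [List.flatMap_append, List.append_assoc] using this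
  zero l a r hz := by
    have := Rew.not_NZ_iff.mp (T.compl_zero a hz) _
      (hf.ctx (J ++ l.flatMap T.enc) (r.flatMap T.enc ++ J'))
    simpa only [List.flatMap_append, List.append_assoc] using this

theorem parse (n : ℕ) : ∀ (x₀ : X) (M : List X), M.length ≤ n → T.cut x₀ →
    (M = [] ∨ ∃ M₀ x, M = M₀ ++ [x] ∧ T.cut x) → S.NZ (x₀ :: M) → ∃ W, Dec T.U M W := by
  induction n with
  | zero =>
    intro x₀ M hl _ _ _
    obtain rfl : M = [] := List.eq_nil_of_length_eq_zero (by omega)
    exact ⟨[], Dec.nil⟩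
  | succ n ih =>
    rintro x₀ M hl h0 (rfl | ⟨M₁, z, hM, hz⟩) hnz
    · exact ⟨[], Dec.nil⟩
    · obtain ⟨M₀, x, M', rfl, hx, hM₀⟩ := exists_first (p := T.cut) (M := M) ⟨z, by simp [hM], hz⟩
      obtain ⟨W, hW⟩ := T.norm₁ x₀ M₀ x h0 hx hM₀
        (Rew.NZ.left (w := M') (by simpa using hnz))
      obtain ⟨W', hW'⟩ := ih x M' (by simp at hl; omega) hx (by
        rcases List.eq_nil_or_concat' M' with rfl | ⟨L, b, rfl⟩
        · exact Or.inl rfl
        · refine Or.inr ⟨L, b, rfl, ?_⟩
          have e : (M₀ ++ x :: L) ++ [b] = M₁ ++ [z] := by simpa using hM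
          have := (List.append_inj' e rfl).2
          simp only [List.cons.injEq, and_true] at this
          exact this ▸ hz) (Rew.NZ.right (v := x₀ :: M₀) (by simpa using hnz))
      exact ⟨W ++ W', by simpa using Dec.cons hW hW'⟩

theorem norm {M : List X} {W : List X'} (h : Dec T.U M W) : S.Eqv M (W.flatMap T.enc) := by
  induction h with
  | nil => exact Rew.Eqv.refl _
  | cons h1 _ ih =>
    rw [List.flatMap_append]
    exact (T.norm₂ _ _ h1).append ih

end SimF

open SimF in
theorem simFacts : SimFactsStmt := fun _ _ S S' N T =>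
  { len := fun M W h => by
      induction h with
      | nil => simp
      | cons h1 _ ih => rw [List.length_append, List.length_append, ih, (T.len _ _ h1).1, mul_add]
    func := fun _ _ W' h h' => func T h W' h'
    append := fun _ _ _ _ h h' => append h h'
    last := fun M W h => by
      induction h with
      | nil => exact Or.inl rfl
      | cons h1 _ ih =>
        right
        rcases ih with rfl | ⟨M₀, x, rfl, hx⟩
        · obtain ⟨M₀, x, rfl, hx, -⟩ := T.cutU _ _ h1
          exact ⟨M₀, x, by simp, hx⟩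
        · exact ⟨_, x, (List.append_assoc _ _ _).symm, hx⟩
    decF_eq := fun f _ _ h => decF_eq T f h
    down := fun _ hf => down T hf
    up := fun _ J J' hf => up T J J' hf
    parse := fun x₀ M => parse T M.length x₀ M le_rfl
    norm := fun _ _ h => norm T h
    nz_iff := fun M W h => by
      constructor
      · intro hM
        obtain ⟨f, hf, h0⟩ := hM.of_eqv (norm T h)
        exact ⟨_, up T [] [] hf, by simpa using h0⟩
      · rintro ⟨f, hf, h0⟩
        exact ⟨_, down T hf, by rwa [decF_eq T f h]⟩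
    enc := fun W h => by
      induction W with
      | nil => exact Dec.nil
      | cons a W ih =>
        exact Dec.cons (T.encU a (Rew.NZ.left (v := [a]) (w := W) h))
          (ih (Rew.NZ.right (v := [a]) h)) }

end Crest.Agent.R176
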