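import Crest.Agent.R176.StDefs

/-!
Row 176: basic calculus in Steinberg systems; unipotent radicals.
-/

set_option autoImplicit false
set_option linter.unusedSectionVars false

open scoped commutatorElement

namespace Crest.Agent.R176

namespace IsSt

variable {ι R G : Type} [Ring R] [Group G] {Φ : Net ι} {X : ι → ι → R → G} (h : IsSt Φ X)
include h

theorem zero {i j : ι} (hij : Φ.rel i j) : X i j 0 = 1 := by
  have := h.add i j 0 0 hij
  rw [add_zero] at this
  exact (mul_eq_left.mp this.symm)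

theorem inv {i j : ι} (hij : Φ.rel i j) (a : R) : (X i j a)⁻¹ = X i j (-a) := by
  rw [inv_eq_iff_mul_eq_one, ← h.add i j _ _ hij, add_neg_cancel, h.zero hij]

theorem comm_self {i j : ι} (hij : Φ.rel i j) (a b : R) : Commute (X i j a) (X i j b) :=
  h.comm i j i j a b hij hij (Φ.ne hij).symm (Φ.ne hij)

/-- In characteristic two the generators are involutions. -/
theorem mul_self [CharP R 2] {i j : ι} (hij : Φ.rel i j) (a : R) : X i j a * X i j a = 1 := by
  rw [← h.add i j _ _ hij, CharTwo.add_self_eq_zero, h.zero hij]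

theorem inv_eq [CharP R 2] {i j : ι} (hij : Φ.rel i j) (a : R) : (X i j a)⁻¹ = X i j a :=
  inv_eq_of_mul_eq_one_right (h.mul_self hij a)

theorem sum {i j : ι} (hij : Φ.rel i j) (l : List R) : X i j l.sum = (l.map (X i j)).prod := by
  induction l with
  | nil => simpa using h.zero hij
  | cons a l ih => simp [h.add i j _ _ hij, ih]

theorem conj_left {i j k : ι} (hij : Φ.rel i j) (hjk : Φ.rel j k) (hik : i ≠ k) (a b : R) :
    X i j a * X j k b * (X i j a)⁻¹ = X i k (a * b) * X j k b := by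
  rw [← h.brk i j k a b hij hjk hik, commutatorElement_def]; group

theorem conj_right {i j k : ι} (hij : Φ.rel i j) (hki : Φ.rel k i) (hkj : k ≠ j) (a b : R) :
    X i j a * X k i b * (X i j a)⁻¹ = X k j (-(b * a)) * X k i b := by
  rw [← h.inv (Φ.trans hki hij hkj), ← h.brk k i j b a hki hij hkj, commutatorElement_def]; group

theorem conj_comm {i j k l : ι} (hij : Φ.rel i j) (hkl : Φ.rel k l) (hjk : j ≠ k) (hil : i ≠ l)
    (a b : R) : X i j a * X k l b * (X i j a)⁻¹ = X k l b := by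
  rw [(h.comm i j k l a b hij hkl hjk hil).eq, mul_inv_cancel_right]

end IsSt

section rad

variable {ι R G : Type} [Ring R] [Group G] (Φ : Net ι) (X : ι → ι → R → G)

/-- The subgroup generated by the root elements at positions satisfying `p`. -/
def gen (p : ι → ι → Prop) : Subgroup G :=
  Subgroup.closure {g | ∃ i j a, Φ.rel i j ∧ p i j ∧ g = X i j a}

/-- Unipotent radical: rows in `S`, columns outside `S`. -/
def Rad (S : Set ι) : Subgroup G := gen Φ X fun i j => i ∈ S ∧ j ∉ S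

/-- The parabolic subgroup normalising `Rad S`. -/
def ParG (S : Set ι) : Subgroup G := gen Φ X fun i j => ¬ (i ∉ S ∧ j ∈ S)

variable {Φ X}

theorem mem_gen {p : ι → ι → Prop} {i j : ι} (hij : Φ.rel i j) (hp : p i j) (a : R) :
    X i j a ∈ gen Φ X p := Subgroup.subset_closure ⟨i, j, a, hij, hp, rfl⟩

theorem gen_le {p : ι → ι → Prop} {H : Subgroup G} :
    gen Φ X p ≤ H ↔ ∀ i j a, Φ.rel i j → p i j → X i j a ∈ H := by
  rw [gen, Subgroup.closure_le]
  exact ⟨fun h i j a h₁ h₂ => h ⟨i, j, a, h₁, h₂, rfl⟩,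
    fun h _ ⟨i, j, a, h₁, h₂, e⟩ => e ▸ h i j a h₁ h₂⟩

theorem gen_mono {p q : ι → ι → Prop} (h : ∀ i j, Φ.rel i j → p i j → q i j) :
    gen Φ X p ≤ gen Φ X q := gen_le.2 fun i j a h₁ h₂ => mem_gen h₁ (h i j h₁ h₂) a

theorem gen_induction {p : ι → ι → Prop} {P : G → Prop} {g : G} (hg : g ∈ gen Φ X p)
    (hx : ∀ i j a, Φ.rel i j → p i j → P (X i j a)) (h1 : P 1)
    (hm : ∀ a b, a ∈ gen Φ X p → b ∈ gen Φ X p → P a → P b → P (a * b))
    (hi : ∀ a, a ∈ gen Φ X p → P a → P a⁻¹) : P g := by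
  induction hg using Subgroup.closure_induction with
  | mem g hg => obtain ⟨i, j, a, h₁, h₂, rfl⟩ := hg; exact hx i j a h₁ h₂
  | one => exact h1
  | mul a b ha hb h₁ h₂ => exact hm a b ha hb h₁ h₂
  | inv a ha h₁ => exact hi a ha h₁

/-- One-sided induction: it suffices to multiply by generators on the left. -/
theorem gen_induction_left (h : IsSt Φ X) {p : ι → ι → Prop} {P : G → Prop} {g : G}
    (hg : g ∈ gen Φ X p) (h1 : P 1)
    (hx : ∀ i j a y, Φ.rel i j → p i j → y ∈ gen Φ X p → P y → P (X i j a * y)) : P g := by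
  induction hg using Subgroup.closure_induction_left with
  | one => exact h1
  | mul_left g hg y hy ih => obtain ⟨i, j, a, h₁, h₂, rfl⟩ := hg; exact hx i j a y h₁ h₂ hy ih
  | inv_mul_cancel g hg y hy ih =>
    obtain ⟨i, j, a, h₁, h₂, rfl⟩ := hg
    rw [h.inv h₁]; exact hx i j _ y h₁ h₂ hy ih

theorem StN.gen_top : gen Φ (StN.x : ι → ι → R → StN Φ R) (fun _ _ => True) = ⊤ := by
  rw [← StN.closure_x, gen]; simp

theorem rad_le_parG (S : Set ι) : Rad Φ X S ≤ ParG Φ X S :=
  gen_mono fun _ _ _ h h' => h'.1 h.1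

theorem rad_comm (h : IsSt Φ X) {S : Set ι} {y y' : G} (hy : y ∈ Rad Φ X S)
    (hy' : y' ∈ Rad Φ X S) : Commute y y' := by
  refine gen_induction (P := fun y => Commute y y') hy (fun i j a h₁ h₂ => ?_) (Commute.one_left _)
    (fun _ _ _ _ => Commute.mul_left) (fun _ _ => Commute.inv_left)
  refine gen_induction (P := fun y' => Commute (X i j a) y') hy' (fun k l b h₃ h₄ => ?_)
    (Commute.one_right _)
    (fun _ _ _ _ => Commute.mul_right) (fun _ _ => Commute.inv_right)
  exact h.comm _ _ _ _ _ _ h₁ h₃ (fun e => h₂.2 (e ▸ h₄.1)) (fun e => h₄.2 (e ▸ h₂.1))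

theorem rad_conj (h : IsSt Φ X) {S : Set ι} {g y : G} (hg : g ∈ ParG Φ X S)
    (hy : y ∈ Rad Φ X S) : g * y * g⁻¹ ∈ Rad Φ X S := by
  refine gen_induction_left h (P := fun g => ∀ y ∈ Rad Φ X S, g * y * g⁻¹ ∈ Rad Φ X S) hg
    (fun y hy => by simpa using hy) ?_ y hy
  clear hg hy g y
  intro u v b g h₁ h₂ _ ih y hy
  have key : ∀ z ∈ Rad Φ X S, X u v b * z * (X u v b)⁻¹ ∈ Rad Φ X S := by
    intro z hz
    refine gen_induction (P := fun z => X u v b * z * (X u v b)⁻¹ ∈ Rad Φ X S) hz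
      (fun s t a h₃ h₄ => ?_) (by simp)
      (fun a b _ _ ha hb => by simpa [mul_assoc] using mul_mem ha hb)
      (fun a _ ha => by simpa [mul_assoc] using inv_mem ha)
    by_cases e₁ : v = s
    · subst e₁
      have hu : u ∈ S := by by_contra hu; exact h₂ ⟨hu, h₄.1⟩
      have hut : u ≠ t := fun e => h₄.2 (e ▸ hu)
      rw [h.conj_left h₁ h₃ hut]
      exact mul_mem (mem_gen (Φ.trans h₁ h₃ hut) ⟨hu, h₄.2⟩ _) (mem_gen h₃ h₄ _)
    · by_cases e₂ : u = t
      · subst e₂
        have hv : v ∉ S := fun hv => h₂ ⟨h₄.2, hv⟩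
        rw [h.conj_right h₁ h₃ (Ne.symm e₁)]
        exact mul_mem (mem_gen (Φ.trans h₃ h₁ (Ne.symm e₁)) ⟨h₄.1, hv⟩ _) (mem_gen h₃ h₄ _)
      · rw [h.conj_comm h₁ h₃ e₁ e₂]; exact mem_gen h₃ h₄ _
  simpa [mul_assoc] using key _ (ih y hy)

variable [Fintype ι] [DecidableEq ι]

open Classical in
/-- The positions of the unipotent radical. -/
noncomputable def radPos (Φ : Net ι) (S : Set ι) : Finset (ι × ι) :=
  Finset.univ.filter fun p => Φ.rel p.1 p.2 ∧ p.1 ∈ S ∧ p.2 ∉ S

theorem mem_radPos {S : Set ι} {p : ι × ι} :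
    p ∈ radPos Φ S ↔ Φ.rel p.1 p.2 ∧ p.1 ∈ S ∧ p.2 ∉ S := by simp [radPos]

/-- The element of the unipotent radical with prescribed entries. -/
noncomputable def radElt (h : IsSt Φ X) (S : Set ι) (M : Matrix ι ι R) : G :=
  (radPos Φ S).noncommProd (fun p => X p.1 p.2 (M p.1 p.2)) fun _ hp _ hq _ =>
    rad_comm h (mem_gen (mem_radPos.1 hp).1 (mem_radPos.1 hp).2 _)
      (mem_gen (mem_radPos.1 hq).1 (mem_radPos.1 hq).2 _)

theorem radElt_mem (h : IsSt Φ X) (S : Set ι) (M : Matrix ι ι R) : radElt h S M ∈ Rad Φ X S :=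
  Subgroup.noncommProd_mem _ _ fun _ hp => mem_gen (mem_radPos.1 hp).1 (mem_radPos.1 hp).2 _

theorem radElt_add (h : IsSt Φ X) (S : Set ι) (M N : Matrix ι ι R) :
    radElt h S (M + N) = radElt h S M * radElt h S N := by
  unfold radElt
  rw [← Finset.noncommProd_mul_distrib]
  · refine Finset.noncommProd_congr rfl (fun p hp => ?_) _
    exact h.add _ _ _ _ (mem_radPos.1 hp).1
  · exact fun _ hp _ hq _ => rad_comm h (mem_gen (mem_radPos.1 hp).1 (mem_radPos.1 hp).2 _)
      (mem_gen (mem_radPos.1 hq).1 (mem_radPos.1 hq).2 _)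

theorem radElt_congr (h : IsSt Φ X) (S : Set ι) {M N : Matrix ι ι R}
    (e : ∀ i j, Φ.rel i j → i ∈ S → j ∉ S → M i j = N i j) : radElt h S M = radElt h S N :=
  Finset.noncommProd_congr rfl (fun p hp => by
    rw [e _ _ (mem_radPos.1 hp).1 (mem_radPos.1 hp).2.1 (mem_radPos.1 hp).2.2]) _

theorem radElt_zero (h : IsSt Φ X) (S : Set ι) : radElt h S 0 = 1 := by
  have := radElt_add h S 0 0
  rw [add_zero] at this
  exact mul_eq_left.mp this.symm

theorem radElt_single (h : IsSt Φ X) {S : Set ι} {i j : ι} (hij : Φ.rel i j) (hi : i ∈ S)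
    (hj : j ∉ S) (a : R) : radElt h S (Matrix.single i j a) = X i j a := by
  unfold radElt
  have hm : (i, j) ∈ radPos Φ S := mem_radPos.2 ⟨hij, hi, hj⟩
  rw [← Finset.mul_noncommProd_erase _ hm, Finset.noncommProd_eq_pow_card _ _ _ 1]
  · simp
  · intro p hp
    rw [Finset.mem_erase] at hp
    rw [Matrix.single_apply_of_ne, h.zero (mem_radPos.1 hp.2).1]
    rintro ⟨rfl, rfl⟩; exact hp.1 rfl

theorem exists_radElt (h : IsSt Φ X) {S : Set ι} {y : G} (hy : y ∈ Rad Φ X S) :
    ∃ M, y = radElt h S M := by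
  refine gen_induction_left h (P := fun y => ∃ M, y = radElt h S M) hy
    ⟨0, (radElt_zero h S).symm⟩ ?_
  rintro i j a y h₁ h₂ - ⟨M, rfl⟩
  exact ⟨Matrix.single i j a + M, by rw [radElt_add, radElt_single h h₁ h₂.1 h₂.2]⟩

variable {π : G →* (Matrix ι ι R)ˣ}

open Classical in
theorem pi_radElt (h : IsSt Φ X) (hπ : ∀ i j a, Φ.rel i j → π (X i j a) = elem i j a)
    (S : Set ι) (M : Matrix ι ι R) : (π (radElt h S M) : Matrix ι ι R) =
      1 + Matrix.of fun i j => if Φ.rel i j ∧ i ∈ S ∧ j ∉ S then M i j else 0 := by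
  have key : ∀ T : Finset (ι × ι), ∀ hT : T ⊆ radPos Φ S,
      (π (T.noncommProd (fun p => X p.1 p.2 (M p.1 p.2)) fun _ hp _ hq _ =>
        rad_comm h (mem_gen (mem_radPos.1 (hT hp)).1 (mem_radPos.1 (hT hp)).2 _)
          (mem_gen (mem_radPos.1 (hT hq)).1 (mem_radPos.1 (hT hq)).2 _)) : Matrix ι ι R) =
      1 + ∑ p ∈ T, Matrix.single p.1 p.2 (M p.1 p.2) := by
    intro T
    induction T using Finset.induction_on with
    | empty => intro _; simp
    | insert p T hp ih =>
      intro hT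
      have hpm := mem_radPos.1 (hT (Finset.mem_insert_self p T))
      rw [Finset.noncommProd_insert_of_notMem _ _ _ _ hp, map_mul, Units.val_mul,
        ih ((Finset.subset_insert p T).trans hT), hπ _ _ _ hpm.1, elem_val (Φ.ne hpm.1),
        Finset.sum_insert hp, add_mul, one_mul, mul_add, mul_one, Finset.mul_sum,
        Finset.sum_eq_zero (s := T) (f := fun q => Matrix.single p.1 p.2 (M p.1 p.2) *
          Matrix.single q.1 q.2 (M q.1 q.2))]
      · abel
      · intro q hq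
        have hqm := mem_radPos.1 (hT (Finset.mem_insert_of_mem hq))
        exact Matrix.single_mul_single_of_ne _ _ _ _ (fun e : p.2 = q.1 => hpm.2.2 (e ▸ hqm.2.1)) _
  rw [radElt, key _ subset_rfl]
  congr 1
  ext i j
  rw [Matrix.sum_apply, Matrix.of_apply]
  split_ifs with hij
  · rw [Finset.sum_eq_single (i, j)]
    · simp
    · intro q _ hq
      rw [Matrix.single_apply_of_ne]
      rintro ⟨rfl, rfl⟩; exact hq rfl
    · intro hn; exact absurd (mem_radPos.2 hij) hn
  · refine Finset.sum_eq_zero fun q hq => ?_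
    rw [Matrix.single_apply_of_ne]
    rintro ⟨rfl, rfl⟩; exact hij (mem_radPos.1 hq)

/-- Off the positions of the radical, its elements look like the identity matrix. -/
theorem rad_pi_apply (h : IsSt Φ X) (hπ : ∀ i j a, Φ.rel i j → π (X i j a) = elem i j a)
    {S : Set ι} {y : G} (hy : y ∈ Rad Φ X S) {i j : ι} (hij : ¬ (Φ.rel i j ∧ i ∈ S ∧ j ∉ S)) :
    (π y : Matrix ι ι R) i j = (1 : Matrix ι ι R) i j := by
  obtain ⟨M, rfl⟩ := exists_radElt h hy
  rw [pi_radElt h hπ]; simp [hij]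

/-- The radical embeds into matrices. -/
theorem rad_inj (h : IsSt Φ X) (hπ : ∀ i j a, Φ.rel i j → π (X i j a) = elem i j a)
    {S : Set ι} {y y' : G} (hy : y ∈ Rad Φ X S) (hy' : y' ∈ Rad Φ X S) (e : π y = π y') :
    y = y' := by
  obtain ⟨M, rfl⟩ := exists_radElt h hy
  obtain ⟨N, rfl⟩ := exists_radElt h hy'
  refine radElt_congr h S fun i j h₁ h₂ h₃ => ?_
  have := congrArg (fun g : (Matrix ι ι R)ˣ => (g : Matrix ι ι R) i j) e
  simpa [pi_radElt h hπ, h₁, h₂, h₃] using this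

/-- Every matrix supported on the positions of the radical is realised. -/
theorem rad_surj (h : IsSt Φ X) (hπ : ∀ i j a, Φ.rel i j → π (X i j a) = elem i j a)
    (S : Set ι) {M : Matrix ι ι R} (hM : ∀ i j, ¬ (Φ.rel i j ∧ i ∈ S ∧ j ∉ S) → M i j = 0) :
    (π (radElt h S M) : Matrix ι ι R) = 1 + M := by
  rw [pi_radElt h hπ]
  congr 1
  ext i j
  rw [Matrix.of_apply]
  split_ifs with hij
  · rfl
  · exact (hM i j hij).symm

/-- Conjugation identities in the radical can be checked on matrices. -/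
theorem conj_eq_of_pi (h : IsSt Φ X) (hπ : ∀ i j a, Φ.rel i j → π (X i j a) = elem i j a)
    {S : Set ι} {g y y' : G} (hg : g ∈ ParG Φ X S) (hy : y ∈ Rad Φ X S) (hy' : y' ∈ Rad Φ X S)
    (e : π g * π y * (π g)⁻¹ = π y') : g * y * g⁻¹ = y' :=
  rad_inj h hπ (rad_conj h hg hy) hy' (by rw [map_mul, map_mul, map_inv, e])

end rad

end Crest.Agent.R176
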