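import Mathlib

/-!
Row 176: Steinberg groups of nets over (non-commutative) rings: definitions and the universal
property.
-/

set_option autoImplicit false

open scoped commutatorElement

namespace Crest.Agent.R176

/-- A set of off-diagonal positions closed under composition. -/
structure Net (ι : Type) where
  rel : ι → ι → Prop
  ne : ∀ {i j}, rel i j → i ≠ j
  trans : ∀ {i j k}, rel i j → rel j k → i ≠ k → rel i k

/-- All off-diagonal positions. -/
def Net.full (ι : Type) : Net ι := ⟨fun i j => i ≠ j, fun h => h, fun _ _ h => h⟩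

/-- The off-diagonal positions whose column is not in `σ` (stabiliser of the basis vectors `e k`,
`k ∈ σ`). -/
def Net.par {ι : Type} (σ : Set ι) : Net ι :=
  ⟨fun i j => i ≠ j ∧ j ∉ σ, fun h => h.1, fun _ h h' => ⟨h', h.2⟩⟩

@[simp] theorem Net.full_rel {ι : Type} (i j : ι) : (Net.full ι).rel i j ↔ i ≠ j := Iff.rfl

@[simp] theorem Net.par_rel {ι : Type} (σ : Set ι) (i j : ι) :
    (Net.par σ).rel i j ↔ i ≠ j ∧ j ∉ σ := Iff.rfl

/-- A family of group elements satisfying the Steinberg relations of the net `Φ`. -/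
structure IsSt {ι R G : Type} [Ring R] [Group G] (Φ : Net ι) (X : ι → ι → R → G) : Prop where
  add : ∀ i j a b, Φ.rel i j → X i j (a + b) = X i j a * X i j b
  comm : ∀ i j k l a b, Φ.rel i j → Φ.rel k l → j ≠ k → i ≠ l → Commute (X i j a) (X k l b)
  brk : ∀ i j k a b, Φ.rel i j → Φ.rel j k → i ≠ k → ⁅X i j a, X j k b⁆ = X i k (a * b)

section pres

variable {ι : Type} (Φ : Net ι) (R : Type) [Ring R]

/-- The Steinberg relators. -/
inductive StRel : FreeGroup (ι × ι × R) → Prop
  | off (i j : ι) (a : R) : ¬ Φ.rel i j → StRel (FreeGroup.of (i, j, a))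
  | add (i j : ι) (a b : R) : StRel (FreeGroup.of (i, j, a) * FreeGroup.of (i, j, b) * (FreeGroup.of (i, j, a + b))⁻¹)
  | comm (i j k l : ι) (a b : R) : j ≠ k → i ≠ l → StRel ⁅FreeGroup.of (i, j, a), FreeGroup.of (k, l, b)⁆
  | brk (i j k : ι) (a b : R) : Φ.rel i j → Φ.rel j k → i ≠ k →
      StRel (⁅FreeGroup.of (i, j, a), FreeGroup.of (j, k, b)⁆ * (FreeGroup.of (i, k, a * b))⁻¹)

/-- The Steinberg group of a net. -/
def StN : Type := PresentedGroup {r | StRel Φ R r}

instance : Group (StN Φ R) := inferInstanceAs (Group (PresentedGroup _))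

variable {Φ R}

/-- The generators. -/
def StN.x (i j : ι) (a : R) : StN Φ R := PresentedGroup.of (rels := {r | StRel Φ R r}) (i, j, a)

theorem StN.rel_one {r : FreeGroup (ι × ι × R)} (h : StRel Φ R r) :
    PresentedGroup.mk {r | StRel Φ R r} r = 1 :=
  PresentedGroup.one_of_mem (rels := {r | StRel Φ R r}) h

theorem StN.x_off {i j : ι} (h : ¬ Φ.rel i j) (a : R) : (StN.x i j a : StN Φ R) = 1 :=
  StN.rel_one (.off i j a h)

theorem StN.isSt : IsSt Φ (StN.x : ι → ι → R → StN Φ R) where
  add i j a b _ := by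
    have := StN.rel_one (StRel.add (Φ := Φ) i j a b)
    rw [map_mul, map_mul, map_inv, mul_inv_eq_one] at this
    exact this.symm
  comm i j k l a b _ _ h₁ h₂ := by
    have := StN.rel_one (StRel.comm (Φ := Φ) i j k l a b h₁ h₂)
    rw [map_commutatorElement] at this
    exact commutatorElement_eq_one_iff_commute.1 this
  brk i j k a b h₁ h₂ h₃ := by
    have := StN.rel_one (StRel.brk (Φ := Φ) i j k a b h₁ h₂ h₃)
    rw [map_mul, map_inv, mul_inv_eq_one, map_commutatorElement] at this
    exact this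

open Classical in
/-- The universal property. -/
noncomputable def StN.lift {G : Type} [Group G] {X : ι → ι → R → G} (h : IsSt Φ X) :
    StN Φ R →* G :=
  PresentedGroup.toGroup (rels := {r | StRel Φ R r})
    (f := fun t : ι × ι × R => if Φ.rel t.1 t.2.1 then X t.1 t.2.1 t.2.2 else 1) (by
      rintro r (⟨i, j, a, hij⟩ | ⟨i, j, a, b⟩ | ⟨i, j, k, l, a, b, h₁, h₂⟩ |
        ⟨i, j, k, a, b, h₁, h₂, h₃⟩)
      · simp [hij]
      · by_cases hij : Φ.rel i j
        · simp [hij, h.add i j a b hij]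
        · simp [hij]
      · rw [map_commutatorElement]
        by_cases hij : Φ.rel i j
        · by_cases hkl : Φ.rel k l
          · simpa [hij, hkl, commutatorElement_eq_one_iff_commute] using
              h.comm i j k l a b hij hkl h₁ h₂
          · simp [hkl]
        · simp [hij]
      · rw [map_mul, map_inv, map_commutatorElement]
        simp [h₁, h₂, Φ.trans h₁ h₂ h₃, h.brk i j k a b h₁ h₂ h₃])

theorem StN.lift_x {G : Type} [Group G] {X : ι → ι → R → G} (h : IsSt Φ X) {i j : ι}
    (hij : Φ.rel i j) (a : R) : StN.lift h (StN.x i j a) = X i j a := by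
  classical
  refine (PresentedGroup.toGroup.of _).trans ?_
  simp [hij]

theorem StN.hom_ext {G : Type} [Group G] {f g : StN Φ R →* G}
    (h : ∀ i j a, Φ.rel i j → f (StN.x i j a) = g (StN.x i j a)) : f = g := by
  refine PresentedGroup.ext (rels := {r | StRel Φ R r}) ?_
  rintro ⟨i, j, a⟩
  by_cases hij : Φ.rel i j
  · exact h i j a hij
  · change f (StN.x i j a) = g (StN.x i j a)
    rw [StN.x_off hij, map_one, map_one]

theorem StN.closure_x : Subgroup.closure {g : StN Φ R | ∃ i j a, Φ.rel i j ∧ g = StN.x i j a} = ⊤ := by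
  rw [eq_top_iff]
  refine (PresentedGroup.closure_range_of {r | StRel Φ R r}).symm.le.trans ?_
  refine (Subgroup.closure_le _).2 ?_
  rintro _ ⟨⟨i, j, a⟩, rfl⟩
  by_cases hij : Φ.rel i j
  · exact Subgroup.subset_closure ⟨i, j, a, hij, rfl⟩
  · change StN.x i j a ∈ _
    rw [StN.x_off hij]; exact one_mem _

/-- Induction over the generators. -/
theorem StN.induction {p : StN Φ R → Prop} (g : StN Φ R)
    (hx : ∀ i j a, Φ.rel i j → p (StN.x i j a)) (h1 : p 1)
    (hm : ∀ a b, p a → p b → p (a * b)) (hi : ∀ a, p a → p a⁻¹) : p g := by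
  have : g ∈ Subgroup.closure {g : StN Φ R | ∃ i j a, Φ.rel i j ∧ g = StN.x i j a} := by
    rw [StN.closure_x]; trivial
  induction this using Subgroup.closure_induction with
  | mem g hg => obtain ⟨i, j, a, h, rfl⟩ := hg; exact hx i j a h
  | one => exact h1
  | mul a b _ _ ha hb => exact hm a b ha hb
  | inv a _ ha => exact hi a ha

end pres

/-- The Steinberg group. -/
abbrev St (ι R : Type) [Ring R] : Type := StN (Net.full ι) R

section maps

variable {ι ι' R R' : Type} [Ring R] [Ring R'] {Φ : Net ι} {Ψ : Net ι'}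

theorem IsSt.comp {G : Type} [Group G] {X : ι' → ι' → R' → G} (h : IsSt Ψ X) (e : ι → ι')
    (he : Function.Injective e) (hΦ : ∀ i j, Φ.rel i j → Ψ.rel (e i) (e j)) (f : R →+* R') :
    IsSt Φ fun i j a => X (e i) (e j) (f a) where
  add i j a b hij := by rw [map_add, h.add _ _ _ _ (hΦ _ _ hij)]
  comm i j k l a b h₁ h₂ h₃ h₄ :=
    h.comm _ _ _ _ _ _ (hΦ _ _ h₁) (hΦ _ _ h₂) (he.ne h₃) (he.ne h₄)
  brk i j k a b h₁ h₂ h₃ := by rw [map_mul, h.brk _ _ _ _ _ (hΦ _ _ h₁) (hΦ _ _ h₂) (he.ne h₃)]

theorem IsSt.map {G H : Type} [Group G] [Group H] {X : ι → ι → R → G} (h : IsSt Φ X)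
    (f : G →* H) : IsSt Φ fun i j a => f (X i j a) where
  add i j a b hij := by rw [h.add _ _ _ _ hij, map_mul]
  comm i j k l a b h₁ h₂ h₃ h₄ := (h.comm _ _ _ _ _ _ h₁ h₂ h₃ h₄).map f
  brk i j k a b h₁ h₂ h₃ := by rw [← map_commutatorElement, h.brk _ _ _ _ _ h₁ h₂ h₃]

/-- Functoriality in the index set, the net and the ring. -/
noncomputable def StN.map (e : ι → ι') (he : Function.Injective e)
    (hΦ : ∀ i j, Φ.rel i j → Ψ.rel (e i) (e j)) (f : R →+* R') : StN Φ R →* StN Ψ R' :=
  StN.lift (StN.isSt.comp e he hΦ f)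

theorem StN.map_x (e : ι → ι') (he : Function.Injective e)
    (hΦ : ∀ i j, Φ.rel i j → Ψ.rel (e i) (e j)) (f : R →+* R') {i j : ι} (hij : Φ.rel i j)
    (a : R) : StN.map e he hΦ f (StN.x i j a) = StN.x (e i) (e j) (f a) :=
  StN.lift_x _ hij a

/-- Change of rings. -/
noncomputable def StN.rmap (Φ : Net ι) (f : R →+* R') : StN Φ R →* StN Φ R' :=
  StN.map id Function.injective_id (fun _ _ h => h) f

theorem StN.rmap_x (f : R →+* R') (i j : ι) (a : R) :
    StN.rmap Φ f (StN.x i j a) = StN.x i j (f a) := by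
  by_cases hij : Φ.rel i j
  · exact StN.map_x _ _ _ _ hij a
  · rw [StN.x_off hij, StN.x_off hij, map_one]

/-- Enlarging the index set. -/
noncomputable def St.incl (R : Type) [Ring R] (e : ι ↪ ι') : St ι R →* St ι' R :=
  StN.map e e.injective (fun _ _ h => e.injective.ne h) (RingHom.id R)

theorem St.incl_x (e : ι ↪ ι') {i j : ι} (hij : i ≠ j) (a : R) :
    St.incl R e (StN.x i j a) = StN.x (e i) (e j) a :=
  StN.map_x _ _ _ _ hij a

end maps

section matrices

variable {ι R : Type} [Ring R] [Fintype ι] [DecidableEq ι]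

/-- Elementary matrices. -/
def elem (i j : ι) (a : R) : (Matrix ι ι R)ˣ :=
  if h : i = j then 1 else
    ⟨1 + Matrix.single i j a, 1 - Matrix.single i j a, by
      rw [mul_sub, mul_one, add_mul, one_mul, Matrix.single_mul_single_of_ne _ _ _ _ (Ne.symm h)]
      abel, by
      rw [sub_mul, one_mul, mul_add, mul_one, Matrix.single_mul_single_of_ne _ _ _ _ (Ne.symm h)]
      abel⟩

theorem elem_val {i j : ι} (h : i ≠ j) (a : R) :
    (elem i j a : Matrix ι ι R) = 1 + Matrix.single i j a := by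
  rw [elem, dif_neg h]

theorem elem_inv_val {i j : ι} (h : i ≠ j) (a : R) :
    ((elem i j a)⁻¹ : (Matrix ι ι R)ˣ) = (1 - Matrix.single i j a : Matrix ι ι R) := by
  rw [elem, dif_neg h]; rfl

theorem isSt_elem (Φ : Net ι) : IsSt Φ (elem : ι → ι → R → (Matrix ι ι R)ˣ) where
  add i j a b hij := by
    have h := Φ.ne hij
    apply Units.ext
    rw [Units.val_mul, elem_val h, elem_val h, elem_val h, mul_add, mul_one, add_mul, one_mul,
      Matrix.single_mul_single_of_ne _ _ _ _ h.symm, Matrix.single_add]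
    abel
  comm i j k l a b h₁ h₂ h₃ h₄ := by
    apply Units.ext
    simp only [Units.val_mul, elem_val (Φ.ne h₁), elem_val (Φ.ne h₂), mul_add, add_mul, mul_one,
      one_mul, Matrix.single_mul_single_of_ne _ _ _ _ h₃,
      Matrix.single_mul_single_of_ne _ _ _ _ h₄.symm]
    abel
  brk i j k a b h₁ h₂ h₃ := by
    have hij := Φ.ne h₁
    have hjk := Φ.ne h₂
    apply Units.ext
    rw [commutatorElement_def, Units.val_mul, Units.val_mul, Units.val_mul, elem_inv_val hij,
      elem_inv_val hjk, elem_val hij, elem_val hjk, elem_val h₃]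
    simp only [mul_add, add_mul, mul_sub, sub_mul, mul_one, one_mul,
      Matrix.single_mul_single_same, Matrix.single_mul_single_of_ne _ _ _ _ hij.symm,
      Matrix.single_mul_single_of_ne _ _ _ _ hjk.symm,
      Matrix.single_mul_single_of_ne _ _ _ _ h₃.symm, zero_mul]
    abel

/-- The canonical map to invertible matrices. -/
noncomputable def StN.π (Φ : Net ι) (R : Type) [Ring R] : StN Φ R →* (Matrix ι ι R)ˣ :=
  StN.lift (isSt_elem Φ)

theorem StN.π_x {Φ : Net ι} {i j : ι} (h : Φ.rel i j) (a : R) :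
    StN.π Φ R (StN.x i j a) = elem i j a := StN.lift_x _ h a

end matrices

end Crest.Agent.R176
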